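import Vale.Agent.P202.Mix.GeoDefs

/-!
P202-MIX, TASK GEO-A1: additive lengths and relative lengths.
-/

namespace Vale.Agent.P202.Mix

open Vale.Agent.P202.CharP
open scoped ENNReal

universe u

section LenBasic

variable {R : Type u} [CommRing R] (L : AddLen R) {M N K : Type u} [AddCommGroup M] [Module R M]
  [AddCommGroup N] [Module R N] [AddCommGroup K] [Module R K]

theorem len_congr (e : M ≃ₗ[R] N) : L.len M = L.len N := by
  have h := L.add (e : M →ₗ[R] N) (0 : N →ₗ[R] PUnit.{u + 1}) e.injective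
    (fun y => ⟨0, Subsingleton.elim _ _⟩)
    (fun y => ⟨fun _ => ⟨e.symm y, by simp⟩, fun _ => Subsingleton.elim _ _⟩)
  rw [L.zero, add_zero] at h
  exact h.symm

theorem len_sub_quot (X : Submodule R M) : L.len M = L.len X + L.len (M ⧸ X) := by
  refine L.add X.subtype X.mkQ X.injective_subtype X.mkQ_surjective ?_
  rw [LinearMap.exact_iff, Submodule.ker_mkQ, Submodule.range_subtype]

theorem len_prod_aux : L.len (M × N) = L.len M + L.len N :=
  L.add (LinearMap.inl R M N) (LinearMap.snd R M N) LinearMap.inl_injective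
    LinearMap.snd_surjective Function.Exact.inl_snd

theorem len_subsingleton_aux [Subsingleton M] : L.len M = 0 := by
  rw [← L.zero]
  refine len_congr L (N := PUnit.{u + 1}) ?_
  exact LinearEquiv.ofSubsingleton M PUnit.{u + 1}

theorem len_pi_aux (ι : Type) [Fintype ι] :
    ∀ (P : ι → Type u) [∀ i, AddCommGroup (P i)] [∀ i, Module R (P i)],
      L.len (∀ i, P i) = ∑ i, L.len (P i) := by
  refine Fintype.induction_empty_option
    (P := fun (α : Type) [Fintype α] => ∀ (P : α → Type u) [∀ i, AddCommGroup (P i)]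
      [∀ i, Module R (P i)], L.len (∀ i, P i) = ∑ i, L.len (P i)) ?_ ?_ ?_ ι
  · intro α β _ e h P _ _
    let _ := Fintype.ofEquiv β e.symm
    have h1 := h fun a => P (e a)
    rw [← len_congr L (LinearEquiv.piCongrLeft R P e), h1]
    exact Fintype.sum_equiv e _ _ fun x => rfl
  · intro P _ _
    rw [len_subsingleton_aux L]
    simp
  · intro α _ h P _ _
    rw [len_congr L (LinearEquiv.piOptionEquivProd R), len_prod_aux, h, Fintype.sum_option]

theorem len_pi (ι : Type) [Fintype ι] : L.len (ι → M) = Fintype.card ι * L.len M := by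
  rw [len_pi_aux L ι (fun _ => M)]
  simp

/-- the length of a quotient computed by a linear map out of `Y`. -/
theorem rl_eq_len_aux {Q : Type u} [AddCommGroup Q] [Module R Q] {X Y : Submodule R M}
    (f : Y →ₗ[R] Q) (hf : Function.Surjective f) (hk : LinearMap.ker f = X.submoduleOf Y) :
    L.rl X Y = L.len Q := by
  rw [AddLen.rl, ← hk]
  exact len_congr L (f.quotKerEquivOfSurjective hf)

theorem rl_eq_zero_of_le {X Y : Submodule R M} (h : Y ≤ X) : L.rl X Y = 0 := by
  rw [rl_eq_len_aux L (0 : Y →ₗ[R] PUnit.{u + 1}) (fun y => ⟨0, Subsingleton.elim _ _⟩), L.zero]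
  rw [LinearMap.ker_zero, eq_comm, Submodule.submoduleOf_eq_top]
  exact h

theorem rl_bot (Y : Submodule R M) : L.rl ⊥ Y = L.len Y := by
  refine len_congr L (Submodule.quotEquivOfEqBot _ ?_)
  simp [Submodule.submoduleOf]

theorem rl_top (X : Submodule R M) : L.rl X ⊤ = L.len (M ⧸ X) := by
  refine len_congr L (Submodule.Quotient.equiv _ _ Submodule.topEquiv ?_)
  ext x
  simp [Submodule.submoduleOf]

theorem rl_inf_left (X Y : Submodule R M) : L.rl (X ⊓ Y) Y = L.rl X Y := by
  have : (X ⊓ Y).submoduleOf Y = X.submoduleOf Y := by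
    ext x; simp [Submodule.submoduleOf]
  rw [AddLen.rl, AddLen.rl, this]

theorem rl_sup_right (X Y : Submodule R M) : L.rl X (X ⊔ Y) = L.rl X Y := by
  have h := LinearMap.quotientInfEquivSupQuotient Y X
  have e1 : (Submodule.comap Y.subtype Y ⊓ Submodule.comap Y.subtype X) = X.submoduleOf Y := by
    ext x; simp [Submodule.submoduleOf]
  rw [sup_comm, AddLen.rl, AddLen.rl]
  have := len_congr L h
  rw [e1] at this
  exact this.symm

theorem rl_add {X Y Z : Submodule R M} (h1 : X ≤ Y) (h2 : Y ≤ Z) :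
    L.rl X Z = L.rl X Y + L.rl Y Z := by
  let f : (↥Y ⧸ X.submoduleOf Y) →ₗ[R] (↥Z ⧸ X.submoduleOf Z) :=
    Submodule.mapQ _ _ (Submodule.inclusion h2) (by intro x hx; exact hx)
  let g : (↥Z ⧸ X.submoduleOf Z) →ₗ[R] (↥Z ⧸ Y.submoduleOf Z) :=
    Submodule.factor (by intro x hx; exact h1 hx)
  refine L.add f g ?_ (Submodule.factor_surjective _) ?_
  · rw [injective_iff_map_eq_zero]
    intro z
    obtain ⟨z, rfl⟩ := Submodule.Quotient.mk_surjective _ z
    intro hz
    have hz' : (Submodule.Quotient.mk (Submodule.inclusion h2 z) : ↥Z ⧸ X.submoduleOf Z) = 0 := hz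
    rw [Submodule.Quotient.mk_eq_zero] at hz' ⊢
    exact hz'
  · rw [LinearMap.exact_iff]
    ext z
    obtain ⟨z, rfl⟩ := Submodule.Quotient.mk_surjective _ z
    constructor
    · intro hz
      have hz' : z ∈ Y.submoduleOf Z := by
        have : (Submodule.Quotient.mk z : ↥Z ⧸ Y.submoduleOf Z) = 0 := hz
        exact (Submodule.Quotient.mk_eq_zero _).mp this
      exact ⟨Submodule.Quotient.mk ⟨z.1, hz'⟩, rfl⟩
    · rintro ⟨c, hc⟩
      obtain ⟨c, rfl⟩ := Submodule.Quotient.mk_surjective _ c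
      rw [← hc]
      change (Submodule.Quotient.mk (Submodule.inclusion h2 c) : ↥Z ⧸ Y.submoduleOf Z) = 0
      rw [Submodule.Quotient.mk_eq_zero]
      exact c.2

theorem rl_mono_right {X Y Y' : Submodule R M} (h : Y ≤ Y') : L.rl X Y ≤ L.rl X Y' := by
  rw [← rl_sup_right L X Y, ← rl_sup_right L X Y',
    rl_add L (X := X) (Y := X ⊔ Y) (Z := X ⊔ Y') le_sup_left (sup_le_sup_left h X)]
  exact le_self_add

theorem rl_anti_left {X X' Y : Submodule R M} (h : X ≤ X') : L.rl X' Y ≤ L.rl X Y := by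
  rw [← rl_inf_left L X Y, ← rl_inf_left L X' Y,
    rl_add L (inf_le_inf_right Y h) (inf_le_right : X' ⊓ Y ≤ Y)]
  exact le_add_self

theorem rl_le_add (X Y Z : Submodule R M) : L.rl X Z ≤ L.rl X Y + L.rl Y Z := by
  calc L.rl X Z ≤ L.rl (X ⊓ Y) Z := rl_anti_left L inf_le_left
    _ ≤ L.rl (X ⊓ Y) (Y ⊔ Z) := rl_mono_right L le_sup_right
    _ = L.rl (X ⊓ Y) Y + L.rl Y (Y ⊔ Z) := rl_add L inf_le_right le_sup_left
    _ = L.rl X Y + L.rl Y Z := by rw [rl_inf_left, rl_sup_right]

theorem rl_map (f : M →ₗ[R] N) (X Y : Submodule R M) :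
    L.rl (X.map f) (Y.map f) = L.rl (X ⊔ LinearMap.ker f) Y := by
  symm
  let g : Y →ₗ[R] (↥(Y.map f) ⧸ (X.map f).submoduleOf (Y.map f)) :=
    (Submodule.mkQ _).comp (f.submoduleMap Y)
  refine rl_eq_len_aux L g ?_ ?_
  · exact (Submodule.mkQ_surjective _).comp (f.submoduleMap_surjective Y)
  · ext x
    have h1 : x ∈ LinearMap.ker g ↔ f x ∈ X.map f := by
      rw [LinearMap.mem_ker]
      change Submodule.Quotient.mk (f.submoduleMap Y x) = _ ↔ _
      rw [Submodule.Quotient.mk_eq_zero]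
      exact Iff.rfl
    have h2 : x ∈ (X ⊔ LinearMap.ker f).submoduleOf Y ↔ x.1 ∈ X ⊔ LinearMap.ker f := Iff.rfl
    rw [h1, h2, ← Submodule.comap_map_eq, Submodule.mem_comap]

theorem rl_map_le (f : M →ₗ[R] N) (X Y : Submodule R M) :
    L.rl (X.map f) (Y.map f) ≤ L.rl X Y := by
  rw [rl_map]; exact rl_anti_left L le_sup_left

theorem rl_comap (f : M →ₗ[R] N) (X Y : Submodule R N) :
    L.rl (X.comap f) (Y.comap f) = L.rl X (Y ⊓ LinearMap.range f) := by
  have hk : LinearMap.ker f ≤ X.comap f := fun x hx => by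
    rw [Submodule.mem_comap, LinearMap.mem_ker.mp hx]; exact X.zero_mem
  have h := rl_map L f (X.comap f) (Y.comap f)
  rw [Submodule.map_comap_eq, Submodule.map_comap_eq, inf_comm _ X, inf_comm _ Y,
    sup_of_le_left hk] at h
  rw [← h, ← rl_inf_left L (X ⊓ _), ← rl_inf_left L X]
  congr 1
  ext x
  simp only [Submodule.mem_inf]
  tauto

/-- relative length of families of submodules on a finite index set. -/
theorem rl_pi {ι : Type} [Fintype ι] (X Y : ι → Submodule R M) :
    L.rl (Submodule.pi Set.univ X) (Submodule.pi Set.univ Y) = ∑ i, L.rl (X i) (Y i) := by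
  let c : ∀ i, ↥(Submodule.pi Set.univ Y) →ₗ[R] ↥(Y i) := fun i =>
    LinearMap.codRestrict (Y i) ((LinearMap.proj i).comp (Submodule.pi Set.univ Y).subtype)
      (fun x => x.2 i trivial)
  let g : ↥(Submodule.pi Set.univ Y) →ₗ[R] (∀ i, ↥(Y i) ⧸ (X i).submoduleOf (Y i)) :=
    LinearMap.pi fun i => (Submodule.mkQ _).comp (c i)
  rw [rl_eq_len_aux L g ?_ ?_, len_pi_aux L ι]
  · rfl
  · intro y
    choose z hz using fun i => Submodule.mkQ_surjective _ (y i)
    refine ⟨⟨fun i => (z i : M), fun i _ => (z i).2⟩, ?_⟩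
    funext i
    exact hz i
  · ext x
    rw [LinearMap.mem_ker]
    have h2 : x ∈ (Submodule.pi Set.univ X).submoduleOf (Submodule.pi Set.univ Y) ↔
        ∀ i, x.1 i ∈ X i :=
      ⟨fun h i => h i trivial, fun h i _ => h i⟩
    rw [h2]
    constructor
    · intro h i
      have h3 : (Submodule.Quotient.mk (c i x) : ↥(Y i) ⧸ (X i).submoduleOf (Y i)) = 0 :=
        congrFun h i
      rw [Submodule.Quotient.mk_eq_zero] at h3
      exact h3
    · intro h
      funext i
      change (Submodule.Quotient.mk (c i x) : ↥(Y i) ⧸ (X i).submoduleOf (Y i)) = 0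
      rw [Submodule.Quotient.mk_eq_zero]
      exact h i

end LenBasic

end Vale.Agent.P202.Mix
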