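import Vale.Agent.P202.Mix.Defs

/-!
P202 MIX, M1 (T1, T2): the ring `B = W(C)/(p - [t])`: `[t] = p`, `B/p = C/t`, `B` is `p`-torsion
free, root closedness.
-/

namespace Vale.Agent.P202.Mix

open Polynomial

universe u

section M1
variable (p : ℕ) [Fact p.Prime] (C : Type u) [CommRing C] [CharP C p] [PerfectRing C p] (t : C)

omit [CharP C p] [PerfectRing C p] in
theorem toB_surjective : Function.Surjective (toB p C t) := Ideal.Quotient.mk_surjective

omit [CharP C p] [PerfectRing C p] in
theorem toB_eq_zero_iff {x : WittVector p C} : toB p C t x = 0 ↔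
    ∃ y, x = ((p : WittVector p C) - WittVector.teichmuller p t) * y := by
  have h : toB p C t x = 0 ↔
      x ∈ Ideal.span {(p : WittVector p C) - WittVector.teichmuller p t} :=
    Ideal.Quotient.eq_zero_iff_mem
  rw [h, Ideal.mem_span_singleton']
  exact ⟨fun ⟨y, hy⟩ => ⟨y, by rw [← hy, mul_comm]⟩, fun ⟨y, hy⟩ => ⟨y, by rw [hy, mul_comm]⟩⟩

omit [CharP C p] [PerfectRing C p] in
/-- `[t] = p`. -/
theorem te_t : te p C t t = (p : Bt p C t) := by
  have h : toB p C t ((p : WittVector p C) - WittVector.teichmuller p t) = 0 :=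
    (toB_eq_zero_iff p C t).2 ⟨1, (mul_one _).symm⟩
  rw [map_sub, map_natCast, sub_eq_zero] at h
  exact h.symm

omit [CharP C p] [PerfectRing C p] in
theorem te_mul (a b : C) : te p C t (a * b) = te p C t a * te p C t b := by
  rw [te, te, te, map_mul, map_mul]

omit [CharP C p] [PerfectRing C p] in
theorem te_one : te p C t 1 = 1 := by
  rw [te, map_one, map_one]

omit [CharP C p] [PerfectRing C p] in
theorem te_zero : te p C t 0 = 0 := by
  rw [te, WittVector.teichmuller_zero, map_zero]

omit [CharP C p] [PerfectRing C p] in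
theorem te_pow (a : C) (n : ℕ) : te p C t (a ^ n) = te p C t a ^ n := by
  rw [te, te, map_pow, map_pow]

/-- The projection `B → C/t`, `toB x ↦ x.coeff 0`. -/
theorem exists_proj : ∃ π : Bt p C t →+* C ⧸ Ideal.span {t},
    (∀ x : WittVector p C, π (toB p C t x) = Ideal.Quotient.mk _ (x.coeff 0)) ∧
    Function.Surjective π ∧ RingHom.ker π = Ideal.span {(p : Bt p C t)} := by
  let φ : WittVector p C →+* C ⧸ Ideal.span {t} :=
    (Ideal.Quotient.mk (Ideal.span {t})).comp WittVector.constantCoeff
  have hφ : ∀ x, φ x = Ideal.Quotient.mk _ (x.coeff 0) := fun x => rfl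
  have hφ0 : ∀ x ∈ Ideal.span {(p : WittVector p C) - WittVector.teichmuller p t}, φ x = 0 := by
    intro x hx
    rw [Ideal.mem_span_singleton'] at hx
    obtain ⟨y, rfl⟩ := hx
    have h1 : φ ((p : WittVector p C) - WittVector.teichmuller p t) = 0 := by
      have h2 : φ (WittVector.teichmuller p t) = 0 := by
        rw [hφ, WittVector.teichmuller_coeff_zero]
        exact Ideal.Quotient.eq_zero_iff_mem.2 (Ideal.mem_span_singleton_self t)
      have h3 : φ (p : WittVector p C) = 0 := by
        rw [hφ, WittVector.coeff_p_zero, map_zero]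
      rw [map_sub, h2, h3, sub_zero]
    rw [map_mul, h1, mul_zero]
  let π : Bt p C t →+* C ⧸ Ideal.span {t} := Ideal.Quotient.lift _ φ hφ0
  have hπ : ∀ x : WittVector p C, π (toB p C t x) = Ideal.Quotient.mk _ (x.coeff 0) := fun x => by
    change Ideal.Quotient.lift _ φ hφ0 (Ideal.Quotient.mk _ x) = _
    rw [Ideal.Quotient.lift_mk]
    rfl
  refine ⟨π, hπ, ?_, ?_⟩
  · intro y
    obtain ⟨c, rfl⟩ := Ideal.Quotient.mk_surjective y
    exact ⟨toB p C t (WittVector.teichmuller p c), by
      rw [hπ, WittVector.teichmuller_coeff_zero]⟩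
  · ext b
    rw [RingHom.mem_ker]
    constructor
    · intro h
      obtain ⟨x, rfl⟩ := toB_surjective p C t b
      rw [hπ, Ideal.Quotient.eq_zero_iff_mem, Ideal.mem_span_singleton'] at h
      obtain ⟨c, hc⟩ := h
      have h1 : (x - WittVector.teichmuller p c * WittVector.teichmuller p t).coeff 0 = 0 := by
        have h2 : WittVector.constantCoeff
            (x - WittVector.teichmuller p c * WittVector.teichmuller p t) = 0 := by
          rw [map_sub, map_mul]
          change x.coeff 0 - (WittVector.teichmuller p c).coeff 0 *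
            (WittVector.teichmuller p t).coeff 0 = 0
          rw [WittVector.teichmuller_coeff_zero, WittVector.teichmuller_coeff_zero, hc, sub_self]
        exact h2
      rw [← WittVector.mem_span_p_iff_coeff_zero_eq_zero, Ideal.mem_span_singleton'] at h1
      obtain ⟨y, hy⟩ := h1
      have h3 : x = y * (p : WittVector p C) +
          WittVector.teichmuller p c * WittVector.teichmuller p t := by rw [hy]; ring
      rw [Ideal.mem_span_singleton']
      refine ⟨toB p C t y + te p C t c, ?_⟩
      rw [h3, map_add, map_mul, map_mul, map_natCast, add_mul]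
      congr 1
      change te p C t c * (p : Bt p C t) = te p C t c * te p C t t
      rw [te_t]
    · intro h
      rw [Ideal.mem_span_singleton'] at h
      obtain ⟨y, rfl⟩ := h
      have h1 : π (p : Bt p C t) = 0 := by
        rw [← map_natCast (toB p C t), hπ, WittVector.coeff_p_zero, map_zero]
      rw [map_mul, h1, mul_zero]

/-- `te` is additive modulo `p`. -/
theorem te_add_mem (a b : C) : te p C t (a + b) - (te p C t a + te p C t b) ∈
    Ideal.span {(p : Bt p C t)} := by
  obtain ⟨π, hπ, -, hk⟩ := exists_proj p C t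
  rw [← hk, RingHom.mem_ker, map_sub, map_add]
  simp only [te, hπ, WittVector.teichmuller_coeff_zero, map_add, sub_self]

/-- Every element of `B` is a Teichmueller representative modulo `p`. -/
theorem exists_te_sub_mem (b : Bt p C t) :
    ∃ c : C, b - te p C t c ∈ Ideal.span {(p : Bt p C t)} := by
  obtain ⟨π, hπ, -, hk⟩ := exists_proj p C t
  obtain ⟨x, rfl⟩ := toB_surjective p C t b
  refine ⟨x.coeff 0, ?_⟩
  rw [← hk, RingHom.mem_ker, map_sub, hπ, te, hπ, WittVector.teichmuller_coeff_zero, sub_self]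

variable (ht : t ∈ nonZeroDivisors C)
include ht

/-- `B` has no `p`-torsion. -/
theorem p_mul_eq_zero (b : Bt p C t) (h : (p : Bt p C t) * b = 0) : b = 0 := by
  obtain ⟨x, rfl⟩ := toB_surjective p C t b
  rw [← map_natCast (toB p C t), ← map_mul, toB_eq_zero_iff] at h
  obtain ⟨y, hy⟩ := h
  have h1 : y.coeff 0 = 0 := by
    have h2 : WittVector.constantCoeff ((p : WittVector p C) * x) =
        WittVector.constantCoeff (((p : WittVector p C) - WittVector.teichmuller p t) * y) := by
      rw [hy]
    rw [map_mul, map_mul, map_sub] at h2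
    change (p : WittVector p C).coeff 0 * x.coeff 0 = ((p : WittVector p C).coeff 0 -
      (WittVector.teichmuller p t).coeff 0) * y.coeff 0 at h2
    rw [WittVector.coeff_p_zero, WittVector.teichmuller_coeff_zero, zero_mul, zero_sub, neg_mul,
      eq_comm, neg_eq_zero] at h2
    exact (mul_left_mem_nonZeroDivisors_eq_zero_iff ht).1 h2
  rw [← WittVector.mem_span_p_iff_coeff_zero_eq_zero, Ideal.mem_span_singleton'] at h1
  obtain ⟨z, rfl⟩ := h1
  have h3 : (x - ((p : WittVector p C) - WittVector.teichmuller p t) * z) * p = 0 := by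
    have h4 : (x - ((p : WittVector p C) - WittVector.teichmuller p t) * z) * p =
        p * x - ((p : WittVector p C) - WittVector.teichmuller p t) * (z * p) := by ring
    rw [h4, hy, sub_self]
  have h5 := WittVector.eq_zero_of_p_mul_eq_zero _ h3
  rw [toB_eq_zero_iff]
  exact ⟨z, sub_eq_zero.1 h5⟩

theorem p_pow_mul_eq_zero (j : ℕ) (b : Bt p C t) (h : (p : Bt p C t) ^ j * b = 0) : b = 0 := by
  induction j with
  | zero => rwa [pow_zero, one_mul] at h
  | succ j ih =>
    refine ih (p_mul_eq_zero p C t ht _ ?_)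
    rw [← h]
    ring

omit ht in
theorem mem_span_of_te_mem (a : C) (h : te p C t a ∈ Ideal.span {(p : Bt p C t)}) :
    a ∈ Ideal.span {t} := by
  obtain ⟨π, hπ, -, hk⟩ := exists_proj p C t
  rw [← hk, RingHom.mem_ker, te, hπ, WittVector.teichmuller_coeff_zero,
    Ideal.Quotient.eq_zero_iff_mem] at h
  exact h

/-- `[a] ∈ p^j B` implies `a ∈ t^j C`. -/
theorem mem_of_te_mem (a : C) (j : ℕ) (h : te p C t a ∈ Ideal.span {(p : Bt p C t) ^ j}) :
    a ∈ Ideal.span {t ^ j} := by
  induction j with
  | zero => rw [pow_zero, Ideal.span_singleton_one]; trivial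
  | succ j ih =>
    rw [Ideal.mem_span_singleton'] at h
    obtain ⟨b, hb⟩ := h
    have h1 := ih (by
      rw [Ideal.mem_span_singleton']
      exact ⟨b * p, by rw [← hb]; ring⟩)
    rw [Ideal.mem_span_singleton'] at h1
    obtain ⟨c, rfl⟩ := h1
    rw [te_mul, te_pow, te_t] at hb
    have h2 : te p C t c - b * p = 0 := by
      apply p_pow_mul_eq_zero p C t ht j
      linear_combination -hb
    have h3 := mem_span_of_te_mem p C t c (by
      rw [Ideal.mem_span_singleton']
      exact ⟨b, (sub_eq_zero.1 h2).symm⟩)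
    rw [Ideal.mem_span_singleton'] at h3 ⊢
    obtain ⟨d, rfl⟩ := h3
    exact ⟨d, by ring⟩

omit ht in
theorem rt_pow_self (j : ℕ) : rt p j t ^ p ^ j = t := by
  rw [rt, ← iterateFrobenius_def, ← coe_iterateFrobeniusEquiv]
  exact RingEquiv.apply_symm_apply _ _

omit ht in
theorem te_rt_pow_self (j : ℕ) : te p C t (rt p j t) ^ p ^ j = (p : Bt p C t) := by
  rw [← te_pow, rt_pow_self, te_t]

/-- Root closedness (one step). -/
theorem root_closed_aux (j : ℕ) (hj : 1 ≤ j) (m : ℕ) (b : Bt p C t)
    (h : b ^ p ∈ Ideal.span {te p C t (rt p j t) ^ (p * m)}) :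
    b ∈ Ideal.span {te p C t (rt p j t) ^ m} := by
  have hp0 : 0 < p := (Fact.out : p.Prime).pos
  have hpj : p ≤ p ^ j := Nat.le_self_pow (by omega) p
  have hjs : p ^ j = p + (p ^ j - p) := by omega
  have hj1 : p ^ j = 1 + (p ^ j - 1) := by omega
  set s := rt p j t with hs
  set σ := te p C t s with hσ
  have hσp : σ ^ p ^ j = (p : Bt p C t) := te_rt_pow_self p C t j
  have hσ0 : ∀ n x, σ ^ n * x = 0 → x = 0 := by
    intro n x hx
    apply p_pow_mul_eq_zero p C t ht n
    have h1 : (σ ^ p ^ j) ^ n = (σ ^ n) ^ (p ^ j - 1) * σ ^ n := by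
      rw [← pow_succ, ← pow_mul, ← pow_mul, mul_comm]
      congr 2
      omega
    rw [← hσp, h1, mul_assoc, hx, mul_zero]
  induction m generalizing b with
  | zero => rw [pow_zero, Ideal.span_singleton_one]; trivial
  | succ m ih =>
    rw [Ideal.mem_span_singleton'] at h
    obtain ⟨y, hy⟩ := h
    obtain ⟨c, hc⟩ := exists_te_sub_mem p C t b
    obtain ⟨π, hπ, -, hk⟩ := exists_proj p C t
    rw [← hk, RingHom.mem_ker, map_sub, sub_eq_zero] at hc
    have hπc : π b = Ideal.Quotient.mk _ c := by
      rw [hc, te, hπ, WittVector.teichmuller_coeff_zero]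
    have hπs : π σ = Ideal.Quotient.mk _ s := by
      rw [hσ, te, hπ, WittVector.teichmuller_coeff_zero]
    obtain ⟨z, hz⟩ := Ideal.Quotient.mk_surjective (π y)
    have h1 : Ideal.Quotient.mk (Ideal.span {t}) (c ^ p - z * s ^ (p * (m + 1))) = 0 := by
      rw [map_sub, map_pow, map_mul, map_pow, ← hπc, hz, ← hπs, ← map_pow, ← map_pow, ← map_mul,
        hy, sub_self]
    rw [Ideal.Quotient.eq_zero_iff_mem, Ideal.mem_span_singleton'] at h1
    obtain ⟨w, hw⟩ := h1
    have hst : s ^ p ^ j = t := rt_pow_self p C t j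
    -- `c ^ p` is divisible by `s ^ p`
    have h2 : c ^ p = s ^ p * (w * s ^ (p ^ j - p) + z * s ^ (p * m)) := by
      have h3 : s ^ p ^ j = s ^ p * s ^ (p ^ j - p) := by rw [← pow_add, ← hjs]
      have h4 : s ^ (p * (m + 1)) = s ^ p * s ^ (p * m) := by
        rw [← pow_add]; congr 1; ring
      have h5 : c ^ p = w * t + z * s ^ (p * (m + 1)) := by rw [hw]; ring
      rw [h5, ← hst, h3, h4]
      ring
    obtain ⟨d, hd⟩ : ∃ d : C, d ^ p = w * s ^ (p ^ j - p) + z * s ^ (p * m) := by
      refine ⟨(frobeniusEquiv C p).symm (w * s ^ (p ^ j - p) + z * s ^ (p * m)), ?_⟩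
      rw [← frobenius_def, ← frobeniusEquiv_apply, RingEquiv.apply_symm_apply]
    have h6 : c = s * d := by
      apply (frobeniusEquiv C p).injective
      rw [frobeniusEquiv_apply, frobeniusEquiv_apply, frobenius_def, frobenius_def, h2, mul_pow, hd]
    obtain ⟨b', hb'⟩ : ∃ b', b = σ * b' := by
      have h7 : b - te p C t c ∈ RingHom.ker π := by
        rw [RingHom.mem_ker, map_sub, hc, sub_self]
      rw [hk, Ideal.mem_span_singleton'] at h7
      obtain ⟨x, hx⟩ := h7
      refine ⟨te p C t d + x * σ ^ (p ^ j - 1), ?_⟩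
      have h8 : (p : Bt p C t) = σ * σ ^ (p ^ j - 1) := by
        rw [← hσp, ← pow_succ']; congr 1
        omega
      have h9 : b = te p C t c + x * (p : Bt p C t) := by rw [hx]; ring
      rw [h9, h6, te_mul, h8]
      ring
    have h10 : b' ^ p - y * σ ^ (p * m) = 0 := by
      apply hσ0 p
      have h11 : σ ^ (p * (m + 1)) = σ ^ p * σ ^ (p * m) := by
        rw [← pow_add]; congr 1; ring
      rw [hb', mul_pow, h11] at hy
      linear_combination -hy
    have h12 := ih b' (by
      rw [Ideal.mem_span_singleton']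
      exact ⟨y, (sub_eq_zero.1 h10).symm⟩)
    rw [Ideal.mem_span_singleton'] at h12 ⊢
    obtain ⟨x, hx⟩ := h12
    exact ⟨x, by rw [hb', ← hx]; ring⟩

/-- (T2): `b^(p^e) ∈ p^(p^e N) B` implies `b ∈ p^N B`. -/
theorem root_closed (e N : ℕ) (b : Bt p C t)
    (h : b ^ (p ^ e) ∈ Ideal.span {(p : Bt p C t) ^ (p ^ e * N)}) :
    b ∈ Ideal.span {(p : Bt p C t) ^ N} := by
  have hσ : te p C t (rt p 1 t) ^ p = (p : Bt p C t) := by
    have h1 := te_rt_pow_self p C t 1
    rwa [pow_one] at h1
  induction e generalizing b with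
  | zero => simpa using h
  | succ e ih =>
    apply ih
    have h2 : b ^ p ^ (e + 1) = (b ^ p ^ e) ^ p := by rw [← pow_mul, pow_succ]
    rw [h2, ← hσ, ← pow_mul] at h
    have h3 : p * (p ^ (e + 1) * N) = p * (p * (p ^ e * N)) := by ring
    rw [h3] at h
    have h4 := root_closed_aux p C t ht 1 le_rfl _ _ h
    rwa [pow_mul, hσ] at h4

end M1

end Vale.Agent.P202.Mix
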