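import Vale.Agent.P202.Mix.Defs
import Vale.Agent.P202.CharP.ArbK.FlatPS

/-!
P202 MIX, M4b: the perfection of `k[[x_0, .., x_r]]` is flat over it.
-/

namespace Vale.Agent.P202.Mix

open Vale.Agent.P202.CharP

universe u

/-- every element of the perfect closure has a power in the ring -/
lemma fp_exists_pow {R : Type u} [CommRing R] (p : ℕ) [Fact p.Prime] [CharP R p]
    (x : PerfectClosure R p) : ∃ (e : ℕ) (z : R), x ^ p ^ e = PerfectClosure.of R p z := by
  refine PerfectClosure.induction_on x fun y => ?_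
  obtain ⟨n, z⟩ := y
  refine ⟨n, z, ?_⟩
  rw [← PerfectClosure.iterate_frobenius_mk (K := R) (p := p) n z, ← coe_iterateFrobenius,
    iterateFrobenius_def]

/-- common exponent -/
lemma fp_exists_pow_fin {R : Type u} [CommRing R] (p : ℕ) [Fact p.Prime] [CharP R p] {l : ℕ}
    (x : Fin l → PerfectClosure R p) :
    ∃ (e : ℕ) (z : Fin l → R), ∀ i, x i ^ p ^ e = PerfectClosure.of R p (z i) := by
  choose e z hz using fun i => fp_exists_pow p (x i)
  refine ⟨∑ i, e i, fun i => z i ^ p ^ (∑ j, e j - e i), fun i => ?_⟩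
  have h1 : e i ≤ ∑ j, e j := Finset.single_le_sum (fun _ _ => Nat.zero_le _) (Finset.mem_univ i)
  have h2 : ∑ j, e j = e i + (∑ j, e j - e i) := by omega
  rw [map_pow, ← hz i, ← pow_mul, ← pow_add, ← h2]

/-- TASK M4b: the perfection of `k[[x_0, .., x_r]]` is flat over it (colimit of Frobenius powers,
`CharP.ArbK.flat_Fr_powerSeries`). -/
theorem flat_perfectClosure (p : ℕ) [Fact p.Prime] (k : Type u) [Field k] [CharP k p] (r : ℕ) :
    letI := (PerfectClosure.of (R0 k r) p).toAlgebra
    Module.Flat (R0 k r) (Rp p k r) := by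
  letI := (PerfectClosure.of (R0 k r) p).toAlgebra
  rw [Module.Flat.iff_forall_isTrivialRelation]
  intro l f x h
  obtain ⟨e, z, hz⟩ := fp_exists_pow_fin p x
  have hof : Function.Injective (PerfectClosure.of (R0 k r) p) := by
    intro a b hab
    have := (PerfectClosure.eq_iff (R0 k r) p (0, a) (0, b)).1 hab
    simpa using this
  have hsmul : ∀ (a : R0 k r) (y : Rp p k r), a • y = PerfectClosure.of (R0 k r) p a * y :=
    fun a y => rfl
  have h0 : ∑ i, f i ^ p ^ e * z i = 0 := by
    apply hof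
    rw [map_sum, map_zero]
    have h1 := congrArg (iterateFrobenius (Rp p k r) p e) h
    rw [map_sum, map_zero] at h1
    rw [← h1]
    refine Finset.sum_congr rfl fun i _ => ?_
    rw [hsmul, iterateFrobenius_def, mul_pow, hz, map_mul, map_pow]
  have hflat := ArbK.flat_Fr_powerSeries p k (r + 1) e
  rw [Module.Flat.iff_forall_isTrivialRelation] at hflat
  have h2 : ∑ i, f i • toFr p (R0 k r) e (z i) = 0 := by
    have h3 : ∀ i, f i • toFr p (R0 k r) e (z i) = toFr p (R0 k r) e (f i ^ p ^ e * z i) := by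
      intro i
      rw [Algebra.smul_def, algebraMap_Fr, map_mul]
    simp only [h3]
    rw [← map_sum, h0, map_zero]
  obtain ⟨n, a, y, hy, ha⟩ := hflat h2
  refine ⟨n, a, fun j => rt p e (PerfectClosure.of (R0 k r) p ((toFr p (R0 k r) e).symm (y j))),
    fun i => ?_, ha⟩
  apply (iterateFrobeniusEquiv (Rp p k r) p e).injective
  rw [map_sum]
  have h4 : iterateFrobeniusEquiv (Rp p k r) p e (x i) = PerfectClosure.of (R0 k r) p (z i) := by
    rw [iterateFrobeniusEquiv_apply, iterateFrobenius_def, hz]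
  rw [h4]
  have h5 : z i = ∑ j, a i j ^ p ^ e * (toFr p (R0 k r) e).symm (y j) := by
    apply (toFr p (R0 k r) e).injective
    have h6 : toFr p (R0 k r) e (z i) = ∑ j, a i j • y j := hy i
    rw [h6, map_sum]
    refine Finset.sum_congr rfl fun j _ => ?_
    rw [Algebra.smul_def, algebraMap_Fr, map_mul, RingEquiv.apply_symm_apply]
  rw [h5, map_sum]
  refine Finset.sum_congr rfl fun j _ => ?_
  rw [hsmul, map_mul, map_mul, map_pow]
  unfold rt
  rw [RingEquiv.apply_symm_apply, iterateFrobeniusEquiv_apply, iterateFrobenius_def]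

end Vale.Agent.P202.Mix
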