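import Vale.Agent.P202.Mix.Build
import Vale.Agent.P202.Mix.FlatPerf
import Vale.Agent.P202.CharP.ArbK.FlatPS

/-!
P202, mixed characteristic, M9a, M4c-1, M4c-2: colon ideals and flat base change; `t` is a
nonzerodivisor and the variables form a regular sequence on the covers.
-/

namespace Vale.Agent.P202.Mix

universe u

variable {p : ℕ} [Fact p.Prime] {k : Type u} [Field k] [CharP k p] {r : ℕ}

/-- M9a: colon ideals and flat base change. -/
theorem colon_flat {E E' : Type u} [CommRing E] [CommRing E'] [Algebra E E'] [Module.Flat E E']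
    (K K' : Ideal E) (a h : E) (H : ∀ x, a * x ∈ K → h * x ∈ K') (x : E')
    (hx : algebraMap E E' a * x ∈ K.map (algebraMap E E')) :
    algebraMap E E' h * x ∈ K'.map (algebraMap E E') := by
  rw [Ideal.map, Ideal.span, Submodule.mem_span_set'] at hx
  obtain ⟨n, f, g, hfg⟩ := hx
  choose y hyK hy using fun i => (g i).2
  -- the relation `a x - ∑ y_i f_i = 0`
  have hrel : ∑ i : Option (Fin n), (Option.elim i a fun i => -y i) •
      (Option.elim i x f : E') = 0 := by
    rw [Fintype.sum_option]
    simp only [Option.elim_none, Option.elim_some, Algebra.smul_def, map_neg]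
    rw [← hfg, ← Finset.sum_add_distrib]
    refine Finset.sum_eq_zero fun i _ => ?_
    rw [← hy i, smul_eq_mul]
    ring
  obtain ⟨m, b, z, hz, hb⟩ := Module.Flat.isTrivialRelation_of_sum_smul_eq_zero
    (R := E) (M := E') (ι := Option (Fin n)) (f := fun i => Option.elim i a fun i => -y i)
    (x := fun i => Option.elim i x f) hrel
  have hx0 : x = ∑ j, b none j • z j := hz none
  rw [hx0, Finset.mul_sum]
  refine Ideal.sum_mem _ fun j _ => ?_
  rw [Algebra.smul_def, ← mul_assoc, ← map_mul]
  refine Ideal.mul_mem_right _ _ (Ideal.mem_map_of_mem _ (H _ ?_))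
  have h1 := hb j
  rw [Fintype.sum_option] at h1
  simp only [Option.elim_none, Option.elim_some] at h1
  rw [eq_neg_of_add_eq_zero_left h1]
  refine neg_mem (Ideal.sum_mem _ fun i _ => ?_)
  exact Ideal.mul_mem_right _ _ (neg_mem (hyK i))

section VarReg

/-- `t` is a nonzerodivisor on the covers. -/
theorem tC_mem_nonZeroDivisors {r0 : ℕ} (d : PExt.{u} p k r r0) :
    tC p k r d.C ∈ nonZeroDivisors d.C := by
  rw [mem_nonZeroDivisors_iff_right]
  intro y hy
  have := d.flat
  have h1 := colon_flat (E := Rp p k r) (E' := d.C) ⊥ ⊥ (xp p k r 0) 1 (fun x hx => by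
    rw [Ideal.mem_bot] at hx ⊢
    rw [one_mul]
    exact (mem_nonZeroDivisors_iff_right.1 (xp_mem_nonZeroDivisors p k r 0)) x
      (by rw [mul_comm]; exact hx)) y (by
      rw [Ideal.map_bot, Ideal.mem_bot, mul_comm]
      exact hy)
  rwa [Ideal.map_bot, Ideal.mem_bot, map_one, one_mul] at h1

/-- the variables form a regular sequence on `k[[x]]`. -/
theorem reg_R0 (i : Fin (r + 1)) (f : R0 k r)
    (h : (MvPowerSeries.X i : R0 k r) * f ∈
      Ideal.span ((fun l => (MvPowerSeries.X l : R0 k r)) '' {l | l < i})) :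
    f ∈ Ideal.span ((fun l => (MvPowerSeries.X l : R0 k r)) '' {l | l < i}) := by
  classical
  have hid : Ideal.span ((fun l => (MvPowerSeries.X l : R0 k r)) '' {l | l < i}) =
      Ideal.span ((fun l : Fin (r + 1) => (MvPowerSeries.X l : R0 k r) ^ 1) ''
        {l | (l : ℕ) < i}) := by
    simp only [pow_one, Fin.val_fin_lt]
  rw [hid, CharP.ArbK.mem_span_X_pow_iff] at h ⊢
  intro d hd
  have h1 := h (d + Finsupp.single i 1) (by
    intro j hj
    have hne : i ≠ j := by
      rintro rfl
      exact lt_irrefl _ hj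
    rw [Finsupp.add_apply, Finsupp.single_eq_of_ne hne.symm, add_zero]
    exact hd j hj)
  rw [← pow_one (MvPowerSeries.X i : R0 k r), MvPowerSeries.X_pow_eq,
    MvPowerSeries.coeff_monomial_mul] at h1
  have hle : Finsupp.single i 1 ≤ d + Finsupp.single i 1 := le_add_self
  rw [if_pos hle, add_tsub_cancel_right, one_mul] at h1
  exact h1

/-- the variables form a regular sequence on the covers. -/
theorem variables_regular {r0 : ℕ} (d : PExt.{u} p k r r0) (i : Fin (r + 1)) (y : d.C)
    (h : algebraMap (Rp p k r) d.C (xp p k r i) * y ∈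
      Ideal.span ((fun l => algebraMap (Rp p k r) d.C (xp p k r l)) '' {l | l < i})) :
    y ∈ Ideal.span ((fun l => algebraMap (Rp p k r) d.C (xp p k r l)) '' {l | l < i}) := by
  have hRp : ∀ z : Rp p k r, xp p k r i * z ∈ Ideal.span (xp p k r '' {l | l < i}) →
      1 * z ∈ Ideal.span (xp p k r '' {l | l < i}) := by
    let := (PerfectClosure.of (R0 k r) p).toAlgebra
    have := flat_perfectClosure p k r
    intro z hz
    have hm : (Ideal.span ((fun l => (MvPowerSeries.X l : R0 k r)) '' {l | l < i})).map
        (algebraMap (R0 k r) (Rp p k r)) = Ideal.span (xp p k r '' {l | l < i}) := by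
      rw [Ideal.map_span, Set.image_image]
      rfl
    have h1 := colon_flat (E := R0 k r) (E' := Rp p k r)
      (Ideal.span ((fun l => (MvPowerSeries.X l : R0 k r)) '' {l | l < i}))
      (Ideal.span ((fun l => (MvPowerSeries.X l : R0 k r)) '' {l | l < i}))
      (MvPowerSeries.X i) 1 (fun x hx => by
        rw [one_mul]
        exact reg_R0 i x hx) z (by
        rw [hm]
        exact hz)
    rwa [map_one, hm] at h1
  have := d.flat
  have hm : (Ideal.span (xp p k r '' {l | l < i})).map (algebraMap (Rp p k r) d.C) =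
      Ideal.span ((fun l => algebraMap (Rp p k r) d.C (xp p k r l)) '' {l | l < i}) := by
    rw [Ideal.map_span, Set.image_image]
  have h1 := colon_flat (E := Rp p k r) (E' := d.C) _ _ (xp p k r i) 1 hRp y (by
    rw [hm]
    exact h)
  rwa [map_one, one_mul, hm] at h1

end VarReg

end Vale.Agent.P202.Mix
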