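import Vale.Agent.P202.Mix.Norm
import Vale.Agent.P202.Mix.Tei1
import Vale.Agent.P202.Mix.VarReg

/-!
P202, mixed characteristic, M9: colon ideals and flat base change, regularity of `p, u_1, .., u_r`
on `B/p^N`, the homomorphisms `φ_π : A ⊗ B/p^N → (B/p^N)/Ann([δ_π^(1/q)])`.
-/

namespace Vale.Agent.P202.Mix

open Polynomial TensorProduct

universe u

variable {p : ℕ} [Fact p.Prime] {k : Type u} [Field k] [CharP k p] {r : ℕ}
variable {Λ : Type u} [CommRing Λ] {u : Fin r → Λ} {ψ : Λ →+* WittVector p (Rp p k r)}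
  {red : Λ →+* R0 k r ⧸ Ideal.span {(MvPowerSeries.X 0 : R0 k r)}}

section Lift

variable (C : Type u) [CommRing C] [Algebra (Rp p k r) C] (N : ℕ)

theorem mkN_surjective : Function.Surjective (mkN ψ C N) := Ideal.Quotient.mk_surjective

theorem mkN_eq_zero_iff {x : Bt p C (tC p k r C)} :
    mkN ψ C N x = 0 ↔ x ∈ Ideal.span {(p : Bt p C (tC p k r C)) ^ N} :=
  Ideal.Quotient.eq_zero_iff_mem

theorem algebraMap_BN (l : Λ) : algebraMap Λ (BN ψ C N) l = mkN ψ C N (laB ψ C l) := rfl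

/-- membership in an ideal of `B/p^N` -/
theorem mkN_mem_map {J : Ideal (Bt p C (tC p k r C))} {x : Bt p C (tC p k r C)}
    (h : mkN ψ C N x ∈ J.map (mkN ψ C N)) :
    x ∈ J ⊔ Ideal.span {(p : Bt p C (tC p k r C)) ^ N} := by
  rw [Ideal.mem_map_iff_of_surjective _ (mkN_surjective C N)] at h
  obtain ⟨y, hy, hyx⟩ := h
  rw [eq_comm, ← sub_eq_zero, ← map_sub, mkN_eq_zero_iff] at hyx
  rw [← add_sub_cancel y x]
  exact Ideal.add_mem _ (Ideal.mem_sup_left hy) (Ideal.mem_sup_right hyx)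

end Lift

/-- M9b: regularity of `p` on `B/p^N`. -/
theorem BN_p {r0 : ℕ} (d : PExt.{u} p k r r0) (N : ℕ) (b : BN ψ d.C N)
    (h : (p : BN ψ d.C N) * b = 0) :
    b ∈ Ideal.span {(p : BN ψ d.C N) ^ (N - 1)} := by
  obtain ⟨β, rfl⟩ := mkN_surjective d.C N b
  rcases Nat.eq_zero_or_pos N with hN | hN
  · subst hN
    simp
  have h1 : mkN ψ d.C N ((p : Bt p d.C (tC p k r d.C)) * β) = 0 := by
    rw [map_mul, map_natCast]
    exact h
  rw [mkN_eq_zero_iff, Ideal.mem_span_singleton'] at h1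
  obtain ⟨γ, hγ⟩ := h1
  have h2 : (p : Bt p d.C (tC p k r d.C)) * (β - (p : Bt p d.C (tC p k r d.C)) ^ (N - 1) * γ) = 0 := by
    obtain ⟨M, rfl⟩ : ∃ M, N = M + 1 := ⟨N - 1, by omega⟩
    rw [mul_sub, ← hγ, Nat.add_sub_cancel, pow_succ]
    ring
  have h3 := p_mul_eq_zero p d.C _ (tC_mem_nonZeroDivisors d) _ h2
  rw [sub_eq_zero] at h3
  rw [h3, Ideal.mem_span_singleton', map_mul, map_pow, map_natCast]
  exact ⟨mkN ψ d.C N γ, mul_comm _ _⟩

/-- `Λ → B` maps `u_i` to `[u_i]` -/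
theorem laB_u (hb : IsBase p k r Λ u ψ red) (C : Type u) [CommRing C] [Algebra (Rp p k r) C]
    (i : Fin r) : laB ψ C (u i) = te p C (tC p k r C) (algebraMap (Rp p k r) C (xp p k r i.succ)) := by
  unfold laB te
  rw [RingHom.comp_apply, RingHom.comp_apply, hb.psi_u, WittVector.map_teichmuller]

/-- M9c: regularity of the `u_i` on `B/p^N` modulo `p, u_1, .., u_(i-1)`. -/
theorem BN_u {r0 : ℕ} (hb : IsBase p k r Λ u ψ red) (d : PExt.{u} p k r r0) (N : ℕ) (hN : 1 ≤ N)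
    (i : Fin r) (b : BN ψ d.C N)
    (h : algebraMap Λ (BN ψ d.C N) (u i) * b ∈ Ideal.span (insert (p : BN ψ d.C N)
      ((fun l => algebraMap Λ (BN ψ d.C N) (u l)) '' {l | l < i}))) :
    b ∈ Ideal.span (insert (p : BN ψ d.C N)
      ((fun l => algebraMap Λ (BN ψ d.C N) (u l)) '' {l | l < i})) := by
  set J : Ideal (Bt p d.C (tC p k r d.C)) :=
    Ideal.span (insert (p : Bt p d.C (tC p k r d.C)) ((fun l => laB ψ d.C (u l)) '' {l | l < i}))
    with hJ
  have hJmap : J.map (mkN ψ d.C N) = Ideal.span (insert (p : BN ψ d.C N)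
      ((fun l => algebraMap Λ (BN ψ d.C N) (u l)) '' {l | l < i})) := by
    rw [hJ, Ideal.map_span, Set.image_insert_eq, map_natCast, Set.image_image]
    rfl
  rw [← hJmap] at h ⊢
  obtain ⟨β, rfl⟩ := mkN_surjective d.C N b
  refine Ideal.mem_map_of_mem _ ?_
  rw [algebraMap_BN, ← map_mul] at h
  have h1 := mkN_mem_map d.C N h
  have hpJ : (p : Bt p d.C (tC p k r d.C)) ∈ J := Ideal.subset_span (Set.mem_insert _ _)
  have hle : Ideal.span {(p : Bt p d.C (tC p k r d.C)) ^ N} ≤ J := by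
    rw [Ideal.span_singleton_le_iff_mem]
    exact Ideal.pow_mem_of_mem _ hpJ _ (by omega)
  rw [sup_eq_left.2 hle] at h1
  -- reduce modulo `p`
  obtain ⟨q, hq1, hq2, hq3⟩ := exists_proj p d.C (tC p k r d.C)
  have hqte : ∀ c, q (te p d.C (tC p k r d.C) c) = Ideal.Quotient.mk _ c := by
    intro c
    unfold te
    rw [hq1, WittVector.teichmuller_coeff_zero]
  set x : Fin (r + 1) → d.C := fun l => algebraMap (Rp p k r) d.C (xp p k r l) with hx
  set L : Ideal d.C := Ideal.span (x '' {l | l < i.succ}) with hL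
  have hLt : Ideal.span {tC p k r d.C} ≤ L := by
    rw [Ideal.span_singleton_le_iff_mem]
    exact Ideal.subset_span ⟨0, Fin.succ_pos i, rfl⟩
  have hqp : q (p : Bt p d.C (tC p k r d.C)) = 0 := by
    rw [← RingHom.mem_ker, hq3]
    exact Ideal.mem_span_singleton_self _
  have hJq : J = (L.map (Ideal.Quotient.mk (Ideal.span {tC p k r d.C}))).comap q := by
    apply le_antisymm
    · rw [hJ, Ideal.span_le]
      rintro y (rfl | ⟨l, hl, rfl⟩)
      · rw [SetLike.mem_coe, Ideal.mem_comap, hqp]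
        exact zero_mem _
      · rw [SetLike.mem_coe, Ideal.mem_comap]
        simp only
        rw [laB_u hb, hqte]
        exact Ideal.mem_map_of_mem _ (Ideal.subset_span ⟨l.succ, Fin.succ_lt_succ_iff.2 hl, rfl⟩)
    · intro y hy
      have h4 : (L.map (Ideal.Quotient.mk (Ideal.span {tC p k r d.C}))) ≤ J.map q := by
        rw [hL, Ideal.map_span, Ideal.span_le]
        rintro _ ⟨_, ⟨l, hl, rfl⟩, rfl⟩
        rw [SetLike.mem_coe]
        rcases Fin.eq_zero_or_eq_succ l with rfl | ⟨l', rfl⟩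
        · have h5 : Ideal.Quotient.mk (Ideal.span {tC p k r d.C}) (x 0) = 0 :=
            Ideal.Quotient.eq_zero_iff_mem.2 (Ideal.mem_span_singleton_self _)
          rw [h5]
          exact zero_mem _
        · rw [hx]
          simp only
          rw [← hqte, ← laB_u hb]
          exact Ideal.mem_map_of_mem _ (Ideal.subset_span (Set.mem_insert_of_mem _
            ⟨l', Fin.succ_lt_succ_iff.1 hl, rfl⟩))
      have h6 : q y ∈ J.map q := h4 hy
      rw [Ideal.mem_map_iff_of_surjective _ hq2] at h6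
      obtain ⟨z, hz, hzy⟩ := h6
      rw [eq_comm, ← sub_eq_zero, ← map_sub, ← RingHom.mem_ker, hq3] at hzy
      rw [← add_sub_cancel z y]
      refine Ideal.add_mem _ hz ?_
      exact (Ideal.span_singleton_le_iff_mem _).2 hpJ hzy
  obtain ⟨c, hc⟩ := Ideal.Quotient.mk_surjective (q β)
  have hLmk : ∀ y : d.C, Ideal.Quotient.mk (Ideal.span {tC p k r d.C}) y ∈
      L.map (Ideal.Quotient.mk (Ideal.span {tC p k r d.C})) → y ∈ L := by
    intro y hy
    rw [Ideal.mem_map_iff_of_surjective _ Ideal.Quotient.mk_surjective] at hy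
    obtain ⟨z, hz, hzy⟩ := hy
    rw [Ideal.Quotient.eq] at hzy
    rw [← sub_sub_cancel z y]
    exact Ideal.sub_mem _ hz (hLt hzy)
  rw [hJq, Ideal.mem_comap, map_mul, laB_u hb, hqte, ← hc, ← map_mul] at h1
  rw [hJq, Ideal.mem_comap, ← hc]
  exact Ideal.mem_map_of_mem _ (variables_regular d i.succ c (hLmk _ h1))

variable {A : Type u} [CommRing A] [Algebra Λ A] {s D : ℕ} {a : Fin s → A}
  {F : Fin s → Λ[X]} {E : MvPolynomial (Fin s) Λ} {g : Λ} {I r0 : ℕ}

/-- the evaluation at the Teichmueller representatives of the roots kills `(F_j(T_j))` modulo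
`p^(I+1)` -/
theorem eval_mem_of_mem (d : CData.{u} ψ (D := D) F E g I r0) (π : Fin s → Fin D)
    {f : MvPolynomial (Fin s) Λ}
    (hf : f ∈ Ideal.span (Set.range fun j => Polynomial.toMvPolynomial j (F j))) :
    MvPolynomial.eval₂ (laB ψ d.C) (fun j => te p d.C (tC p k r d.C) (d.c j (π j))) f ∈
      Ideal.span {(p : Bt p d.C (tC p k r d.C)) ^ (I + 1)} := by
  set ev : MvPolynomial (Fin s) Λ →+* Bt p d.C (tC p k r d.C) :=
    MvPolynomial.eval₂Hom (laB ψ d.C) (fun j => te p d.C (tC p k r d.C) (d.c j (π j))) with hev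
  change ev f ∈ _
  have hle : Ideal.span (Set.range fun j => Polynomial.toMvPolynomial j (F j)) ≤
      (Ideal.span {(p : Bt p d.C (tC p k r d.C)) ^ (I + 1)}).comap ev := by
    rw [Ideal.span_le]
    rintro _ ⟨j, rfl⟩
    rw [SetLike.mem_coe, Ideal.mem_comap]
    simp only
    have h1 : ev (Polynomial.toMvPolynomial j (F j)) =
        eval₂ (laB ψ d.C) (te p d.C (tC p k r d.C) (d.c j (π j))) (F j) := by
      rw [Polynomial.toMvPolynomial, hev]
      change (MvPolynomial.eval₂Hom _ _) (aeval (MvPolynomial.X j) (F j)) = _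
      rw [aeval_def, hom_eval₂, MvPolynomial.coe_eval₂Hom, MvPolynomial.eval₂_X]
      congr 1
      ext l
      change MvPolynomial.eval₂ _ _ (MvPolynomial.C l) = _
      rw [MvPolynomial.eval₂_C]
    set t0 := te p d.C (tC p k r d.C) (d.c j (π j)) with ht0
    have h2 : eval₂ (laB ψ d.C) t0 (F j) = eval t0 ((F j).map (laB ψ d.C) -
        ∏ i, (X - C (te p d.C (tC p k r d.C) (d.c j i)))) := by
      rw [eval_sub, eval_map, eval_prod, Finset.prod_eq_zero (Finset.mem_univ (π j)), sub_zero]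
      rw [eval_sub, eval_X, eval_C, ← ht0, sub_self]
    rw [h1, h2, eval_eq_sum]
    exact Ideal.sum_mem _ fun n _ => Ideal.mul_mem_right _ _ (d.split j n)
  exact hle hf

omit [Algebra Λ A] in
/-- an element whose `q`-th power is divisible by `p^(I+1)` vanishes in `B/p^N` -/
theorem mkN_eq_zero_of_pow {C : Type u} [CommRing C] [CharP C p] [PerfectRing C p]
    [Algebra (Rp p k r) C] (ht : tC p k r C ∈ nonZeroDivisors C) (e N I : ℕ)
    (hN : p ^ e * N ≤ I + 1) (b : Bt p C (tC p k r C))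
    (h : b ^ (p ^ e) ∈ Ideal.span {(p : Bt p C (tC p k r C)) ^ (I + 1)}) :
    mkN ψ C N b = 0 := by
  rw [mkN_eq_zero_iff]
  refine root_closed p C _ ht e N b ?_
  exact Ideal.span_singleton_le_span_singleton.mpr (pow_dvd_pow _ hN) h

theorem te_rt_pow {C : Type u} [CommRing C] [CharP C p] [PerfectRing C p] (t : C) (e : ℕ) (c : C) :
    te p C t (rt p e c) ^ p ^ e = te p C t c := by
  rw [← te_pow, nm_rt_pow]

/-- M9d: polynomials vanishing at `a` kill `[δ^(1/q)]`. -/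
theorem eval_mul_dq (d : CData.{u} ψ (D := D) F E g I r0)
    (hE : ∀ f : MvPolynomial (Fin s) Λ, MvPolynomial.aeval a f = 0 →
      E * f ∈ Ideal.span (Set.range fun j => Polynomial.toMvPolynomial j (F j)))
    (e N : ℕ) (hN : p ^ e * N ≤ I + 1) (π : Fin s → Fin D) (f : MvPolynomial (Fin s) Λ)
    (hf : MvPolynomial.aeval a f = 0) :
    MvPolynomial.eval₂ (algebraMap Λ (BN ψ d.C N)) (fun j => teN ψ d.C N (d.c j (π j))) f *
      dq d e N π = 0 := by
  set f0 := MvPolynomial.eval₂ (laB ψ d.C) (fun j => te p d.C (tC p k r d.C) (d.c j (π j))) f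
    with hf0
  set E0 := MvPolynomial.eval₂ (laB ψ d.C) (fun j => te p d.C (tC p k r d.C) (d.c j (π j))) E
    with hE0
  have h1 : MvPolynomial.eval₂ (algebraMap Λ (BN ψ d.C N)) (fun j => teN ψ d.C N (d.c j (π j))) f =
      mkN ψ d.C N f0 := by
    rw [hf0, MvPolynomial.eval₂_comp_left]
    rfl
  have h2 : E0 * f0 ∈ Ideal.span {(p : Bt p d.C (tC p k r d.C)) ^ (I + 1)} := by
    rw [hE0, hf0, ← MvPolynomial.eval₂_mul]
    exact eval_mem_of_mem d π (hE f hf)
  have h3 : te p d.C (tC p k r d.C) (d.δ π) * f0 ∈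
      Ideal.span {(p : Bt p d.C (tC p k r d.C)) ^ (I + 1)} := by
    have h4 := Ideal.add_mem _ (Ideal.mul_mem_right f0 _ (d.hδ π)) h2
    rwa [sub_mul, sub_add_cancel] at h4
  rw [h1, dq, teN, ← map_mul]
  refine mkN_eq_zero_of_pow (tC_mem_nonZeroDivisors d.toPExt) e N I hN _ ?_
  rw [mul_pow, te_rt_pow]
  have hpe : 1 ≤ p ^ e := Nat.one_le_pow _ _ (Fact.out : p.Prime).pos
  obtain ⟨m, hm⟩ : ∃ m, p ^ e = m + 1 := ⟨p ^ e - 1, by omega⟩
  have h5 : f0 ^ p ^ e * te p d.C (tC p k r d.C) (d.δ π) =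
      f0 ^ m * (te p d.C (tC p k r d.C) (d.δ π) * f0) := by
    rw [hm]
    ring
  rw [h5]
  exact Ideal.mul_mem_left _ _ h3

/-- M9f: `[δ^(1/q)] [δ'^(1/q)] = 0` in `B/p^N`. -/
theorem dq_mul_dq' (d : CData.{u} ψ (D := D) F E g I r0)
    (hEg : MvPolynomial.aeval a E = algebraMap Λ A g)
    (hE : ∀ f : MvPolynomial (Fin s) Λ, MvPolynomial.aeval a f = 0 →
      E * f ∈ Ideal.span (Set.range fun j => Polynomial.toMvPolynomial j (F j)))
    (e N : ℕ) (hN : p ^ e * N ≤ I + 1) (π : Fin s → Fin D) :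
    dq d e N π * teN ψ d.C N (rt p e (d.δ' π)) = 0 := by
  have hf : MvPolynomial.aeval a (MvPolynomial.C g - E) = 0 := by
    rw [map_sub, hEg, MvPolynomial.aeval_C, sub_self]
  have h1 := eval_mem_of_mem d π (hE _ hf)
  set E0 := MvPolynomial.eval₂ (laB ψ d.C) (fun j => te p d.C (tC p k r d.C) (d.c j (π j))) E
    with hE0
  rw [MvPolynomial.eval₂_mul, MvPolynomial.eval₂_sub, MvPolynomial.eval₂_C, ← hE0] at h1
  have h2 : te p d.C (tC p k r d.C) (d.δ π) * te p d.C (tC p k r d.C) (d.δ' π) ∈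
      Ideal.span {(p : Bt p d.C (tC p k r d.C)) ^ (I + 1)} := by
    have h3 := Ideal.mul_mem_right (te p d.C (tC p k r d.C) (d.δ' π)) _ (d.hδ π)
    have h4 := Ideal.mul_mem_left _ E0 (d.hδ' π)
    rw [← hE0] at h3 h4
    have h5 := Ideal.add_mem _ (Ideal.add_mem _ h3 h4) h1
    convert h5 using 1
    ring
  rw [dq, teN, teN, ← map_mul]
  refine mkN_eq_zero_of_pow (tC_mem_nonZeroDivisors d.toPExt) e N I hN _ ?_
  rw [mul_pow, te_rt_pow, te_rt_pow]
  exact h2

/-- M9e: the homomorphism `A ⊗ B/p^N → (B/p^N)/Ann([δ^(1/q)])`, `a_j ↦ [c_(j,π j)]`. -/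
theorem exists_phi (d : CData.{u} ψ (D := D) F E g I r0)
    (ha : Function.Surjective (MvPolynomial.aeval a : MvPolynomial (Fin s) Λ →ₐ[Λ] A))
    (hE : ∀ f : MvPolynomial (Fin s) Λ, MvPolynomial.aeval a f = 0 →
      E * f ∈ Ideal.span (Set.range fun j => Polynomial.toMvPolynomial j (F j)))
    (e N : ℕ) (hN : p ^ e * N ≤ I + 1) (π : Fin s → Fin D) :
    ∃ φ : A ⊗[Λ] BN ψ d.C N →+* BN ψ d.C N ⧸ annI (dq d e N π),
      (∀ b, φ (1 ⊗ₜ b) = Ideal.Quotient.mk _ b) ∧
      ∀ j, φ (a j ⊗ₜ 1) = Ideal.Quotient.mk _ (teN ψ d.C N (d.c j (π j))) := by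
  set Q := BN ψ d.C N ⧸ annI (dq d e N π) with hQ
  let ev : MvPolynomial (Fin s) Λ →ₐ[Λ] Q :=
    (Ideal.Quotient.mkₐ Λ (annI (dq d e N π))).comp
      (MvPolynomial.aeval fun j => teN ψ d.C N (d.c j (π j)))
  have hev : ∀ f, MvPolynomial.aeval a f = 0 → ev f = 0 := by
    intro f hf
    change Ideal.Quotient.mk _ (MvPolynomial.aeval _ f) = 0
    rw [Ideal.Quotient.eq_zero_iff_mem, mem_annI, MvPolynomial.aeval_def]
    exact eval_mul_dq d hE e N hN π f hf
  let αA : A →ₐ[Λ] Q := AlgHom.liftOfSurjective (MvPolynomial.aeval a) ha ev (by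
    intro f hf
    exact hev f hf)
  have hαA : ∀ f, αA (MvPolynomial.aeval a f) = ev f := by
    intro f
    exact AlgHom.liftOfSurjective_apply _ ha ev _ f
  refine ⟨(Algebra.TensorProduct.productMap αA (Ideal.Quotient.mkₐ Λ (annI (dq d e N π))) :
    A ⊗[Λ] BN ψ d.C N →ₐ[Λ] Q), ?_, ?_⟩
  · intro b
    change Algebra.TensorProduct.productMap αA _ (1 ⊗ₜ b) = _
    rw [Algebra.TensorProduct.productMap_apply_tmul, map_one, one_mul]
    rfl
  · intro j
    change Algebra.TensorProduct.productMap αA _ (a j ⊗ₜ 1) = _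
    rw [Algebra.TensorProduct.productMap_apply_tmul, map_one, mul_one]
    have h1 := hαA (MvPolynomial.X j)
    rw [MvPolynomial.aeval_X] at h1
    rw [h1]
    change Ideal.Quotient.mk _ (MvPolynomial.aeval _ (MvPolynomial.X j)) = _
    rw [MvPolynomial.aeval_X]

end Vale.Agent.P202.Mix
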