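import Vale.Agent.P202.Mix.GeoDefs

/-!
P202-MIX, part GEO: Koszul complexes of commuting operators, indexed by finite sets.
-/

namespace Vale.Agent.P202.Mix

open Vale.Agent.P202.CharP
open scoped ENNReal

universe u

section KosBasic

variable {R : Type u} [CommRing R] {V W : Type u} [AddCommGroup V] [Module R V]
  [AddCommGroup W] [Module R W] {n : ℕ}

lemma kzb_ksg_mul_self (l : Fin n) (J : Finset (Fin n)) : ksg l J * ksg l J = 1 := by
  unfold ksg
  rw [← pow_add, ← two_mul, pow_mul]
  norm_num

lemma kzb_ksg_insert {l k : Fin n} {J : Finset (Fin n)} (hl : l ∉ J) :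
    ksg k (insert l J) = ksg k J * (if l < k then -1 else 1) := by
  unfold ksg
  rw [Finset.filter_insert]
  by_cases h : l < k
  · rw [if_pos h, if_pos h, Finset.card_insert_of_notMem (by simp [hl]), pow_succ]
  · rw [if_neg h, if_neg h, mul_one]

/-- the basic antisymmetry. -/
lemma kzb_ksg_anti {l k : Fin n} {J : Finset (Fin n)} (hl : l ∉ J) (hk : k ∉ J) (hlk : l ≠ k) :
    ksg l J * ksg k (insert l J) + ksg k J * ksg l (insert k J) = 0 := by
  rw [kzb_ksg_insert hl, kzb_ksg_insert hk]
  rcases lt_or_gt_of_ne hlk with h | h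
  · rw [if_pos h, if_neg (not_lt.mpr h.le)]
    ring
  · rw [if_neg (not_lt.mpr h.le), if_pos h]
    ring

lemma kzb_ksg_anti' {l k : Fin n} {J : Finset (Fin n)} (hl : l ∉ J) (hk : k ∉ J) (hlk : l ≠ k) :
    ksg k (insert l J) * ksg l (insert k J) = -(ksg l J * ksg k J) := by
  rw [kzb_ksg_insert hl, kzb_ksg_insert hk]
  rcases lt_or_gt_of_ne hlk with h | h
  · rw [if_pos h, if_neg (not_lt.mpr h.le)]
    ring
  · rw [if_neg (not_lt.mpr h.le), if_pos h]
    ring

lemma kzb_apply (T : Fin n → V →ₗ[R] V) (v : Finset (Fin n) → V) (J : Finset (Fin n)) :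
    kz T v J = ∑ l ∈ Jᶜ, ksg l J • T l (v (insert l J)) := rfl

theorem kz_sq (T : Fin n → V →ₗ[R] V) (hT : ∀ k l v, T k (T l v) = T l (T k v))
    (v : Finset (Fin n) → V) : kz T (kz T v) = 0 := by
  funext J
  rw [kzb_apply]
  have h1 : ∀ l ∈ Jᶜ, ksg l J • T l (kz T v (insert l J)) =
      ∑ k ∈ (insert l J)ᶜ,
        (ksg l J * ksg k (insert l J)) • T l (T k (v (insert k (insert l J)))) := by
    intro l _
    rw [kzb_apply, map_sum, Finset.smul_sum]
    refine Finset.sum_congr rfl fun k _ => ?_
    rw [map_zsmul, smul_smul]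
  rw [Finset.sum_congr rfl h1, Finset.sum_sigma']
  refine Finset.sum_involution (fun x _ => ⟨x.2, x.1⟩) ?_ ?_ ?_ ?_
  · rintro ⟨l, k⟩ hx
    simp only [Finset.mem_sigma, Finset.mem_compl, Finset.mem_insert, not_or] at hx
    obtain ⟨hl, hkl, hk⟩ := hx
    have e1 : insert l (insert k J) = insert k (insert l J) := Finset.insert_comm l k J
    show (ksg l J * ksg k (insert l J)) • T l (T k (v (insert k (insert l J)))) +
      (ksg k J * ksg l (insert k J)) • T k (T l (v (insert l (insert k J)))) = 0
    rw [e1, hT k l, ← add_smul, kzb_ksg_anti hl hk (Ne.symm hkl), zero_smul]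
  · rintro ⟨l, k⟩ hx _ h
    simp only [Finset.mem_sigma, Finset.mem_compl, Finset.mem_insert, not_or] at hx
    obtain ⟨hl, hkl, hk⟩ := hx
    have h2 := (Sigma.mk.inj_iff.mp h).1
    exact hkl h2
  · rintro ⟨l, k⟩ hx
    simp only [Finset.mem_sigma, Finset.mem_compl, Finset.mem_insert, not_or] at hx ⊢
    obtain ⟨hl, hkl, hk⟩ := hx
    exact ⟨hk, Ne.symm hkl, hl⟩
  · rintro ⟨l, k⟩ _
    rfl

theorem kz_kmap (T : Fin n → V →ₗ[R] V) (T' : Fin n → W →ₗ[R] W) (f : V →ₗ[R] W)
    (h : ∀ l v, f (T l v) = T' l (f v)) (v : Finset (Fin n) → V) :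
    kmap n f (kz T v) = kz T' (kmap n f v) := by
  funext J
  show f (kz T v J) = kz T' (kmap n f v) J
  rw [kzb_apply, kzb_apply, map_sum]
  refine Finset.sum_congr rfl fun l _ => ?_
  rw [map_zsmul, h]
  rfl

theorem kz_kgr (T : Fin n → V →ₗ[R] V) (i : ℤ) (v : Finset (Fin n) → V)
    (hv : v ∈ kgr R V n (i + 1)) : kz T v ∈ kgr R V n i := by
  intro J hJ
  rw [kzb_apply] at hJ
  obtain ⟨l, hl, h1⟩ := Finset.exists_ne_zero_of_sum_ne_zero hJ
  have h2 : v (insert l J) ≠ 0 := by
    intro h
    apply h1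
    rw [h, map_zero, smul_zero]
  have h3 := hv _ h2
  rw [Finset.card_insert_of_notMem (by simpa using hl)] at h3
  push_cast at h3
  omega

/-- contraction when one of the operators is bijective. -/
theorem kz_exact (T : Fin n → V →ₗ[R] V) (hT : ∀ k l v, T k (T l v) = T l (T k v)) (l : Fin n)
    (hl : Function.Bijective (T l)) (i : ℤ) : kcyc T i ≤ kbd T i := by
  classical
  rintro v ⟨hv1, hv2⟩
  have hv0 : kz T v = 0 := hv2
  set e := LinearEquiv.ofBijective (T l) hl with he
  have hS1 : ∀ x, T l (e.symm x) = x := fun x => e.apply_symm_apply x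
  have hS2 : ∀ x, e.symm (T l x) = x := fun x => e.symm_apply_apply x
  have hS3 : ∀ k x, T k (e.symm x) = e.symm (T k x) := by
    intro k x
    apply hl.1
    rw [hS1, hT l k, hS1]
  set w : Finset (Fin n) → V := fun J =>
    if l ∈ J then ksg l (J.erase l) • e.symm (v (J.erase l)) else 0 with hw
  have hwin : ∀ J, l ∈ J → w J = ksg l (J.erase l) • e.symm (v (J.erase l)) := by
    intro J h
    rw [hw]
    exact if_pos h
  have hwout : ∀ J, l ∉ J → w J = 0 := by
    intro J h
    rw [hw]
    exact if_neg h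
  refine ⟨w, ?_, ?_⟩
  · intro J hJ
    by_cases h : l ∈ J
    · have h2 : v (J.erase l) ≠ 0 := by
        intro h0
        apply hJ
        rw [hwin J h, h0, map_zero, smul_zero]
      have h3 := hv1 _ h2
      rw [Finset.card_erase_of_mem h] at h3
      have h4 : 1 ≤ J.card := Finset.card_pos.mpr ⟨l, h⟩
      omega
    · exact absurd (hwout J h) hJ
  · funext J
    rw [kzb_apply]
    by_cases h : l ∈ J
    · set J' := J.erase l with hJ'
      have hJ'l : l ∉ J' := Finset.notMem_erase l J
      have hJ : insert l J' = J := Finset.insert_erase h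
      have hcyc : kz T v J' = 0 := by rw [hv0]; rfl
      rw [kzb_apply] at hcyc
      have hc : J'ᶜ = insert l Jᶜ := by
        ext k
        simp only [Finset.mem_compl, Finset.mem_insert, hJ', Finset.mem_erase]
        tauto
      have hlc : l ∉ Jᶜ := by simpa using h
      rw [hc, Finset.sum_insert hlc, hJ] at hcyc
      have h1 : ∀ k ∈ Jᶜ, ksg k J • T k (w (insert k J)) =
          -(ksg l J' • e.symm (ksg k J' • T k (v (insert k J')))) := by
        intro k hk
        have hk' : k ∉ J := by simpa using hk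
        have hkl : l ≠ k := fun h0 => hk' (h0 ▸ h)
        have hkJ' : k ∉ J' := fun h0 => hk' (Finset.mem_of_mem_erase h0)
        have e2 : (insert k J).erase l = insert k J' := by
          rw [hJ', Finset.erase_insert_of_ne (Ne.symm hkl)]
        rw [hwin _ (Finset.mem_insert_of_mem h), e2, map_zsmul, hS3, smul_smul, map_zsmul,
          smul_smul, ← neg_smul]
        congr 1
        rw [← hJ]
        exact kzb_ksg_anti' hJ'l hkJ' hkl
      rw [Finset.sum_congr rfl h1, Finset.sum_neg_distrib, ← Finset.smul_sum, ← map_sum,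
        eq_neg_of_add_eq_zero_right hcyc, map_neg, map_zsmul, hS2, smul_neg, neg_neg, smul_smul,
        kzb_ksg_mul_self, one_smul]
    · rw [Finset.sum_eq_single l]
      · rw [hwin _ (Finset.mem_insert_self l J), Finset.erase_insert h, map_zsmul, hS1, smul_smul,
          kzb_ksg_mul_self, one_smul]
      · intro k hk hkl
        have : l ∉ insert k J := by
          simp only [Finset.mem_insert, not_or]
          exact ⟨Ne.symm hkl, h⟩
        rw [hwout _ this, map_zero, smul_zero]
      · intro h0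
        exact absurd (by simpa using h) h0

end KosBasic

end Vale.Agent.P202.Mix
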