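import Mathlib.RingTheory.WittVector.Complete
import Mathlib.RingTheory.WittVector.TeichmullerSeries

/-!
# Witt vector lemmas (P202, mixed characteristic): coefficients of `[a] * x` and the key lemma
-/

namespace P202.Mix

open WittVector

variable {p : ℕ} [hp : Fact (Nat.Prime p)]


theorem tmul_aux1 {R : Type*} (a : MvPolynomial R ℚ) (x : WittVector p (MvPolynomial R ℚ)) :
    teichmuller p a * x = WittVector.mk p (fun n => a ^ p ^ n * x.coeff n) := by
  apply (ghostMap.bijective_of_invertible p (MvPolynomial R ℚ)).1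
  rw [map_mul]
  ext1 n
  simp only [Pi.mul_apply, ghostMap_apply, ghostComponent_teichmuller]
  simp only [ghostComponent_apply, aeval_wittPolynomial, Finset.mul_sum]
  refine Finset.sum_congr rfl fun i hi => ?_
  have hin : i ≤ n := Nat.lt_succ_iff.1 (Finset.mem_range.1 hi)
  simp only [coeff_mk, mul_pow, ← pow_mul]
  rw [← pow_add p i (n - i), Nat.add_sub_cancel' hin]
  ring

theorem tmul_aux2 {R : Type*} (a : MvPolynomial R ℤ) (x : WittVector p (MvPolynomial R ℤ)) :
    teichmuller p a * x = WittVector.mk p (fun n => a ^ p ^ n * x.coeff n) := by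
  refine map_injective (MvPolynomial.map (Int.castRingHom ℚ))
    (MvPolynomial.map_injective _ Int.cast_injective) ?_
  rw [map_mul, map_teichmuller, tmul_aux1]
  ext n
  simp [map_coeff]

theorem teichmuller_mul {R : Type*} [CommRing R] (a : R) (x : WittVector p R) :
    teichmuller p a * x = WittVector.mk p (fun n => a ^ p ^ n * x.coeff n) := by
  obtain ⟨a', rfl⟩ := MvPolynomial.counit_surjective R a
  obtain ⟨x', rfl⟩ := map_surjective _ (MvPolynomial.counit_surjective R) x
  rw [← map_teichmuller, ← map_mul, tmul_aux2]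
  ext n
  simp [map_coeff]

theorem teichmuller_mul_coeff {R : Type*} [CommRing R] (a : R) (x : WittVector p R) (n : ℕ) :
    (teichmuller p a * x).coeff n = a ^ p ^ n * x.coeff n := by
  rw [teichmuller_mul, coeff_mk]


/-- Congruence modulo `p ^ n` is equality of the first `n` coefficients (perfect rings). -/
theorem dvd_sub_iff {C : Type*} [CommRing C] [CharP C p] [PerfectRing C p] (x y : WittVector p C) (n : ℕ) :
    (p : WittVector p C) ^ n ∣ x - y ↔ ∀ i < n, x.coeff i = y.coeff i := by
  rw [← Ideal.mem_span_singleton, mem_span_p_pow_iff_le_coeff_eq_zero,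
    le_coeff_eq_iff_le_sub_coeff_eq_zero]

theorem coeff_eq_of_dvd_sub {C : Type*} [CommRing C] [CharP C p] [PerfectRing C p] {x y : WittVector p C}
    {n : ℕ} (h : (p : WittVector p C) ^ n ∣ x - y) {i : ℕ} (hi : i < n) : x.coeff i = y.coeff i :=
  (dvd_sub_iff x y n).1 h i hi

/-- One step of the key lemma: divisibility of `y` by a further power of `[t]` modulo
`p ^ (I + 1)`. -/
theorem key_step {C : Type*} [CommRing C] [CharP C p] [PerfectRing C p] (t : C) (x y : WittVector p C)
    (I : ℕ) (hI : y.coeff I = 0)
    (hy : (p : WittVector p C) ^ (I + 1) ∣ (p - teichmuller p t) * y - teichmuller p t ^ (I + 1) * x)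
    (m : ℕ) (hm : m ≤ I) (v : WittVector p C) (hv : (p : WittVector p C) ^ (I + 1) ∣ y - teichmuller p t ^ m * v) :
    ∃ v' : WittVector p C, (p : WittVector p C) ^ (I + 1) ∣ y - teichmuller p t ^ (m + 1) * v' := by
  classical
  let u : WittVector p C := v + teichmuller p t ^ (I - m) * x
  have hpy : (p : WittVector p C) ^ (I + 1) ∣ y * p - teichmuller p (t ^ (m + 1)) * u := by
    have h1 : y * p - teichmuller p (t ^ (m + 1)) * u =
        ((p - teichmuller p t) * y - teichmuller p t ^ (I + 1) * x) +
          teichmuller p t * (y - teichmuller p t ^ m * v) := by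
      have h2 : teichmuller p t ^ (I + 1) = teichmuller p t ^ (m + 1) * teichmuller p t ^ (I - m) := by
        rw [← pow_add]; congr 1; omega
      rw [map_pow, h2]; simp only [u]; ring
    rw [h1]
    exact dvd_add hy (Dvd.dvd.mul_left hv _)
  have hc : ∀ k < I, y.coeff k ^ p = t ^ ((m + 1) * p ^ (k + 1)) * u.coeff (k + 1) := by
    intro k hk
    have := coeff_eq_of_dvd_sub hpy (i := k + 1) (by omega)
    rw [mul_charP_coeff_succ, teichmuller_mul_coeff, ← pow_mul] at this
    exact this
  refine ⟨WittVector.mk p (fun k => if k < I then (_root_.frobeniusEquiv C p).symm (u.coeff (k + 1))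
    else 0), ?_⟩
  rw [dvd_sub_iff]
  intro i hi
  rw [← map_pow, teichmuller_mul_coeff, coeff_mk]
  by_cases h : i < I
  · rw [if_pos h]
    apply (_root_.frobeniusEquiv C p).injective
    rw [map_mul, map_pow, map_pow, RingEquiv.apply_symm_apply, _root_.frobeniusEquiv_apply,
      _root_.frobeniusEquiv_apply, frobenius_def, frobenius_def, hc i h]
    congr 1
    rw [← pow_mul, ← pow_mul]
    congr 1
    rw [pow_succ]; ring
  · rw [if_neg h, mul_zero]
    have : i = I := by omega
    rw [this, hI]

/-- KEY LEMMA (T3). -/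
theorem key {C : Type*} [CommRing C] [CharP C p] [PerfectRing C p] (t : C)
    (ht : t ∈ nonZeroDivisors C) (x : WittVector p C) (I : ℕ)
    (h0 : (-(∑ j ∈ Finset.range (I + 1), (p : WittVector p C) ^ j * teichmuller p t ^ (I - j)) * x).coeff I
      = 0) :
    ∃ v w : WittVector p C, x = (p - teichmuller p t) * v + (p : WittVector p C) ^ (I + 1) * w := by
  set y : WittVector p C := -(∑ j ∈ Finset.range (I + 1), (p : WittVector p C) ^ j * teichmuller p t ^ (I - j)) * x
    with hydef
  have hgeom : (∑ j ∈ Finset.range (I + 1), (p : WittVector p C) ^ j * teichmuller p t ^ (I - j)) *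
      ((p : WittVector p C) - teichmuller p t) = (p : WittVector p C) ^ (I + 1) - teichmuller p t ^ (I + 1) := by
    have := Commute.geom_sum₂_mul (Commute.all (p : WittVector p C) (teichmuller p t)) (I + 1)
    simpa using this
  have hy : ((p : WittVector p C) - teichmuller p t) * y - teichmuller p t ^ (I + 1) * x =
      (p : WittVector p C) ^ (I + 1) * (-x) := by
    have : ((p : WittVector p C) - teichmuller p t) * y = -((p : WittVector p C) ^ (I + 1) -
        teichmuller p t ^ (I + 1)) * x := by
      rw [← hgeom, hydef]; ring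
    rw [this]; ring
  have hind : ∀ m ≤ I + 1, ∃ v : WittVector p C, (p : WittVector p C) ^ (I + 1) ∣ y - teichmuller p t ^ m * v := by
    intro m
    induction m with
    | zero => intro _; exact ⟨y, by simp⟩
    | succ m ih =>
      intro hm
      obtain ⟨v, hv⟩ := ih (by omega)
      exact key_step t x y I h0 ⟨-x, hy⟩ m (by omega) v hv
  obtain ⟨v, hv⟩ := hind (I + 1) le_rfl
  have h1 : (p : WittVector p C) ^ (I + 1) ∣ teichmuller p (t ^ (I + 1)) *
      (x - (p - teichmuller p t) * v) - 0 := by
    have h2 : teichmuller p (t ^ (I + 1)) * (x - (p - teichmuller p t) * v) - 0 =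
        ((p : WittVector p C) - teichmuller p t) * (y - teichmuller p t ^ (I + 1) * v) -
        (((p : WittVector p C) - teichmuller p t) * y - teichmuller p t ^ (I + 1) * x) := by
      rw [map_pow]; ring
    rw [h2]
    exact dvd_sub (Dvd.dvd.mul_left hv _) ⟨-x, hy⟩
  have h3 : (p : WittVector p C) ^ (I + 1) ∣ (x - (p - teichmuller p t) * v) - 0 := by
    rw [dvd_sub_iff]
    intro i hi
    have h4 := coeff_eq_of_dvd_sub h1 hi
    rw [teichmuller_mul_coeff, zero_coeff] at h4
    rw [zero_coeff]
    have ht' : (t ^ (I + 1)) ^ p ^ i ∈ nonZeroDivisors C := pow_mem (pow_mem ht _) _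
    exact (mul_left_mem_nonZeroDivisors_eq_zero_iff ht').1 h4
  obtain ⟨w, hw⟩ := h3
  refine ⟨v, w, ?_⟩
  rw [sub_zero] at hw
  rw [← hw]; ring

end P202.Mix
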