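import Vale.Agent.P202.CharP.Defs

/-!
P202-MIX, part GEO (the core inequality for additive lengths): definitions.
-/

namespace Vale.Agent.P202.Mix

open Vale.Agent.P202.CharP
open scoped ENNReal

universe u

/-- additive length functions on the modules over a ring `R`. -/
structure AddLen (R : Type u) [CommRing R] where
  len : ∀ (M : Type u) [AddCommGroup M] [Module R M], ℝ≥0∞
  zero : len PUnit.{u + 1} = 0
  add : ∀ {M N K : Type u} [AddCommGroup M] [Module R M] [AddCommGroup N] [Module R N]
    [AddCommGroup K] [Module R K] (f : M →ₗ[R] N) (g : N →ₗ[R] K),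
    Function.Injective f → Function.Surjective g → Function.Exact f g →
    len N = len M + len K

namespace AddLen

variable {R : Type u} [CommRing R] (L : AddLen R) {M : Type u} [AddCommGroup M] [Module R M]

/-- relative length: the length of `Y / (X ∩ Y)`. -/
noncomputable def rl (X Y : Submodule R M) : ℝ≥0∞ := L.len (↥Y ⧸ X.submoduleOf Y)

/-- length of the homology of `Y / X` in degree `δ`. -/
noncomputable def hh (D : M →ₗ[R] M) (Y X : ℤ → Submodule R M) (δ : ℤ) : ℝ≥0∞ :=
  L.rl (bb D Y X δ) (zz D Y X δ)

/-- length of the cohomology of `Y / X` in degree `p`. -/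
noncomputable def hc (d : M →ₗ[R] M) (Y X : ℤ → Submodule R M) (p : ℤ) : ℝ≥0∞ :=
  L.rl (cb d Y X p) (cz d Y X p)

end AddLen

/-! ### bigraded families -/

section Bi

variable {R : Type u} [CommRing R] {V : Type u} [AddCommGroup V] [Module R V]

/-- total differential of two commuting differentials `d` (raising `p`) and `e` (lowering `i`),
on functions of `i`. -/
def totD (d e : V →ₗ[R] V) : (ℤ → V) →ₗ[R] (ℤ → V) where
  toFun z i := (i.negOnePow : ℤ) • d (z i) + e (z (i + 1))
  map_add' z z' := by
    ext i
    simp only [Pi.add_apply, map_add, smul_add]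
    abel
  map_smul' c z := by
    ext i
    simp only [Pi.smul_apply, map_smul, RingHom.id_apply, smul_add]
    rw [smul_comm]

/-- the part of total degree `δ = i - p` of a bigraded family. -/
def TT (X : ℤ → ℤ → Submodule R V) (δ : ℤ) : Submodule R (ℤ → V) :=
  Submodule.pi Set.univ fun i => X i (i - δ)

/-- stability under the two differentials. -/
structure BStab (d e : V →ₗ[R] V) (X : ℤ → ℤ → Submodule R V) : Prop where
  hd : ∀ i p x, x ∈ X i p → d x ∈ X i (p + 1)
  he : ∀ i p x, x ∈ X i p → e x ∈ X (i - 1) p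

/-- vanishing outside the box `0 ≤ i ≤ n`. -/
def BBox (n : ℕ) (X : ℤ → ℤ → Submodule R V) : Prop :=
  ∀ i p, (i < 0 ∨ (n : ℤ) < i) → X i p = ⊥

end Bi

/-! ### Koszul complexes of commuting operators, indexed by finite sets -/

section Kos

/-- sign of `l` in `J`. -/
def ksg {n : ℕ} (l : Fin n) (J : Finset (Fin n)) : ℤ := (-1) ^ (J.filter (· < l)).card

variable {R : Type u} [CommRing R] {V : Type u} [AddCommGroup V] [Module R V] {n : ℕ}

/-- Koszul differential of the operators `T l`. -/
def kz (T : Fin n → V →ₗ[R] V) : (Finset (Fin n) → V) →ₗ[R] (Finset (Fin n) → V) where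
  toFun v J := ∑ l ∈ Jᶜ, ksg l J • T l (v (insert l J))
  map_add' v w := by
    ext J
    simp [Finset.sum_add_distrib]
  map_smul' c v := by
    ext J
    simp only [Pi.smul_apply, map_smul, RingHom.id_apply, Finset.smul_sum]
    exact Finset.sum_congr rfl fun l _ => smul_comm _ _ _

/-- the degree `i` part of a Koszul complex. -/
def kgr (R : Type u) [CommRing R] (V : Type u) [AddCommGroup V] [Module R V] (n : ℕ) (i : ℤ) :
    Submodule R (Finset (Fin n) → V) where
  carrier := {v | ∀ J, v J ≠ 0 → (J.card : ℤ) = i}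
  add_mem' := by
    intro v w hv hw J h
    by_cases h1 : v J = 0
    · exact hw J (by intro h2; apply h; simp [h1, h2])
    · exact hv J h1
  zero_mem' := by intro J h; exact absurd rfl h
  smul_mem' := by
    intro c v hv J h
    exact hv J (by intro h1; apply h; simp [h1])

/-- Koszul cycles in degree `i`. -/
def kcyc (T : Fin n → V →ₗ[R] V) (i : ℤ) : Submodule R (Finset (Fin n) → V) :=
  kgr R V n i ⊓ LinearMap.ker (kz T)

/-- a linear map acting componentwise. -/
def kmap {W : Type u} [AddCommGroup W] [Module R W] (n : ℕ) (f : V →ₗ[R] W) :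
    (Finset (Fin n) → V) →ₗ[R] (Finset (Fin n) → W) :=
  LinearMap.pi fun J => f ∘ₗ LinearMap.proj J

end Kos

/-! ### representations by integer matrices -/

/-- the action of an integer matrix on functions with values in a module. -/
def za {α β : Type} [Fintype β] (A : Matrix α β ℤ) (R : Type u) [CommRing R] (M : Type u)
    [AddCommGroup M] [Module R M] : (β → M) →ₗ[R] (α → M) where
  toFun f a := ∑ b, A a b • f b
  map_add' f g := by ext a; simp [Finset.sum_add_distrib]
  map_smul' c f := by
    ext a
    simp only [Pi.smul_apply, RingHom.id_apply, Finset.smul_sum]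
    exact Finset.sum_congr rfl fun b _ => smul_comm _ _ _

/-- finitely generated free `ℤ`-modules with `n` endomorphisms, given by integer matrices. -/
structure MRep (n : ℕ) where
  ι : Type
  [fin : Fintype ι]
  [dec : DecidableEq ι]
  X : Fin n → Matrix ι ι ℤ

attribute [instance] MRep.fin MRep.dec

/-- the endomorphisms commute and all their `q`-fold products vanish. -/
structure MRep.IsNil {n : ℕ} (W : MRep n) (q : ℕ) : Prop where
  comm : ∀ k l, W.X k * W.X l = W.X l * W.X k
  nil : ∀ f : Fin q → Fin n, (List.ofFn fun i => W.X (f i)).prod = 0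

/-- surjections (automatically split over `ℤ`). -/
structure MRep.Surj {n : ℕ} (W W' : MRep n) where
  P : Matrix W'.ι W.ι ℤ
  σ : Matrix W.ι W'.ι ℤ
  split : P * σ = 1
  comm : ∀ l, P * W.X l = W'.X l * P

/-- the operators `X_l - x_l` on `W ⊗ Q`. -/
def MRep.T {n : ℕ} (W : MRep n) {R : Type u} [CommRing R] (Q : Type u) [AddCommGroup Q]
    [Module R Q] (x : Fin n → R) (l : Fin n) : (W.ι → Q) →ₗ[R] (W.ι → Q) :=
  za (W.X l) R Q - x l • LinearMap.id

/-- length of the cokernel of the map induced on Koszul cycles. -/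
noncomputable def cokerCyc {n : ℕ} {R : Type u} [CommRing R] (L : AddLen R) (Q : Type u)
    [AddCommGroup Q] [Module R Q] (x : Fin n → R) {W W' : MRep n} (f : W.Surj W') (i : ℤ) :
    ℝ≥0∞ :=
  L.rl ((kcyc (W.T Q x) i).map (kmap n (za f.P R Q))) (kcyc (W'.T Q x) i)

/-- cycles lift up to null modules, for all `q`-nilpotent representations. -/
def CLnull {R : Type u} [CommRing R] (L : AddLen R) (n q : ℕ) (Q : Type u)
    [AddCommGroup Q] [Module R Q] (x : Fin n → R) : Prop :=
  ∀ (W W' : MRep n), W.IsNil q → W'.IsNil q → ∀ (f : W.Surj W') (i : ℤ),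
    cokerCyc L Q x f i = 0

/-! ### complexes of representations -/

/-- cochain complexes of representations (data). -/
structure MCx (n : ℕ) where
  W : ℕ → MRep n
  D : ∀ p, Matrix (W (p + 1)).ι (W p).ι ℤ

/-- the conditions on a complex of representations. -/
structure MCx.IsCx {n : ℕ} (C : MCx n) (q : ℕ) : Prop where
  nil : ∀ p, (C.W p).IsNil q
  dd : ∀ p, C.D (p + 1) * C.D p = 0
  comm : ∀ p l, C.D p * (C.W p).X l = (C.W (p + 1)).X l * C.D p

/-- exactness in degree `p` with arbitrary coefficients. -/
def MCx.ExAt {n : ℕ} (C : MCx n) : ℕ → Prop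
  | 0 => ∀ (M : Type) [AddCommGroup M] (f : (C.W 0).ι → M), za (C.D 0) ℤ M f = 0 → f = 0
  | p + 1 => ∀ (M : Type) [AddCommGroup M] (f : (C.W (p + 1)).ι → M),
      za (C.D (p + 1)) ℤ M f = 0 → ∃ g, za (C.D p) ℤ M g = f

/-- Koszul boundaries in degree `i`. -/
def kbd {R : Type u} [CommRing R] {V : Type u} [AddCommGroup V] [Module R V] {n : ℕ}
    (T : Fin n → V →ₗ[R] V) (i : ℤ) : Submodule R (Finset (Fin n) → V) :=
  (kgr R V n (i + 1)).map (kz T)

end Vale.Agent.P202.Mix
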