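import Vale.Agent.P202.Mix.Lam
import Vale.Agent.P202.Mix.GeoDefs

/-!
P202, mixed characteristic: additive length functions (`AddLen`) from the normalized length.
-/

namespace Vale.Agent.P202.Mix

open Submodule
open scoped ENNReal

universe u v w

/-- A module killed by an ideal `J` of finite colength is locally finite. -/
theorem Tower.lf_of_smul_eq_zero {R0 : Type*} [CommRing R0] (J : Ideal R0)
    (hJ : Module.length R0 (R0 ⧸ J) ≠ ⊤) {N : Type*} [AddCommGroup N] [Module R0 N]
    (h : ∀ a ∈ J, ∀ x : N, a • x = 0) : Tower.LF (R0 := R0) N := by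
  rintro X ⟨s, rfl⟩
  -- a surjection `(R0/J)^s → X`
  let f : (s → R0 ⧸ J) →ₗ[R0] N := ∑ i : s, (J.liftQ (LinearMap.toSpanSingleton R0 N (i : N))
    (fun a ha => by
      rw [LinearMap.mem_ker, LinearMap.toSpanSingleton_apply]
      exact h a ha _)) ∘ₗ LinearMap.proj i
  have hf : ∀ z, f z = ∑ i : s, (J.liftQ (LinearMap.toSpanSingleton R0 N (i : N))
    (fun a ha => by
      rw [LinearMap.mem_ker, LinearMap.toSpanSingleton_apply]
      exact h a ha _)) (z i) := by
    intro z
    simp [f]
  have hle : span R0 (s : Set N) ≤ LinearMap.range f := by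
    classical
    rw [span_le]
    intro x hx
    refine ⟨Pi.single ⟨x, hx⟩ (Ideal.Quotient.mk J 1), ?_⟩
    rw [hf, Finset.sum_eq_single (⟨x, hx⟩ : s)]
    · rw [Pi.single_eq_same]
      exact one_smul R0 x
    · intro b _ hb
      rw [Pi.single_eq_of_ne hb, map_zero]
    · intro h'
      exact absurd (Finset.mem_univ _) h'
  refine ne_top_of_le_ne_top ?_ (len_mono hle)
  refine ne_top_of_le_ne_top ?_ (Module.length_le_of_surjective f.rangeRestrict
    f.surjective_rangeRestrict)
  rw [Module.length_pi_of_fintype, Finset.sum_const, Finset.card_univ, nsmul_eq_mul]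
  obtain ⟨l, hl⟩ := ENat.ne_top_iff_exists.mp hJ
  rw [← hl]
  exact_mod_cast ENat.natCast_ne_top _

section lenR

variable {R0 : Type v} {Ri : Type w} [CommRing R0] [CommRing Ri] [Algebra R0 Ri] {ι : Type*}
  [Preorder ι] (T : Tower R0 Ri ι)

/-- the normalized length of a module over an `Ri`-algebra `R`. -/
noncomputable def Tower.lenR (R : Type*) [CommRing R] [Algebra Ri R] (M : Type*) [AddCommGroup M]
    [Module R M] : ℝ≥0∞ :=
  letI : Module Ri M := Module.compHom M (algebraMap Ri R)
  letI : Module R0 M := Module.compHom M ((algebraMap Ri R).comp (algebraMap R0 Ri))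
  haveI : IsScalarTower R0 Ri M := ⟨fun a b x => by
    change (algebraMap Ri R (a • b)) • x = (algebraMap Ri R (algebraMap R0 Ri a)) •
      ((algebraMap Ri R b) • x)
    rw [smul_smul, ← map_mul, Algebra.smul_def]⟩
  T.lam M

/-- if the modules are already given. -/
theorem Tower.lenR_eq (R : Type*) [CommRing R] [Algebra Ri R] (M : Type*) [AddCommGroup M]
    [Module R M] [Module Ri M] [Module R0 M] [IsScalarTower Ri R M] [IsScalarTower R0 Ri M] :
    T.lenR R M = T.lam M := by
  unfold Tower.lenR
  have h1 : Module.compHom M (algebraMap Ri R) = ‹Module Ri M› := by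
    refine Module.ext' _ _ fun a x => ?_
    change (algebraMap Ri R a) • x = a • x
    rw [algebraMap_smul]
  have h2 : Module.compHom M ((algebraMap Ri R).comp (algebraMap R0 Ri)) = ‹Module R0 M› := by
    refine Module.ext' _ _ fun a x => ?_
    change (algebraMap Ri R (algebraMap R0 Ri a)) • x = a • x
    rw [algebraMap_smul, algebraMap_smul]
  subst h1 h2
  rfl

/-- additivity. -/
theorem Tower.lenR_add [IsDirectedOrder ι] (R : Type*) [CommRing R] [Algebra Ri R] (J : Ideal R0)
    (hJ : Module.length R0 (R0 ⧸ J) ≠ ⊤)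
    (hJR : ∀ a ∈ J, algebraMap Ri R (algebraMap R0 Ri a) = 0)
    {M N K : Type*} [AddCommGroup M] [Module R M] [AddCommGroup N] [Module R N]
    [AddCommGroup K] [Module R K] (f : M →ₗ[R] N) (g : N →ₗ[R] K)
    (hf : Function.Injective f) (hg : Function.Surjective g) (hfg : Function.Exact f g) :
    T.lenR R N = T.lenR R M + T.lenR R K := by
  let _ : Module Ri M := Module.compHom M (algebraMap Ri R)
  let _ : Module R0 M := Module.compHom M ((algebraMap Ri R).comp (algebraMap R0 Ri))
  let _ : Module Ri N := Module.compHom N (algebraMap Ri R)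
  let _ : Module R0 N := Module.compHom N ((algebraMap Ri R).comp (algebraMap R0 Ri))
  let _ : Module Ri K := Module.compHom K (algebraMap Ri R)
  let _ : Module R0 K := Module.compHom K ((algebraMap Ri R).comp (algebraMap R0 Ri))
  have sM : IsScalarTower Ri R M := ⟨fun a b x => by
    change (a • b) • x = (algebraMap Ri R a) • (b • x)
    rw [smul_smul, Algebra.smul_def]⟩
  have sN : IsScalarTower Ri R N := ⟨fun a b x => by
    change (a • b) • x = (algebraMap Ri R a) • (b • x)
    rw [smul_smul, Algebra.smul_def]⟩
  have sK : IsScalarTower Ri R K := ⟨fun a b x => by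
    change (a • b) • x = (algebraMap Ri R a) • (b • x)
    rw [smul_smul, Algebra.smul_def]⟩
  have tM : IsScalarTower R0 Ri M := ⟨fun a b x => by
    change (algebraMap Ri R (a • b)) • x = (algebraMap Ri R (algebraMap R0 Ri a)) •
      ((algebraMap Ri R b) • x)
    rw [smul_smul, ← map_mul, Algebra.smul_def]⟩
  have tN : IsScalarTower R0 Ri N := ⟨fun a b x => by
    change (algebraMap Ri R (a • b)) • x = (algebraMap Ri R (algebraMap R0 Ri a)) •
      ((algebraMap Ri R b) • x)
    rw [smul_smul, ← map_mul, Algebra.smul_def]⟩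
  have tK : IsScalarTower R0 Ri K := ⟨fun a b x => by
    change (algebraMap Ri R (a • b)) • x = (algebraMap Ri R (algebraMap R0 Ri a)) •
      ((algebraMap Ri R b) • x)
    rw [smul_smul, ← map_mul, Algebra.smul_def]⟩
  rw [T.lenR_eq R M, T.lenR_eq R N, T.lenR_eq R K]
  refine T.lam_eq_add (Tower.lf_of_smul_eq_zero J hJ fun a ha x => ?_)
    (f := f.restrictScalars Ri) (g := g.restrictScalars Ri) hf hg hfg
  change (algebraMap Ri R (algebraMap R0 Ri a)) • x = 0
  rw [hJR a ha, zero_smul]

theorem Tower.lenR_subsingleton (R : Type*) [CommRing R] [Algebra Ri R] (M : Type*)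
    [AddCommGroup M] [Module R M] [Nonempty ι] [Subsingleton M] : T.lenR R M = 0 := by
  unfold Tower.lenR
  refine le_antisymm ?_ bot_le
  refine @Tower.lam_le R0 Ri _ _ _ ι _ T M _ (_) (_) (_) 0 fun X _ => ?_
  refine (@Tower.lamX_le_nlen R0 Ri _ _ _ ι _ T M _ (_) (_) (_) (Classical.arbitrary ι) X).trans ?_
  rw [Tower.nlen, Tower.len, Module.length_eq_zero]
  simp

/-- the additive length function on the modules over an `Ri`-algebra `R` in which an ideal of
`R0` of finite colength becomes zero. -/
noncomputable def Tower.addLen [IsDirectedOrder ι] [Nonempty ι] (R : Type u) [CommRing R]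
    [Algebra Ri R] (J : Ideal R0) (hJ : Module.length R0 (R0 ⧸ J) ≠ ⊤)
    (hJR : ∀ a ∈ J, algebraMap Ri R (algebraMap R0 Ri a) = 0) : AddLen R where
  len M _ _ := T.lenR R M
  zero := T.lenR_subsingleton R PUnit
  add f g hf hg hfg := T.lenR_add R J hJ hJR f g hf hg hfg

end lenR

section comap

/-- restriction of an additive length along a ring homomorphism: the length of
`R'`-modules after restriction of scalars along `φ : R → R'`. -/
noncomputable def AddLen.restrict {R R' : Type u} [CommRing R] [CommRing R'] (L : AddLen R)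
    (φ : R →+* R') : AddLen R' where
  len M _ _ := letI := Module.compHom M φ; L.len M
  zero := by
    have : Module.compHom PUnit.{u+1} φ = (inferInstance : Module R PUnit.{u+1}) :=
      Module.ext' _ _ fun a x => rfl
    rw [this]
    exact L.zero
  add {M N K} _ _ _ _ _ _ f g hf hg hfg := by
    let _ := Module.compHom M φ
    let _ := Module.compHom N φ
    let _ := Module.compHom K φ
    let f' : M →ₗ[R] N := { f with map_smul' := fun a x => map_smul f (φ a) x }
    let g' : N →ₗ[R] K := { g with map_smul' := fun a x => map_smul g (φ a) x }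
    exact L.add f' g' hf hg hfg

end comap

end Vale.Agent.P202.Mix
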