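import Mathlib

/-!
P202, mixed characteristic: the ring `B = W(C)/(p - [t])` attached to a perfect ring `C` of
characteristic `p` and an element `t`, roots, the base rings.
-/

namespace Vale.Agent.P202.Mix

open Polynomial

universe u

section

variable (p : ℕ) [Fact p.Prime]

/-- the ring `W(C)/(p - [t])`. -/
def Bt (C : Type u) [CommRing C] (t : C) : Type u :=
  WittVector p C ⧸ Ideal.span {(p : WittVector p C) - WittVector.teichmuller p t}

variable (C : Type u) [CommRing C] (t : C)

noncomputable instance : CommRing (Bt p C t) :=
  inferInstanceAs (CommRing (WittVector p C ⧸ _))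

/-- the projection `W(C) → B`. -/
noncomputable def toB : WittVector p C →+* Bt p C t := Ideal.Quotient.mk _

/-- the class of the Teichmueller representative. -/
noncomputable def te (c : C) : Bt p C t := toB p C t (WittVector.teichmuller p c)

variable {C} in
/-- the `p^e`-th root in a perfect ring. -/
noncomputable def rt [CharP C p] [PerfectRing C p] (e : ℕ) (c : C) : C :=
  (iterateFrobeniusEquiv C p e).symm c

/-- the ring `k[[t, u_1, .., u_r]]`. -/
abbrev R0 (k : Type u) [Field k] (r : ℕ) : Type u := MvPowerSeries (Fin (r + 1)) k

/-- the ring `W(k)[[u_1, .., u_r]]`. -/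
abbrev La (k : Type u) [Field k] (r : ℕ) : Type u := MvPowerSeries (Fin r) (WittVector p k)

end

section

variable (p : ℕ) [Fact p.Prime] (k : Type u) [Field k] [CharP k p] (r : ℕ)

instance : CharP (R0 k r) p :=
  charP_of_injective_ringHom (f := (MvPowerSeries.C : k →+* R0 k r))
    (MvPowerSeries.C_injective) p

/-- the perfection of `k[[t, u_1, .., u_r]]`. -/
abbrev Rp : Type u := PerfectClosure (R0 k r) p

/-- the variables `t = x_0`, `u_i = x_i` in the perfection. -/
noncomputable def xp (i : Fin (r + 1)) : Rp p k r :=
  PerfectClosure.of (R0 k r) p (MvPowerSeries.X i)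

end

end Vale.Agent.P202.Mix
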