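import Vale.Agent.P202.Mix.Defs
import Vale.Agent.P202.CharZero.MM

/-!
P202 MIX, task M3: the homomorphism `W(k)[[u_1, .., u_r]] → W(k[[t, u_1, .., u_r]])`.
-/

namespace Vale.Agent.P202.Mix

open MvPowerSeries
open Vale.Agent.P202.CZ

universe u

section M3
variable (p : ℕ) [Fact p.Prime] (k : Type u) [Field k] (r : ℕ)

/-- the maximal ideal of `k[[t, u_1, .., u_r]]`. -/
noncomputable abbrev p0m : Ideal (R0 k r) := Ideal.span (Set.range X)

/-- the truncations of `k[[t, u_1, .., u_r]]`. -/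
abbrev p0Q (n : ℕ) : Type u := R0 k r ⧸ (p0m k r) ^ n

/-- constants. -/
noncomputable def p0tau (n : ℕ) : WittVector p k →+* WittVector p (p0Q k r n) :=
  WittVector.map ((Ideal.Quotient.mk ((p0m k r) ^ n)).comp C)

/-- variables. -/
noncomputable def p0x (n : ℕ) (i : Fin r) : WittVector p (p0Q k r n) :=
  WittVector.teichmuller p (Ideal.Quotient.mk ((p0m k r) ^ n) (X i.succ))

theorem p0_prod (n : ℕ) (d : Fin r →₀ ℕ) (hd : n ≤ d.degree) :
    ∏ i, p0x p k r n i ^ d i = 0 := by
  have h1 : ∏ i, p0x p k r n i ^ d i = WittVector.teichmuller p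
      (Ideal.Quotient.mk ((p0m k r) ^ n) (∏ i, (X i.succ : R0 k r) ^ d i)) := by
    simp only [map_prod, map_pow, p0x]
  rw [h1]
  have h2 : (∏ i, (X i.succ : R0 k r) ^ d i) ∈ (p0m k r) ^ n := by
    have h3 : (∏ i, (X i.succ : R0 k r) ^ d i) ∈ ∏ i : Fin r, (p0m k r) ^ d i :=
      Ideal.prod_mem_prod fun i _ => Ideal.pow_mem_pow
        (Ideal.subset_span (Set.mem_range_self i.succ)) _
    rw [Finset.prod_pow_eq_pow_sum, ← Finsupp.degree_eq_sum] at h3
    exact Ideal.pow_le_pow_right hd h3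
  rw [Ideal.Quotient.eq_zero_iff_mem.2 h2, WittVector.teichmuller_zero]

theorem p0_eval_zero (n : ℕ) {q : MvPolynomial (Fin r) (WittVector p k)}
    (hq : q ∈ MvPolynomial.idealOfVars (Fin r) (WittVector p k) ^ n) :
    MvPolynomial.eval₂Hom (p0tau p k r n) (p0x p k r n) q = 0 := by
  rw [MvPolynomial.mem_pow_idealOfVars_iff] at hq
  rw [MvPolynomial.coe_eval₂Hom, MvPolynomial.eval₂_eq']
  refine Finset.sum_eq_zero fun d hd => ?_
  rw [p0_prod p k r n d (hq d hd), mul_zero]

/-- the truncated homomorphisms. -/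
noncomputable def p0phi (n : ℕ) : La p k r →+* WittVector p (p0Q k r n) :=
  (Ideal.Quotient.lift (MvPolynomial.idealOfVars (Fin r) (WittVector p k) ^ n)
    (MvPolynomial.eval₂Hom (p0tau p k r n) (p0x p k r n))
    (fun _ hq => p0_eval_zero p k r n hq)).comp
      (truncTotalAlgHom (Fin r) (WittVector p k) n).toRingHom

theorem p0phi_apply (n : ℕ) (f : La p k r) :
    p0phi p k r n f =
      MvPolynomial.eval₂Hom (p0tau p k r n) (p0x p k r n) (f.truncTotal n) := rfl

theorem p0phi_coe (n : ℕ) (q : MvPolynomial (Fin r) (WittVector p k)) :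
    p0phi p k r n (q : La p k r) =
      MvPolynomial.eval₂Hom (p0tau p k r n) (p0x p k r n) q := by
  have h := (truncTotalAlgHom (Fin r) (WittVector p k) n).commutes q
  have h2 : p0phi p k r n (q : La p k r) =
      (Ideal.Quotient.lift (MvPolynomial.idealOfVars (Fin r) (WittVector p k) ^ n)
    (MvPolynomial.eval₂Hom (p0tau p k r n) (p0x p k r n))
    (fun _ hq => p0_eval_zero p k r n hq))
      (truncTotalAlgHom (Fin r) (WittVector p k) n (algebraMap (MvPolynomial (Fin r)
        (WittVector p k)) (MvPowerSeries (Fin r) (WittVector p k)) q)) := rfl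
  rw [h2, h]
  rfl

theorem p0phi_map {m n : ℕ} (hle : m ≤ n) (f : La p k r) :
    WittVector.map (Ideal.Quotient.factorPow (p0m k r) hle) (p0phi p k r n f) =
      p0phi p k r m f := by
  have h1 : (WittVector.map (Ideal.Quotient.factorPow (p0m k r) hle)).comp
      (MvPolynomial.eval₂Hom (p0tau p k r n) (p0x p k r n)) =
      MvPolynomial.eval₂Hom (p0tau p k r m) (p0x p k r m) := by
    refine MvPolynomial.ringHom_ext (fun a => ?_) (fun i => ?_)
    · rw [RingHom.comp_apply, MvPolynomial.eval₂Hom_C, MvPolynomial.eval₂Hom_C]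
      ext j
      simp only [p0tau, WittVector.map_coeff, RingHom.comp_apply]
      rfl
    · rw [RingHom.comp_apply, MvPolynomial.eval₂Hom_X', MvPolynomial.eval₂Hom_X', p0x, p0x,
        WittVector.map_teichmuller]
      rfl
  rw [p0phi_apply, ← RingHom.comp_apply, h1, p0phi_apply, ← sub_eq_zero, ← map_sub]
  exact p0_eval_zero p k r m (truncTotal_sub_truncTotal_mem_pow_idealOfVars hle (le_refl _) _)

theorem p0_ext {f g : R0 k r}
    (h : ∀ n, Ideal.Quotient.mk ((p0m k r) ^ n) f = Ideal.Quotient.mk ((p0m k r) ^ n) g) :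
    f = g := by
  ext d
  have h1 := h (d.degree + 1)
  rw [Ideal.Quotient.eq, mem_pow_iff] at h1
  have h2 := h1 d (Nat.lt_succ_self _)
  rwa [map_sub, sub_eq_zero] at h2

theorem p0_extW {f g : WittVector p (R0 k r)}
    (h : ∀ n, WittVector.map (Ideal.Quotient.mk ((p0m k r) ^ n)) f =
      WittVector.map (Ideal.Quotient.mk ((p0m k r) ^ n)) g) : f = g := by
  ext1 i
  refine p0_ext k r fun n => ?_
  have h1 := congrArg (fun w => WittVector.coeff w i) (h n)
  simpa only [WittVector.map_coeff] using h1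

theorem p0_exists (f : La p k r) (i : ℕ) : ∃ L : R0 k r, ∀ n,
    Ideal.Quotient.mk ((p0m k r) ^ n) L = (p0phi p k r n f).coeff i := by
  have h1 : ∀ n, ∃ a : R0 k r,
      Ideal.Quotient.mk ((p0m k r) ^ n) a = (p0phi p k r n f).coeff i :=
    fun n => Ideal.Quotient.mk_surjective _
  choose a ha using h1
  obtain ⟨L, hL⟩ : ∃ L : R0 k r, ∀ d, coeff d L = coeff d (a (d.degree + 1)) :=
    ⟨fun d => coeff d (a (d.degree + 1)), fun d => rfl⟩
  refine ⟨L, fun n => ?_⟩
  rw [← ha n, Ideal.Quotient.eq, mem_pow_iff]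
  intro d hd
  rw [map_sub, hL]
  have h2 : a n - a (d.degree + 1) ∈ (p0m k r) ^ (d.degree + 1) := by
    rw [← Ideal.Quotient.eq, ha (d.degree + 1), ← p0phi_map p k r hd f, WittVector.map_coeff,
      ← ha n]
    rfl
  rw [mem_pow_iff] at h2
  have h3 := h2 d (Nat.lt_succ_self _)
  rw [map_sub, sub_eq_zero] at h3
  rw [h3]
  exact sub_self _

/-- the homomorphism. -/
theorem p0_hom : ∃ ψ : La p k r →+* WittVector p (R0 k r), ∀ n f,
    WittVector.map (Ideal.Quotient.mk ((p0m k r) ^ n)) (ψ f) = p0phi p k r n f := by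
  choose L hL using p0_exists p k r
  have key : ∀ n f, WittVector.map (Ideal.Quotient.mk ((p0m k r) ^ n))
      (WittVector.mk p (L f)) = p0phi p k r n f := by
    intro n f
    ext i
    rw [WittVector.map_coeff]
    exact hL f i n
  refine ⟨{ toFun := fun f => WittVector.mk p (L f), map_one' := ?_, map_mul' := ?_,
            map_zero' := ?_, map_add' := ?_ }, key⟩
  · exact p0_extW p k r fun n => by rw [key, map_one, map_one]
  · exact fun f g => p0_extW p k r fun n => by rw [key, map_mul, map_mul, key, key]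
  · exact p0_extW p k r fun n => by rw [key, map_zero, map_zero]
  · exact fun f g => p0_extW p k r fun n => by rw [key, map_add, map_add, key, key]

theorem p0_coeff_zero {ψ : La p k r →+* WittVector p (R0 k r)}
    (hψ : ∀ n f, WittVector.map (Ideal.Quotient.mk ((p0m k r) ^ n)) (ψ f) = p0phi p k r n f)
    (f : La p k r) (n : ℕ) :
    Ideal.Quotient.mk ((p0m k r) ^ n) ((ψ f).coeff 0) = Ideal.Quotient.mk ((p0m k r) ^ n)
      ((MvPolynomial.rename Fin.succ (MvPolynomial.map (WittVector.constantCoeff (p := p))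
        (f.truncTotal n)) : MvPolynomial (Fin (r + 1)) k) : R0 k r) := by
  have h1 : ((WittVector.constantCoeff (p := p)).comp
      (MvPolynomial.eval₂Hom (p0tau p k r n) (p0x p k r n))) =
      (Ideal.Quotient.mk ((p0m k r) ^ n)).comp ((MvPolynomial.coeToMvPowerSeries.ringHom).comp
        ((MvPolynomial.rename (R := k) (Fin.succ (n := r))).toRingHom.comp
          (MvPolynomial.map (WittVector.constantCoeff (p := p))))) := by
    refine MvPolynomial.ringHom_ext (fun a => ?_) (fun i => ?_)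
    · simp only [RingHom.comp_apply, MvPolynomial.eval₂Hom_C, MvPolynomial.map_C, p0tau,
        WittVector.constantCoeff_apply, WittVector.map_coeff, AlgHom.toRingHom_eq_coe,
        RingHom.coe_coe, MvPolynomial.rename_C, MvPolynomial.coeToMvPowerSeries.ringHom_apply,
        MvPolynomial.coe_C]
    · simp only [RingHom.comp_apply, MvPolynomial.eval₂Hom_X', MvPolynomial.map_X, p0x,
        WittVector.constantCoeff_apply, WittVector.teichmuller_coeff_zero,
        AlgHom.toRingHom_eq_coe,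
        RingHom.coe_coe, MvPolynomial.rename_X, MvPolynomial.coeToMvPowerSeries.ringHom_apply,
        MvPolynomial.coe_X]
  have h2 := congrArg (fun w => WittVector.coeff w 0) (hψ n f)
  simp only [WittVector.map_coeff] at h2
  rw [h2, p0phi_apply]
  exact congr($h1 (f.truncTotal n))

theorem p0_degree (β : Fin r →₀ ℕ) : (β.mapDomain Fin.succ).degree = β.degree := by
  rw [Finsupp.degree_eq_sum, Finsupp.degree_eq_sum, Fin.sum_univ_succ,
    Finsupp.mapDomain_of_notMem_range _ _ (by
      rintro ⟨i, hi⟩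
      exact Fin.succ_ne_zero i hi), zero_add]
  exact Finset.sum_congr rfl fun i _ => Finsupp.mapDomain_apply (Fin.succ_injective r) _ _

theorem p0_coeff {ψ : La p k r →+* WittVector p (R0 k r)}
    (hψ : ∀ n f, WittVector.map (Ideal.Quotient.mk ((p0m k r) ^ n)) (ψ f) = p0phi p k r n f)
    (f : La p k r) (β : Fin r →₀ ℕ) :
    coeff (β.mapDomain Fin.succ) ((ψ f).coeff 0) = (coeff β f).coeff 0 := by
  have h1 := p0_coeff_zero p k r hψ f (β.degree + 1)
  rw [Ideal.Quotient.eq, mem_pow_iff] at h1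
  have h2 := h1 (β.mapDomain Fin.succ) (by rw [p0_degree]; exact Nat.lt_succ_self _)
  rw [map_sub, sub_eq_zero, MvPolynomial.coeff_coe,
    MvPolynomial.coeff_rename_mapDomain _ (Fin.succ_injective r), MvPolynomial.coeff_map,
    coeff_truncTotal _ (Nat.lt_succ_self _)] at h2
  exact h2

theorem p0_mapDomain (α : Fin (r + 1) →₀ ℕ) (h : α 0 = 0) :
    ∃ β : Fin r →₀ ℕ, β.mapDomain Fin.succ = α := by
  refine ⟨Finsupp.tail α, ?_⟩
  ext i
  refine Fin.cases ?_ (fun i => ?_) i
  · rw [Finsupp.mapDomain_of_notMem_range _ _ (by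
      rintro ⟨i, hi⟩
      exact Fin.succ_ne_zero i hi), h]
  · rw [Finsupp.mapDomain_apply (Fin.succ_injective r), Finsupp.tail_apply]

end M3

section M3
variable (p : ℕ) [Fact p.Prime] (k : Type u) [Field k] [CharP k p] [PerfectRing k p] (r : ℕ)

/-- TASK M3: the homomorphism `W(k)[[u_1, .., u_r]] → W(k[[t, u_1, .., u_r]])`, `u_i ↦ [u_i]`. -/
theorem exists_psi0 : ∃ ψ : La p k r →+* WittVector p (R0 k r),
    (∀ i, ψ (MvPowerSeries.X i) = WittVector.teichmuller p (MvPowerSeries.X i.succ)) ∧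
    (∀ a, ψ (MvPowerSeries.C a) = WittVector.map MvPowerSeries.C a) ∧
    (∀ f, (ψ f).coeff 0 ∈ Ideal.span {(MvPowerSeries.X 0 : R0 k r)} →
      f ∈ Ideal.span {(p : La p k r)}) ∧
    ∀ g : R0 k r, ∃ f : La p k r, g - (ψ f).coeff 0 ∈ Ideal.span {(MvPowerSeries.X 0 : R0 k r)} := by
  obtain ⟨ψ, hψ⟩ := p0_hom p k r
  refine ⟨ψ, fun i => ?_, fun a => ?_, fun f hf => ?_, fun g => ?_⟩
  · refine p0_extW p k r fun n => ?_
    have h1 : (X i : La p k r) = ((MvPolynomial.X i : MvPolynomial (Fin r) (WittVector p k)) :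
        La p k r) := (MvPolynomial.coe_X i).symm
    rw [hψ, h1, p0phi_coe, MvPolynomial.eval₂Hom_X', WittVector.map_teichmuller]
    rfl
  · refine p0_extW p k r fun n => ?_
    have h1 : (C a : La p k r) = ((MvPolynomial.C a : MvPolynomial (Fin r) (WittVector p k)) :
        La p k r) := (MvPolynomial.coe_C a).symm
    rw [hψ, h1, p0phi_coe, MvPolynomial.eval₂Hom_C]
    ext j
    simp only [p0tau, WittVector.map_coeff, RingHom.comp_apply]
  · rw [Ideal.mem_span_singleton, X_dvd_iff] at hf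
    have h1 : ∀ β, ∃ c : WittVector p k, coeff β f = p * c := by
      intro β
      have h2 := hf (β.mapDomain Fin.succ) (Finsupp.mapDomain_of_notMem_range _ _ (by
        rintro ⟨i, hi⟩
        exact Fin.succ_ne_zero i hi))
      rw [p0_coeff p k r hψ, ← WittVector.mem_span_p_iff_coeff_zero_eq_zero,
        Ideal.mem_span_singleton] at h2
      exact h2
    choose c hc using h1
    obtain ⟨c', hc'⟩ : ∃ c' : La p k r, ∀ β, coeff β c' = c β := ⟨fun β => c β, fun β => rfl⟩
    rw [Ideal.mem_span_singleton]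
    refine ⟨c', ?_⟩
    ext1 β
    have h3 : (p : La p k r) = C (p : WittVector p k) := (map_natCast C p).symm
    rw [hc, h3, coeff_C_mul, hc']
  · obtain ⟨f, hf⟩ : ∃ f : La p k r, ∀ β, coeff β f =
        WittVector.teichmuller p (coeff (β.mapDomain Fin.succ) g) := ⟨fun β => _, fun β => rfl⟩
    refine ⟨f, ?_⟩
    rw [Ideal.mem_span_singleton, X_dvd_iff]
    intro α hα
    obtain ⟨β, rfl⟩ := p0_mapDomain r α hα
    rw [map_sub, p0_coeff p k r hψ, hf, WittVector.teichmuller_coeff_zero, sub_self]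

end M3

end Vale.Agent.P202.Mix
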