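import Vale.Agent.P202.Mix.Defs2
import Vale.Agent.P202.Mix.Psi0
import Vale.Agent.P202.CharP.ArbK.FlatPS

/-!
P202 MIX, task M3b: the base `Λ = Cr[[u]]`, `Cr` a Cohen ring with a homomorphism to `W(k)`.
-/

namespace Vale.Agent.P202.Mix

open IsLocalRing
open scoped Pointwise

universe u

section Reg

variable (k : Type u) [Field k] (r : ℕ)

/-- the variables `u_1, .., u_r` form a regular sequence in `k[[t, u]]/t`. -/
theorem ibc_regular : RingTheory.Sequence.IsWeaklyRegular
    (R0 k r ⧸ Ideal.span {(MvPowerSeries.X 0 : R0 k r)})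
    (List.ofFn fun i : Fin r =>
      Ideal.Quotient.mk (Ideal.span {(MvPowerSeries.X 0 : R0 k r)}) (MvPowerSeries.X i.succ)) := by
  have h := CharP.ArbK.isWeaklyRegular_X_pow k (r + 1) 1 le_rfl
  simp only [pow_one] at h
  rw [List.ofFn_succ, RingTheory.Sequence.isWeaklyRegular_cons_iff] at h
  have e0 : (MvPowerSeries.X 0 : R0 k r) • (⊤ : Submodule (R0 k r) (R0 k r)) =
      Ideal.span {(MvPowerSeries.X 0 : R0 k r)} := by
    rw [← Submodule.ideal_span_singleton_smul, smul_eq_mul, Ideal.mul_top]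
  have h2 := (LinearEquiv.isWeaklyRegular_congr (Submodule.quotEquivOfEq _ _ e0) _).1 h.2
  have h3 := (RingTheory.Sequence.isWeaklyRegular_map_algebraMap_iff
    (R0 k r ⧸ Ideal.span {(MvPowerSeries.X 0 : R0 k r)})
    (R0 k r ⧸ Ideal.span {(MvPowerSeries.X 0 : R0 k r)}) _).2 h2
  rw [List.map_ofFn] at h3
  exact h3

theorem ibc_max : maximalIdeal (R0 k r) = Ideal.span (Set.range MvPowerSeries.X) :=
  CZ.maximalIdeal_eq

theorem ibc_X_mem (i : Fin (r + 1)) : (MvPowerSeries.X i : R0 k r) ∈ maximalIdeal (R0 k r) := by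
  rw [ibc_max]
  exact Ideal.subset_span ⟨i, rfl⟩

theorem ibc_local : IsLocalRing (R0 k r ⧸ Ideal.span {(MvPowerSeries.X 0 : R0 k r)}) := by
  have hne : Ideal.span {(MvPowerSeries.X 0 : R0 k r)} ≠ ⊤ := by
    intro h
    have h1 : Ideal.span {(MvPowerSeries.X 0 : R0 k r)} ≤ maximalIdeal (R0 k r) := by
      rw [Ideal.span_singleton_le_iff_mem]
      exact ibc_X_mem k r 0
    rw [h, top_le_iff] at h1
    exact (maximalIdeal.isMaximal (R0 k r)).ne_top h1
  have : Nontrivial (R0 k r ⧸ Ideal.span {(MvPowerSeries.X 0 : R0 k r)}) :=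
    Ideal.Quotient.nontrivial_iff.2 hne
  exact IsLocalRing.of_surjective' (Ideal.Quotient.mk _) Ideal.Quotient.mk_surjective

end Reg

/-- reduction of the coefficients modulo the maximal ideal `(p)`: kernel. -/
theorem ibc_ker (p : ℕ) (r : ℕ) {Cr : Type u} [CommRing Cr] [IsLocalRing Cr]
    (hCr : maximalIdeal Cr = Ideal.span {(p : Cr)}) :
    RingHom.ker (MvPowerSeries.map (σ := Fin r) (residue Cr)) =
      Ideal.span {(p : MvPowerSeries (Fin r) Cr)} := by
  ext f
  rw [RingHom.mem_ker, Ideal.mem_span_singleton]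
  constructor
  · intro hf
    have h1 : ∀ β, ∃ c : Cr, MvPowerSeries.coeff β f = p * c := by
      intro β
      have h2 := congrArg (MvPowerSeries.coeff β) hf
      rw [MvPowerSeries.coeff_map, map_zero, residue_eq_zero_iff, hCr,
        Ideal.mem_span_singleton] at h2
      exact h2
    choose c hc using h1
    obtain ⟨c', hc'⟩ : ∃ c' : MvPowerSeries (Fin r) Cr, ∀ β, MvPowerSeries.coeff β c' = c β :=
      ⟨fun β => c β, fun β => rfl⟩
    refine ⟨c', ?_⟩
    ext β
    have h3 : (p : MvPowerSeries (Fin r) Cr) = MvPowerSeries.C (p : Cr) := (map_natCast _ _).symm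
    rw [h3, MvPowerSeries.coeff_C_mul, hc', hc]
  · rintro ⟨g, rfl⟩
    have h4 : residue Cr (p : Cr) = 0 := by
      rw [residue_eq_zero_iff, hCr]
      exact Ideal.subset_span rfl
    rw [map_mul, map_natCast, ← map_natCast (MvPowerSeries.C (σ := Fin r) (R := ResidueField Cr)),
      ← map_natCast (residue Cr), h4, map_zero, zero_mul]

/-- a homomorphism `Cr[[u]]/p → k[[t, u]]/t` with `u_i ↦ u_i` is flat. -/
theorem ibc_flat (p : ℕ) (k : Type u) [Field k] (r : ℕ) {Cr : Type u} [CommRing Cr]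
    [IsLocalRing Cr] (hCr : maximalIdeal Cr = Ideal.span {(p : Cr)})
    (F : (MvPowerSeries (Fin r) Cr ⧸ Ideal.span {(p : MvPowerSeries (Fin r) Cr)}) →+*
      R0 k r ⧸ Ideal.span {(MvPowerSeries.X 0 : R0 k r)})
    (hF : ∀ i : Fin r, F (Ideal.Quotient.mk _ (MvPowerSeries.X i)) =
      Ideal.Quotient.mk _ (MvPowerSeries.X i.succ)) : F.Flat := by
  have hloc := ibc_local k r
  have hsurj : Function.Surjective (MvPowerSeries.map (σ := Fin r) (residue Cr)) := by
    intro f
    choose g hg using fun β => residue_surjective (R := Cr) (MvPowerSeries.coeff β f)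
    obtain ⟨g', hg'⟩ : ∃ g' : MvPowerSeries (Fin r) Cr, ∀ β, MvPowerSeries.coeff β g' = g β :=
      ⟨fun β => g β, fun β => rfl⟩
    refine ⟨g', ?_⟩
    ext β
    rw [MvPowerSeries.coeff_map, hg']
    exact hg β
  let q : (MvPowerSeries (Fin r) Cr ⧸ Ideal.span {(p : MvPowerSeries (Fin r) Cr)}) ≃+*
      MvPowerSeries (Fin r) (ResidueField Cr) :=
    (Ideal.quotEquivOfEq (ibc_ker p r hCr).symm).trans
      (RingHom.quotientKerEquivOfSurjective hsurj)
  have hq : ∀ f, q (Ideal.Quotient.mk _ f) = MvPowerSeries.map (residue Cr) f := fun f => rfl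
  let G : MvPowerSeries (Fin r) (ResidueField Cr) →+*
      R0 k r ⧸ Ideal.span {(MvPowerSeries.X 0 : R0 k r)} := F.comp q.symm.toRingHom
  have hG : ∀ i, G (MvPowerSeries.X i) = Ideal.Quotient.mk _ (MvPowerSeries.X i.succ) := by
    intro i
    have h1 : q.symm (MvPowerSeries.X i) = Ideal.Quotient.mk _ (MvPowerSeries.X i) := by
      rw [RingEquiv.symm_apply_eq, hq, MvPowerSeries.map_X]
    change F (q.symm (MvPowerSeries.X i)) = _
    rw [h1, hF]
  have hGf : G.Flat := by
    algebraize [G]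
    have hX : ∀ i : Fin r, algebraMap (MvPowerSeries (Fin r) (ResidueField Cr))
        (R0 k r ⧸ Ideal.span {(MvPowerSeries.X 0 : R0 k r)}) (MvPowerSeries.X i) =
        Ideal.Quotient.mk _ (MvPowerSeries.X i.succ) := hG
    refine CharP.ArbK.flat_of_regular_powerSeries (fun i => ?_) ?_
    · rw [hX, mem_maximalIdeal, mem_nonunits_iff]
      intro hu
      have h2 : IsUnit (MvPowerSeries.X i.succ : R0 k r) := by
        have : IsLocalHom (Ideal.Quotient.mk (Ideal.span {(MvPowerSeries.X 0 : R0 k r)})) :=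
          IsLocalHom.of_surjective _ Ideal.Quotient.mk_surjective
        exact isUnit_of_map_unit _ _ hu
      exact (mem_nonunits_iff.1 ((mem_maximalIdeal _).1 (ibc_X_mem k r i.succ))) h2
    · simp only [hX]
      exact ibc_regular k r
  have hFG : F = G.comp (q : _ →+* MvPowerSeries (Fin r) (ResidueField Cr)) := by
    ext x
    change F _ = F (q.symm (q _))
    rw [RingEquiv.symm_apply_apply]
  rw [hFG]
  exact RingHom.Flat.comp (RingHom.Flat.of_bijective q.bijective) hGf

/-- TASK M3b: the base attached to a Cohen ring `Cr` with a homomorphism to `W(k)`, `k` perfect. -/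
theorem exists_isBase (p : ℕ) [Fact p.Prime] (k : Type u) [Field k] [CharP k p] [PerfectRing k p]
    (r : ℕ) {Cr : Type u} [CommRing Cr] [IsLocalRing Cr]
    (hCr : maximalIdeal Cr = Ideal.span {(p : Cr)}) (κ : Cr →+* WittVector p k) :
    ∃ (ψ : MvPowerSeries (Fin r) Cr →+* WittVector p (Rp p k r))
      (red : MvPowerSeries (Fin r) Cr →+* R0 k r ⧸ Ideal.span {(MvPowerSeries.X 0 : R0 k r)}),
      IsBase p k r (MvPowerSeries (Fin r) Cr) (fun i => MvPowerSeries.X i) ψ red ∧
      ∀ c : Cr, ψ (MvPowerSeries.C c) =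
        WittVector.map ((PerfectClosure.of (R0 k r) p).comp MvPowerSeries.C) (κ c) := by
  obtain ⟨ψ0, h1, h2, h3, -⟩ := exists_psi0 p k r
  have hX : ∀ i, ψ0 (MvPowerSeries.map κ (MvPowerSeries.X i)) =
      WittVector.teichmuller p (MvPowerSeries.X i.succ) := fun i => by
    rw [MvPowerSeries.map_X, h1]
  -- elements with image divisible by `p`
  have hκ : ∀ c : Cr, (∃ x, κ c = p * x) → c ∈ Ideal.span {(p : Cr)} := by
    intro c hc
    rw [← hCr, mem_maximalIdeal, mem_nonunits_iff]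
    intro hu
    obtain ⟨x, hx⟩ := hc
    have h4 : IsUnit (κ c) := hu.map κ
    have h5 := h4.map (WittVector.constantCoeff : WittVector p k →+* k)
    rw [hx, map_mul, map_natCast, CharP.cast_eq_zero, zero_mul] at h5
    exact not_isUnit_zero h5
  let red : MvPowerSeries (Fin r) Cr →+* R0 k r ⧸ Ideal.span {(MvPowerSeries.X 0 : R0 k r)} :=
    (Ideal.Quotient.mk _).comp
      ((WittVector.constantCoeff).comp (ψ0.comp (MvPowerSeries.map κ)))
  have hred : ∀ l, red l = Ideal.Quotient.mk _ ((ψ0 (MvPowerSeries.map κ l)).coeff 0) :=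
    fun l => rfl
  have hredp : ∀ l ∈ Ideal.span {(p : MvPowerSeries (Fin r) Cr)}, red l = 0 := by
    intro l hl
    obtain ⟨m, rfl⟩ := Ideal.mem_span_singleton.1 hl
    rw [map_mul, map_natCast]
    have h6 : ((p : ℕ) : R0 k r ⧸ Ideal.span {(MvPowerSeries.X 0 : R0 k r)}) = 0 := by
      rw [← map_natCast (Ideal.Quotient.mk (Ideal.span {(MvPowerSeries.X 0 : R0 k r)})),
        CharP.cast_eq_zero, map_zero]
    rw [h6, zero_mul]
  refine ⟨(WittVector.map (PerfectClosure.of (R0 k r) p)).comp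
    (ψ0.comp (MvPowerSeries.map κ)), red, ⟨fun i => ?_, fun l => ?_, hredp, fun l hl => ?_, ?_⟩,
    fun c => ?_⟩
  · change WittVector.map _ (ψ0 (MvPowerSeries.map κ (MvPowerSeries.X i))) = _
    rw [hX, WittVector.map_teichmuller]
    rfl
  · refine ⟨(ψ0 (MvPowerSeries.map κ l)).coeff 0, 0, hred l, ?_⟩
    rw [mul_zero, add_zero]
    exact WittVector.map_coeff _ _ _
  · rw [hred, Ideal.Quotient.eq_zero_iff_mem] at hl
    have h7 := h3 _ hl
    rw [← ibc_ker p r hCr, RingHom.mem_ker]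
    obtain ⟨y, hy⟩ := Ideal.mem_span_singleton.1 h7
    ext β
    rw [MvPowerSeries.coeff_map, map_zero, residue_eq_zero_iff, hCr]
    refine hκ _ ⟨MvPowerSeries.coeff β y, ?_⟩
    have h8 := congrArg (MvPowerSeries.coeff β) hy
    have h9 : (p : La p k r) = MvPowerSeries.C (p : WittVector p k) := (map_natCast _ _).symm
    rw [MvPowerSeries.coeff_map, h9, MvPowerSeries.coeff_C_mul] at h8
    exact h8
  · refine ibc_flat p k r hCr _ fun i => ?_
    rw [Ideal.Quotient.lift_mk, hred, hX, WittVector.teichmuller_coeff_zero]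
  · change WittVector.map _ (ψ0 (MvPowerSeries.map κ (MvPowerSeries.C c))) = _
    rw [MvPowerSeries.map_C, h2]
    ext n
    simp only [WittVector.map_coeff, RingHom.comp_apply]

end Vale.Agent.P202.Mix
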