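import Vale.Agent.P202.Mix.Tei3
import Mathlib.RingTheory.Flat.Stability

/-!
# T5: iterated extensions (P202, mixed characteristic)
-/

namespace P202.Mix

open WittVector Polynomial

universe u

variable {p : ℕ} [hp : Fact (Nat.Prime p)]


/-- A flat, integral, injective extension in which every finite subset lies in an `r`-generated
submodule. -/
structure GoodExt (C C' : Type u) [CommRing C] [CommRing C'] [Algebra C C'] (r : ℕ) : Prop where
  flat : Module.Flat C C'
  integral : Algebra.IsIntegral C C'
  inj : Function.Injective (algebraMap C C')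
  gen : ∀ s : Finset C', ∃ g : Fin r → C', (s : Set C') ⊆ Submodule.span C (Set.range g)

theorem GoodExt.refl (C : Type u) [CommRing C] : GoodExt C C 1 where
  flat := inferInstance
  integral := inferInstance
  inj := fun _ _ h => h
  gen := fun s => ⟨fun _ => 1, fun x _ => by
    have : x = x • (1 : C) := by simp
    rw [this]
    exact Submodule.smul_mem _ _ (Submodule.subset_span ⟨0, rfl⟩)⟩

theorem GoodExt.trans {C C' C'' : Type u} [CommRing C] [CommRing C'] [CommRing C'']
    [Algebra C C'] [Algebra C' C''] [Algebra C C''] [IsScalarTower C C' C''] {r r' : ℕ}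
    (h : GoodExt C C' r) (h' : GoodExt C' C'' r') : GoodExt C C'' (r * r') where
  flat := by
    have := h.flat
    have := h'.flat
    exact Module.Flat.trans C C' C''
  integral := by
    have := h.integral
    have := h'.integral
    exact Algebra.IsIntegral.trans C'
  inj := by
    rw [IsScalarTower.algebraMap_eq C C' C'']
    exact h'.inj.comp h.inj
  gen := by
    classical
    intro s
    obtain ⟨g', hg'⟩ := h'.gen s
    have h1 : ∀ x ∈ s, ∃ c : Fin r' → C', ∑ i, c i • g' i = x := by
      intro x hx
      exact (Submodule.mem_span_range_iff_exists_fun C').1 (hg' hx)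
    choose! c hc using h1
    obtain ⟨g, hg⟩ := h.gen (s.biUnion fun x => Finset.univ.image fun i => c x i)
    refine ⟨fun k => g (finProdFinEquiv.symm k).1 • g' (finProdFinEquiv.symm k).2, ?_⟩
    intro x hx
    have hx' : x ∈ s := hx
    rw [← hc x hx']
    refine Submodule.sum_mem _ fun i _ => ?_
    have h2 : c x i ∈ Submodule.span C (Set.range g) := by
      apply hg
      rw [Finset.mem_coe, Finset.mem_biUnion]
      exact ⟨x, hx', Finset.mem_image.2 ⟨i, Finset.mem_univ i, rfl⟩⟩
    obtain ⟨d, hd⟩ := (Submodule.mem_span_range_iff_exists_fun C).1 h2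
    rw [← hd, Finset.sum_smul]
    refine Submodule.sum_mem _ fun j _ => ?_
    rw [smul_assoc]
    refine Submodule.smul_mem _ _ (Submodule.subset_span ⟨finProdFinEquiv (j, i), ?_⟩)
    simp

/-- The ideal `(p - [t], p ^ (I + 1))` of `W(C)`. -/
noncomputable def JJ (p : ℕ) [Fact p.Prime] {C : Type u} [CommRing C] (t : C) (I : ℕ) : Ideal (WittVector p C) :=
  Ideal.span {(p : WittVector p C) - teichmuller p t, (p : WittVector p C) ^ (I + 1)}

theorem map_JJ_le {C C' : Type u} [CommRing C] [CommRing C'] (f : C →+* C') (t : C) (I : ℕ) :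
    (JJ p t I).map (WittVector.map f) ≤ JJ p (f t) I := by
  rw [JJ, Ideal.map_span, Ideal.span_le]
  rintro _ ⟨x, hx, rfl⟩
  rcases hx with rfl | hx
  · rw [map_sub, map_natCast, map_teichmuller]
    exact Ideal.subset_span (Or.inl rfl)
  · rw [Set.mem_singleton_iff] at hx
    subst hx
    rw [map_pow, map_natCast]
    exact Ideal.subset_span (Or.inr rfl)

theorem map_mem_JJ {C C' : Type u} [CommRing C] [CommRing C'] (f : C →+* C') (t : C) (I : ℕ)
    {x : WittVector p C} (hx : x ∈ JJ p t I) : WittVector.map f x ∈ JJ p (f t) I :=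
  map_JJ_le f t I (Ideal.mem_map_of_mem _ hx)

/-- `T4` in terms of `GoodExt` and `JJ`. -/
theorem exists_adjoin' {C : Type u} [CommRing C] [CharP C p] [PerfectRing C p] [Nontrivial C]
    (t : C) (ht : t ∈ nonZeroDivisors C) (htJ : t ∈ (⊥ : Ideal C).jacobson) (I : ℕ)
    (G : Polynomial (WittVector p C)) (hG : G.Monic) (hG0 : 0 < G.natDegree) :
    ∃ (C' : Type u) (_ : CommRing C') (_ : CharP C' p) (_ : PerfectRing C' p)
      (_ : Nontrivial C') (_ : Algebra C C') (c : C'),
      GoodExt C C' (G.natDegree * p ^ I) ∧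
      algebraMap C C' t ∈ nonZeroDivisors C' ∧
      algebraMap C C' t ∈ (⊥ : Ideal C').jacobson ∧
      (G.map (WittVector.map (algebraMap C C'))).eval (teichmuller p c) ∈
        JJ p (algebraMap C C' t) I := by
  obtain ⟨C', i1, i2, i3, i4, i5, c, h1, h2, h3, h4, h5, h6, v, w, h7⟩ :=
    exists_adjoin t ht htJ I G hG hG0
  refine ⟨C', i1, i2, i3, i4, i5, c, ⟨h1, h2, h3, h6⟩, h4, h5, ?_⟩
  rw [h7]
  exact Ideal.add_mem _ (Ideal.mul_mem_right _ _ (Ideal.subset_span (Or.inl rfl)))
    (Ideal.mul_mem_right _ _ (Ideal.subset_span (Or.inr rfl)))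

/-- Splitting of a monic polynomial modulo `JJ` by Teichmüller elements. -/
theorem exists_split (I : ℕ) (D : ℕ) : ∃ r : ℕ, ∀ {C : Type u} [CommRing C] [CharP C p]
    [PerfectRing C p] [Nontrivial C] (t : C) (_ : t ∈ nonZeroDivisors C)
    (_ : t ∈ (⊥ : Ideal C).jacobson) (G : Polynomial (WittVector p C)) (_ : G.Monic)
    (_ : G.natDegree = D),
    ∃ (C' : Type u) (_ : CommRing C') (_ : CharP C' p) (_ : PerfectRing C' p)
      (_ : Nontrivial C') (_ : Algebra C C') (c : Fin D → C'),
      GoodExt C C' r ∧
      algebraMap C C' t ∈ nonZeroDivisors C' ∧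
      algebraMap C C' t ∈ (⊥ : Ideal C').jacobson ∧
      G.map (WittVector.map (algebraMap C C')) - ∏ i, (X - Polynomial.C (teichmuller p (c i))) ∈
        (JJ p (algebraMap C C' t) I).map (Polynomial.C) := by
  induction D with
  | zero =>
    refine ⟨1, ?_⟩
    intro C _ _ _ _ t ht htJ G hG hD
    refine ⟨C, inferInstance, inferInstance, inferInstance, inferInstance, inferInstance,
      Fin.elim0, GoodExt.refl C, ht, htJ, ?_⟩
    have : G = 1 := hG.natDegree_eq_zero.1 hD
    rw [this]
    simp
  | succ D ih =>
    obtain ⟨r, ih⟩ := ih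
    refine ⟨((D + 1) * p ^ I) * r, ?_⟩
    intro C _ _ _ _ t ht htJ G hG hD
    obtain ⟨C', i1, i2, i3, i4, i5, c0, h1, h2, h3, h4⟩ :=
      exists_adjoin' t ht htJ I G hG (by omega)
    have hnt : Nontrivial (WittVector p C') := inferInstance
    set G' := G.map (WittVector.map (algebraMap C C')) with hG'
    have hG'm : G'.Monic := hG.map _
    have hG'd : G'.natDegree = D + 1 := by rw [hG', hG.natDegree_map, hD]
    set G1 := G' /ₘ (X - Polynomial.C (teichmuller p c0)) with hG1
    have hG1e : G' = (X - Polynomial.C (teichmuller p c0)) * G1 +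
        Polynomial.C (G'.eval (teichmuller p c0)) := by
      have := Polynomial.modByMonic_add_div G' (X - Polynomial.C (teichmuller p c0))
      rw [Polynomial.modByMonic_X_sub_C_eq_C_eval] at this
      conv_lhs => rw [← this]
      ring
    have hG1d : G1.natDegree = D := by
      rw [hG1, Polynomial.natDegree_divByMonic _ (monic_X_sub_C _), hG'd, natDegree_X_sub_C]
      rfl
    have hG1m : G1.Monic := by
      rw [Polynomial.Monic, hG1, Polynomial.leadingCoeff_divByMonic_of_monic (monic_X_sub_C _)]
      · exact hG'm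
      · rw [degree_X_sub_C, Polynomial.degree_eq_natDegree hG'm.ne_zero, hG'd]
        exact_mod_cast Nat.succ_le_succ (Nat.zero_le D)
    obtain ⟨C'', j1, j2, j3, j4, j5, c, k1, k2, k3, k4⟩ := ih (algebraMap C C' t) h2 h3 G1 hG1m hG1d
    let alg : Algebra C C'' := ((algebraMap C' C'').comp (algebraMap C C')).toAlgebra
    have tow : IsScalarTower C C' C'' := IsScalarTower.of_algebraMap_eq fun _ => rfl
    have halg : ∀ x, algebraMap C C'' x = algebraMap C' C'' (algebraMap C C' x) := fun _ => rfl
    refine ⟨C'', j1, j2, j3, j4, alg, Fin.cons (algebraMap C' C'' c0) c, ?_, k2, k3, ?_⟩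
    · have h5 : GoodExt C C' ((D + 1) * p ^ I) := by rw [← hD]; exact h1
      exact h5.trans k1
    · have h5 : G.map (WittVector.map (algebraMap C C'')) =
          G'.map (WittVector.map (algebraMap C' C'')) := by
        rw [hG', Polynomial.map_map]
        congr 1
      rw [h5, Fin.prod_univ_succ, Fin.cons_zero]
      simp only [Fin.cons_succ]
      rw [hG1e]
      simp only [Polynomial.map_add, Polynomial.map_mul, Polynomial.map_sub, Polynomial.map_X,
        Polynomial.map_C, map_teichmuller]
      have h6 : (X - Polynomial.C (teichmuller p (algebraMap C' C'' c0))) *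
          G1.map (WittVector.map (algebraMap C' C'')) +
          Polynomial.C (WittVector.map (algebraMap C' C'') (G'.eval (teichmuller p c0))) -
          (X - Polynomial.C (teichmuller p (algebraMap C' C'' c0))) *
            ∏ i, (X - Polynomial.C (teichmuller p (c i))) =
          (X - Polynomial.C (teichmuller p (algebraMap C' C'' c0))) *
            (G1.map (WittVector.map (algebraMap C' C'')) -
              ∏ i, (X - Polynomial.C (teichmuller p (c i)))) +
          Polynomial.C (WittVector.map (algebraMap C' C'') (G'.eval (teichmuller p c0))) := by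
        ring
      rw [h6]
      refine Ideal.add_mem _ (Ideal.mul_mem_left _ _ k4) ?_
      exact Ideal.mem_map_of_mem _ (map_mem_JJ (algebraMap C' C'') _ I h4)

/-- Teichmüller representatives modulo `JJ` of finitely many elements. -/
theorem exists_teich (I : ℕ) (m : ℕ) : ∃ r : ℕ, ∀ {C : Type u} [CommRing C] [CharP C p]
    [PerfectRing C p] [Nontrivial C] (t : C) (_ : t ∈ nonZeroDivisors C)
    (_ : t ∈ (⊥ : Ideal C).jacobson) (f : Fin m → WittVector p C),
    ∃ (C' : Type u) (_ : CommRing C') (_ : CharP C' p) (_ : PerfectRing C' p)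
      (_ : Nontrivial C') (_ : Algebra C C') (δ : Fin m → C'),
      GoodExt C C' r ∧
      algebraMap C C' t ∈ nonZeroDivisors C' ∧
      algebraMap C C' t ∈ (⊥ : Ideal C').jacobson ∧
      ∀ i, teichmuller p (δ i) - WittVector.map (algebraMap C C') (f i) ∈
        JJ p (algebraMap C C' t) I := by
  induction m with
  | zero =>
    refine ⟨1, ?_⟩
    intro C _ _ _ _ t ht htJ f
    exact ⟨C, inferInstance, inferInstance, inferInstance, inferInstance, inferInstance,
      Fin.elim0, GoodExt.refl C, ht, htJ, fun i => i.elim0⟩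
  | succ m ih =>
    obtain ⟨r, ih⟩ := ih
    refine ⟨(1 * p ^ I) * r, ?_⟩
    intro C _ _ _ _ t ht htJ f
    have hnt0 : Nontrivial (WittVector p C) := inferInstance
    obtain ⟨C', i1, i2, i3, i4, i5, c0, h1, h2, h3, h4⟩ :=
      exists_adjoin' t ht htJ I (X - Polynomial.C (f 0)) (monic_X_sub_C _)
        (by rw [natDegree_X_sub_C]; exact one_pos)
    obtain ⟨C'', j1, j2, j3, j4, j5, c, k1, k2, k3, k4⟩ := ih (algebraMap C C' t) h2 h3
      (fun i => WittVector.map (algebraMap C C') (f i.succ))
    let alg : Algebra C C'' := ((algebraMap C' C'').comp (algebraMap C C')).toAlgebra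
    have tow : IsScalarTower C C' C'' := IsScalarTower.of_algebraMap_eq fun _ => rfl
    have hmap : ∀ x : WittVector p C, WittVector.map (algebraMap C C'') x =
        WittVector.map (algebraMap C' C'') (WittVector.map (algebraMap C C') x) := by
      intro x
      rw [← RingHom.comp_apply, map_map_comp]
      rfl
    refine ⟨C'', j1, j2, j3, j4, alg, Fin.cons (algebraMap C' C'' c0) c, ?_, k2, k3, ?_⟩
    · rw [natDegree_X_sub_C] at h1
      exact h1.trans k1
    · intro i
      refine Fin.cases ?_ (fun i => ?_) i
      · rw [Fin.cons_zero, hmap, ← map_teichmuller, ← map_sub]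
        rw [Polynomial.eval_map, Polynomial.eval₂_sub, Polynomial.eval₂_X,
          Polynomial.eval₂_C] at h4
        exact map_mem_JJ (algebraMap C' C'') (algebraMap C C' t) I h4
      · rw [Fin.cons_succ, hmap]
        exact k4 i

/-- Splitting of finitely many monic polynomials of degree `D`. -/
theorem exists_split_family (I D : ℕ) (s : ℕ) : ∃ r : ℕ, ∀ {C : Type u} [CommRing C] [CharP C p]
    [PerfectRing C p] [Nontrivial C] (t : C) (_ : t ∈ nonZeroDivisors C)
    (_ : t ∈ (⊥ : Ideal C).jacobson) (G : Fin s → Polynomial (WittVector p C))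
    (_ : ∀ j, (G j).Monic) (_ : ∀ j, (G j).natDegree = D),
    ∃ (C' : Type u) (_ : CommRing C') (_ : CharP C' p) (_ : PerfectRing C' p)
      (_ : Nontrivial C') (_ : Algebra C C') (c : Fin s → Fin D → C'),
      GoodExt C C' r ∧
      algebraMap C C' t ∈ nonZeroDivisors C' ∧
      algebraMap C C' t ∈ (⊥ : Ideal C').jacobson ∧
      ∀ j, (G j).map (WittVector.map (algebraMap C C')) -
        ∏ i, (X - Polynomial.C (teichmuller p (c j i))) ∈
        (JJ p (algebraMap C C' t) I).map (Polynomial.C) := by
  induction s with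
  | zero =>
    refine ⟨1, ?_⟩
    intro C _ _ _ _ t ht htJ G _ _
    exact ⟨C, inferInstance, inferInstance, inferInstance, inferInstance, inferInstance,
      Fin.elim0, GoodExt.refl C, ht, htJ, fun i => i.elim0⟩
  | succ s ih =>
    obtain ⟨r, ih⟩ := ih
    obtain ⟨r0, h0⟩ := exists_split.{u} (p := p) I D
    refine ⟨r0 * r, ?_⟩
    intro C _ _ _ _ t ht htJ G hG hGD
    have hnt0 : Nontrivial (WittVector p C) := inferInstance
    obtain ⟨C', i1, i2, i3, i4, i5, c0, h1, h2, h3, h4⟩ := h0 t ht htJ (G 0) (hG 0) (hGD 0)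
    have hnt1 : Nontrivial (WittVector p C') := inferInstance
    obtain ⟨C'', j1, j2, j3, j4, j5, c, k1, k2, k3, k4⟩ := ih (algebraMap C C' t) h2 h3
      (fun j => (G j.succ).map (WittVector.map (algebraMap C C'))) (fun j => (hG _).map _)
      (fun j => by rw [(hG _).natDegree_map, hGD])
    let alg : Algebra C C'' := ((algebraMap C' C'').comp (algebraMap C C')).toAlgebra
    have tow : IsScalarTower C C' C'' := IsScalarTower.of_algebraMap_eq fun _ => rfl
    have hmap : ∀ P : Polynomial (WittVector p C), P.map (WittVector.map (algebraMap C C'')) =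
        (P.map (WittVector.map (algebraMap C C'))).map (WittVector.map (algebraMap C' C'')) := by
      intro P
      rw [Polynomial.map_map, map_map_comp]
      rfl
    refine ⟨C'', j1, j2, j3, j4, alg, Fin.cons (fun i => algebraMap C' C'' (c0 i)) c,
      h1.trans k1, k2, k3, ?_⟩
    intro j
    refine Fin.cases ?_ (fun j => ?_) j
    · rw [Fin.cons_zero, hmap]
      have h5 : (∏ i, (X - Polynomial.C (teichmuller p (algebraMap C' C'' (c0 i)))) :
          Polynomial (WittVector p C'')) = (∏ i, (X - Polynomial.C (teichmuller p (c0 i)))).map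
          (WittVector.map (algebraMap C' C'')) := by
        rw [Polynomial.map_prod]
        refine Finset.prod_congr rfl fun i _ => ?_
        rw [Polynomial.map_sub, Polynomial.map_X, Polynomial.map_C, map_teichmuller]
      rw [h5, ← Polynomial.map_sub]
      have h6 := Ideal.mem_map_of_mem (Polynomial.mapRingHom
        (WittVector.map (p := p) (algebraMap C' C''))) h4
      rw [Ideal.map_map, Polynomial.mapRingHom_comp_C, ← Ideal.map_map] at h6
      exact Ideal.map_mono (map_JJ_le (algebraMap C' C'') (algebraMap C C' t) I) h6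
    · rw [Fin.cons_succ, hmap]
      exact k4 j

end P202.Mix
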