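import Vale.Agent.P202.Mix.Defs2
import Vale.Agent.P202.Mix.TeiE

/-!
P202 MIX, M5: existence of the covers `CData`.
-/

namespace Vale.Agent.P202.Mix

open Polynomial

universe u

section M5
variable (p : ℕ) [Fact p.Prime] (k : Type u) [Field k] [CharP k p] (r : ℕ)

theorem nontrivial_Rp : Nontrivial (Rp p k r) := by
  have h : PerfectClosure.of (R0 k r) p 1 ≠ 0 := by
    intro h0
    rw [← _root_.P202.Mix.rt_zero] at h0
    obtain ⟨n, hn⟩ := _root_.P202.Mix.rt_eq_zero h0
    rw [one_pow] at hn
    exact one_ne_zero hn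
  exact nontrivial_of_ne _ _ h

theorem xp_mem_nonZeroDivisors (i : Fin (r + 1)) : xp p k r i ∈ nonZeroDivisors (Rp p k r) := by
  rw [mem_nonZeroDivisors_iff_right]
  intro y hy
  obtain ⟨n, x, rfl⟩ := _root_.P202.Mix.exists_rt y
  have h1 : xp p k r i = _root_.P202.Mix.rt n ((MvPowerSeries.X i : R0 k r) ^ p ^ n) := by
    have := _root_.P202.Mix.rt_add (p := p) 0 n (MvPowerSeries.X i : R0 k r)
    rw [zero_add] at this
    rw [← this, _root_.P202.Mix.rt_zero]
    rfl
  rw [h1, ← map_mul] at hy
  obtain ⟨m, hm⟩ := _root_.P202.Mix.rt_eq_zero hy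
  have h2 := pow_eq_zero_iff (pow_ne_zero m (Fact.out : p.Prime).ne_zero) |>.1 hm
  rcases mul_eq_zero.1 h2 with h3 | h3
  · rw [h3, map_zero]
  · exfalso
    have h4 := pow_eq_zero_iff (pow_ne_zero n (Fact.out : p.Prime).ne_zero) |>.1 h3
    have h5 := congrArg (MvPowerSeries.coeff (Finsupp.single i 1)) h4
    rw [MvPowerSeries.coeff_X, if_pos rfl, map_zero] at h5
    exact one_ne_zero h5

theorem xp_mem_jacobson (i : Fin (r + 1)) : xp p k r i ∈ (⊥ : Ideal (Rp p k r)).jacobson := by
  rw [Ideal.mem_jacobson_bot]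
  intro y
  obtain ⟨n, x, rfl⟩ := _root_.P202.Mix.exists_rt y
  have hp0 : p ^ n ≠ 0 := pow_ne_zero n (Fact.out : p.Prime).ne_zero
  have h1 : (xp p k r i * _root_.P202.Mix.rt n x + 1) ^ p ^ n =
      PerfectClosure.of (R0 k r) p ((MvPowerSeries.X i : R0 k r) ^ p ^ n * x + 1) := by
    rw [add_pow_char_pow, mul_pow, _root_.P202.Mix.rt_pow, one_pow, map_add, map_mul, map_pow,
      map_one]
    rfl
  have h2 : IsUnit ((MvPowerSeries.X i : R0 k r) ^ p ^ n * x + 1) := by
    rw [MvPowerSeries.isUnit_iff_constantCoeff, map_add, map_mul, map_pow,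
      MvPowerSeries.constantCoeff_X, zero_pow hp0, zero_mul, zero_add, map_one]
    exact isUnit_one
  have h3 : IsUnit ((xp p k r i * _root_.P202.Mix.rt n x + 1) ^ p ^ n) := by
    rw [h1]; exact h2.map _
  exact (isUnit_pow_iff hp0).1 h3

/-- TASK M5a: the perfection itself. -/
theorem exists_pext_self : Nonempty (PExt.{u} p k r 1) := by
  have h := _root_.P202.Mix.GoodExt.refl (Rp p k r)
  have hnt := nontrivial_Rp p k r
  exact ⟨{ C := Rp p k r, flat := h.flat, integral := h.integral, inj := h.inj, fin := h.gen }⟩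

variable {p k r} in
theorem toB_mem {C : Type u} [CommRing C] (t : C) (I : ℕ) {x : WittVector p C}
    (hx : x ∈ _root_.P202.Mix.JJ p t I) :
    toB p C t x ∈ Ideal.span {(p : Bt p C t) ^ (I + 1)} := by
  have h1 : (_root_.P202.Mix.JJ p t I).map (toB p C t) ≤ Ideal.span {(p : Bt p C t) ^ (I + 1)} := by
    rw [_root_.P202.Mix.JJ, Ideal.map_span, Ideal.span_le]
    rintro _ ⟨y, hy, rfl⟩
    rcases hy with rfl | hy
    · have : toB p C t ((p : WittVector p C) - WittVector.teichmuller p t) = 0 :=
        Ideal.Quotient.eq_zero_iff_mem.2 (Ideal.mem_span_singleton_self _)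
      rw [this]
      exact Submodule.zero_mem _
    · rw [Set.mem_singleton_iff] at hy
      subst hy
      rw [map_pow, map_natCast]
      exact Ideal.mem_span_singleton_self _
  exact h1 (Ideal.mem_map_of_mem _ hx)

/-- TASK M5: existence of the covers. -/
theorem exists_cdata {Λ : Type u} [CommRing Λ] (ψ : Λ →+* WittVector p (Rp p k r)) {s D : ℕ}
    (F : Fin s → Λ[X]) (hF : ∀ j, (F j).Monic) (hD : ∀ j, (F j).natDegree = D)
    (E : MvPolynomial (Fin s) Λ) (g : Λ) (I : ℕ) :
    ∃ r0 : ℕ, Nonempty (CData.{u} ψ (D := D) F E g I r0) := by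
  classical
  obtain ⟨r1, h1⟩ := _root_.P202.Mix.exists_split_family.{u} (p := p) I D s
  obtain ⟨r2, h2⟩ := _root_.P202.Mix.exists_teich.{u} (p := p) I
    (Fintype.card (Bool × (Fin s → Fin D)))
  refine ⟨r1 * r2, ?_⟩
  have hnt := nontrivial_Rp p k r
  have hnt' : Nontrivial (WittVector p (Rp p k r)) := inferInstance
  obtain ⟨C1, i1, i2, i3, i4, i5, c1, a1, a2, a3, a4⟩ := h1 (xp p k r 0)
    (xp_mem_nonZeroDivisors p k r 0) (xp_mem_jacobson p k r 0) (fun j => (F j).map ψ)
    (fun j => (hF j).map _) (fun j => by rw [(hF j).natDegree_map, hD])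
  let e := Fintype.equivFin (Bool × (Fin s → Fin D))
  let ψ1 : Λ →+* WittVector p C1 := (WittVector.map (algebraMap (Rp p k r) C1)).comp ψ
  let f1 : (Fin s → Fin D) → WittVector p C1 := fun π =>
    MvPolynomial.eval₂ ψ1 (fun j => WittVector.teichmuller p (c1 j (π j))) E
  let f : Bool × (Fin s → Fin D) → WittVector p C1 := fun z =>
    if z.1 then f1 z.2 else ψ1 g - f1 z.2
  obtain ⟨C2, j1, j2, j3, j4, j5, d, b1, b2, b3, b4⟩ := h2 (algebraMap (Rp p k r) C1 (xp p k r 0))
    a2 a3 (fun m => f (e.symm m))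
  let alg : Algebra (Rp p k r) C2 := ((algebraMap C1 C2).comp (algebraMap (Rp p k r) C1)).toAlgebra
  have tow : IsScalarTower (Rp p k r) C1 C2 := IsScalarTower.of_algebraMap_eq fun _ => rfl
  have hG := a1.trans b1
  let P : PExt p k r (r1 * r2) :=
    { C := C2, flat := hG.flat, integral := hG.integral, inj := hG.inj, fin := hG.gen }
  have htC : tC p k r C2 = algebraMap C1 C2 (algebraMap (Rp p k r) C1 (xp p k r 0)) := rfl
  have hψ : (WittVector.map (algebraMap (Rp p k r) C2)).comp ψ =
      (WittVector.map (algebraMap C1 C2)).comp ψ1 := by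
    rw [← RingHom.comp_assoc, _root_.P202.Mix.map_map_comp]
    rfl
  -- the evaluation of `E`
  have hE : ∀ π : Fin s → Fin D,
      MvPolynomial.eval₂ (laB ψ C2) (fun j => te p C2 (tC p k r C2) (algebraMap C1 C2 (c1 j (π j)))) E
        = toB p C2 (tC p k r C2) (WittVector.map (algebraMap C1 C2) (f1 π)) := by
    intro π
    have h5 := MvPolynomial.eval₂_comp_left
      ((toB p C2 (tC p k r C2)).comp (WittVector.map (algebraMap C1 C2))) ψ1
      (fun j => WittVector.teichmuller p (c1 j (π j))) E
    have h6 : (toB p C2 (tC p k r C2)) (WittVector.map (algebraMap C1 C2) (f1 π)) =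
      ((toB p C2 (tC p k r C2)).comp (WittVector.map (algebraMap C1 C2))) (f1 π) := rfl
    rw [h6, h5]
    have h7 : laB ψ C2 =
        ((toB p C2 (tC p k r C2)).comp (WittVector.map (algebraMap C1 C2))).comp ψ1 := by
      rw [laB, hψ, RingHom.comp_assoc]
    rw [h7]
    congr 1
    funext j
    change toB p C2 (tC p k r C2) (WittVector.teichmuller p (algebraMap C1 C2 (c1 j (π j)))) =
      toB p C2 (tC p k r C2) (WittVector.map (algebraMap C1 C2)
        (WittVector.teichmuller p (c1 j (π j))))
    rw [WittVector.map_teichmuller]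
  refine ⟨{ toPExt := P, c := fun j i => algebraMap C1 C2 (c1 j i),
            δ := fun π => d (e (true, π)), δ' := fun π => d (e (false, π)),
            split := ?_, hδ := ?_, hδ' := ?_ }⟩
  · intro j n
    have h5 := (Ideal.mem_map_C_iff.1 (a4 j)) n
    have h6 := _root_.P202.Mix.map_mem_JJ (algebraMap C1 C2) _ I h5
    have h7 := toB_mem (p := p) _ I h6
    have h8 : toB p C2 (tC p k r C2) (WittVector.map (algebraMap C1 C2)
        ((((F j).map ψ).map (WittVector.map (algebraMap (Rp p k r) C1)) -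
          ∏ i, (X - Polynomial.C (WittVector.teichmuller p (c1 j i)))).coeff n)) =
        ((F j).map (laB ψ C2) -
          ∏ i, (X - Polynomial.C (te p C2 (tC p k r C2) (algebraMap C1 C2 (c1 j i))))).coeff n := by
      rw [← RingHom.comp_apply, ← Polynomial.coeff_map, Polynomial.map_sub, Polynomial.map_prod,
        Polynomial.map_map, Polynomial.map_map]
      have h9 : (((toB p C2 (tC p k r C2)).comp (WittVector.map (algebraMap C1 C2))).comp
          (WittVector.map (algebraMap (Rp p k r) C1))).comp ψ = laB ψ C2 := by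
        rw [laB, hψ]
        rfl
      have h10 : ∏ i, Polynomial.map
          ((toB p C2 (tC p k r C2)).comp (WittVector.map (algebraMap C1 C2)))
          (X - Polynomial.C (WittVector.teichmuller p (c1 j i))) =
          ∏ i, (X - Polynomial.C (te p C2 (tC p k r C2) (algebraMap C1 C2 (c1 j i)))) := by
        refine Finset.prod_congr rfl fun i _ => ?_
        rw [Polynomial.map_sub, Polynomial.map_X, Polynomial.map_C, RingHom.comp_apply,
          WittVector.map_teichmuller]
        rfl
      rw [h9, h10]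
    rw [← h8]
    exact h7
  · intro π
    have h5 := toB_mem (p := p) _ I (b4 (e (true, π)))
    rw [map_sub] at h5
    have h6 : f (e.symm (e (true, π))) = f1 π := by rw [e.symm_apply_apply]; rfl
    rw [h6] at h5
    rw [hE π]
    exact h5
  · intro π
    have h5 := toB_mem (p := p) _ I (b4 (e (false, π)))
    rw [map_sub] at h5
    have h6 : f (e.symm (e (false, π))) = ψ1 g - f1 π := by rw [e.symm_apply_apply]; rfl
    rw [h6, map_sub, map_sub] at h5
    have h7 : laB ψ C2 g = toB p C2 (tC p k r C2) (WittVector.map (algebraMap C1 C2) (ψ1 g)) := by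
      rw [laB, hψ]
      rfl
    rw [hE π, h7]
    exact h5

end M5

end Vale.Agent.P202.Mix
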