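import Vale.Agent.P202.Mix.RootDefs

/-!
P202 MIX: the algebra of all `p`-power roots: relations, universal property, monomial basis.
-/

namespace Vale.Agent.P202.Mix

open Polynomial TensorProduct IsLocalRing

universe u v w

noncomputable section

variable (p : ℕ) (S : Type u) [CommRing S] {ι : Type v} (a : ι → S)

/-- the ideal of the relations of `RootAlg`. -/
def rrel : Ideal (MvPolynomial (ι × ℕ) S) := Ideal.span
    ((Set.range fun i : ι => (MvPolynomial.X (i, 0) - MvPolynomial.C (a i) :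
      MvPolynomial (ι × ℕ) S)) ∪
    Set.range fun x : ι × ℕ => (MvPolynomial.X (x.1, x.2 + 1) ^ p - MvPolynomial.X x :
      MvPolynomial (ι × ℕ) S))

/-- the projection onto `RootAlg`. -/
def rmk : MvPolynomial (ι × ℕ) S →ₐ[S] RootAlg p S a := Ideal.Quotient.mkₐ S (rrel p S a)

theorem rmk_X (i : ι) (e : ℕ) : rmk p S a (MvPolynomial.X (i, e)) = rx p S a i e := rfl

theorem rmk_C (s : S) : rmk p S a (MvPolynomial.C s) = algebraMap S _ s := rfl

theorem rmk_surj : Function.Surjective (rmk p S a) := Ideal.Quotient.mk_surjective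

theorem rmk_eq_of_sub_mem {x y : MvPolynomial (ι × ℕ) S} (h : x - y ∈ rrel p S a) :
    rmk p S a x = rmk p S a y := Ideal.Quotient.eq.mpr h

theorem rmk_exists_lift {T : Type w} [CommRing T] [Algebra S T]
    (g : MvPolynomial (ι × ℕ) S →ₐ[S] T) (h : ∀ x ∈ rrel p S a, g x = 0) :
    ∃ f : RootAlg p S a →ₐ[S] T, ∀ x, f (rmk p S a x) = g x :=
  ⟨Ideal.Quotient.liftₐ (rrel p S a) g h, fun _ => rfl⟩

theorem rx_zero (i : ι) : rx p S a i 0 = algebraMap S _ (a i) := by
  rw [← rmk_X, ← rmk_C]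
  exact rmk_eq_of_sub_mem p S a (Ideal.subset_span (Or.inl ⟨i, rfl⟩))

theorem rx_succ (i : ι) (e : ℕ) : rx p S a i (e + 1) ^ p = rx p S a i e := by
  rw [← rmk_X, ← rmk_X, ← map_pow]
  exact rmk_eq_of_sub_mem p S a (Ideal.subset_span (Or.inr ⟨(i, e), rfl⟩))

theorem exists_lift {T : Type w} [CommRing T] [Algebra S T] (ρ : ι → ℕ → T)
    (h0 : ∀ i, ρ i 0 = algebraMap S T (a i)) (hs : ∀ i e, ρ i (e + 1) ^ p = ρ i e) :
    ∃ f : RootAlg p S a →ₐ[S] T, ∀ i e, f (rx p S a i e) = ρ i e := by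
  have hker : rrel p S a ≤ RingHom.ker
      (MvPolynomial.aeval (R := S) fun x : ι × ℕ => ρ x.1 x.2) := by
    rw [rrel, Ideal.span_le]
    rintro _ (⟨i, rfl⟩ | ⟨x, rfl⟩)
    · simp only [SetLike.mem_coe, RingHom.mem_ker, map_sub, MvPolynomial.aeval_X,
        MvPolynomial.aeval_C, h0, sub_self]
    · simp only [SetLike.mem_coe, RingHom.mem_ker, map_sub, map_pow, MvPolynomial.aeval_X, hs,
        sub_self]
  obtain ⟨f, hf⟩ := rmk_exists_lift p S a _ (fun x hx => hker hx)
  refine ⟨f, fun i e => ?_⟩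
  rw [← rmk_X, hf, MvPolynomial.aeval_X]

theorem hom_ext {T : Type w} [CommRing T] [Algebra S T] (f g : RootAlg p S a →ₐ[S] T)
    (h : ∀ i e, f (rx p S a i e) = g (rx p S a i e)) : f = g := by
  have key : f.comp (rmk p S a) = g.comp (rmk p S a) := by
    refine MvPolynomial.algHom_ext fun x => ?_
    exact h x.1 x.2
  refine AlgHom.ext fun x => ?_
  obtain ⟨y, rfl⟩ := rmk_surj p S a x
  exact DFunLike.congr_fun key y

/-- the fractional part of an exponent. -/
def qfr (m : ι →₀ ℚ≥0) : ι →₀ ℚ≥0 := m.mapRange (fun x => x - (⌊x⌋₊ : ℚ≥0)) (by simp)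

/-- the coefficient coming from the integral part of an exponent. -/
def qw (m : ι →₀ ℚ≥0) : S := m.prod fun i x => a i ^ ⌊x⌋₊

/-- the reduction of the exponents. -/
def qpi : AddMonoidAlgebra S (ι →₀ ℚ≥0) →ₗ[S] ((ι →₀ ℚ≥0) →₀ S) :=
  (Finsupp.linearCombination S fun m => Finsupp.single (qfr m) (qw S a m)) ∘ₗ
    (AddMonoidAlgebra.coeffLinearEquiv S).toLinearMap

theorem qpi_single (m : ι →₀ ℚ≥0) (s : S) :
    qpi S a (AddMonoidAlgebra.single m s) = Finsupp.single (qfr m) (s * qw S a m) := by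
  simp [qpi, AddMonoidAlgebra.coeff_single, Finsupp.linearCombination_single]

theorem qfr_add (m : ι →₀ ℚ≥0) (i : ι) : qfr (m + Finsupp.single i 1) = qfr m := by
  classical
  ext1 j
  simp only [qfr, Finsupp.mapRange_apply, Finsupp.add_apply, Finsupp.single_apply]
  split_ifs with h
  · rw [Nat.floor_add_one zero_le, Nat.cast_add, Nat.cast_one, add_tsub_add_eq_tsub_right]
  · rw [add_zero]

theorem qw_add (m : ι →₀ ℚ≥0) (i : ι) : qw S a (m + Finsupp.single i 1) = a i * qw S a m := by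
  classical
  have h1 : (m + Finsupp.single i 1).support ⊆ insert i m.support := by
    intro j hj
    rw [Finset.mem_insert]
    by_contra hne
    push Not at hne
    rw [Finsupp.mem_support_iff, Finsupp.add_apply, Finsupp.single_eq_of_ne hne.1,
      Finsupp.notMem_support_iff.mp hne.2] at hj
    exact hj (add_zero _)
  rw [qw, qw, Finsupp.prod_of_support_subset _ h1 _ (by simp),
    Finsupp.prod_of_support_subset _ (Finset.subset_insert i m.support) _ (by simp),
    ← Finset.mul_prod_erase _ _ (Finset.mem_insert_self i m.support),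
    ← Finset.mul_prod_erase _ _ (Finset.mem_insert_self i m.support), ← mul_assoc]
  congr 1
  · rw [Finsupp.add_apply, Finsupp.single_eq_same, Nat.floor_add_one zero_le, pow_succ,
      mul_comm]
  · refine Finset.prod_congr rfl fun j hj => ?_
    rw [Finsupp.add_apply, Finsupp.single_eq_of_ne (Finset.ne_of_mem_erase hj), add_zero]

/-- the ideal of the relations `X ^ (δ i) = a i`. -/
def qI : Ideal (AddMonoidAlgebra S (ι →₀ ℚ≥0)) :=
  Ideal.span (Set.range fun i => AddMonoidAlgebra.single (Finsupp.single i 1) 1 -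
    AddMonoidAlgebra.single 0 (a i))

theorem qpi_mul (i : ι) (x : AddMonoidAlgebra S (ι →₀ ℚ≥0)) :
    qpi S a (x * (AddMonoidAlgebra.single (Finsupp.single i 1) 1 -
      AddMonoidAlgebra.single 0 (a i))) = 0 := by
  induction x using AddMonoidAlgebra.induction_linear with
  | zero => simp
  | add f g hf hg => rw [add_mul, map_add, hf, hg, add_zero]
  | single m s =>
    rw [mul_sub, AddMonoidAlgebra.single_mul_single, AddMonoidAlgebra.single_mul_single, map_sub,
      qpi_single, qpi_single, qfr_add, qw_add, add_zero, mul_one, mul_assoc, sub_self]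

theorem qpi_eq_zero (x : AddMonoidAlgebra S (ι →₀ ℚ≥0)) (hx : x ∈ qI S a) : qpi S a x = 0 := by
  rw [qI, Finsupp.mem_ideal_span_range_iff_exists_finsupp] at hx
  obtain ⟨c, rfl⟩ := hx
  rw [Finsupp.sum, map_sum]
  exact Finset.sum_eq_zero fun i _ => qpi_mul S a i _

/-- the induced map on the quotient. -/
def qpi' : (AddMonoidAlgebra S (ι →₀ ℚ≥0) ⧸ qI S a) →ₗ[S] ((ι →₀ ℚ≥0) →₀ S) :=
  (Submodule.liftQ ((qI S a).restrictScalars S) (qpi S a) (fun x hx => qpi_eq_zero S a x hx)) ∘ₗ
    (Submodule.Quotient.restrictScalarsEquiv S (qI S a)).symm.toLinearMap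

theorem qpi'_mk (x : AddMonoidAlgebra S (ι →₀ ℚ≥0)) :
    qpi' S a (Ideal.Quotient.mk _ x) = qpi S a x := rfl

/-- the exponent `α / p ^ e`. -/
def qd (e : ℕ) (α : ι →₀ ℕ) : ι →₀ ℚ≥0 :=
  α.mapRange (fun n : ℕ => (n : ℚ≥0) / (p : ℚ≥0) ^ e) (by simp)

theorem prod_single_eq (e : ℕ) (α : ι →₀ ℕ) :
    (α.prod fun i m => (AddMonoidAlgebra.single (Finsupp.single i (1 / (p : ℚ≥0) ^ e)) 1 :
      AddMonoidAlgebra S (ι →₀ ℚ≥0)) ^ m) = AddMonoidAlgebra.single (qd p e α) 1 := by
  classical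
  induction α using Finsupp.induction_linear with
  | zero =>
    rw [Finsupp.prod_zero_index, AddMonoidAlgebra.one_def]
    congr 1
    ext1 j
    simp [qd]
  | add f g hf hg =>
    rw [Finsupp.prod_add_index' (fun _ => pow_zero _) (fun _ _ _ => pow_add _ _ _), hf, hg,
      AddMonoidAlgebra.single_mul_single, mul_one]
    congr 1
    ext1 j
    simp only [qd, Finsupp.mapRange_apply, Finsupp.add_apply, Nat.cast_add, add_div]
  | single i n =>
    rw [Finsupp.prod_single_index (by exact pow_zero _), AddMonoidAlgebra.single_pow, one_pow]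
    congr 1
    ext1 j
    simp only [qd, Finsupp.mapRange_apply, Finsupp.smul_apply, Finsupp.single_apply]
    split_ifs <;> simp [div_eq_mul_inv]

theorem exists_qpsi [Fact p.Prime] : ∃ f : RootAlg p S a →ₗ[S] ((ι →₀ ℚ≥0) →₀ S),
    ∀ (e : ℕ) (α : Bx ι (p ^ e)),
      f (α.1.prod fun i m => rx p S a i e ^ m) = Finsupp.single (qd p e α.1) 1 := by
  have hp : (p : ℚ≥0) ≠ 0 := Nat.cast_ne_zero.mpr (Fact.out : p.Prime).ne_zero
  obtain ⟨f, hf⟩ := exists_lift p S a (T := AddMonoidAlgebra S (ι →₀ ℚ≥0) ⧸ qI S a)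
    (fun i e => Ideal.Quotient.mk _
      (AddMonoidAlgebra.single (Finsupp.single i (1 / (p : ℚ≥0) ^ e)) 1))
    (fun i => by
      change _ = Ideal.Quotient.mk _ (AddMonoidAlgebra.single 0 (a i))
      rw [Ideal.Quotient.eq, pow_zero, div_one]
      exact Ideal.subset_span ⟨i, rfl⟩)
    (fun i e => by
      rw [← map_pow, AddMonoidAlgebra.single_pow, one_pow, Finsupp.smul_single]
      congr 3
      rw [nsmul_eq_mul, pow_succ]
      field_simp)
  refine ⟨qpi' S a ∘ₗ f.toLinearMap, fun e α => ?_⟩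
  rw [LinearMap.comp_apply, AlgHom.toLinearMap_apply, Finsupp.prod, map_prod]
  simp only [map_pow, hf]
  simp only [← map_pow]
  rw [← map_prod]
  have h := prod_single_eq p S e α.1
  rw [Finsupp.prod] at h
  rw [h, qpi'_mk, qpi_single, one_mul]
  have hlt : ∀ i, (α.1 i : ℚ≥0) / (p : ℚ≥0) ^ e < 1 := by
    intro i
    rw [div_lt_one (by positivity)]
    exact_mod_cast α.2 i
  have hfl : ∀ i, ⌊qd p e α.1 i⌋₊ = 0 := fun i => Nat.floor_eq_zero.mpr (hlt i)
  congr 1
  · ext1 j
    rw [qfr, Finsupp.mapRange_apply, hfl, Nat.cast_zero, tsub_zero]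
  · rw [qw, Finsupp.prod]
    exact Finset.prod_eq_one fun i _ => by rw [hfl, pow_zero]

theorem qd_injective [Fact p.Prime] (e : ℕ) : Function.Injective (qd (ι := ι) p e) := by
  have hp : (p : ℚ≥0) ≠ 0 := Nat.cast_ne_zero.mpr (Fact.out : p.Prime).ne_zero
  refine Finsupp.mapRange_injective (fun n : ℕ => (n : ℚ≥0) / (p : ℚ≥0) ^ e) (by simp)
    fun m n h => ?_
  have h' : (m : ℚ≥0) / (p : ℚ≥0) ^ e = (n : ℚ≥0) / (p : ℚ≥0) ^ e := h
  rw [div_left_inj' (pow_ne_zero _ hp)] at h'
  exact_mod_cast h'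

theorem linearIndependent_qsingle [Fact p.Prime] (e : ℕ) : LinearIndependent S
    fun α : Bx ι (p ^ e) => (Finsupp.single (qd p e α.1) 1 : (ι →₀ ℚ≥0) →₀ S) := by
  have := (Finsupp.basisSingleOne (R := S) (ι := ι →₀ ℚ≥0)).linearIndependent
  rw [Finsupp.coe_basisSingleOne] at this
  exact this.comp _ ((qd_injective p e).comp Subtype.val_injective)

theorem linearIndependent_rx [Fact p.Prime] (e : ℕ) :
    LinearIndependent S fun α : Bx ι (p ^ e) => α.1.prod fun i m => rx p S a i e ^ m := by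
  obtain ⟨f, hf⟩ := exists_qpsi p S a
  refine LinearIndependent.of_comp f ?_
  have h1 : (f ∘ fun α : Bx ι (p ^ e) => α.1.prod fun i m => rx p S a i e ^ m) =
      fun α : Bx ι (p ^ e) => (Finsupp.single (qd p e α.1) 1 : (ι →₀ ℚ≥0) →₀ S) :=
    funext fun α => hf e α
  rw [h1]
  exact linearIndependent_qsingle p S e

theorem rx_pow_pow (i : ι) (e : ℕ) : rx p S a i e ^ p ^ e = algebraMap S _ (a i) := by
  induction e with
  | zero => rw [pow_zero, pow_one, rx_zero]
  | succ e ih => rw [pow_succ', pow_mul, rx_succ, ih]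

theorem rx_pow_add (i : ι) (e d : ℕ) : rx p S a i (e + d) ^ p ^ d = rx p S a i e := by
  induction d with
  | zero => rw [pow_zero, pow_one, add_zero]
  | succ d ih => rw [pow_succ', pow_mul, ← add_assoc, rx_succ, ih]

theorem rx_mem_rsub {F : Finset ι} {e : ℕ} {i : ι} (hi : i ∈ F) :
    rx p S a i e ∈ rsub p S a (F, e) :=
  Algebra.subset_adjoin ⟨i, hi, rfl⟩

theorem rsub_le {F F' : Finset ι} {e e' : ℕ} (hF : F ⊆ F') (he : e ≤ e') :
    rsub p S a (F, e) ≤ rsub p S a (F', e') := by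
  refine Algebra.adjoin_le ?_
  rintro _ ⟨i, hi, rfl⟩
  obtain ⟨d, rfl⟩ := Nat.exists_eq_add_of_le he
  change rx p S a i e ∈ rsub p S a (F', e + d)
  rw [← rx_pow_add p S a i e d]
  exact pow_mem (rx_mem_rsub p S a (hF hi)) _

theorem rsub_mono : Monotone (rsub p S a) := fun _ _ h => rsub_le p S a h.1 h.2

theorem exists_mem_rsub (x : RootAlg p S a) : ∃ y : RI ι, x ∈ rsub p S a y := by
  classical
  obtain ⟨P, rfl⟩ := rmk_surj p S a x
  induction P using MvPolynomial.induction_on with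
  | C s => exact ⟨(∅, 0), by rw [rmk_C]; exact algebraMap_mem _ s⟩
  | add f g hf hg =>
    obtain ⟨y, hy⟩ := hf
    obtain ⟨z, hz⟩ := hg
    refine ⟨(y.1 ∪ z.1, max y.2 z.2), ?_⟩
    rw [map_add]
    exact add_mem (rsub_le p S a Finset.subset_union_left (le_max_left _ _) hy)
      (rsub_le p S a Finset.subset_union_right (le_max_right _ _) hz)
  | mul_X f x hf =>
    obtain ⟨y, hy⟩ := hf
    refine ⟨(insert x.1 y.1, max x.2 y.2), ?_⟩
    rw [map_mul, show rmk p S a (MvPolynomial.X x) = rx p S a x.1 x.2 from rfl]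
    refine mul_mem (rsub_le p S a (Finset.subset_insert _ _) (le_max_right _ _) hy)
      (rsub_le p S a (F := {x.1}) ?_ (le_max_left _ _)
        (rx_mem_rsub p S a (Finset.mem_singleton_self _)))
    intro j hj
    rw [Finset.mem_singleton.mp hj]
    exact Finset.mem_insert_self _ _

theorem prod_rx_mem_span [Fact p.Prime] (F : Finset ι) (e : ℕ) (n : ι →₀ ℕ) (hn : n.support ⊆ F) :
    (n.prod fun i m => rx p S a i e ^ m) ∈ Submodule.span S
      {y | ∃ α : Bx ι (p ^ e), α.1.support ⊆ F ∧ y = α.1.prod fun i m => rx p S a i e ^ m} := by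
  have hq : 0 < p ^ e := pow_pos (Fact.out : p.Prime).pos _
  let α : ι →₀ ℕ := n.mapRange (fun m => m % p ^ e) (Nat.zero_mod _)
  have hα : α.support ⊆ F := (Finsupp.support_mapRange).trans hn
  have h : (n.prod fun i m => rx p S a i e ^ m) =
      (∏ i ∈ F, a i ^ (n i / p ^ e)) • α.prod fun i m => rx p S a i e ^ m := by
    rw [Finsupp.prod_of_support_subset _ hn _ (fun i _ => pow_zero _),
      Finsupp.prod_of_support_subset _ hα _ (fun i _ => pow_zero _), Algebra.smul_def, map_prod,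
      ← Finset.prod_mul_distrib]
    refine Finset.prod_congr rfl fun i _ => ?_
    rw [map_pow, ← rx_pow_pow, ← pow_mul, ← pow_add]
    congr 1
    exact (Nat.div_add_mod _ _).symm
  rw [h]
  exact Submodule.smul_mem _ _ (Submodule.subset_span ⟨⟨α, fun i => Nat.mod_lt _ hq⟩, hα, rfl⟩)

theorem mem_rsub_iff [Fact p.Prime] (F : Finset ι) (e : ℕ) (x : RootAlg p S a) :
    x ∈ rsub p S a (F, e) ↔ x ∈ Submodule.span S
      {y | ∃ α : Bx ι (p ^ e), α.1.support ⊆ F ∧ y = α.1.prod fun i m => rx p S a i e ^ m} := by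
  constructor
  · intro hx
    rw [← Subalgebra.mem_toSubmodule, rsub, Algebra.adjoin_eq_span] at hx
    refine Submodule.span_le.mpr ?_ hx
    intro y hy
    obtain ⟨n, hn, rfl⟩ : ∃ n : ι →₀ ℕ, n.support ⊆ F ∧
        y = n.prod fun i m => rx p S a i e ^ m := by
      induction hy using Submonoid.closure_induction with
      | mem y hy =>
        obtain ⟨i, hi, rfl⟩ := hy
        refine ⟨Finsupp.single i 1, Finsupp.support_single_subset.trans ?_, ?_⟩
        · exact Finset.singleton_subset_iff.mpr hi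
        · rw [Finsupp.prod_single_index (by exact pow_zero _), pow_one]
      | one => exact ⟨0, by simp, by simp⟩
      | mul y z _ _ hy hz =>
        classical
        obtain ⟨n, hn, rfl⟩ := hy
        obtain ⟨m, hm, rfl⟩ := hz
        refine ⟨n + m, Finsupp.support_add.trans (Finset.union_subset hn hm), ?_⟩
        rw [Finsupp.prod_add_index' (fun _ => pow_zero _) (fun _ _ _ => pow_add _ _ _)]
    exact prod_rx_mem_span p S a F e n hn
  · intro hx
    rw [← Subalgebra.mem_toSubmodule]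
    refine Submodule.span_le.mpr ?_ hx
    rintro _ ⟨α, hα, rfl⟩
    change (α.1.prod fun i m => rx p S a i e ^ m) ∈ rsub p S a (F, e)
    exact prod_mem fun i hi => pow_mem (rx_mem_rsub p S a (hα hi)) _

theorem mem_span_rx [Fact p.Prime] (x : RootAlg p S a) : ∃ e : ℕ,
    x ∈ Submodule.span S (Set.range fun α : Bx ι (p ^ e) => α.1.prod fun i m =>
      rx p S a i e ^ m) := by
  obtain ⟨⟨F, e⟩, hx⟩ := exists_mem_rsub p S a x
  rw [mem_rsub_iff] at hx
  refine ⟨e, Submodule.span_mono ?_ hx⟩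
  rintro _ ⟨α, _, rfl⟩
  exact ⟨α, rfl⟩

theorem free_rootAlg [Fact p.Prime] : Module.Free S (RootAlg p S a) := by
  obtain ⟨f, hf⟩ := exists_qpsi p S a
  have hind := linearIndependent_qsingle p S (ι := ι)
  have hinj : Function.Injective f := by
    rw [injective_iff_map_eq_zero]
    intro x hx
    obtain ⟨e, he⟩ := mem_span_rx p S a x
    rw [Finsupp.mem_span_range_iff_exists_finsupp] at he
    obtain ⟨c, rfl⟩ := he
    have hc : c = 0 := by
      have h2 := hind e
      rw [linearIndependent_iff] at h2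
      refine h2 c ?_
      rw [← hx, Finsupp.linearCombination_apply, Finsupp.sum, Finsupp.sum, map_sum]
      exact Finset.sum_congr rfl fun α _ => by rw [map_smul, hf]
    rw [hc, Finsupp.sum_zero_index]
  have hrange : LinearMap.range f =
      Finsupp.supported S S {m : ι →₀ ℚ≥0 | ∃ (e : ℕ) (α : Bx ι (p ^ e)), m = qd p e α.1} := by
    rw [Finsupp.supported_eq_span_single]
    refine le_antisymm ?_ ?_
    · rintro _ ⟨x, rfl⟩
      obtain ⟨e, he⟩ := mem_span_rx p S a x
      have h3 := Submodule.mem_map_of_mem (f := f) he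
      rw [Submodule.map_span] at h3
      refine Submodule.span_mono ?_ h3
      rintro _ ⟨_, ⟨α, rfl⟩, rfl⟩
      exact ⟨qd p e α.1, ⟨e, α, rfl⟩, (hf e α).symm⟩
    · rw [Submodule.span_le]
      rintro _ ⟨_, ⟨e, α, rfl⟩, rfl⟩
      exact ⟨_, hf e α⟩
  exact Module.Free.of_equiv (((LinearEquiv.ofInjective f hinj).trans
    (LinearEquiv.ofEq _ _ hrange)).trans (Finsupp.supportedEquivFinsupp _)).symm

end

end Vale.Agent.P202.Mix
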