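import Vale.Agent.P202.Mix.Lam
import Vale.Agent.P202.Mix.RootAlg

/-!
P202 MIX: the tower of the algebra of all `p`-power roots.
-/

namespace Vale.Agent.P202.Mix

open Polynomial TensorProduct IsLocalRing

universe u v w

noncomputable section

/-- the set of the exponents with support in `F` is finite. -/
theorem finite_Bx {ι : Type v} (F : Finset ι) (q : ℕ) :
    Finite {α : Bx ι q // α.1.support ⊆ F} := by
  refine Finite.of_injective (fun α : {α : Bx ι q // α.1.support ⊆ F} =>
    (fun i : F => (⟨α.1.1 i, α.1.2 i⟩ : Fin q))) ?_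
  intro α β h
  refine Subtype.ext (Subtype.ext (Finsupp.ext fun i => ?_))
  by_cases hi : i ∈ F
  · exact congrArg Fin.val (congrFun h ⟨i, hi⟩)
  · rw [Finsupp.notMem_support_iff.mp fun h' => hi (α.2 h'),
      Finsupp.notMem_support_iff.mp fun h' => hi (β.2 h')]

variable (p : ℕ) (S : Type u) [CommRing S] {ι : Type v} (a : ι → S)

theorem rsub_fg [Fact p.Prime] (x : RI ι) : (Subalgebra.toSubmodule (rsub p S a x)).FG := by
  obtain ⟨F, e⟩ := x
  have h : Subalgebra.toSubmodule (rsub p S a (F, e)) = Submodule.span S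
      {y | ∃ α : Bx ι (p ^ e), α.1.support ⊆ F ∧ y = α.1.prod fun i m => rx p S a i e ^ m} := by
    ext x
    rw [Subalgebra.mem_toSubmodule, mem_rsub_iff]
  rw [h]
  refine Submodule.fg_span ?_
  have := finite_Bx F (p ^ e)
  refine (Set.finite_range (fun α : {α : Bx ι (p ^ e) // α.1.support ⊆ F} =>
    α.1.1.prod fun i m => rx p S a i e ^ m)).subset ?_
  rintro _ ⟨α, hα, rfl⟩
  exact ⟨⟨α, hα⟩, rfl⟩

open Classical in
/-- the widths of the box of the exponents of the generators of `rsub (F', e')` over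
`rsub (F, e)`. -/
def rwidth (F : Finset ι) (e e' : ℕ) (i : ι) : ℕ := if i ∈ F then p ^ (e' - e) else p ^ e'

theorem rwidth_pos [Fact p.Prime] (F : Finset ι) (e e' : ℕ) (i : ι) :
    0 < rwidth p F e e' i := by
  unfold rwidth
  split_ifs
  · exact pow_pos (Fact.out : p.Prime).pos _
  · exact pow_pos (Fact.out : p.Prime).pos _

theorem prod_rwidth {F F' : Finset ι} (h : F ⊆ F') {e e' : ℕ} (he : e ≤ e') :
    (∏ i ∈ F', rwidth p F e e' i) * p ^ (e * F.card) = p ^ (e' * F'.card) := by
  classical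
  have h1 : p ^ (e * F.card) = ∏ i ∈ F', if i ∈ F then p ^ e else 1 := by
    rw [Finset.prod_ite_mem, Finset.inter_eq_right.mpr h, Finset.prod_const, ← pow_mul]
  rw [h1, ← Finset.prod_mul_distrib, pow_mul, ← Finset.prod_const]
  refine Finset.prod_congr rfl fun i _ => ?_
  unfold rwidth
  split_ifs
  · rw [← pow_add, Nat.sub_add_cancel he]
  · rw [mul_one]

/-- the generators of `rsub (F', e')` over `rsub (F, e)`. -/
abbrev RK (F F' : Finset ι) (e e' : ℕ) : Type v :=
  (i : {x // x ∈ F'}) → Fin (rwidth p F e e' i)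

instance instFintypeRK (F F' : Finset ι) (e e' : ℕ) : Fintype (RK p F F' e e') := by
  classical
  exact inferInstance

/-- the monomials. -/
def rgen (F F' : Finset ι) (e e' : ℕ) (β : RK p F F' e e') : RootAlg p S a :=
  ∏ i : {x // x ∈ F'}, rx p S a i e' ^ (β i : ℕ)

theorem rgen_mem (F F' : Finset ι) (e e' : ℕ) (β : RK p F F' e e') :
    rgen p S a F F' e e' β ∈ rsub p S a (F', e') :=
  prod_mem fun i _ => pow_mem (rx_mem_rsub p S a i.2) _

theorem card_RK {F F' : Finset ι} (h : F ⊆ F') {e e' : ℕ} (he : e ≤ e') :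
    Fintype.card (RK p F F' e e') * p ^ (e * F.card) = p ^ (e' * F'.card) := by
  rw [← prod_rwidth p h he, ← Nat.card_eq_fintype_card, Nat.card_pi]
  simp only [Nat.card_eq_fintype_card, Fintype.card_fin]
  rw [Finset.prod_coe_sort F' (rwidth p F e e')]

theorem prod_eq_rgen_mul [Fact p.Prime] {F F' : Finset ι} (h : F ⊆ F') {e e' : ℕ} (he : e ≤ e')
    (α : Bx ι (p ^ e')) (hα : α.1.support ⊆ F') :
    (α.1.prod fun i m => rx p S a i e' ^ m) =
      rgen p S a F F' e e' (fun i => ⟨α.1 i % rwidth p F e e' i,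
        Nat.mod_lt _ (rwidth_pos p F e e' i)⟩) *
      ∏ i ∈ F, rx p S a i e ^ (α.1 i / rwidth p F e e' i) := by
  classical
  have h1 : (∏ i ∈ F, rx p S a i e ^ (α.1 i / rwidth p F e e' i)) =
      ∏ i ∈ F', if i ∈ F then rx p S a i e ^ (α.1 i / rwidth p F e e' i) else 1 := by
    rw [Finset.prod_ite_mem, Finset.inter_eq_right.mpr h]
  rw [h1, rgen, Finset.prod_coe_sort F' (fun i => rx p S a i e' ^ (α.1 i % rwidth p F e e' i)),
    ← Finset.prod_mul_distrib, Finsupp.prod_of_support_subset _ hα _ (fun i _ => pow_zero _)]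
  refine Finset.prod_congr rfl fun i _ => ?_
  unfold rwidth
  split_ifs with hi
  · have h2 : rx p S a i e' ^ p ^ (e' - e) = rx p S a i e := by
      have h3 := rx_pow_add p S a i e (e' - e)
      rwa [Nat.add_sub_cancel' he] at h3
    rw [← h2, ← pow_mul, ← pow_add, Nat.mod_add_div]
  · rw [Nat.mod_eq_of_lt (α.2 i), mul_one]

/-- every element of `rsub (F', e')` is a combination of the monomials with coefficients in
`rsub (F, e)`. -/
theorem exists_eq_sum_rgen [Fact p.Prime] {F F' : Finset ι} (h : F ⊆ F') {e e' : ℕ}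
    (he : e ≤ e') (x : RootAlg p S a) (hx : x ∈ rsub p S a (F', e')) :
    ∃ c : RK p F F' e e' → RootAlg p S a, (∀ β, c β ∈ rsub p S a (F, e)) ∧
      x = ∑ β, rgen p S a F F' e e' β * c β := by
  classical
  have hx' := (mem_rsub_iff p S a F' e' x).mp hx
  clear hx
  induction hx' using Submodule.span_induction with
  | mem x hx =>
    obtain ⟨α, hα, rfl⟩ := hx
    let β0 : RK p F F' e e' := fun i => ⟨α.1 i % rwidth p F e e' i,
      Nat.mod_lt _ (rwidth_pos p F e e' i)⟩
    let y : RootAlg p S a := ∏ i ∈ F, rx p S a i e ^ (α.1 i / rwidth p F e e' i)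
    refine ⟨fun β => if β = β0 then y else 0, fun β => ?_, ?_⟩
    · dsimp only
      split_ifs
      · exact prod_mem fun i hi => pow_mem (rx_mem_rsub p S a hi) _
      · exact zero_mem _
    · dsimp only
      rw [Finset.sum_eq_single β0 (fun β _ hβ => by rw [if_neg hβ, mul_zero])
        (fun h' => absurd (Finset.mem_univ _) h'), if_pos rfl]
      exact prod_eq_rgen_mul p S a h he α hα
  | zero => exact ⟨0, fun _ => zero_mem _, by simp⟩
  | add x y _ _ hx hy =>
    obtain ⟨c, hc, rfl⟩ := hx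
    obtain ⟨d, hd, rfl⟩ := hy
    refine ⟨c + d, fun β => add_mem (hc β) (hd β), ?_⟩
    rw [← Finset.sum_add_distrib]
    exact Finset.sum_congr rfl fun β _ => (mul_add _ _ _).symm
  | smul s x _ hx =>
    obtain ⟨c, hc, rfl⟩ := hx
    refine ⟨s • c, fun β => Subalgebra.smul_mem _ (hc β) s, ?_⟩
    rw [Finset.smul_sum]
    exact Finset.sum_congr rfl fun β _ => (mul_smul_comm _ _ _).symm

/-- the tower of the subalgebras generated by finitely many roots. -/
def rootTower [Fact p.Prime] : Tower S (RootAlg p S a) (RI ι) where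
  sub := rsub p S a
  mono := rsub_mono p S a
  cover := exists_mem_rsub p S a
  rank x := p ^ (x.2 * x.1.card)
  rank_pos x := pow_pos (Fact.out : p.Prime).pos _
  fg := rsub_fg p S a
  gen := by
    rintro ⟨F, e⟩ ⟨F', e'⟩ ⟨hF, he⟩
    have hF : F ⊆ F' := hF
    have he : e ≤ e' := he
    let ε := Fintype.equivFin (RK p F F' e e')
    refine ⟨Fintype.card (RK p F F' e e'), fun k => rgen p S a F F' e e' (ε.symm k),
      card_RK p hF he, fun k => rgen_mem p S a F F' e e' _, fun x hx => ?_⟩
    obtain ⟨c, hc, rfl⟩ := exists_eq_sum_rgen p S a hF he x hx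
    refine ⟨fun k => c (ε.symm k), fun k => hc _, ?_⟩
    exact (Equiv.sum_comp ε.symm fun β => rgen p S a F F' e e' β * c β).symm

/-- TASK K4: the tower (`rank (F, e) = p ^ (e * card F)`; `sub (F', e')` is generated over
`sub (F, e)` by `p ^ (e' * card F' - e * card F)` monomials). -/
theorem exists_rootTower [Fact p.Prime] : ∃ T : Tower S (RootAlg p S a) (RI ι),
    (∀ x, T.sub x = rsub p S a x) ∧ ∀ x, T.rank x = p ^ (x.2 * x.1.card) :=
  ⟨rootTower p S a, fun _ => rfl, fun _ => rfl⟩

end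

end Vale.Agent.P202.Mix
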