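import Vale.Agent.P202.Mix.UnitLenA

/-!
P202 MIX, task M12, part C: the ring `E/n_S E` (helper677).
-/

namespace Vale.Agent.P202.Mix.UL

open TensorProduct IsLocalRing

universe u

variable {p : ℕ} [Fact p.Prime] {k : Type u} [Field k] [CharP k p] {r : ℕ}
variable {Λ : Type u} [CommRing Λ] [IsLocalRing Λ] {u : Fin r → Λ}
  {ψ : Λ →+* WittVector p (Rp p k r)}
  {red : Λ →+* R0 k r ⧸ Ideal.span {(MvPowerSeries.X 0 : R0 k r)}}
  {ι : Type u} {b : ι → Λ} {β : ι → k} {res : ResidueField Λ →+* k}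

/-- the elements of `Λ` whose roots are used. -/
def cL (p : ℕ) {Λ : Type u} [CommRing Λ] {r : ℕ} (u : Fin r → Λ) {ι : Type u} (b : ι → Λ) :
    Fin (r + 1) ⊕ ι → Λ :=
  Sum.elim (Fin.cons (p : Λ) u) b

theorem algebraMap_BN {Λ : Type u} [CommRing Λ] (ψ : Λ →+* WittVector p (Rp p k r)) (C : Type u)
    [CommRing C] [Algebra (Rp p k r) C] (N : ℕ) (l : Λ) :
    algebraMap Λ (BN ψ C N) l = mkN ψ C N (toB p C (tC p k r C)
      (WittVector.map (algebraMap (Rp p k r) C) (ψ l))) := rfl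

theorem teN_cR (hX : IsBaseX p k r u ψ red b β res) {r0 : ℕ} (d : PExt.{u} p k r r0) (N : ℕ)
    (i : Fin (r + 1) ⊕ ι) :
    teN ψ d.C N (cR p k r d.C β i) = algebraMap Λ (BN ψ d.C N) (cL p u b i) := by
  rcases i with i | i
  · refine Fin.cases ?_ (fun j => ?_) i
    · change mkN ψ d.C N (te p d.C (tC p k r d.C) (tC p k r d.C)) = algebraMap Λ _ (p : Λ)
      rw [te_t, map_natCast, map_natCast]
    · change mkN ψ d.C N (toB p d.C (tC p k r d.C) (WittVector.teichmuller p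
        (algebraMap (Rp p k r) d.C (xp p k r j.succ)))) = algebraMap Λ _ (u j)
      rw [algebraMap_BN, hX.psi_u, WittVector.map_teichmuller]
  · change mkN ψ d.C N (toB p d.C (tC p k r d.C) (WittVector.teichmuller p
      (algebraMap (Rp p k r) d.C (PerfectClosure.of (R0 k r) p (MvPowerSeries.C (β i)))))) =
      algebraMap Λ _ (b i)
    rw [algebraMap_BN, hX.psi_b, WittVector.map_teichmuller]

theorem exists_piN {Λ : Type u} [CommRing Λ] (ψ : Λ →+* WittVector p (Rp p k r)) {r0 : ℕ}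
    (d : PExt.{u} p k r r0) (N : ℕ) (hN : 1 ≤ N) :
    ∃ π : BN ψ d.C N →+* d.C ⧸ vI p k r d.C, ∀ x : WittVector p d.C,
      π (mkN ψ d.C N (toB p d.C (tC p k r d.C) x)) = Ideal.Quotient.mk _ (x.coeff 0) := by
  obtain ⟨π, h1, -, h3⟩ := exists_proj p d.C (tC p k r d.C)
  have hle : Ideal.span {tC p k r d.C} ≤ vI p k r d.C := by
    rw [Ideal.span_singleton_le_iff_mem]
    exact Ideal.subset_span ⟨0, rfl⟩
  let π2 : Bt p d.C (tC p k r d.C) →+* d.C ⧸ vI p k r d.C := (Ideal.Quotient.factor hle).comp π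
  have h4 : π2 (p : Bt p d.C (tC p k r d.C)) = 0 := by
    have : (p : Bt p d.C (tC p k r d.C)) ∈ RingHom.ker π := by
      rw [h3]
      exact Ideal.mem_span_singleton_self _
    change Ideal.Quotient.factor hle (π _) = 0
    rw [RingHom.mem_ker.mp this, map_zero]
  have h5 : ∀ a ∈ Ideal.span {(p : Bt p d.C (tC p k r d.C)) ^ N}, π2 a = 0 := by
    intro a ha
    obtain ⟨c, rfl⟩ := Ideal.mem_span_singleton'.mp ha
    rw [map_mul, map_pow, h4, zero_pow (by omega), mul_zero]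
  refine ⟨Ideal.Quotient.lift _ π2 h5, fun x => ?_⟩
  change Ideal.Quotient.factor hle (π (toB p d.C (tC p k r d.C) x)) = _
  rw [h1]
  rfl

theorem piN_algebraMap (hX : IsBaseX p k r u ψ red b β res) {r0 : ℕ} (d : PExt.{u} p k r r0)
    (N : ℕ) (π : BN ψ d.C N →+* d.C ⧸ vI p k r d.C) (hπ : ∀ x : WittVector p d.C,
      π (mkN ψ d.C N (toB p d.C (tC p k r d.C) x)) = Ideal.Quotient.mk _ (x.coeff 0)) (l : Λ) :
    π (algebraMap Λ (BN ψ d.C N) l) = kCb p k r d.C (res (residue Λ l)) := by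
  rw [algebraMap_BN, hπ, WittVector.map_coeff]
  change _ = Ideal.Quotient.mk _ (algebraMap (Rp p k r) d.C (kR p k r (res (residue Λ l))))
  rw [Ideal.Quotient.eq, ← map_sub]
  have h := Ideal.mem_map_of_mem (algebraMap (Rp p k r) d.C) (psi_coeff hX l)
  rw [Ideal.map_span, ← Set.range_comp] at h
  exact h

variable {A S : Type u} [CommRing A] [CommRing S] [IsLocalRing S] [Algebra Λ A] [Algebra A S]
  [IsLocalHom (algebraMap Λ A)] [IsLocalHom (algebraMap A S)]

variable (ψ A S) in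
/-- the ideal `n_S E`. -/
noncomputable def nE (C : Type u) [CommRing C] [Algebra (Rp p k r) C] (N : ℕ) : Ideal (ES ψ A S C N) :=
  (maximalIdeal S).map (algebraMap S (ES ψ A S C N))

omit [IsLocalRing Λ] [IsLocalHom (algebraMap Λ A)]
  [IsLocalHom (algebraMap A S)] [IsLocalRing S] in
theorem toES_algebraMap (C : Type u) [CommRing C] [Algebra (Rp p k r) C] (N : ℕ) (x : Λ) :
    toES ψ A S C N (algebraMap Λ (BN ψ C N) x) =
      algebraMap S (ES ψ A S C N) (algebraMap A S (algebraMap Λ A x)) := by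
  have h1 : (1 : A) ⊗ₜ[Λ] (algebraMap Λ (BN ψ C N) x) = (algebraMap Λ A x) ⊗ₜ[Λ] 1 := by
    rw [Algebra.algebraMap_eq_smul_one, Algebra.algebraMap_eq_smul_one, TensorProduct.smul_tmul]
  change (1 : S) ⊗ₜ[A] ((1 : A) ⊗ₜ[Λ] (algebraMap Λ (BN ψ C N) x)) =
    (algebraMap A S (algebraMap Λ A x)) ⊗ₜ[A] 1
  rw [h1, Algebra.algebraMap_eq_smul_one (A := S), TensorProduct.smul_tmul]
  congr 1
  rw [Algebra.TensorProduct.one_def, TensorProduct.smul_tmul', smul_eq_mul, mul_one]

theorem toES_mem (C : Type u) [CommRing C] [Algebra (Rp p k r) C] (N : ℕ) (x : Λ)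
    (hx : x ∈ maximalIdeal Λ) : toES ψ A S C N (algebraMap Λ (BN ψ C N) x) ∈ nE ψ A S C N := by
  rw [toES_algebraMap]
  refine Ideal.mem_map_of_mem _ ?_
  rw [mem_maximalIdeal, mem_nonunits_iff] at hx ⊢
  rw [isUnit_map_iff, isUnit_map_iff]
  exact hx

theorem toES_p_mem (hX : IsBaseX p k r u ψ red b β res) (C : Type u) [CommRing C]
    [Algebra (Rp p k r) C] (N : ℕ) (x : Bt p C (tC p k r C))
    (hx : x ∈ Ideal.span {(p : Bt p C (tC p k r C))}) :
    toES ψ A S C N (mkN ψ C N x) ∈ nE ψ A S C N := by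
  obtain ⟨c, rfl⟩ := Ideal.mem_span_singleton'.mp hx
  rw [map_mul, map_mul]
  refine Ideal.mul_mem_left _ _ ?_
  have h1 : toES ψ A S C N (mkN ψ C N (p : Bt p C (tC p k r C))) =
      toES ψ A S C N (algebraMap Λ (BN ψ C N) (p : Λ)) := by
    simp only [map_natCast]
  rw [h1]
  refine toES_mem C N _ ?_
  rw [hX.max]
  exact Ideal.subset_span (Set.mem_insert _ _)

theorem exists_omega (hX : IsBaseX p k r u ψ red b β res) {r0 : ℕ} (d : PExt.{u} p k r r0)
    (N : ℕ) : ∃ ω : d.C →+* ES ψ A S d.C N ⧸ nE ψ A S d.C N,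
      ∀ c, ω c = Ideal.Quotient.mk _ (toES ψ A S d.C N (teN ψ d.C N c)) := by
  refine ⟨{ toFun := fun c => Ideal.Quotient.mk _ (toES ψ A S d.C N (teN ψ d.C N c))
            map_one' := ?_
            map_mul' := fun a c => ?_
            map_zero' := ?_
            map_add' := fun a c => ?_ }, fun c => rfl⟩
  · rw [teN, te_one, map_one, map_one, map_one]
  · rw [teN, te_mul, map_mul, map_mul, map_mul]
    rfl
  · rw [teN, te_zero, map_zero, map_zero, map_zero]
  · rw [teN, teN, teN, ← map_add, ← map_add, ← map_add, Ideal.Quotient.eq, ← map_sub, ← map_sub]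
    exact toES_p_mem hX d.C N _ (te_add_mem p d.C _ a c)

theorem span_omega (hX : IsBaseX p k r u ψ red b β res) {r0 : ℕ} (d : PExt.{u} p k r r0)
    (N : ℕ) (w : ES ψ A S d.C N ⧸ nE ψ A S d.C N) :
    w ∈ Submodule.span S (Set.range fun c : d.C =>
      (Ideal.Quotient.mk (nE ψ A S d.C N)) (toES ψ A S d.C N (teN ψ d.C N c))) := by
  obtain ⟨z, rfl⟩ := Ideal.Quotient.mk_surjective w
  induction z using TensorProduct.induction_on with
  | zero => rw [map_zero]; exact zero_mem _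
  | add x y hx hy => rw [map_add]; exact add_mem hx hy
  | tmul s y =>
    have e1 : (s ⊗ₜ[A] y : ES ψ A S d.C N) = s • ((1 : S) ⊗ₜ[A] y) := by
      rw [TensorProduct.smul_tmul', smul_eq_mul, mul_one]
    have e2 : (Ideal.Quotient.mk (nE ψ A S d.C N)) (s • ((1 : S) ⊗ₜ[A] y)) =
        s • (Ideal.Quotient.mk (nE ψ A S d.C N)) ((1 : S) ⊗ₜ[A] y) := rfl
    rw [e1, e2]
    refine Submodule.smul_mem _ _ ?_
    clear e1 e2
    induction y using TensorProduct.induction_on with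
    | zero => rw [TensorProduct.tmul_zero, map_zero]; exact zero_mem _
    | add x y hx hy => rw [TensorProduct.tmul_add, map_add]; exact add_mem hx hy
    | tmul a y =>
      have e3 : ((1 : S) ⊗ₜ[A] (a ⊗ₜ[Λ] y) : ES ψ A S d.C N) =
          (algebraMap A S a) • toES ψ A S d.C N y := by
        change _ = (algebraMap A S a) • ((1 : S) ⊗ₜ[A] ((1 : A) ⊗ₜ[Λ] y))
        rw [TensorProduct.smul_tmul', smul_eq_mul, mul_one, Algebra.algebraMap_eq_smul_one,
          TensorProduct.smul_tmul, TensorProduct.smul_tmul', smul_eq_mul, mul_one]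
      have e4 : (Ideal.Quotient.mk (nE ψ A S d.C N)) ((algebraMap A S a) •
          toES ψ A S d.C N y) = (algebraMap A S a) •
          (Ideal.Quotient.mk (nE ψ A S d.C N)) (toES ψ A S d.C N y) := rfl
      rw [e3, e4]
      refine Submodule.smul_mem _ _ (Submodule.subset_span ?_)
      obtain ⟨y', rfl⟩ : ∃ y', mkN ψ d.C N y' = y := Ideal.Quotient.mk_surjective y
      obtain ⟨c, hc⟩ := exists_te_sub_mem p d.C (tC p k r d.C) y'
      refine ⟨c, ?_⟩
      have h1 := toES_p_mem (A := A) (S := S) hX d.C N _ hc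
      rw [map_sub, map_sub, ← Ideal.Quotient.eq] at h1
      exact h1.symm

end Vale.Agent.P202.Mix.UL
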