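import Vale.Agent.P202.Mix.UnitLenB
import Vale.Agent.P202.Mix.UnitLenC
import Vale.Agent.P202.Mix.RootTower

/-!
P202 MIX, task M12: the additive length on `E = S ⊗_A (A ⊗_Λ B/p^N)` with `L(E/n_S E) = 1`
(helper677).
-/

namespace Vale.Agent.P202.Mix

open Polynomial TensorProduct IsLocalRing UL
open scoped ENNReal

universe u

variable {p : ℕ} [Fact p.Prime] {k : Type u} [Field k] [CharP k p] {r : ℕ}
variable {Λ : Type u} [CommRing Λ] [IsLocalRing Λ] {u : Fin r → Λ}
  {ψ : Λ →+* WittVector p (Rp p k r)}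
  {red : Λ →+* R0 k r ⧸ Ideal.span {(MvPowerSeries.X 0 : R0 k r)}}
  {ι : Type u} {b : ι → Λ} {β : ι → k} {res : ResidueField Λ →+* k}
variable {A S : Type u} [CommRing A] [CommRing S] [IsLocalRing A] [IsLocalRing S]
  [IsNoetherianRing A] [IsNoetherianRing S]
  [Algebra Λ A] [Algebra A S] [IsLocalHom (algebraMap Λ A)] [IsLocalHom (algebraMap A S)]

namespace UL

omit [IsLocalRing A] [IsNoetherianRing A] [IsNoetherianRing S] in
theorem exists_Theta (hX : IsBaseX p k r u ψ red b β res) {r0 : ℕ} (d : PExt.{u} p k r r0)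
    (N : ℕ) (hN : 1 ≤ N) :
    letI : Algebra (ResidueField Λ) (d.C ⧸ vI p k r d.C) := ((kCb p k r d.C).comp res).toAlgebra
    letI : Algebra (ResidueField Λ) (ResidueField S) :=
      (ResidueField.map ((algebraMap A S).comp (algebraMap Λ A))).toAlgebra
    ∃ Θ : (ES ψ A S d.C N ⧸ nE ψ A S d.C N) →+*
      (ResidueField S) ⊗[ResidueField Λ] (d.C ⧸ vI p k r d.C),
      (∀ s : S, Θ (Ideal.Quotient.mk _ (algebraMap S (ES ψ A S d.C N) s)) =
        residue S s ⊗ₜ 1) ∧
      ∀ c : d.C, Θ (Ideal.Quotient.mk _ (toES ψ A S d.C N (teN ψ d.C N c))) =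
        1 ⊗ₜ Ideal.Quotient.mk _ c := by
  let _ : Algebra (ResidueField Λ) (d.C ⧸ vI p k r d.C) := ((kCb p k r d.C).comp res).toAlgebra
  let _ : Algebra (ResidueField Λ) (ResidueField S) :=
    (ResidueField.map ((algebraMap A S).comp (algebraMap Λ A))).toAlgebra
  obtain ⟨π, hπ⟩ := exists_piN ψ d N hN
  let i1 : S →+* (ResidueField S) ⊗[ResidueField Λ] (d.C ⧸ vI p k r d.C) :=
    (Algebra.TensorProduct.includeLeftRingHom).comp (residue S)
  let i2 : BN ψ d.C N →+* (ResidueField S) ⊗[ResidueField Λ] (d.C ⧸ vI p k r d.C) :=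
    (Algebra.TensorProduct.includeRight (R := ResidueField Λ) (A := ResidueField S)
      (B := d.C ⧸ vI p k r d.C)).toRingHom.comp π
  obtain ⟨Θ, h1, h2⟩ := exists_theta (A := A) i1 i2 (fun x => by
    change (residue S (algebraMap A S (algebraMap Λ A x))) ⊗ₜ[ResidueField Λ] 1 =
      1 ⊗ₜ[ResidueField Λ] π (algebraMap Λ (BN ψ d.C N) x)
    rw [piN_algebraMap hX d N π hπ]
    have e1 : residue S (algebraMap A S (algebraMap Λ A x)) =
        algebraMap (ResidueField Λ) (ResidueField S) (residue Λ x) := rfl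
    have e2 : kCb p k r d.C (res (residue Λ x)) =
        algebraMap (ResidueField Λ) (d.C ⧸ vI p k r d.C) (residue Λ x) := rfl
    rw [e1, e2, Algebra.algebraMap_eq_smul_one, Algebra.algebraMap_eq_smul_one,
      TensorProduct.smul_tmul])
  have h3 : ∀ x ∈ nE ψ A S d.C N, Θ x = 0 := by
    have : nE ψ A S d.C N ≤ RingHom.ker Θ := by
      rw [nE, Ideal.map_le_iff_le_comap]
      intro s hs
      rw [Ideal.mem_comap, RingHom.mem_ker, h1]
      change (residue S s) ⊗ₜ[ResidueField Λ] 1 = _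
      rw [(residue_eq_zero_iff s).mpr hs, TensorProduct.zero_tmul]
    exact fun x hx => this hx
  refine ⟨Ideal.Quotient.lift _ Θ h3, fun s => h1 s, fun c => ?_⟩
  change Θ (toES ψ A S d.C N (teN ψ d.C N c)) = _
  refine (h2 _).trans ?_
  change 1 ⊗ₜ[ResidueField Λ] π (mkN ψ d.C N (toB p d.C (tC p k r d.C)
    (WittVector.teichmuller p c))) = _
  rw [hπ, WittVector.teichmuller_coeff_zero]

/-- exponents with support in `F`. -/
noncomputable def toBx {ι : Type u} (F : Finset ι) (q : ℕ) (hq : 0 < q) (φ : F → Fin q) :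
    Bx ι q :=
  ⟨Finsupp.embDomain (Function.Embedding.subtype _)
    (Finsupp.equivFunOnFinite.symm fun i => (φ i : ℕ)), fun i => by
      classical
      rw [Finsupp.embDomain_apply]
      split_ifs with h
      · exact (φ _).2
      · exact hq⟩

theorem toBx_injective {ι : Type u} (F : Finset ι) (q : ℕ) (hq : 0 < q) :
    Function.Injective (toBx F q hq) := by
  intro φ φ' h
  have h1 := Finsupp.embDomain_injective _ (congrArg Subtype.val h)
  have h2 := Finsupp.equivFunOnFinite.symm.injective h1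
  funext i
  exact Fin.ext (congrFun h2 i)

theorem toBx_support {ι : Type u} (F : Finset ι) (q : ℕ) (hq : 0 < q) (φ : F → Fin q) :
    ∀ i ∈ (toBx F q hq φ).1.support, i ∈ F := by
  intro i hi
  rw [toBx, Finsupp.support_embDomain, Finset.mem_map] at hi
  obtain ⟨j, -, rfl⟩ := hi
  exact j.2

omit [IsLocalRing A] [IsNoetherianRing A] [IsNoetherianRing S] in
theorem indep (hX : IsBaseX p k r u ψ red b β res) {r0 : ℕ} (d : PExt.{u} p k r r0)
    (N : ℕ) (hN : 1 ≤ N) (e : ℕ) {J : Type*} [Fintype J] (g : J → Bx (Fin (r + 1) ⊕ ι) (p ^ e))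
    (hg : Function.Injective g) (c : J → S)
    (h : ∑ j, c j • (Ideal.Quotient.mk (nE ψ A S d.C N) (toES ψ A S d.C N (teN ψ d.C N
      ((g j).1.prod fun i m => rt p e (cR p k r d.C β i) ^ m)))) = 0) (j : J) :
    c j ∈ maximalIdeal S := by
  let _ : Algebra (ResidueField Λ) (d.C ⧸ vI p k r d.C) := ((kCb p k r d.C).comp res).toAlgebra
  let _ : Algebra (ResidueField Λ) (ResidueField S) :=
    (ResidueField.map ((algebraMap A S).comp (algebraMap Λ A))).toAlgebra
  obtain ⟨Θ, h1, h2⟩ := exists_Theta (A := A) (S := S) hX d N hN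
  have h3 := ((li_sum hX d e).comp g hg)
  have h4 := Module.Flat.linearIndependent_one_tmul (S := ResidueField S) h3
  have h5 := congrArg Θ h
  rw [map_zero, map_sum] at h5
  have h6 : ∑ j, residue S (c j) • ((1 : ResidueField S) ⊗ₜ[ResidueField Λ]
      (Ideal.Quotient.mk (vI p k r d.C)
        ((g j).1.prod fun i m => rt p e (cR p k r d.C β i) ^ m))) = 0 := by
    rw [← h5]
    refine Finset.sum_congr rfl fun j _ => ?_
    have e1 : ∀ (s : S) (z : ES ψ A S d.C N ⧸ nE ψ A S d.C N), s • z =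
        Ideal.Quotient.mk _ (algebraMap S (ES ψ A S d.C N) s) * z := fun s z =>
      Algebra.smul_def s z
    rw [e1, map_mul, h1, h2, Algebra.TensorProduct.tmul_mul_tmul, mul_one, one_mul,
      TensorProduct.smul_tmul', smul_eq_mul, mul_one]
  rw [← residue_eq_zero_iff]
  exact Fintype.linearIndependent_iff.mp h4 (fun j => residue S (c j)) h6 j

omit [IsLocalRing A] [IsNoetherianRing A] [IsNoetherianRing S] in
/-- the images of the elements of `Rp` come from the algebra of roots. -/
theorem range_root (hX : IsBaseX p k r u ψ red b β res) {r0 : ℕ} (d : PExt.{u} p k r r0)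
    (N : ℕ) (ω : d.C →+* ES ψ A S d.C N ⧸ nE ψ A S d.C N)
    (hω : ∀ c, ω c = Ideal.Quotient.mk _ (toES ψ A S d.C N (teN ψ d.C N c)))
    (G : Subring (ES ψ A S d.C N ⧸ nE ψ A S d.C N))
    (hGS : ∀ s : S, Ideal.Quotient.mk _ (algebraMap S (ES ψ A S d.C N) s) ∈ G)
    (hGr : ∀ i e, ω (rt p e (cR p k r d.C β i)) ∈ G) (g : Rp p k r) :
    ω (algebraMap (Rp p k r) d.C g) ∈ G := by
  have hx : ∀ l, ω (algebraMap (Rp p k r) d.C (xp p k r l)) = 0 := by
    intro l
    have e1 : algebraMap (Rp p k r) d.C (xp p k r l) = cR p k r d.C β (Sum.inl l) := rfl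
    rw [hω, e1, teN_cR hX, Ideal.Quotient.eq_zero_iff_mem]
    refine toES_mem d.C N _ ?_
    rw [hX.max]
    refine Ideal.subset_span ?_
    refine Fin.cases (Set.mem_insert _ _) (fun j => Set.mem_insert_of_mem _ ⟨j, rfl⟩) l
  refine range_gen hX (ω.comp (algebraMap (Rp p k r) d.C)) hx G (fun c => ?_) (fun e i => ?_)
    (fun e l => ?_) g
  · obtain ⟨l, rfl⟩ := residue_surjective c
    have h1 : ω (algebraMap (Rp p k r) d.C ((ψ l).coeff 0)) =
        ω (algebraMap (Rp p k r) d.C (kR p k r (res (residue Λ l)))) := by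
      have h2 := psi_coeff hX l
      have h3 : Ideal.span (Set.range (xp p k r)) ≤
          RingHom.ker (ω.comp (algebraMap (Rp p k r) d.C)) := by
        rw [Ideal.span_le]
        rintro _ ⟨l, rfl⟩
        exact hx l
      have h4 := h3 h2
      rw [RingHom.mem_ker, map_sub, sub_eq_zero] at h4
      exact h4
    have h2 : ω (algebraMap (Rp p k r) d.C ((ψ l).coeff 0)) =
        Ideal.Quotient.mk _ (toES ψ A S d.C N (algebraMap Λ (BN ψ d.C N) l)) := by
      rw [hω, Ideal.Quotient.eq, algebraMap_BN, teN, ← map_sub, ← map_sub]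
      refine toES_p_mem hX d.C N _ ?_
      obtain ⟨π, h1, -, h3⟩ := exists_proj p d.C (tC p k r d.C)
      rw [← h3, RingHom.mem_ker, map_sub, te, h1, h1, WittVector.teichmuller_coeff_zero,
        WittVector.map_coeff, sub_self]
    change ω (algebraMap (Rp p k r) d.C (kR p k r (res (residue Λ l)))) ∈ G
    rw [← h1, h2, toES_algebraMap]
    exact hGS _
  · have h := hGr (Sum.inr i) e
    have e1 : rt p e (cR p k r d.C β (Sum.inr i)) =
        algebraMap (Rp p k r) d.C (rt p e (kR p k r (β i))) :=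
      (rt_map (algebraMap (Rp p k r) d.C) e (kR p k r (β i))).symm
    rw [e1] at h
    exact h
  · have h := hGr (Sum.inl l) e
    have e1 : rt p e (cR p k r d.C β (Sum.inl l)) =
        algebraMap (Rp p k r) d.C (rt p e (xp p k r l)) :=
      (rt_map (algebraMap (Rp p k r) d.C) e (xp p k r l)).symm
    rw [e1] at h
    exact h

end UL

/-- scaling of an additive length. -/
noncomputable def AddLen.divc {R : Type u} [CommRing R] (L : AddLen R) (c : ℝ≥0∞) : AddLen R where
  len M _ _ := L.len M / c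
  zero := by rw [L.zero, ENNReal.zero_div]
  add f g hf hg hfg := by rw [L.add f g hf hg hfg, ENNReal.add_div]

/-- TASK M12: an additive length on the modules over `E = S ⊗_A (A ⊗_Λ B/p^N)` with
`L(E/n_S E) = 1`. -/
theorem exists_unit_len (hX : IsBaseX p k r u ψ red b β res) {r0 : ℕ} (d : PExt.{u} p k r r0)
    (N : ℕ) (hN : 1 ≤ N) :
    ∃ L : AddLen (ES ψ A S d.C N),
      L.len (ES ψ A S d.C N ⧸ (maximalIdeal S).map (algebraMap S (ES ψ A S d.C N))) = 1 := by
  classical
  let a : Fin (r + 1) ⊕ ι → S := fun i => algebraMap A S (algebraMap Λ A (cL p u b i))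
  obtain ⟨f, hf⟩ := exists_lift p S a (T := ES ψ A S d.C N)
    (fun i e => toES ψ A S d.C N (teN ψ d.C N (rt p e (cR p k r d.C β i))))
    (fun i => by rw [rt_zero_exp, teN_cR hX, toES_algebraMap])
    (fun i e => by rw [← map_pow, teN, ← map_pow, ← te_pow, rt_succ_pow]; rfl)
  let _ : Algebra (RootAlg p S a) (ES ψ A S d.C N) := f.toRingHom.toAlgebra
  have hst : IsScalarTower S (RootAlg p S a) (ES ψ A S d.C N) :=
    IsScalarTower.of_algebraMap_eq fun s => (f.commutes s).symm
  obtain ⟨T, hT1, hT2⟩ := exists_rootTower p S a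
  change ∃ L : AddLen (ES ψ A S d.C N), L.len (ES ψ A S d.C N ⧸ nE ψ A S d.C N) = 1
  have hsm : ∀ (y : RootAlg p S a) (z : ES ψ A S d.C N ⧸ nE ψ A S d.C N),
      y • z = Ideal.Quotient.mk _ (f y) * z := fun y z => Algebra.smul_def y z
  have hsmS : ∀ (s : S) (z : ES ψ A S d.C N ⧸ nE ψ A S d.C N),
      s • z = Ideal.Quotient.mk _ (algebraMap S (ES ψ A S d.C N) s) * z :=
    fun s z => Algebra.smul_def s z
  have hkill : ∀ s ∈ maximalIdeal S, ∀ x : ES ψ A S d.C N ⧸ nE ψ A S d.C N, s • x = 0 := by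
    intro s hs x
    have h1 : Ideal.Quotient.mk (nE ψ A S d.C N) (algebraMap S (ES ψ A S d.C N) s) = 0 :=
      Ideal.Quotient.eq_zero_iff_mem.mpr (Ideal.mem_map_of_mem _ hs)
    rw [hsmS, h1]
    exact zero_mul x
  have hlf : LFr S (RootAlg p S a) (ES ψ A S d.C N) (ES ψ A S d.C N ⧸ nE ψ A S d.C N) := by
    refine lfr_of_smul_eq_zero _ (maximalIdeal S) ?_ _ fun s hs x => ?_
    · rw [length_residue]
      exact ENat.one_ne_top
    · have h1 := hkill s hs x
      rw [← h1, ← algebraMap_smul (ES ψ A S d.C N) s x]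
      congr 1
      exact f.commutes s
  have hL0 : (T.totLen (ES ψ A S d.C N)).len (ES ψ A S d.C N ⧸ nE ψ A S d.C N) =
      T.lam (ES ψ A S d.C N ⧸ nE ψ A S d.C N) := by
    rw [T.totLen_eq _ _ hlf, T.lenR_eq]
  obtain ⟨ω, hω⟩ := exists_omega (A := A) (S := S) hX d N
  have hωr : ∀ i e, ω (rt p e (cR p k r d.C β i)) = Ideal.Quotient.mk _ (f (rx p S a i e)) := by
    intro i e
    rw [hω, hf]
  -- upper bound
  have hup : T.lam (ES ψ A S d.C N ⧸ nE ψ A S d.C N) ≤ r0 := by
    refine lam_le_of_cover T hkill (∅, 0) (fun i => ⟨Finset.empty_subset _, Nat.zero_le _⟩) ?_ ?_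
      r0 fun X hX' => ?_
    · rw [hT1, rsub]
      simp
    · rw [hT2]
      simp
    · obtain ⟨s, rfl⟩ := hX'
      have h1 : ∀ x : ES ψ A S d.C N ⧸ nE ψ A S d.C N, ∃ c : d.C →₀ S,
          (c.sum fun i a => a • ω i) = x := by
        intro x
        have h2 := span_omega hX d N x
        simp only [← hω] at h2
        exact Finsupp.mem_span_range_iff_exists_finsupp.mp h2
      choose c hc using h1
      obtain ⟨v, hv⟩ := d.fin (s.biUnion fun x => (c x).support)
      refine ⟨fun j => ω (v j), Submodule.span_le.mpr fun x hx => ?_⟩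
      have h3 : ∀ y ∈ Submodule.span (Rp p k r) (Set.range v),
          ω y ∈ Submodule.span (RootAlg p S a) (Set.range fun j => ω (v j)) := by
        intro y hy
        induction hy using Submodule.span_induction with
        | mem y hy =>
          obtain ⟨j, rfl⟩ := hy
          exact Submodule.subset_span ⟨j, rfl⟩
        | zero => rw [map_zero]; exact zero_mem _
        | add y z _ _ hy hz => rw [map_add]; exact add_mem hy hz
        | smul g y _ hy =>
          have h4 := range_root hX d N ω hω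
            ((Ideal.Quotient.mk (nE ψ A S d.C N)).comp f.toRingHom).range
            (fun s => ⟨algebraMap S _ s, congrArg _ (f.commutes s)⟩)
            (fun i e => ⟨rx p S a i e, (hωr i e).symm⟩) g
          obtain ⟨z, hz⟩ := h4
          rw [Algebra.smul_def, map_mul, ← hz]
          change Ideal.Quotient.mk (nE ψ A S d.C N) (f z) * ω y ∈ _
          rw [← hsm]
          exact Submodule.smul_mem _ _ hy
      rw [← hc x]
      refine sum_mem fun i hi => ?_
      have h5 : ω i ∈ Submodule.span (RootAlg p S a) (Set.range fun j => ω (v j)) :=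
        h3 i (hv (Finset.mem_coe.mpr (Finset.mem_biUnion.mpr ⟨x, hx, hi⟩)))
      exact ((Submodule.span (RootAlg p S a) (Set.range fun j => ω (v j))).restrictScalars
        S).smul_mem _ h5
  -- lower bound
  have hlow : 1 ≤ T.lam (ES ψ A S d.C N ⧸ nE ψ A S d.C N) := by
    refine one_le_lam T 1 fun i => ?_
    obtain ⟨F, e⟩ := i
    have hq : 0 < p ^ e := pow_pos (Fact.out : p.Prime).pos e
    refine ⟨F → Fin (p ^ e), inferInstance, fun φ =>
      (toBx F (p ^ e) hq φ).1.prod fun i m => rx p S a i e ^ m, ?_, fun φ => ?_, fun c hc => ?_⟩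
    · rw [hT2, Fintype.card_fun, Fintype.card_fin, Fintype.card_coe, pow_mul]
    · rw [hT1]
      exact prod_mem fun i hi => pow_mem (rx_mem_rsub p S a (toBx_support F _ hq φ i hi)) _
    · refine indep (A := A) hX d N hN e (toBx F (p ^ e) hq) (toBx_injective F _ hq) c ?_
      rw [← hc]
      refine Finset.sum_congr rfl fun φ _ => ?_
      congr 1
      rw [hsm]
      refine Eq.trans ?_ (mul_one (Ideal.Quotient.mk (nE ψ A S d.C N)
        (f ((toBx F (p ^ e) hq φ).1.prod fun i m => rx p S a i e ^ m)))).symm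
      rw [← hω, map_finsuppProd, map_finsuppProd, map_finsuppProd]
      refine Finsupp.prod_congr fun i _ => ?_
      rw [map_pow, map_pow, map_pow, hωr]
  have h0 : T.lam (ES ψ A S d.C N ⧸ nE ψ A S d.C N) ≠ 0 := (zero_lt_one.trans_le hlow).ne'
  have htop : T.lam (ES ψ A S d.C N ⧸ nE ψ A S d.C N) ≠ ⊤ :=
    ne_top_of_le_ne_top (ENNReal.natCast_ne_top r0) hup
  refine ⟨(T.totLen (ES ψ A S d.C N)).divc (T.lam (ES ψ A S d.C N ⧸ nE ψ A S d.C N)), ?_⟩
  change (T.totLen (ES ψ A S d.C N)).len (ES ψ A S d.C N ⧸ nE ψ A S d.C N) / _ = 1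
  rw [hL0, ENNReal.div_self h0 htop]

end Vale.Agent.P202.Mix
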