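import Vale.Agent.P202.Mix.Defs4
import Vale.Agent.P202.Mix.Tei1
import Vale.Agent.P202.Mix.Build

/-!
P202 MIX, M15a: the form of `γ = δ + δ'`.
-/

namespace Vale.Agent.P202.Mix

open Polynomial TensorProduct IsLocalRing
open scoped ENNReal

universe u

section Gf

variable (p : ℕ) [Fact p.Prime] (C : Type u) [CommRing C] [CharP C p] [PerfectRing C p] (t : C)
  (ht : t ∈ nonZeroDivisors C)

include ht

theorem gf_root (δ : C) (G' : Bt p C t) (a K M : ℕ) (hM : a * (p ^ K - 1) ≤ M)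
    (h : te p C t δ * te p C t δ - (p : Bt p C t) ^ a * G' * te p C t δ ∈
      Ideal.span {(p : Bt p C t) ^ M}) :
    ∃ δ1 : C, δ = rt p K t ^ (a * (p ^ K - 1)) * δ1 := by
  obtain ⟨G, hG⟩ : ∃ G, G = (p : Bt p C t) ^ a * G' := ⟨_, rfl⟩
  rw [← hG] at h
  have h1 : ∀ n : ℕ, te p C t δ ^ (n + 1) - G ^ n * te p C t δ ∈
      Ideal.span {(p : Bt p C t) ^ M} := by
    intro n
    induction n with
    | zero =>
      rw [zero_add, pow_one, pow_zero, one_mul, sub_self]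
      exact zero_mem _
    | succ n ih =>
      have h2 : te p C t δ ^ (n + 1 + 1) - G ^ (n + 1) * te p C t δ =
          te p C t δ * (te p C t δ ^ (n + 1) - G ^ n * te p C t δ) +
            G ^ n * (te p C t δ * te p C t δ - G * te p C t δ) := by ring
      rw [h2]
      exact add_mem (Ideal.mul_mem_left _ _ ih) (Ideal.mul_mem_left _ _ h)
  have hp1 : 1 ≤ p ^ K := Nat.one_le_pow _ _ (Fact.out : p.Prime).pos
  have h2 := h1 (p ^ K - 1)
  rw [Nat.sub_add_cancel hp1] at h2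
  have h3 : te p C t (δ ^ p ^ K) ∈ Ideal.span {(p : Bt p C t) ^ (a * (p ^ K - 1))} := by
    rw [te_pow]
    have h4 : Ideal.span {(p : Bt p C t) ^ M} ≤ Ideal.span {(p : Bt p C t) ^ (a * (p ^ K - 1))} :=
      Ideal.span_singleton_le_span_singleton.2 (pow_dvd_pow _ hM)
    have h5 : G ^ (p ^ K - 1) * te p C t δ ∈ Ideal.span {(p : Bt p C t) ^ (a * (p ^ K - 1))} := by
      rw [Ideal.mem_span_singleton, hG, mul_pow, ← pow_mul, mul_assoc]
      exact Dvd.intro _ rfl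
    have h6 := add_mem (h4 h2) h5
    rwa [sub_add_cancel] at h6
  have h4 := mem_of_te_mem p C t ht _ _ h3
  rw [Ideal.mem_span_singleton'] at h4
  obtain ⟨w, hw⟩ := h4
  refine ⟨rt p K w, ?_⟩
  apply (iterateFrobeniusEquiv C p K).injective
  rw [iterateFrobeniusEquiv_def, iterateFrobeniusEquiv_def, mul_pow, ← pow_mul,
    mul_comm (a * (p ^ K - 1)) (p ^ K), pow_mul, rt_pow_self, rt_pow_self, ← hw, mul_comm]

theorem gf_cancel (K j : ℕ) (b : Bt p C t) (h : te p C t (rt p K t) ^ j * b = 0) : b = 0 := by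
  apply p_pow_mul_eq_zero p C t ht j
  have hp1 : 1 ≤ p ^ K := Nat.one_le_pow _ _ (Fact.out : p.Prime).pos
  have h1 : (p : Bt p C t) ^ j = te p C t (rt p K t) ^ (j * (p ^ K - 1)) *
      te p C t (rt p K t) ^ j := by
    rw [← te_rt_pow_self p C t K, ← pow_mul, ← pow_add]
    congr 1
    calc p ^ K * j = j * ((p ^ K - 1) + 1) := by rw [Nat.sub_add_cancel hp1, mul_comm]
      _ = j * (p ^ K - 1) + j := by ring
  rw [h1, mul_assoc, h, mul_zero]

theorem gf_sum (δ1 δ1' : C) (G' : Bt p C t) (a K M : ℕ) (hM : a + 1 ≤ M)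
    (h : te p C t (rt p K t ^ (a * (p ^ K - 1)) * δ1) +
      te p C t (rt p K t ^ (a * (p ^ K - 1)) * δ1') - (p : Bt p C t) ^ a * G' ∈
      Ideal.span {(p : Bt p C t) ^ M}) :
    te p C t δ1 + te p C t δ1' - te p C t (rt p K t ^ a) * G' ∈ Ideal.span {(p : Bt p C t)} := by
  have hp1 : 1 ≤ p ^ K := Nat.one_le_pow _ _ (Fact.out : p.Prime).pos
  obtain ⟨q, hq⟩ : ∃ q, p ^ K = q + 1 := ⟨p ^ K - 1, by omega⟩
  obtain ⟨M', rfl⟩ : ∃ M', M = a + 1 + M' := ⟨M - (a + 1), by omega⟩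
  have hpt := te_rt_pow_self p C t K
  rw [hq] at hpt h
  rw [Nat.add_sub_cancel, te_mul, te_mul, te_pow, Ideal.mem_span_singleton'] at h
  obtain ⟨b, hb⟩ := h
  rw [te_pow, Ideal.mem_span_singleton']
  obtain ⟨T, hT⟩ : ∃ T, T = te p C t (rt p K t) := ⟨_, rfl⟩
  refine ⟨b * (p : Bt p C t) ^ M' * T ^ a, ?_⟩
  rw [← sub_eq_zero]
  apply gf_cancel p C t ht K (a * q)
  rw [← hT] at hpt hb ⊢
  have h1 : (p : Bt p C t) ^ a = T ^ (a * q) * T ^ a := by
    rw [← hpt, ← pow_mul, ← pow_add]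
    congr 1
    ring
  have h2 : (p : Bt p C t) ^ (a + 1 + M') = T ^ (a * q) * T ^ a * (p * p ^ M') := by
    rw [← h1]
    ring
  rw [h2] at hb
  rw [h1] at hb
  linear_combination hb

/-- conclusion inside `C`. -/
theorem gf_main (δ δ' : C) (W : WittVector p C) (g0 y : C) (hW : W.coeff 0 = g0 + t * y)
    (a I : ℕ) (hI : a * p ^ (a + 1) + a ≤ I)
    (h1 : te p C t δ * te p C t δ - (p : Bt p C t) ^ a * toB p C t W * te p C t δ ∈
      Ideal.span {(p : Bt p C t) ^ (I + 1)})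
    (h2 : te p C t δ' * te p C t δ' - (p : Bt p C t) ^ a * toB p C t W * te p C t δ' ∈
      Ideal.span {(p : Bt p C t) ^ (I + 1)})
    (h3 : te p C t δ + te p C t δ' - (p : Bt p C t) ^ a * toB p C t W ∈
      Ideal.span {(p : Bt p C t) ^ (I + 1)}) :
    ∃ x : C, δ + δ' = t ^ a * (g0 + rt p 1 t * x) := by
  have hpp : p.Prime := Fact.out
  have hle : a * (p ^ (a + 1) - 1) ≤ I + 1 := by
    have : a * (p ^ (a + 1) - 1) ≤ a * p ^ (a + 1) := Nat.mul_le_mul_left _ (Nat.sub_le _ _)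
    omega
  obtain ⟨δ1, rfl⟩ := gf_root p C t ht δ _ a (a + 1) (I + 1) hle h1
  obtain ⟨δ1', rfl⟩ := gf_root p C t ht δ' _ a (a + 1) (I + 1) hle h2
  have h4 := gf_sum p C t ht δ1 δ1' _ a (a + 1) (I + 1) (by omega) h3
  obtain ⟨π, hπ, -, hk⟩ := exists_proj p C t
  rw [← hk, RingHom.mem_ker, map_sub, map_add, map_mul, te, te, te, hπ, hπ, hπ, hπ,
    WittVector.teichmuller_coeff_zero, WittVector.teichmuller_coeff_zero,
    WittVector.teichmuller_coeff_zero, ← map_add, ← map_mul, ← map_sub,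
    Ideal.Quotient.eq_zero_iff_mem, Ideal.mem_span_singleton'] at h4
  obtain ⟨x, hx⟩ := h4
  rw [hW] at hx
  -- exponents
  have hpa : a < p ^ a := Nat.lt_pow_self hpp.one_lt
  have hpk : p ^ a + a ≤ p ^ (a + 1) := by
    have : p ^ (a + 1) = p ^ a * p := pow_succ _ _
    have h2p : p ^ a * 2 ≤ p ^ a * p := Nat.mul_le_mul_left _ hpp.two_le
    omega
  obtain ⟨T, hT⟩ : ∃ T, T = rt p (a + 1) t := ⟨_, rfl⟩
  have hTt : T ^ p ^ (a + 1) = t := by rw [hT, rt_pow_self]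
  have hrt : rt p 1 t = T ^ p ^ a := by
    apply (iterateFrobeniusEquiv C p 1).injective
    rw [iterateFrobeniusEquiv_def, iterateFrobeniusEquiv_def, rt_pow_self, ← pow_mul, ← pow_add,
      hTt]
  rw [← hT] at hx ⊢
  refine ⟨T ^ (p ^ (a + 1) - a - p ^ a) * (x + T ^ a * y), ?_⟩
  have h5 : t ^ a = T ^ (a * (p ^ (a + 1) - 1)) * T ^ a := by
    rw [← hTt, ← pow_mul, ← pow_add]
    congr 1
    obtain ⟨q, hq⟩ : ∃ q, p ^ (a + 1) = q + 1 := ⟨p ^ (a + 1) - 1, by omega⟩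
    rw [hq, Nat.add_sub_cancel]
    ring
  have h6 : T ^ a * (T ^ p ^ a * T ^ (p ^ (a + 1) - a - p ^ a)) = t := by
    rw [← pow_add, ← pow_add, ← hTt]
    congr 1
    omega
  have hx' : δ1 + δ1' = T ^ a * g0 + t * (x + T ^ a * y) := by linear_combination -hx
  rw [← mul_add, hx', h5, hrt]
  linear_combination T ^ (a * (p ^ (a + 1) - 1)) * (x + T ^ a * y) * (-h6)

end Gf

variable {p : ℕ} [Fact p.Prime] {k : Type u} [Field k] [CharP k p] {r : ℕ}
variable {Λ : Type u} [CommRing Λ] [IsLocalRing Λ] {u : Fin r → Λ}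
  {ψ : Λ →+* WittVector p (Rp p k r)}
  {red : Λ →+* R0 k r ⧸ Ideal.span {(MvPowerSeries.X 0 : R0 k r)}}
  {ι : Type u} {b : ι → Λ} {β : ι → k} {res : ResidueField Λ →+* k}
variable {A S : Type u} [CommRing A] [CommRing S] [IsLocalRing A] [IsLocalRing S]
  [IsNoetherianRing A] [IsNoetherianRing S]
  [Algebra Λ A] [Algebra A S] [IsLocalHom (algebraMap Λ A)] [IsLocalHom (algebraMap A S)]

section M15

theorem gf_tC {r0 : ℕ} (d : PExt.{u} p k r r0) : tC p k r d.C ∈ nonZeroDivisors d.C := by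
  have := d.flat
  have h := Module.Flat.isSMulRegular_of_nonZeroDivisors (M := d.C)
    (xp_mem_nonZeroDivisors p k r 0)
  rw [mem_nonZeroDivisors_iff_right]
  intro y hy
  apply h
  show xp p k r 0 • y = xp p k r 0 • (0 : d.C)
  rw [smul_zero, Algebra.smul_def, mul_comm]
  exact hy

/-- evaluation of a polynomial which is a product modulo an ideal. -/
theorem gf_eval {B : Type u} [CommRing B] (J : Ideal B) {D : ℕ} (f : B[X]) (c : Fin D → B)
    (h : ∀ n, (f - ∏ i, (X - Polynomial.C (c i))).coeff n ∈ J) (i : Fin D) : f.eval (c i) ∈ J := by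
  have h1 : (f - ∏ i, (X - Polynomial.C (c i))).eval (c i) ∈ J := by
    rw [Polynomial.eval_eq_sum_range]
    exact Ideal.sum_mem _ fun n _ => Ideal.mul_mem_right _ _ (h n)
  rw [Polynomial.eval_sub, Polynomial.eval_prod, Finset.prod_eq_zero (Finset.mem_univ i)
    (by rw [Polynomial.eval_sub, Polynomial.eval_X, Polynomial.eval_C, sub_self]), sub_zero] at h1
  exact h1

/-- TASK M15a: the form of `γ = δ + δ'`. -/
theorem gamma_form (hb : IsBase p k r Λ u ψ red) (g : Λ)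
    (hg : ∃ (a : ℕ) (g' : Λ), g = (p : Λ) ^ a * g' ∧ g' ∉ Ideal.span {(p : Λ)}) :
    ∃ (a : ℕ) (g' : R0 k r) (I0 : ℕ), g' ∉ Ideal.span {(MvPowerSeries.X 0 : R0 k r)} ∧
      ∀ {s D : ℕ} (a' : Fin s → A) (F : Fin s → Λ[X]) (E : MvPolynomial (Fin s) Λ),
        MvPolynomial.aeval a' E = algebraMap Λ A g →
        (∀ f : MvPolynomial (Fin s) Λ, MvPolynomial.aeval a' f = 0 →
          E * f ∈ Ideal.span (Set.range fun j => Polynomial.toMvPolynomial j (F j))) →
        ∀ (I r0 : ℕ) (_ : I0 ≤ I) (d : CData.{u} ψ (D := D) F E g I r0) (π : Fin s → Fin D),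
          ∃ x : d.C, d.δ π + d.δ' π = tC p k r d.C ^ a *
            (algebraMap (Rp p k r) d.C (PerfectClosure.of (R0 k r) p g') +
              rt p 1 (tC p k r d.C) * x) := by
  obtain ⟨a, g', hgg, hg'⟩ := hg
  obtain ⟨g0, y, hred, hcoeff⟩ := hb.red_coeff g'
  refine ⟨a, g0, a * p ^ (a + 1) + a, fun h0 => hg' (hb.red_ker g' ?_), ?_⟩
  · rw [hred, Ideal.Quotient.eq_zero_iff_mem]
    exact h0
  intro s D a' F E hE hf I r0 hI d π
  obtain ⟨Eπ, hEπ⟩ : ∃ z, z = MvPolynomial.eval₂ (laB ψ d.C)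
    (fun j => te p d.C (tC p k r d.C) (d.c j (π j))) E := ⟨_, rfl⟩
  have hδ := d.hδ π
  have hδ' := d.hδ' π
  rw [← hEπ] at hδ hδ'
  -- the relation
  have hrel : Eπ * (Eπ - laB ψ d.C g) ∈
      Ideal.span {(p : Bt p d.C (tC p k r d.C)) ^ (I + 1)} := by
    have h1 := hf (E - MvPolynomial.C g) (by
      rw [map_sub, hE, MvPolynomial.aeval_C, sub_self])
    have h2 : Ideal.span (Set.range fun j => Polynomial.toMvPolynomial j (F j)) ≤
        (Ideal.span {(p : Bt p d.C (tC p k r d.C)) ^ (I + 1)}).comap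
          (MvPolynomial.eval₂Hom (laB ψ d.C)
            (fun j => te p d.C (tC p k r d.C) (d.c j (π j)))) := by
      rw [Ideal.span_le]
      rintro _ ⟨j, rfl⟩
      rw [SetLike.mem_coe, Ideal.mem_comap]
      have h3 : MvPolynomial.eval₂Hom (laB ψ d.C)
          (fun j => te p d.C (tC p k r d.C) (d.c j (π j))) (Polynomial.toMvPolynomial j (F j)) =
          ((F j).map (laB ψ d.C)).eval (te p d.C (tC p k r d.C) (d.c j (π j))) := by
        rw [Polynomial.eval_map]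
        show MvPolynomial.eval₂Hom _ _ (Polynomial.aeval (MvPolynomial.X j) (F j)) = _
        rw [Polynomial.aeval_def, Polynomial.hom_eval₂]
        congr 1
        · ext z
          simp
        · simp
      rw [h3]
      exact gf_eval _ _ (fun i => te p d.C (tC p k r d.C) (d.c j i)) (d.split j) (π j)
    have h4 := h2 h1
    rw [Ideal.mem_comap, map_mul, map_sub] at h4
    have h5 : MvPolynomial.eval₂Hom (laB ψ d.C)
        (fun j => te p d.C (tC p k r d.C) (d.c j (π j))) E = Eπ := by rw [hEπ]; rfl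
    have h6 : MvPolynomial.eval₂Hom (laB ψ d.C)
        (fun j => te p d.C (tC p k r d.C) (d.c j (π j))) (MvPolynomial.C g) = laB ψ d.C g := by
      simp
    rw [h5, h6] at h4
    exact h4
  have hG : laB ψ d.C g = (p : Bt p d.C (tC p k r d.C)) ^ a *
      toB p d.C (tC p k r d.C) (WittVector.map (algebraMap (Rp p k r) d.C) (ψ g')) := by
    have h := congrArg (laB ψ d.C) hgg
    rw [map_mul, map_pow, map_natCast] at h
    exact h
  rw [hG] at hrel hδ'
  refine gf_main p d.C (tC p k r d.C) (gf_tC d.toPExt) (d.δ π) (d.δ' π)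
    (WittVector.map (algebraMap (Rp p k r) d.C) (ψ g')) _ (algebraMap (Rp p k r) d.C y) ?_ a I hI
    ?_ ?_ ?_
  · rw [WittVector.map_coeff, hcoeff, map_add, map_mul]
  · obtain ⟨ε, hε⟩ : ∃ ε, ε = te p d.C (tC p k r d.C) (d.δ π) - Eπ := ⟨_, rfl⟩
    rw [← hε] at hδ
    have h1 : te p d.C (tC p k r d.C) (d.δ π) = Eπ + ε := by rw [hε]; ring
    rw [h1]
    generalize (p : Bt p d.C (tC p k r d.C)) ^ a *
      toB p d.C (tC p k r d.C) (WittVector.map (algebraMap (Rp p k r) d.C) (ψ g')) = G at hrel ⊢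
    have h2 : (Eπ + ε) * (Eπ + ε) - G * (Eπ + ε) = Eπ * (Eπ - G) + ε * (2 * Eπ + ε - G) := by
      ring
    rw [h2]
    exact add_mem hrel (Ideal.mul_mem_right _ _ hδ)
  · generalize (p : Bt p d.C (tC p k r d.C)) ^ a *
      toB p d.C (tC p k r d.C) (WittVector.map (algebraMap (Rp p k r) d.C) (ψ g')) = G
      at hrel hδ' ⊢
    obtain ⟨ε, hε⟩ : ∃ ε, ε = te p d.C (tC p k r d.C) (d.δ' π) - (G - Eπ) := ⟨_, rfl⟩
    rw [← hε] at hδ'
    have h1 : te p d.C (tC p k r d.C) (d.δ' π) = G - Eπ + ε := by rw [hε]; ring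
    rw [h1]
    have h2 : (G - Eπ + ε) * (G - Eπ + ε) - G * (G - Eπ + ε) =
        Eπ * (Eπ - G) + ε * (G - 2 * Eπ + ε) := by
      ring
    rw [h2]
    exact add_mem hrel (Ideal.mul_mem_right _ _ hδ')
  · generalize (p : Bt p d.C (tC p k r d.C)) ^ a *
      toB p d.C (tC p k r d.C) (WittVector.map (algebraMap (Rp p k r) d.C) (ψ g')) = G
      at hδ' ⊢
    have h2 := add_mem hδ hδ'
    have h3 : te p d.C (tC p k r d.C) (d.δ π) - Eπ +
        (te p d.C (tC p k r d.C) (d.δ' π) - (G - Eπ)) =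
        te p d.C (tC p k r d.C) (d.δ π) + te p d.C (tC p k r d.C) (d.δ' π) - G := by ring
    rwa [h3] at h2

end M15

end Vale.Agent.P202.Mix
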