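import Vale.Agent.P202.Mix.Defs
import Mathlib.RingTheory.Length

/-!
P202, mixed characteristic, M15c: length estimate in `k[[x_0, .., x_r]]` (helper777).
-/

namespace Vale.Agent.P202.Mix

open scoped ENNReal MonomialOrder

universe u

section LenEst

variable {k : Type u} [Field k] {n : ℕ}

/-- a power series whose coefficients vanish on the box `a_i < Q_i (i ∈ s)` lies in
`(X_i^(Q_i) : i ∈ s)`. -/
lemma lenEst_mem_span (Q : Fin n → ℕ) (s : Finset (Fin n)) :
    ∀ h : MvPowerSeries (Fin n) k,
      (∀ a : Fin n →₀ ℕ, (∀ i ∈ s, a i < Q i) → MvPowerSeries.coeff a h = 0) →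
      h ∈ Ideal.span ((fun i => (MvPowerSeries.X i : MvPowerSeries (Fin n) k) ^ (Q i)) ''
        (s : Set (Fin n))) := by
  classical
  induction s using Finset.induction_on with
  | empty =>
    intro h hh
    have : h = 0 := by
      ext a
      simpa using hh a (by simp)
    rw [this]
    exact Ideal.zero_mem _
  | insert i s hi ih =>
    intro h hh
    -- split
    set h2 : MvPowerSeries (Fin n) k :=
      fun a => if a i < Q i then MvPowerSeries.coeff a h else 0 with hh2
    have hc2 : ∀ a, MvPowerSeries.coeff a h2 = if a i < Q i then MvPowerSeries.coeff a h else 0 :=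
      fun a => rfl
    have h1 : (MvPowerSeries.X i : MvPowerSeries (Fin n) k) ^ (Q i) ∣ h - h2 := by
      rw [MvPowerSeries.X_pow_dvd_iff]
      intro m hm
      rw [map_sub, hc2, if_pos hm, sub_self]
    have hmem2 : h2 ∈ Ideal.span ((fun i => (MvPowerSeries.X i : MvPowerSeries (Fin n) k) ^ (Q i))
        '' ((insert i s : Finset (Fin n)) : Set (Fin n))) := by
      refine Ideal.span_mono ?_ (ih h2 ?_)
      · apply Set.image_mono
        intro j hj
        simp only [Finset.coe_insert, Set.mem_insert_iff]
        exact Or.inr hj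
      · intro a ha
        rw [hc2]
        split_ifs with hai
        · apply hh
          intro j hj
          rcases Finset.mem_insert.1 hj with rfl | hj
          · exact hai
          · exact ha j hj
        · rfl
    have hmem1 : h - h2 ∈ Ideal.span
        ((fun i => (MvPowerSeries.X i : MvPowerSeries (Fin n) k) ^ (Q i))
        '' ((insert i s : Finset (Fin n)) : Set (Fin n))) := by
      refine Ideal.mem_of_dvd _ h1 (Ideal.subset_span ?_)
      exact ⟨i, by simp, rfl⟩
    have := Ideal.add_mem _ hmem1 hmem2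
    simpa using this

/-- modulo an ideal containing `X_i^(b_i + 1)`, a power series is the sum of its monomials in the
box. -/
lemma lenEst_mk_eq (b : Fin n →₀ ℕ) (I : Ideal (MvPowerSeries (Fin n) k))
    (hI : ∀ i, (MvPowerSeries.X i : MvPowerSeries (Fin n) k) ^ (b i + 1) ∈ I)
    (h : MvPowerSeries (Fin n) k) :
    Ideal.Quotient.mk I h =
      ∑ a ∈ Finset.Iic b, MvPowerSeries.coeff a h •
        Ideal.Quotient.mk I (MvPowerSeries.monomial a (1 : k)) := by
  classical
  have hmem : h - ∑ a ∈ Finset.Iic b, MvPowerSeries.coeff a h •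
      (MvPowerSeries.monomial a (1 : k)) ∈ I := by
    have h1 := lenEst_mem_span (k := k) (fun i => b i + 1) Finset.univ
      (h - ∑ a ∈ Finset.Iic b, MvPowerSeries.coeff a h • (MvPowerSeries.monomial a (1 : k))) ?_
    · refine (Ideal.span_le.2 ?_) h1
      rintro x ⟨i, -, rfl⟩
      exact hI i
    · intro a ha
      have hab : a ∈ Finset.Iic b := by
        rw [Finset.mem_Iic]
        intro i
        exact Nat.lt_succ_iff.1 (ha i (Finset.mem_univ i))
      rw [map_sub, map_sum, Finset.sum_eq_single a]
      · simp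
      · intro a' _ hne
        simp [MvPowerSeries.coeff_monomial, hne.symm]
      · intro h'
        exact absurd hab h'
  have h2 : Ideal.Quotient.mk I h = Ideal.Quotient.mk I (∑ a ∈ Finset.Iic b,
      MvPowerSeries.coeff a h • (MvPowerSeries.monomial a (1 : k))) := by
    rw [Ideal.Quotient.eq]
    exact hmem
  rw [h2, map_sum]
  refine Finset.sum_congr rfl fun a _ => ?_
  exact map_smul (Ideal.Quotient.mkₐ k I) (MvPowerSeries.coeff a h)
    (MvPowerSeries.monomial a (1 : k))

/-- length bound by the box monomials not above the lowest exponent. -/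
lemma lenEst_box (b : Fin n →₀ ℕ) (I : Ideal (MvPowerSeries (Fin n) k))
    (hI : ∀ i, (MvPowerSeries.X i : MvPowerSeries (Fin n) k) ^ (b i + 1) ∈ I)
    (m : MonomialOrder (Fin n)) (f : MvPowerSeries (Fin n) k) (hf : f ∈ I) (α : Fin n →₀ ℕ)
    (hα : MvPowerSeries.coeff α f ≠ 0)
    (hlow : ∀ a, m.toSyn a < m.toSyn α → MvPowerSeries.coeff a f = 0) :
    Module.length (MvPowerSeries (Fin n) k) (MvPowerSeries (Fin n) k ⧸ I) ≤
      (((Finset.Iic b).filter fun a => ¬ α ≤ a).card : ℕ∞) := by
  classical
  set S := (Finset.Iic b).filter fun a => ¬ α ≤ a with hS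
  let e : (Fin n →₀ ℕ) → (MvPowerSeries (Fin n) k ⧸ I) :=
    fun a => Ideal.Quotient.mk I (MvPowerSeries.monomial a (1 : k))
  let N : Submodule k (MvPowerSeries (Fin n) k ⧸ I) := Submodule.span k ((S.image e : Finset _) :
    Set (MvPowerSeries (Fin n) k ⧸ I))
  -- all box monomials lie in `N`
  have key : ∀ a ∈ Finset.Iic b, e a ∈ N := by
    by_contra hcon
    push Not at hcon
    -- take the largest bad exponent
    let B := (Finset.Iic b).filter fun a => e a ∉ N
    have hBne : B.Nonempty := by
      obtain ⟨a, ha, ha'⟩ := hcon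
      exact ⟨a, by simp only [B, Finset.mem_filter]; exact ⟨ha, ha'⟩⟩
    obtain ⟨a, haB, hmax⟩ := Finset.exists_max_image B (fun a => m.toSyn a) hBne
    have ha := (Finset.mem_filter.1 haB)
    apply ha.2
    by_cases hαa : α ≤ a
    · -- use `x^(a - α) f`
      have hmem : MvPowerSeries.monomial (a - α) (1 : k) * f ∈ I := I.mul_mem_left _ hf
      have h0 : Ideal.Quotient.mk I (MvPowerSeries.monomial (a - α) (1 : k) * f) = 0 :=
        Ideal.Quotient.eq_zero_iff_mem.2 hmem
      rw [lenEst_mk_eq b I hI] at h0
      have hcoef : ∀ c : Fin n →₀ ℕ,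
          MvPowerSeries.coeff c (MvPowerSeries.monomial (a - α) (1 : k) * f) =
          if a - α ≤ c then MvPowerSeries.coeff (c - (a - α)) f else 0 := by
        intro c
        rw [MvPowerSeries.coeff_monomial_mul]
        simp
      have hca : MvPowerSeries.coeff a (MvPowerSeries.monomial (a - α) (1 : k) * f) =
          MvPowerSeries.coeff α f := by
        rw [hcoef, if_pos tsub_le_self, tsub_tsub_cancel_of_le hαa]
      rw [← Finset.add_sum_erase _ _ ha.1, hca] at h0
      have h1 : MvPowerSeries.coeff α f • e a ∈ N := by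
        have h2 : MvPowerSeries.coeff α f • e a = - ∑ x ∈ (Finset.Iic b).erase a,
            (MvPowerSeries.coeff x) ((MvPowerSeries.monomial (a - α)) (1 : k) * f) •
              (Ideal.Quotient.mk I) ((MvPowerSeries.monomial x) (1 : k)) :=
          eq_neg_of_add_eq_zero_left h0
        rw [h2]
        refine N.neg_mem (N.sum_mem fun c hc => ?_)
        obtain ⟨hca', hcb⟩ := Finset.mem_erase.1 hc
        by_cases hc0 : (MvPowerSeries.coeff c) ((MvPowerSeries.monomial (a - α)) (1 : k) * f) = 0
        · rw [hc0, zero_smul]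
          exact N.zero_mem
        · refine N.smul_mem _ ?_
          by_contra hbad
          have hcB : c ∈ B := Finset.mem_filter.2 ⟨hcb, hbad⟩
          have hle := hmax c hcB
          have hlt : m.toSyn c < m.toSyn a :=
            lt_of_le_of_ne hle (fun h => hca' (m.toSyn.injective h))
          rw [hcoef] at hc0
          split_ifs at hc0 with hle'
          · apply hc0
            apply hlow
            have e1 : c = (a - α) + (c - (a - α)) := (add_tsub_cancel_of_le hle').symm
            have e2 : a = (a - α) + α := (tsub_add_cancel_of_le hαa).symm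
            have e3 : m.toSyn ((a - α) + (c - (a - α))) < m.toSyn ((a - α) + α) := by
              rw [← e1, ← e2]; exact hlt
            rw [map_add, map_add] at e3
            exact lt_of_add_lt_add_left e3
          · exact hc0 rfl
      have h3 := N.smul_mem (MvPowerSeries.coeff α f)⁻¹ h1
      rwa [smul_smul, inv_mul_cancel₀ hα, one_smul] at h3
    · apply Submodule.subset_span
      simp only [Finset.coe_image, Set.mem_image]
      exact ⟨a, by simp only [hS, Finset.coe_filter, Set.mem_ofPred_eq]; exact ⟨ha.1, hαa⟩, rfl⟩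
  have htop : N = ⊤ := by
    rw [eq_top_iff]
    rintro x -
    obtain ⟨h, rfl⟩ := Ideal.Quotient.mk_surjective x
    rw [lenEst_mk_eq b I hI]
    exact N.sum_mem fun a ha => N.smul_mem _ (key a ha)
  have hfin : Module.Finite k (MvPowerSeries (Fin n) k ⧸ I) :=
    ⟨⟨S.image e, htop⟩⟩
  have h1 : Module.length (MvPowerSeries (Fin n) k) (MvPowerSeries (Fin n) k ⧸ I) ≤
      Module.length k (MvPowerSeries (Fin n) k ⧸ I) := by
    rw [← WithBot.coe_le_coe, Module.coe_length, Module.coe_length]
    exact Order.krullDim_le_of_orderEmbedding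
      (Submodule.restrictScalarsEmbedding k (MvPowerSeries (Fin n) k) _)
  refine h1.trans ?_
  rw [Module.length_eq_finrank]
  have h2 : Module.finrank k (MvPowerSeries (Fin n) k ⧸ I) ≤ (S.image e).card := by
    have h3 := finrank_span_finset_le_card (R := k) (S.image e)
    have h4 : Module.finrank k N = Module.finrank k (MvPowerSeries (Fin n) k ⧸ I) := by
      rw [htop]; exact finrank_top k _
    rw [← h4]; exact h3
  exact_mod_cast h2.trans Finset.card_image_le

/-- lowest exponents multiply. -/
lemma lenEst_mul_low (m : MonomialOrder (Fin n)) (f g : MvPowerSeries (Fin n) k)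
    (α β : Fin n →₀ ℕ)
    (hf : ∀ a, m.toSyn a < m.toSyn α → MvPowerSeries.coeff a f = 0)
    (hg : ∀ a, m.toSyn a < m.toSyn β → MvPowerSeries.coeff a g = 0) :
    MvPowerSeries.coeff (α + β) (f * g) =
      MvPowerSeries.coeff α f * MvPowerSeries.coeff β g ∧
    ∀ a, m.toSyn a < m.toSyn (α + β) → MvPowerSeries.coeff a (f * g) = 0 := by
  classical
  have hgen : ∀ x y : Fin n →₀ ℕ, m.toSyn (x + y) ≤ m.toSyn (α + β) →
      (x, y) ≠ (α, β) → MvPowerSeries.coeff x f * MvPowerSeries.coeff y g = 0 := by
    intro x y hxy hne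
    by_cases hx : m.toSyn x < m.toSyn α
    · rw [hf x hx, zero_mul]
    · by_cases hy : m.toSyn y < m.toSyn β
      · rw [hg y hy, mul_zero]
      · exfalso
        push Not at hx hy
        rw [map_add, map_add] at hxy
        have h1 : m.toSyn x = m.toSyn α := by
          by_contra h
          have : m.toSyn α < m.toSyn x := lt_of_le_of_ne hx (Ne.symm h)
          exact absurd (add_lt_add_of_lt_of_le this hy) (not_lt.2 hxy)
        have h2 : m.toSyn y = m.toSyn β := by
          by_contra h
          have : m.toSyn β < m.toSyn y := lt_of_le_of_ne hy (Ne.symm h)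
          exact absurd (add_lt_add_of_le_of_lt hx this) (not_lt.2 hxy)
        exact hne (by rw [m.toSyn.injective h1, m.toSyn.injective h2])
  constructor
  · rw [MvPowerSeries.coeff_mul, Finset.sum_eq_single (α, β)]
    · rintro ⟨x, y⟩ hxy hne
      have h0 : x + y = α + β := Finset.HasAntidiagonal.mem_antidiagonal.1 hxy
      exact hgen x y (le_of_eq (congrArg m.toSyn h0)) hne
    · intro h
      exact (h (Finset.HasAntidiagonal.mem_antidiagonal.2 rfl)).elim
  · intro a ha
    rw [MvPowerSeries.coeff_mul]
    apply Finset.sum_eq_zero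
    rintro ⟨x, y⟩ hxy
    have hs : x + y = a := Finset.HasAntidiagonal.mem_antidiagonal.1 hxy
    refine hgen x y (le_trans (le_of_eq (congrArg m.toSyn hs)) ha.le) ?_
    intro h
    rw [Prod.mk.injEq] at h
    rw [h.1, h.2] at hs
    rw [← hs] at ha
    exact lt_irrefl _ ha

lemma lenEst_pow_low (m : MonomialOrder (Fin n)) (g : MvPowerSeries (Fin n) k)
    (α : Fin n →₀ ℕ)
    (hg : ∀ a, m.toSyn a < m.toSyn α → MvPowerSeries.coeff a g = 0) (c : ℕ) :
    MvPowerSeries.coeff (c • α) (g ^ c) = MvPowerSeries.coeff α g ^ c ∧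
    ∀ a, m.toSyn a < m.toSyn (c • α) → MvPowerSeries.coeff a (g ^ c) = 0 := by
  classical
  induction c with
  | zero =>
    constructor
    · simp
    · intro a ha
      exfalso
      rw [zero_smul, map_zero] at ha
      have h0 := m.toSyn_monotone (bot_le : (⊥ : Fin n →₀ ℕ) ≤ a)
      rw [bot_eq_zero] at h0
      rw [map_zero] at h0
      exact absurd ha (not_lt.2 h0)
  | succ c ih =>
    have h := lenEst_mul_low m (g ^ c) g (c • α) α ih.2 hg
    have e : (c + 1) • α = c • α + α := succ_nsmul α c
    rw [pow_succ, pow_succ, e]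
    refine ⟨?_, h.2⟩
    rw [h.1, ih.1]

/-- counting. -/
lemma lenEst_count_one (b : Fin n →₀ ℕ) (i : Fin n) (t : ℕ) :
    (b i + 1) * ((Finset.Iic b).filter fun a => a i < t).card ≤
      t * (Finset.Iic b).card := by
  classical
  have h : (Finset.range (b i + 1) ×ˢ ((Finset.Iic b).filter fun a => a i < t)).card ≤
      (Finset.range t ×ˢ Finset.Iic b).card := by
    apply Finset.card_le_card_of_injOn
      (fun x : ℕ × (Fin n →₀ ℕ) => (x.2 i, x.2.update i x.1))
    · rintro ⟨s, a⟩ hx
      simp only [Finset.coe_product, Set.mem_prod, Finset.coe_range, Set.mem_Iio,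
        Finset.coe_filter, Set.mem_ofPred_eq, Finset.mem_Iic, Finset.coe_Iic, Set.mem_Iic] at hx ⊢
      obtain ⟨hs, ha, hai⟩ := hx
      refine ⟨hai, ?_⟩
      intro j
      rw [Finsupp.coe_update]
      by_cases hj : j = i
      · subst hj
        rw [Function.update_self]
        omega
      · rw [Function.update_of_ne hj]
        exact ha j
    · rintro ⟨s, a⟩ _ ⟨s', a'⟩ _ heq
      simp only [Prod.mk.injEq] at heq
      obtain ⟨h1, h2⟩ := heq
      have hs : s = s' := by
        have := DFunLike.congr_fun h2 i
        rw [Finsupp.coe_update, Finsupp.coe_update, Function.update_self,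
          Function.update_self] at this
        exact this
      have ha : a = a' := by
        ext j
        by_cases hj : j = i
        · subst hj; exact h1
        · have := DFunLike.congr_fun h2 j
          rw [Finsupp.coe_update, Finsupp.coe_update, Function.update_of_ne hj,
            Function.update_of_ne hj] at this
          exact this
      rw [hs, ha]
  rwa [Finset.card_product, Finset.card_product, Finset.card_range, Finset.card_range] at h

end LenEst

/-- TASK M15c: length estimate in `k[[x_0, .., x_r]]`. -/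
theorem length_estimate (k : Type u) [Field k] (r : ℕ) (g : R0 k r)
    (hg : g ∉ Ideal.span {(MvPowerSeries.X 0 : R0 k r)}) :
    ∃ Cg : ℕ, ∀ q c : ℕ, 1 ≤ q → 1 ≤ c →
      (q : ℝ≥0∞) * ENat.toENNReal (Module.length (R0 k r) (R0 k r ⧸ Ideal.span
        ({(MvPowerSeries.X 0 : R0 k r), g ^ c} ∪
          Set.range fun i : Fin r => (MvPowerSeries.X i.succ : R0 k r) ^ q))) ≤
        (c * Cg * q ^ r : ℕ) := by
  classical
  -- an exponent with `a_0 = 0`
  have hex : ∃ a : Fin (r + 1) →₀ ℕ, a 0 = 0 ∧ MvPowerSeries.coeff a g ≠ 0 := by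
    by_contra hcon
    push Not at hcon
    apply hg
    rw [Ideal.mem_span_singleton, MvPowerSeries.X_dvd_iff]
    exact hcon
  let m : MonomialOrder (Fin (r + 1)) := MonomialOrder.lex
  -- lowest exponent
  let T : Set (Fin (r + 1) →₀ ℕ) := {a | MvPowerSeries.coeff a g ≠ 0}
  have hTne : T.Nonempty := by
    obtain ⟨a, -, ha⟩ := hex
    exact ⟨a, ha⟩
  obtain ⟨α, hαT, hmin⟩ : ∃ α ∈ T, ∀ a, m.toSyn a < m.toSyn α → a ∉ T := by
    have hwf : WellFounded (fun a b : Fin (r + 1) →₀ ℕ => m.toSyn a < m.toSyn b) :=
      InvImage.wf _ (wellFounded_lt (α := m.syn))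
    refine ⟨hwf.min T hTne, hwf.min_mem T hTne, fun a ha haT => ?_⟩
    exact hwf.not_lt_min T haT ha
  have hα : MvPowerSeries.coeff α g ≠ 0 := hαT
  have hlow : ∀ a, m.toSyn a < m.toSyn α → MvPowerSeries.coeff a g = 0 := by
    intro a ha
    have := hmin a ha
    simpa [T] using this
  have hα0 : α 0 = 0 := by
    obtain ⟨a, ha0, ha⟩ := hex
    by_contra hne
    have hlt : m.toSyn a < m.toSyn α := by
      have : a ≺[m] α := by
        rw [MonomialOrder.lex_lt_iff]
        refine ⟨0, fun j hj => absurd hj (Fin.not_lt_zero j), ?_⟩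
        show a 0 < α 0
        omega
      exact this
    exact ha (hlow a hlt)
  refine ⟨∑ i, α i, fun q c hq hc => ?_⟩
  -- the box
  let b : Fin (r + 1) →₀ ℕ := Finsupp.equivFunOnFinite.symm (Fin.cons 0 fun _ => q - 1)
  have hb0 : b 0 = 0 := by simp [b]
  have hbs : ∀ i : Fin r, b i.succ = q - 1 := by intro i; simp [b]
  set I : Ideal (R0 k r) := Ideal.span
        ({(MvPowerSeries.X 0 : R0 k r), g ^ c} ∪
          Set.range fun i : Fin r => (MvPowerSeries.X i.succ : R0 k r) ^ q) with hIdef
  have hI : ∀ i, (MvPowerSeries.X i : MvPowerSeries (Fin (r + 1)) k) ^ (b i + 1) ∈ I := by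
    intro i
    refine Fin.cases ?_ (fun i => ?_) i
    · rw [hb0, zero_add, pow_one]
      exact Ideal.subset_span (by simp)
    · rw [hbs, Nat.sub_add_cancel hq]
      exact Ideal.subset_span (Or.inr ⟨i, rfl⟩)
  have hgI : g ^ c ∈ I := Ideal.subset_span (by simp)
  obtain ⟨hp1, hp2⟩ := lenEst_pow_low m g α hlow c
  have hbox := lenEst_box b I hI m (g ^ c) hgI (c • α)
    (by rw [hp1]; exact pow_ne_zero _ hα) hp2
  -- counting
  have hcard : (Finset.Iic b).card = q ^ r := by
    rw [Finsupp.card_Iic, Finset.prod_subset (Finset.subset_univ _), Fin.prod_univ_succ, hb0]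
    · simp [hbs, Nat.sub_add_cancel hq]
    · intro i _ hi
      rw [Finsupp.notMem_support_iff.1 hi]
      simp
  have hcount : q * ((Finset.Iic b).filter fun a => ¬ c • α ≤ a).card ≤
      c * (∑ i, α i) * q ^ r := by
    have h1 : ((Finset.Iic b).filter fun a => ¬ c • α ≤ a) ⊆
        Finset.univ.biUnion fun i : Fin (r + 1) =>
          (Finset.Iic b).filter fun a => a i < (c • α) i := by
      intro a ha
      rw [Finset.mem_filter] at ha
      rw [Finset.mem_biUnion]
      have : ∃ i, ¬ (c • α) i ≤ a i := by
        by_contra h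
        push Not at h
        exact ha.2 h
      obtain ⟨i, hi⟩ := this
      exact ⟨i, Finset.mem_univ _, Finset.mem_filter.2 ⟨ha.1, not_le.1 hi⟩⟩
    have h2 := (Finset.card_le_card h1).trans Finset.card_biUnion_le
    calc q * ((Finset.Iic b).filter fun a => ¬ c • α ≤ a).card
        ≤ q * ∑ i, ((Finset.Iic b).filter fun a => a i < (c • α) i).card :=
          Nat.mul_le_mul_left _ h2
      _ = ∑ i, q * ((Finset.Iic b).filter fun a => a i < (c • α) i).card := Finset.mul_sum _ _ _
      _ ≤ ∑ i, (c * α i) * q ^ r := by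
          apply Finset.sum_le_sum
          intro i _
          refine Fin.cases ?_ (fun i => ?_) i
          · have : ((Finset.Iic b).filter fun a => a 0 < (c • α) 0) = ∅ := by
              apply Finset.filter_eq_empty_iff.2
              intro a _
              simp [hα0]
            rw [this]
            simp
          · have h3 := lenEst_count_one b i.succ ((c • α) i.succ)
            rw [hbs, Nat.sub_add_cancel hq, hcard] at h3
            simpa using h3
      _ = c * (∑ i, α i) * q ^ r := by
          rw [Finset.mul_sum, Finset.sum_mul]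
  calc (q : ℝ≥0∞) * ENat.toENNReal (Module.length (R0 k r) (R0 k r ⧸ I))
      ≤ (q : ℝ≥0∞) * ENat.toENNReal
          (((Finset.Iic b).filter fun a => ¬ c • α ≤ a).card : ℕ∞) := by
        gcongr
    _ = ((q * ((Finset.Iic b).filter fun a => ¬ c • α ≤ a).card : ℕ) : ℝ≥0∞) := by
        rw [Nat.cast_mul, ENat.toENNReal_coe]
    _ ≤ _ := by exact_mod_cast hcount

end Vale.Agent.P202.Mix
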