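import Vale.Agent.P202.Mix.Defs4
import Vale.Agent.P202.Mix.Tei1
import Vale.Agent.P202.Mix.LenBasic
import Vale.Agent.P202.Mix.FlatPerf
import Vale.Agent.P202.Basic

/-!
P202 MIX, TASK M15b (helper828): `len_small`, the smallness of `E/(n_S, [γ^(1/q)]^c)`.
-/

namespace Vale.Agent.P202.Mix

open TensorProduct IsLocalRing
open scoped ENNReal

universe u

section Len

variable {R : Type u} [CommRing R] (L : AddLen R)

theorem ls_le_of_surjective {M N : Type u} [AddCommGroup M] [Module R M] [AddCommGroup N]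
    [Module R N] (f : M →ₗ[R] N) (hf : Function.Surjective f) : L.len N ≤ L.len M := by
  rw [L.add (LinearMap.ker f).subtype f (Submodule.injective_subtype _) hf (by
    rw [LinearMap.exact_iff, Submodule.range_subtype])]
  exact le_add_self

theorem ls_mono {I J : Ideal R} (h : I ≤ J) : L.len (R ⧸ J) ≤ L.len (R ⧸ I) :=
  ls_le_of_surjective L (Submodule.factor h) (Submodule.factor_surjective h)

theorem ls_top {J : Ideal R} (h : J = ⊤) : L.len (R ⧸ J) = 0 := by
  have : Subsingleton (R ⧸ J) := Ideal.Quotient.subsingleton_iff.mpr h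
  exact len_subsingleton_aux L

/-- `L(R/I) = L(R/(I:z)) + L(R/(I + z))`. -/
theorem ls_eq_add (I : Ideal R) (x : R) :
    L.len (R ⧸ I) = L.len (R ⧸ col I x) + L.len (R ⧸ (I ⊔ Ideal.span {x})) := by
  let f : (R ⧸ col I x) →ₗ[R] (R ⧸ I) :=
    Submodule.mapQ (col I x) I (LinearMap.toSpanSingleton R R x)
      (fun a ha => by simpa [LinearMap.toSpanSingleton_apply] using ha)
  let g : (R ⧸ I) →ₗ[R] (R ⧸ (I ⊔ Ideal.span {x})) := Submodule.factor le_sup_left
  refine L.add f g ?_ (Submodule.factor_surjective _) ?_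
  · rw [injective_iff_map_eq_zero]
    intro z
    obtain ⟨z, rfl⟩ := Submodule.Quotient.mk_surjective _ z
    intro hz
    have hz' : (Submodule.Quotient.mk (z • x) : R ⧸ I) = 0 := hz
    rw [Submodule.Quotient.mk_eq_zero] at hz' ⊢
    simpa using hz'
  · rw [LinearMap.exact_iff]
    ext z
    obtain ⟨z, rfl⟩ := Submodule.Quotient.mk_surjective _ z
    constructor
    · intro hz
      have hz' : z ∈ I ⊔ Ideal.span {x} := by
        have : Submodule.Quotient.mk z = (0 : R ⧸ (I ⊔ Ideal.span {x})) := hz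
        exact (Submodule.Quotient.mk_eq_zero _).mp this
      obtain ⟨a, ha, b, hb, rfl⟩ := Submodule.mem_sup.mp hz'
      obtain ⟨c, rfl⟩ := Ideal.mem_span_singleton'.mp hb
      refine ⟨Submodule.Quotient.mk c, ?_⟩
      change Submodule.Quotient.mk (c • x) = _
      rw [Submodule.Quotient.eq]
      simpa using ha
    · rintro ⟨c, hc⟩
      obtain ⟨c, rfl⟩ := Submodule.Quotient.mk_surjective _ c
      rw [← hc]
      change Submodule.Quotient.mk (c • x) = (0 : R ⧸ (I ⊔ Ideal.span {x}))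
      rw [Submodule.Quotient.mk_eq_zero]
      exact Ideal.mem_sup_right (Ideal.mul_mem_left _ _ (Ideal.mem_span_singleton_self x))

theorem ls_mul_le (J : Ideal R) (y z : R) : L.len (R ⧸ (J ⊔ Ideal.span {y * z})) ≤
    L.len (R ⧸ (J ⊔ Ideal.span {y})) + L.len (R ⧸ (J ⊔ Ideal.span {z})) := by
  rw [ls_eq_add L (J ⊔ Ideal.span {y * z}) y, add_comm]
  refine add_le_add (ls_mono L ?_) (ls_mono L ?_)
  · exact sup_le_sup_right le_sup_left _
  · refine sup_le (le_sup_left.trans (le_col _ _)) ?_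
    rw [Ideal.span_singleton_le_iff_mem, mem_col, mul_comm]
    exact Ideal.mem_sup_right (Ideal.mem_span_singleton_self _)

theorem ls_pow_le (J : Ideal R) (z : R) (n : ℕ) : L.len (R ⧸ (J ⊔ Ideal.span {z ^ n})) ≤
    n * L.len (R ⧸ (J ⊔ Ideal.span {z})) := by
  induction n with
  | zero =>
    rw [ls_top L (by rw [pow_zero, Ideal.span_singleton_one, sup_top_eq])]
    exact zero_le
  | succ n ih =>
    rw [pow_succ]
    refine (ls_mul_le L J (z ^ n) z).trans ?_
    rw [Nat.cast_succ, add_mul, one_mul]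
    exact add_le_add_left ih _

theorem ls_pow_ge (J : Ideal R) (z : R) (n : ℕ)
    (h : ∀ i < n, ∀ y, z ^ i * y ∈ J ⊔ Ideal.span {z ^ (i + 1)} → y ∈ J ⊔ Ideal.span {z}) :
    n * L.len (R ⧸ (J ⊔ Ideal.span {z})) ≤ L.len (R ⧸ (J ⊔ Ideal.span {z ^ n})) := by
  induction n with
  | zero => rw [Nat.cast_zero, zero_mul]; exact zero_le
  | succ n ih =>
    rw [ls_eq_add L (J ⊔ Ideal.span {z ^ (n + 1)}) (z ^ n), Nat.cast_succ, add_mul, one_mul,
      add_comm]
    refine add_le_add (ls_mono L ?_) ((ih fun i hi => h i (by omega)).trans (ls_mono L ?_))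
    · intro y hy
      rw [mem_col, mul_comm] at hy
      exact h n (by omega) y hy
    · refine sup_le (sup_le le_sup_left ?_) le_sup_right
      rw [Ideal.span_singleton_le_iff_mem, pow_succ]
      exact Ideal.mem_sup_right (Ideal.mul_mem_right _ _ (Ideal.mem_span_singleton_self _))

/-- devissage for ideals. -/
theorem ls_dev {R0 : Type*} [CommRing R0] [IsLocalRing R0] (φ : R0 →+* R) (n : ℕ) :
    ∀ (𝔟 : Ideal R0) (s : ℕ), maximalIdeal R0 ^ s ≤ 𝔟 → ell 𝔟 ≤ n →
      L.len (R ⧸ 𝔟.map φ) ≤ n * L.len (R ⧸ (maximalIdeal R0).map φ) := by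
  induction n with
  | zero =>
    intro 𝔟 s _ h
    have h1 : 𝔟 = ⊤ := ell_eq_zero_iff.1 (le_antisymm (by simpa using h) zero_le)
    rw [ls_top L (by rw [h1, Ideal.map_top])]
    exact zero_le
  | succ n ih =>
    intro 𝔟 s hs h
    by_cases hb : 𝔟 = ⊤
    · rw [ls_top L (by rw [hb, Ideal.map_top])]
      exact zero_le
    · classical
      have hex : ∃ t, maximalIdeal R0 ^ t ≤ 𝔟 := ⟨s, hs⟩
      have ht := Nat.find_spec hex
      have ht0 : Nat.find hex ≠ 0 := by
        intro h0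
        rw [h0, pow_zero, Ideal.one_eq_top, top_le_iff] at ht
        exact hb ht
      obtain ⟨t, htt⟩ := Nat.exists_eq_succ_of_ne_zero ht0
      have hlt : ¬ maximalIdeal R0 ^ t ≤ 𝔟 := Nat.find_min hex (by lia)
      obtain ⟨x, hx, hxI⟩ := Set.not_subset.mp hlt
      have hmx : maximalIdeal R0 ≤ col 𝔟 x := by
        intro m hm
        rw [mem_col]
        apply ht
        rw [htt, Nat.succ_eq_add_one, pow_succ']
        exact Ideal.mul_mem_mul hm hx
      have h1 := ell_eq_add 𝔟 x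
      have h2 : 1 ≤ ell (col 𝔟 x) := one_le_ell (fun h' => hxI (col_eq_top_iff.1 h'))
      have h3 : ell (𝔟 ⊔ Ideal.span {x}) ≤ n := by
        have h4 : 1 + ell (𝔟 ⊔ Ideal.span {x}) ≤ 1 + (n : ℕ∞) := by
          refine (add_le_add_left h2 _).trans ?_
          rw [← h1, add_comm]
          exact_mod_cast h
        exact (ENat.add_le_add_iff_left (by simp)).1 h4
      have h5 := ih (𝔟 ⊔ Ideal.span {x}) s (hs.trans le_sup_left) h3
      rw [ls_eq_add L (𝔟.map φ) (φ x), Nat.cast_succ, add_mul, one_mul, add_comm]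
      refine add_le_add ?_ (ls_mono L ?_)
      · refine le_trans (le_of_eq ?_) h5
        rw [Ideal.map_sup, Ideal.map_span, Set.image_singleton]
      · rw [Ideal.map_le_iff_le_comap]
        intro m hm
        rw [Ideal.mem_comap, mem_col, ← map_mul]
        exact Ideal.mem_map_of_mem φ (mem_col.1 (hmx hm))

end Len

section Mono

open MvPowerSeries

variable {K : Type*} [Field K] {v : ℕ}

/-- the ideal generated by powers of the variables. -/
noncomputable def lsM (K : Type*) [Field K] {v : ℕ} (a : Fin v → ℕ) : Ideal (MvPowerSeries (Fin v) K) :=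
  Ideal.span (Set.range fun l : Fin v => (X l : MvPowerSeries (Fin v) K) ^ a l)

lemma X_pow_mem_lsM (a : Fin v → ℕ) (l : Fin v) {n : ℕ} (h : a l ≤ n) :
    (X l : MvPowerSeries (Fin v) K) ^ n ∈ lsM K a :=
  Ideal.pow_mem_of_pow_mem _ (Ideal.subset_span ⟨l, rfl⟩) h

lemma mem_lsM_iff (a : Fin v → ℕ) (f : MvPowerSeries (Fin v) K) :
    f ∈ lsM K a ↔ ∀ d : Fin v →₀ ℕ, (∀ j : Fin v, d j < a j) → coeff d f = 0 := by
  classical
  constructor
  · intro hf
    refine Submodule.span_induction (p := fun f _ => ∀ d : Fin v →₀ ℕ,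
      (∀ j : Fin v, d j < a j) → coeff d f = 0) ?_ ?_ ?_ ?_ hf
    · rintro _ ⟨l, rfl⟩ d hd
      simp only
      rw [coeff_X_pow, if_neg]
      intro h
      have := hd l
      rw [h] at this
      simp at this
    · intro d _
      exact map_zero _
    · intro x y _ _ hx hy d hd
      rw [map_add, hx d hd, hy d hd, add_zero]
    · intro b x _ hx d hd
      rw [smul_eq_mul, coeff_mul]
      refine Finset.sum_eq_zero ?_
      rintro ⟨a1, a2⟩ ha
      rw [Finset.HasAntidiagonal.mem_antidiagonal] at ha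
      have h2 : coeff a2 x = 0 := by
        apply hx
        intro j
        have h3 := hd j
        have h4 : a1 j + a2 j = d j := by rw [← ha]; rfl
        omega
      simp only
      rw [h2, mul_zero]
  · intro hf
    by_cases hv : ∃ l : Fin v, True
    swap
    · have : f = 0 := by
        ext d
        rw [hf d (fun j => absurd ⟨j, trivial⟩ hv), map_zero]
      rw [this]
      exact zero_mem _
    obtain ⟨l0, -⟩ := hv
    -- choice of an index
    have hex : ∀ d : Fin v →₀ ℕ, ∃ j : Fin v, (∃ j' : Fin v, a j' ≤ d j') → a j ≤ d j := by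
      intro d
      by_cases h : ∃ j' : Fin v, a j' ≤ d j'
      · obtain ⟨j', hj'⟩ := h
        exact ⟨j', fun _ => hj'⟩
      · exact ⟨l0, fun h' => absurd h' h⟩
    choose cf hcf using hex
    let g : Fin v → MvPowerSeries (Fin v) K := fun j γ =>
      if cf (γ + Finsupp.single j (a j)) = j then coeff (γ + Finsupp.single j (a j)) f else 0
    have key : f = ∑ j, (X j : MvPowerSeries (Fin v) K) ^ a j * g j := by
      ext β
      rw [map_sum]
      have h1 : ∀ j ∈ Finset.univ,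
          coeff β ((X j : MvPowerSeries (Fin v) K) ^ a j * g j) =
          if (a j ≤ β j ∧ cf β = j) then coeff β f else 0 := by
        intro j _
        rw [X_pow_eq, coeff_monomial_mul, one_mul]
        by_cases hj : a j ≤ β j
        · have hle : Finsupp.single j (a j) ≤ β := by
            rw [Finsupp.single_le_iff]
            exact hj
          have h2 : coeff (β - Finsupp.single j (a j)) (g j) =
              if cf β = j then coeff β f else 0 := by
            change g j (β - Finsupp.single j (a j)) = _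
            simp only [g, tsub_add_cancel_of_le hle]
          simp only [hle, hj, true_and, if_true, h2]
        · have hle : ¬ Finsupp.single j (a j) ≤ β := by
            rw [Finsupp.single_le_iff]
            exact hj
          simp only [hle, hj, false_and, if_false]
      rw [Finset.sum_congr rfl h1]
      by_cases hβ : ∃ j' : Fin v, a j' ≤ β j'
      · have h4 := hcf β hβ
        rw [Finset.sum_eq_single (cf β)]
        · simp [h4]
        · intro j _ hne
          rw [if_neg]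
          rintro ⟨_, h⟩
          exact hne h.symm
        · intro h
          exact absurd (Finset.mem_univ _) h
      · have h5 : coeff β f = 0 := by
          apply hf
          intro j
          by_contra h6
          exact hβ ⟨j, not_lt.mp h6⟩
        rw [h5, Finset.sum_eq_zero]
        intro j _
        split_ifs <;> rfl
    rw [key]
    exact Ideal.sum_mem _ fun j _ => Ideal.mul_mem_right _ _ (Ideal.subset_span ⟨j, rfl⟩)

/-- colon ideals of monomial ideals. -/
lemma lsM_colon (a : Fin v → ℕ) (l : Fin v) (i : ℕ) (y : MvPowerSeries (Fin v) K)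
    (h : X l ^ i * y ∈ lsM K (Function.update a l (i + 1))) :
    y ∈ lsM K (Function.update a l 1) := by
  classical
  rw [mem_lsM_iff] at h ⊢
  intro d hd
  have h1 := h (Finsupp.single l i + d) (by
    intro j
    have h2 := hd j
    rw [Finsupp.add_apply]
    by_cases hj : j = l
    · subst hj
      rw [Function.update_self] at h2 ⊢
      rw [Finsupp.single_eq_same]
      omega
    · rw [Function.update_of_ne hj] at h2 ⊢
      rw [Finsupp.single_eq_of_ne hj, zero_add]
      exact h2)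
  rwa [X_pow_eq, coeff_add_monomial_mul, one_mul] at h1

end Mono

section Flat

/-- colon ideals and flat base change. -/
theorem ls_colon_flat {E E' : Type*} [CommRing E] [CommRing E'] [Algebra E E'] [Module.Flat E E']
    (K K' : Ideal E) (a : E) (H : ∀ x, a * x ∈ K → x ∈ K') (x : E')
    (hx : algebraMap E E' a * x ∈ K.map (algebraMap E E')) :
    x ∈ K'.map (algebraMap E E') := by
  rw [Ideal.map, Ideal.span, Submodule.mem_span_set'] at hx
  obtain ⟨n, f, g, hx⟩ := hx
  choose κ hκ hκ' using fun i => (g i).2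
  have h0 : ∑ i : Option (Fin n), (Option.elim i a fun i => -κ i : E) •
      (Option.elim i x f : E') = 0 := by
    rw [Fintype.sum_option]
    simp only [Option.elim_none, Option.elim_some, Algebra.smul_def, map_neg]
    rw [← hx, ← Finset.sum_add_distrib]
    refine Finset.sum_eq_zero fun i _ => ?_
    rw [hκ', smul_eq_mul]
    ring
  obtain ⟨m, A, y, h1, h2⟩ := Module.Flat.isTrivialRelation_of_sum_smul_eq_zero
    (R := E) (M := E') (f := fun i : Option (Fin n) => (Option.elim i a fun i => -κ i : E))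
    (x := fun i : Option (Fin n) => (Option.elim i x f : E')) h0
  have h3 : x = ∑ j, A none j • y j := h1 none
  rw [h3]
  refine Ideal.sum_mem _ fun j _ => ?_
  rw [Algebra.smul_def]
  refine Ideal.mul_mem_right _ _ (Ideal.mem_map_of_mem _ (H _ ?_))
  have h4 := h2 j
  rw [Fintype.sum_option] at h4
  simp only [Option.elim_none, Option.elim_some] at h4
  rw [add_eq_zero_iff_eq_neg] at h4
  rw [h4]
  refine neg_mem (Ideal.sum_mem _ fun i _ => ?_)
  exact Ideal.mul_mem_right _ _ (neg_mem (hκ i))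

end Flat

section Vec

/-- injections of modules killed by the maximal ideal split. -/
theorem ls_retract {Λ : Type*} [CommRing Λ] [IsLocalRing Λ] {N N' : Type*} [AddCommGroup N]
    [Module Λ N] [AddCommGroup N'] [Module Λ N'] (h : ∀ a ∈ maximalIdeal Λ, ∀ x : N', a • x = 0)
    (f : N →ₗ[Λ] N') (hf : Function.Injective f) : ∃ ρ : N' →ₗ[Λ] N, ∀ x, ρ (f x) = x := by
  have h1 : ∀ a ∈ maximalIdeal Λ, ∀ x : N, a • x = 0 := by
    intro a ha x
    apply hf
    rw [map_smul, h a ha, map_zero]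
  have t1 : Module.IsTorsionBySet Λ N (maximalIdeal Λ : Set Λ) := fun x a => h1 a a.2 x
  have t2 : Module.IsTorsionBySet Λ N' (maximalIdeal Λ : Set Λ) := fun x a => h a a.2 x
  let _ := t1.module
  let _ := t2.module
  let _ : Field (Λ ⧸ maximalIdeal Λ) := Ideal.Quotient.field _
  let f' : N →ₗ[Λ ⧸ maximalIdeal Λ] N' :=
    { toFun := f
      map_add' := map_add f
      map_smul' := by
        intro a x
        obtain ⟨a, rfl⟩ := Ideal.Quotient.mk_surjective a
        exact map_smul f a x }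
  obtain ⟨g, hg⟩ := f'.exists_leftInverse_of_injective (LinearMap.ker_eq_bot.2 hf)
  let ρ : N' →ₗ[Λ] N :=
    { toFun := g
      map_add' := map_add g
      map_smul' := by
        intro a x
        exact map_smul g (Ideal.Quotient.mk _ a) x }
  exact ⟨ρ, fun x => LinearMap.congr_fun hg x⟩

variable {Λ A S B : Type u} [CommRing Λ] [IsLocalRing Λ] [CommRing A] [CommRing S] [CommRing B]
  [Algebra Λ A] [Algebra A S] [Algebra Λ B]

theorem ls_vec0 [Algebra Λ S] (𝔫 : Ideal S)
    (I : Ideal B) (hI : (maximalIdeal Λ).map (algebraMap Λ B) ≤ I) (b : B)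
    (y : S ⊗[Λ] B)
    (hy : (1 : S) ⊗ₜ[Λ] b * y ∈ 𝔫.map (Algebra.TensorProduct.includeLeft : S →ₐ[Λ] S ⊗[Λ] B) ⊔
      I.map (Algebra.TensorProduct.includeRight : B →ₐ[Λ] S ⊗[Λ] B)) :
    y ∈ 𝔫.map (Algebra.TensorProduct.includeLeft : S →ₐ[Λ] S ⊗[Λ] B) ⊔
      (col I b).map (Algebra.TensorProduct.includeRight : B →ₐ[Λ] S ⊗[Λ] B) := by
  have hker : ∀ J : Ideal B, 𝔫.map (Algebra.TensorProduct.includeLeft : S →ₐ[Λ] S ⊗[Λ] B) ⊔
      J.map (Algebra.TensorProduct.includeRight : B →ₐ[Λ] S ⊗[Λ] B) =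
      RingHom.ker (Algebra.TensorProduct.map (Ideal.Quotient.mkₐ Λ 𝔫)
        (Ideal.Quotient.mkₐ Λ J)) := by
    intro J
    rw [Algebra.TensorProduct.map_ker _ _ (Ideal.Quotient.mkₐ_surjective Λ 𝔫)
      (Ideal.Quotient.mkₐ_surjective Λ J)]
    congr 2
    · exact (Ideal.Quotient.mkₐ_ker Λ 𝔫).symm
    · exact (Ideal.Quotient.mkₐ_ker Λ J).symm
  rw [hker, RingHom.mem_ker] at hy ⊢
  let f : (B ⧸ col I b) →ₗ[Λ] (B ⧸ I) :=
    (Submodule.mapQ (col I b) I (LinearMap.toSpanSingleton B B b)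
      (fun a ha => by simpa [LinearMap.toSpanSingleton_apply] using ha)).restrictScalars Λ
  have hf : ∀ z : B, f (Ideal.Quotient.mk _ z) = Ideal.Quotient.mk _ (b * z) := by
    intro z
    change Submodule.Quotient.mk (z • b) = _
    rw [smul_eq_mul, mul_comm]
    rfl
  have hfi : Function.Injective f := by
    rw [injective_iff_map_eq_zero]
    intro z
    obtain ⟨z, rfl⟩ := Ideal.Quotient.mk_surjective z
    intro hz
    rw [hf, Ideal.Quotient.eq_zero_iff_mem] at hz
    rw [Ideal.Quotient.eq_zero_iff_mem, mem_col, mul_comm]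
    exact hz
  have hk : ∀ a ∈ maximalIdeal Λ, ∀ x : B ⧸ I, a • x = 0 := by
    intro a ha x
    obtain ⟨x, rfl⟩ := Ideal.Quotient.mk_surjective x
    rw [← Ideal.Quotient.mkₐ_eq_mk Λ, ← map_smul, Algebra.smul_def, Ideal.Quotient.mkₐ_eq_mk,
      Ideal.Quotient.eq_zero_iff_mem]
    exact Ideal.mul_mem_right _ _ (hI (Ideal.mem_map_of_mem _ ha))
  obtain ⟨ρ, hρ⟩ := ls_retract hk f hfi
  have key : ∀ z : S ⊗[Λ] B, LinearMap.lTensor (S ⧸ 𝔫) ρ
      (Algebra.TensorProduct.map (Ideal.Quotient.mkₐ Λ 𝔫) (Ideal.Quotient.mkₐ Λ I)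
        ((1 : S) ⊗ₜ[Λ] b * z)) =
      Algebra.TensorProduct.map (Ideal.Quotient.mkₐ Λ 𝔫) (Ideal.Quotient.mkₐ Λ (col I b)) z := by
    intro z
    induction z with
    | zero => rw [mul_zero, map_zero, map_zero, map_zero]
    | add x y hx hy => rw [mul_add, map_add, map_add, map_add, hx, hy]
    | tmul s c =>
      rw [Algebra.TensorProduct.tmul_mul_tmul, one_mul, Algebra.TensorProduct.map_tmul,
        Algebra.TensorProduct.map_tmul, LinearMap.lTensor_tmul]
      congr 1
      rw [Ideal.Quotient.mkₐ_eq_mk, Ideal.Quotient.mkₐ_eq_mk, ← hf, hρ]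
  rw [← key, hy, map_zero]

/-- the map `B → S ⊗_A (A ⊗_Λ B)`. -/
noncomputable def lsj (Λ A S B : Type u) [CommRing Λ] [CommRing A] [CommRing S] [CommRing B]
    [Algebra Λ A] [Algebra A S] [Algebra Λ B] : B →+* S ⊗[A] (A ⊗[Λ] B) :=
  (Algebra.TensorProduct.includeRight (R := A) (A := S) (B := A ⊗[Λ] B)).toRingHom.comp
    (Algebra.TensorProduct.includeRight (R := Λ) (A := A) (B := B)).toRingHom

theorem ls_vec (𝔫 : Ideal S) (I K : Ideal B)
    (hI : (maximalIdeal Λ).map (algebraMap Λ B) ≤ I) (b : B) (hK : ∀ y, b * y ∈ I → y ∈ K)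
    (y : S ⊗[A] (A ⊗[Λ] B))
    (hy : lsj Λ A S B b * y ∈ 𝔫.map (algebraMap S (S ⊗[A] (A ⊗[Λ] B))) ⊔
      I.map (lsj Λ A S B)) :
    y ∈ 𝔫.map (algebraMap S (S ⊗[A] (A ⊗[Λ] B))) ⊔ K.map (lsj Λ A S B) := by
  let _ : Algebra Λ S := ((algebraMap A S).comp (algebraMap Λ A)).toAlgebra
  have _ : IsScalarTower Λ A S := IsScalarTower.of_algebraMap_eq fun x => rfl
  let e : S ⊗[A] (A ⊗[Λ] B) ≃ₐ[S] S ⊗[Λ] B :=
    Algebra.TensorProduct.cancelBaseChange Λ A S S B
  have hj : ∀ c, e (lsj Λ A S B c) = (1 : S) ⊗ₜ[Λ] c := by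
    intro c
    change e ((1 : S) ⊗ₜ[A] ((1 : A) ⊗ₜ[Λ] c)) = _
    rw [Algebra.TensorProduct.cancelBaseChange_tmul, one_smul]
  have hmap : ∀ J : Ideal B, (𝔫.map (algebraMap S (S ⊗[A] (A ⊗[Λ] B))) ⊔
      J.map (lsj Λ A S B)).map (e : S ⊗[A] (A ⊗[Λ] B) →+* S ⊗[Λ] B) =
      𝔫.map (Algebra.TensorProduct.includeLeft : S →ₐ[Λ] S ⊗[Λ] B) ⊔
      J.map (Algebra.TensorProduct.includeRight : B →ₐ[Λ] S ⊗[Λ] B) := by
    intro J
    rw [Ideal.map_sup, Ideal.map_map, Ideal.map_map]
    congr 1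
    · change Ideal.map _ _ = Ideal.map (Algebra.TensorProduct.includeLeft :
        S →ₐ[Λ] S ⊗[Λ] B).toRingHom _
      congr 1
      ext s
      change e (algebraMap S _ s) = s ⊗ₜ 1
      rw [AlgEquiv.commutes]
      rfl
    · change Ideal.map _ _ = Ideal.map (Algebra.TensorProduct.includeRight :
        B →ₐ[Λ] S ⊗[Λ] B).toRingHom _
      congr 1
      ext s
      exact hj s
  have hy' := Ideal.mem_map_of_mem (e : S ⊗[A] (A ⊗[Λ] B) →+* S ⊗[Λ] B) hy
  rw [hmap, map_mul] at hy'
  have h1 := ls_vec0 𝔫 I hI b (e y) (by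
    rw [← hj b]
    exact hy')
  rw [← hmap] at h1
  have h2 : y ∈ 𝔫.map (algebraMap S (S ⊗[A] (A ⊗[Λ] B))) ⊔ (col I b).map (lsj Λ A S B) := by
    rw [Ideal.mem_map_iff_of_surjective (e : S ⊗[A] (A ⊗[Λ] B) →+* S ⊗[Λ] B) e.surjective] at h1
    obtain ⟨x, hx, hxy⟩ := h1
    rwa [← e.injective hxy]
  have h3 : col I b ≤ K := by
    intro z hz
    rw [mem_col, mul_comm] at hz
    exact hK z hz
  have h4 : 𝔫.map (algebraMap S (S ⊗[A] (A ⊗[Λ] B))) ⊔ (col I b).map (lsj Λ A S B) ≤
      𝔫.map (algebraMap S (S ⊗[A] (A ⊗[Λ] B))) ⊔ K.map (lsj Λ A S B) :=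
    sup_le_sup_left (Ideal.map_mono h3) _
  exact h4 h2

end Vec


section Chain

variable {W : Type u} [CommRing W] (L : AddLen W)

theorem ls_chain {k : Type*} [Field k] {v : ℕ} (φ : MvPowerSeries (Fin v) k →+* W) (q : ℕ)
    (hq : 1 ≤ q) (h0 : ∀ l, φ (MvPowerSeries.X l) ^ q = 0)
    (hT : ∀ (K K' : Ideal (MvPowerSeries (Fin v) k)) (f : MvPowerSeries (Fin v) k),
      (∀ j, (MvPowerSeries.X j : MvPowerSeries (Fin v) k) ^ q ∈ K) →
      (∀ y, f * y ∈ K → y ∈ K') → ∀ w, φ f * w ∈ K.map φ → w ∈ K'.map φ) (j : ℕ) (hj : j ≤ v) :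
    (q : ℝ≥0∞) ^ j * L.len (W ⧸ (lsM k (fun l : Fin v => if (l : ℕ) < j then 1 else q)).map φ) ≤
      L.len (W ⧸ (⊥ : Ideal W)) := by
  classical
  induction j with
  | zero =>
    rw [pow_zero, one_mul]
    have h1 : (lsM k (fun l : Fin v => if (l : ℕ) < 0 then 1 else q)).map φ = ⊥ := by
      rw [eq_bot_iff, lsM, Ideal.map_span, Ideal.span_le]
      rintro _ ⟨_, ⟨l, rfl⟩, rfl⟩
      simp only [Nat.not_lt_zero, if_false, map_pow, h0]
      exact zero_mem _
    rw [h1]
  | succ j ih =>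
    have ih' := ih (by omega)
    set a : Fin v → ℕ := fun l : Fin v => if (l : ℕ) < j then 1 else q with ha
    obtain ⟨l, hl⟩ : ∃ l : Fin v, (l : ℕ) = j := ⟨⟨j, by omega⟩, rfl⟩
    have hal : a l = q := by rw [ha]; simp [hl]
    have ha' : (fun l : Fin v => if (l : ℕ) < j + 1 then 1 else q) = Function.update a l 1 := by
      funext l'
      by_cases hll : l' = l
      · subst hll
        rw [Function.update_self, if_pos (by omega)]
      · rw [Function.update_of_ne hll, ha]
        have : (l' : ℕ) ≠ j := fun h => hll (Fin.ext (by omega))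
        simp only
        by_cases h2 : (l' : ℕ) < j
        · rw [if_pos h2, if_pos (by omega)]
        · rw [if_neg h2, if_neg (by omega)]
    rw [ha']
    have hle : ∀ i, i + 1 ≤ q → lsM k a ≤ lsM k (Function.update a l (i + 1)) := by
      intro i hi
      rw [lsM, Ideal.span_le]
      rintro _ ⟨l', rfl⟩
      refine X_pow_mem_lsM _ _ ?_
      by_cases hll : l' = l
      · subst hll
        rw [Function.update_self, hal]
        exact hi
      · rw [Function.update_of_ne hll]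
    have h1 := ls_pow_ge L ((lsM k a).map φ) (φ (MvPowerSeries.X l)) q (by
      intro i hi y hy
      have h2 : (lsM k a).map φ ⊔ Ideal.span {φ (MvPowerSeries.X l) ^ (i + 1)} ≤
          (lsM k (Function.update a l (i + 1))).map φ := by
        refine sup_le (Ideal.map_mono (hle i hi)) ?_
        rw [Ideal.span_singleton_le_iff_mem, ← map_pow]
        refine Ideal.mem_map_of_mem _ (X_pow_mem_lsM _ _ ?_)
        rw [Function.update_self]
      have h3 := hT (lsM k (Function.update a l (i + 1))) (lsM k (Function.update a l 1))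
        (MvPowerSeries.X l ^ i) (by
          intro j'
          refine X_pow_mem_lsM _ _ ?_
          by_cases hll : j' = l
          · subst hll
            rw [Function.update_self]
            exact hi
          · rw [Function.update_of_ne hll, ha]
            simp only
            split_ifs <;> omega) (fun y hy => lsM_colon a l i y hy) y (by
          rw [map_pow]
          exact h2 hy)
      refine (?_ : (lsM k (Function.update a l 1)).map φ ≤ _) h3
      rw [lsM, Ideal.map_span, Ideal.span_le]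
      rintro _ ⟨_, ⟨l', rfl⟩, rfl⟩
      by_cases hll : l' = l
      · subst hll
        simp only [Function.update_self, pow_one]
        exact Ideal.mem_sup_right (Ideal.mem_span_singleton_self _)
      · simp only [Function.update_of_ne hll]
        exact Ideal.mem_sup_left (Ideal.mem_map_of_mem _ (X_pow_mem_lsM _ _ le_rfl)))
    have h4 : L.len (W ⧸ (lsM k (Function.update a l 1)).map φ) ≤
        L.len (W ⧸ ((lsM k a).map φ ⊔ Ideal.span {φ (MvPowerSeries.X l)})) := by
      refine ls_mono L (sup_le ?_ ?_)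
      · exact Ideal.map_mono (hle 0 hq)
      · rw [Ideal.span_singleton_le_iff_mem]
        refine Ideal.mem_map_of_mem _ ?_
        have := X_pow_mem_lsM (K := k) (Function.update a l 1) l (n := 1)
          (by rw [Function.update_self])
        rwa [pow_one] at this
    have h5 : L.len (W ⧸ ((lsM k a).map φ ⊔ Ideal.span {φ (MvPowerSeries.X l) ^ q})) ≤
        L.len (W ⧸ (lsM k a).map φ) := ls_mono L le_sup_left
    calc (q : ℝ≥0∞) ^ (j + 1) * L.len (W ⧸ (lsM k (Function.update a l 1)).map φ)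
        = (q : ℝ≥0∞) ^ j * (q * L.len (W ⧸ (lsM k (Function.update a l 1)).map φ)) := by
          rw [pow_succ, mul_assoc]
      _ ≤ (q : ℝ≥0∞) ^ j * L.len (W ⧸ (lsM k a).map φ) := by
          gcongr
          exact (mul_le_mul_right h4 _).trans (h1.trans h5)
      _ ≤ _ := ih'

theorem ls_main {k : Type u} [Field k] {r : ℕ} (φ : R0 k r →+* W) (q : ℕ)
    (hq : 1 ≤ q) (h0 : ∀ l, φ (MvPowerSeries.X l) ^ q = 0)
    (hT : ∀ (K K' : Ideal (R0 k r)) (f : R0 k r),
      (∀ j, (MvPowerSeries.X j : R0 k r) ^ q ∈ K) →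
      (∀ y, f * y ∈ K → y ∈ K') → ∀ w, φ f * w ∈ K.map φ → w ∈ K'.map φ)
    (hL : L.len (W ⧸ (⊥ : Ideal W)) ≤ 1) (g : R0 k r) (Cg : ℕ)
    (hCg : ∀ q c : ℕ, 1 ≤ q → 1 ≤ c →
      (q : ℝ≥0∞) * ENat.toENNReal (Module.length (R0 k r) (R0 k r ⧸ Ideal.span
        ({(MvPowerSeries.X 0 : R0 k r), g ^ c} ∪
          Set.range fun i : Fin r => (MvPowerSeries.X i.succ : R0 k r) ^ q))) ≤
        (c * Cg * q ^ r : ℕ)) (p c a : ℕ) (hp : 1 ≤ p) (hc : 1 ≤ c) (γ γ' x : W)
    (hγ' : γ' ^ p = φ g ^ p + φ (MvPowerSeries.X 0) * x)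
    (hγ : γ = φ (MvPowerSeries.X 0) ^ a * γ') :
    L.len (W ⧸ Ideal.span {γ ^ c}) ≤ (p * c * (a + Cg) : ℕ) / (q : ℝ≥0∞) := by
  set z := φ (MvPowerSeries.X 0) with hz
  have hpc : 1 ≤ p * c := Nat.mul_pos hp hc
  -- the first variable
  have hF : (q : ℝ≥0∞) * L.len (W ⧸ Ideal.span {z}) ≤ 1 := by
    have h1 := ls_chain L φ q hq h0 hT 1 (by omega)
    rw [pow_one] at h1
    refine le_trans (mul_le_mul_right (ls_mono L ?_) _) (h1.trans hL)
    rw [lsM, Ideal.map_span, Ideal.span_le]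
    rintro _ ⟨_, ⟨l, rfl⟩, rfl⟩
    by_cases hl : (l : ℕ) < 1
    · have hl0 : l = 0 := Fin.ext (by simpa using hl)
      subst hl0
      simp only [hl, if_true, pow_one]
      exact Ideal.mem_span_singleton_self _
    · simp only [hl, if_false, map_pow, h0]
      exact zero_mem _
  -- all variables
  set M := L.len (W ⧸ (maximalIdeal (R0 k r)).map φ) with hM
  have hmax : maximalIdeal (R0 k r) =
      Ideal.span (Set.range fun l : Fin (r + 1) => (MvPowerSeries.X l : R0 k r)) :=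
    CZ.maximalIdeal_eq
  have hB : (q : ℝ≥0∞) ^ (r + 1) * M ≤ 1 := by
    have h1 := ls_chain L φ q hq h0 hT (r + 1) le_rfl
    refine le_trans (mul_le_mul_right (ls_mono L (Ideal.map_mono ?_)) _) (h1.trans hL)
    rw [lsM, Ideal.span_le]
    rintro _ ⟨l, rfl⟩
    simp only [l.2, if_true, pow_one]
    rw [hmax]
    exact Ideal.subset_span ⟨l, rfl⟩
  -- the quotient by `X_0, g^(p c)`
  set 𝔟 : Ideal (R0 k r) := Ideal.span ({(MvPowerSeries.X 0 : R0 k r), g ^ (p * c)} ∪
          Set.range fun i : Fin r => (MvPowerSeries.X i.succ : R0 k r) ^ q) with hb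
  have hCb := hCg q (p * c) hq hpc
  rw [← hb] at hCb
  have hXb : ∀ l : Fin (r + 1), (MvPowerSeries.X l : R0 k r) ^ q ∈ 𝔟 := by
    intro l
    have hX0 : (MvPowerSeries.X 0 : R0 k r) ∈ 𝔟 := Ideal.subset_span (Or.inl (Or.inl rfl))
    induction l using Fin.cases with
    | zero => exact Ideal.pow_mem_of_mem _ hX0 _ hq
    | succ i => exact Ideal.subset_span (Or.inr ⟨i, rfl⟩)
  obtain ⟨n, hn⟩ : ∃ n : ℕ, ell 𝔟 = n := by
    have h1 : ell 𝔟 ≠ ⊤ := by
      intro h2
      have h3 : Module.length (R0 k r) (R0 k r ⧸ 𝔟) = ⊤ := h2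
      rw [h3, ENat.toENNReal_top, ENNReal.mul_top (by simp; omega)] at hCb
      exact (ENNReal.natCast_ne_top _) (top_le_iff.1 hCb)
    obtain ⟨n, hn⟩ := ENat.ne_top_iff_exists.1 h1
    exact ⟨n, hn.symm⟩
  have hnn : (q : ℝ≥0∞) * n ≤ (p * c * Cg * q ^ r : ℕ) := by
    have h3 : Module.length (R0 k r) (R0 k r ⧸ 𝔟) = n := hn
    rw [h3] at hCb
    simpa using hCb
  obtain ⟨s, hs⟩ : ∃ s, maximalIdeal (R0 k r) ^ s ≤ 𝔟 := by
    refine Ideal.exists_pow_le_of_le_radical_of_fg ?_ ?_
    · rw [hmax, Ideal.span_le]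
      rintro _ ⟨l, rfl⟩
      exact ⟨q, hXb l⟩
    · rw [hmax]
      exact Submodule.fg_span (Set.finite_range _)
  have hC : L.len (W ⧸ 𝔟.map φ) ≤ n * M := ls_dev L φ n 𝔟 s hs hn.le
  -- `γ'`
  set J : Ideal W := Ideal.span {γ' ^ (p * c)} with hJ
  have hE : L.len (W ⧸ J) ≤ q * L.len (W ⧸ 𝔟.map φ) := by
    have h1 := ls_pow_le L J z q
    have e0 : Ideal.span {(0 : W)} = ⊥ := Ideal.span_singleton_eq_bot.2 rfl
    rw [hz, h0, ← hz, e0, sup_bot_eq] at h1
    refine h1.trans (mul_le_mul_right (ls_mono L ?_) _)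
    have hz' : z ∈ J ⊔ Ideal.span {z} := Ideal.mem_sup_right (Ideal.mem_span_singleton_self _)
    rw [hb, Ideal.map_span, Ideal.span_le]
    rintro _ ⟨_, (⟨rfl | rfl⟩ | ⟨l, rfl⟩), rfl⟩
    · exact hz'
    · have h2 : γ' ^ p - φ g ^ p ∣ (γ' ^ p) ^ c - (φ g ^ p) ^ c := sub_dvd_pow_sub_pow _ _ _
      obtain ⟨y, hy⟩ := h2
      have h3 : φ (g ^ (p * c)) = γ' ^ (p * c) - z * (x * y) := by
        rw [map_pow, pow_mul, pow_mul]
        have h4 : γ' ^ p - φ g ^ p = z * x := by rw [hγ']; ring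
        rw [h4] at hy
        linear_combination -hy
      change φ (g ^ (p * c)) ∈ J ⊔ Ideal.span {z}
      rw [h3]
      exact Ideal.sub_mem _ (Ideal.mem_sup_left (Ideal.mem_span_singleton_self _))
        (Ideal.mul_mem_right _ _ hz')
    · simp only [map_pow, h0]
      exact zero_mem _
  have hE' : (q : ℝ≥0∞) * L.len (W ⧸ J) ≤ (p * c * Cg : ℕ) := by
    calc (q : ℝ≥0∞) * L.len (W ⧸ J) ≤ q * (q * (n * M)) := by
          gcongr
          exact hE.trans (mul_le_mul_right hC _)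
      _ = q * ((q * n) * M) := by ring
      _ ≤ q * ((p * c * Cg * q ^ r : ℕ) * M) := by gcongr
      _ = (p * c * Cg : ℕ) * (q ^ (r + 1) * M) := by push_cast; ring
      _ ≤ (p * c * Cg : ℕ) * 1 := by gcongr
      _ = _ := mul_one _
  have hF' : (q : ℝ≥0∞) * L.len (W ⧸ Ideal.span {z ^ (a * (p * c))}) ≤ (a * (p * c) : ℕ) := by
    have h1 := ls_pow_le L ⊥ z (a * (p * c))
    rw [bot_sup_eq, bot_sup_eq] at h1
    calc (q : ℝ≥0∞) * L.len (W ⧸ Ideal.span {z ^ (a * (p * c))})
        ≤ q * ((a * (p * c) : ℕ) * L.len (W ⧸ Ideal.span {z})) := by gcongr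
      _ = (a * (p * c) : ℕ) * (q * L.len (W ⧸ Ideal.span {z})) := by ring
      _ ≤ (a * (p * c) : ℕ) * 1 := by gcongr
      _ = _ := mul_one _
  have hG : L.len (W ⧸ Ideal.span {γ ^ c}) ≤
      L.len (W ⧸ Ideal.span {z ^ (a * (p * c))}) + L.len (W ⧸ J) := by
    have h1 := ls_mul_le L ⊥ (z ^ (a * (p * c))) (γ' ^ (p * c))
    rw [bot_sup_eq, bot_sup_eq, bot_sup_eq] at h1
    refine le_trans (ls_mono L ?_) h1
    rw [Ideal.span_singleton_le_iff_mem, Ideal.mem_span_singleton]
    have h2 : z ^ (a * (p * c)) * γ' ^ (p * c) = γ ^ (p * c) := by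
      rw [hγ, mul_pow, pow_mul]
    rw [h2]
    exact pow_dvd_pow _ (Nat.le_mul_of_pos_left _ hp)
  rw [ENNReal.le_div_iff_mul_le (Or.inl (by simp; omega)) (Or.inl (ENNReal.natCast_ne_top _)),
    mul_comm]
  calc (q : ℝ≥0∞) * L.len (W ⧸ Ideal.span {γ ^ c})
      ≤ q * (L.len (W ⧸ Ideal.span {z ^ (a * (p * c))}) + L.len (W ⧸ J)) := by gcongr
    _ = q * L.len (W ⧸ Ideal.span {z ^ (a * (p * c))}) + q * L.len (W ⧸ J) := mul_add _ _ _
    _ ≤ (a * (p * c) : ℕ) + (p * c * Cg : ℕ) := add_le_add hF' hE'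
    _ = _ := by push_cast; ring

end Chain


section Res

/-- restriction of an additive length. -/
noncomputable def lsRes {R R' : Type u} [CommRing R] [CommRing R'] (L : AddLen R)
    (φ : R →+* R') : AddLen R' where
  len M _ _ := letI := Module.compHom M φ; L.len M
  zero := by
    have : Module.compHom PUnit.{u+1} φ = (inferInstance : Module R PUnit.{u+1}) :=
      Module.ext' _ _ fun a x => rfl
    rw [this]
    exact L.zero
  add {M N K} _ _ _ _ _ _ f g hf hg hfg := by
    let _ := Module.compHom M φ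
    let _ := Module.compHom N φ
    let _ := Module.compHom K φ
    let f' : M →ₗ[R] N := { f with map_smul' := fun a x => map_smul f (φ a) x }
    let g' : N →ₗ[R] K := { g with map_smul' := fun a x => map_smul g (φ a) x }
    exact L.add f' g' hf hg hfg

theorem lsRes_len {R R' : Type u} [CommRing R] [CommRing R'] (L : AddLen R)
    (φ : R →+* R') (hφ : Function.Surjective φ) (J : Ideal R') :
    (lsRes L φ).len (R' ⧸ J) = L.len (R ⧸ J.comap φ) := by
  let _ : Module R (R' ⧸ J) := Module.compHom (R' ⧸ J) φ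
  let f : R →ₗ[R] (R' ⧸ J) :=
    { toFun := fun x => Ideal.Quotient.mk J (φ x)
      map_add' := fun x y => by rw [map_add, map_add]
      map_smul' := fun a x => by
        rw [smul_eq_mul, map_mul, map_mul]
        rfl }
  have hf : Function.Surjective f := Ideal.Quotient.mk_surjective.comp hφ
  have hk : LinearMap.ker f = J.comap φ := by
    ext x
    rw [LinearMap.mem_ker, Ideal.mem_comap]
    exact Ideal.Quotient.eq_zero_iff_mem
  change L.len (R' ⧸ J) = _
  rw [← len_congr L (f.quotKerEquivOfSurjective hf)]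
  exact len_congr L (Submodule.quotEquivOfEq _ _ hk)

end Res

section Omega

variable {p : ℕ} [Fact p.Prime] {k : Type u} [Field k] [CharP k p] {r : ℕ}
variable {Λ : Type u} [CommRing Λ] [IsLocalRing Λ] {u : Fin r → Λ}
  {ψ : Λ →+* WittVector p (Rp p k r)}
  {red : Λ →+* R0 k r ⧸ Ideal.span {(MvPowerSeries.X 0 : R0 k r)}}
variable {A S : Type u} [CommRing A] [CommRing S] [IsLocalRing A] [IsLocalRing S]
  [Algebra Λ A] [Algebra A S] [IsLocalHom (algebraMap Λ A)] [IsLocalHom (algebraMap A S)]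

omit [IsLocalRing A] in
theorem ls_max_map (x : Λ) (hx : x ∈ maximalIdeal Λ) :
    algebraMap A S (algebraMap Λ A x) ∈ maximalIdeal S := by
  rw [mem_maximalIdeal, mem_nonunits_iff] at hx ⊢
  intro h
  exact hx (isUnit_of_map_unit (algebraMap Λ A) x (isUnit_of_map_unit (algebraMap A S) _ h))

omit [IsLocalRing Λ] in
theorem ls_projN {C : Type u} [CommRing C] [CharP C p] [PerfectRing C p] [Algebra (Rp p k r) C]
    (N : ℕ) (hN : 1 ≤ N) : ∃ π : BN ψ C N →+* C ⧸ Ideal.span {tC p k r C},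
      (∀ x : WittVector p C, π (mkN ψ C N (toB p C (tC p k r C) x)) =
        Ideal.Quotient.mk _ (x.coeff 0)) ∧
      ∀ y, π y = 0 → y ∈ Ideal.span {(p : BN ψ C N)} := by
  obtain ⟨π, hπ, -, hk⟩ := exists_proj p C (tC p k r C)
  have hp : π (p : Bt p C (tC p k r C)) = 0 := by
    rw [← RingHom.mem_ker, hk]
    exact Ideal.mem_span_singleton_self _
  have hker : ∀ x ∈ Ideal.span {(p : Bt p C (tC p k r C)) ^ N}, π x = 0 := by
    intro x hx
    obtain ⟨y, rfl⟩ := Ideal.mem_span_singleton'.1 hx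
    rw [map_mul, map_pow, hp, zero_pow (by omega), mul_zero]
  let πN : BN ψ C N →+* C ⧸ Ideal.span {tC p k r C} :=
    Ideal.Quotient.lift (Ideal.span {(p : Bt p C (tC p k r C)) ^ N}) π hker
  have h1 : ∀ x, πN (mkN ψ C N x) = π x := fun x => Ideal.Quotient.lift_mk _ _ _
  refine ⟨πN, fun x => by rw [h1, hπ], fun y hy => ?_⟩
  obtain ⟨x, rfl⟩ : ∃ x, mkN ψ C N x = y := Ideal.Quotient.mk_surjective y
  rw [h1, ← RingHom.mem_ker, hk] at hy
  obtain ⟨z, rfl⟩ := Ideal.mem_span_singleton'.1 hy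
  rw [map_mul, map_natCast]
  exact Ideal.mem_span_singleton'.2 ⟨_, rfl⟩

omit [IsLocalRing A] in
theorem ls_omega (hb : IsBase p k r Λ u ψ red)
    (hmax : maximalIdeal Λ = Ideal.span (insert (p : Λ) (Set.range u)))
    {C : Type u} [CommRing C] [CharP C p] [PerfectRing C p] [Algebra (Rp p k r) C]
    (N : ℕ) (hN : 1 ≤ N) :
    ∃ ω : C →+* (ES ψ A S C N ⧸ (maximalIdeal S).map (algebraMap S (ES ψ A S C N))),
      (∀ c, ω c = Ideal.Quotient.mk _ (toES ψ A S C N (teN ψ C N c))) ∧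
      (∀ l, ω (algebraMap (Rp p k r) C (xp p k r l)) = 0) ∧
      ∀ (I K : Ideal C) (c : C), (∀ l, algebraMap (Rp p k r) C (xp p k r l) ∈ I) →
        (∀ y, c * y ∈ I → y ∈ K) → ∀ w, ω c * w ∈ I.map ω → w ∈ K.map ω := by
  set 𝔞 : Ideal (ES ψ A S C N) := (maximalIdeal S).map (algebraMap S (ES ψ A S C N)) with h𝔞
  have hj : toES ψ A S C N = lsj Λ A S (BN ψ C N) := rfl
  -- elements of `Λ`
  have hΛ : ∀ x ∈ maximalIdeal Λ, toES ψ A S C N (algebraMap Λ (BN ψ C N) x) ∈ 𝔞 := by
    intro x hx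
    have h1 : toES ψ A S C N (algebraMap Λ (BN ψ C N) x) =
        algebraMap S (ES ψ A S C N) (algebraMap A S (algebraMap Λ A x)) := by
      have h2 : (Algebra.TensorProduct.includeRight (R := Λ) (A := A) (B := BN ψ C N))
          (algebraMap Λ (BN ψ C N) x) = algebraMap A (EA ψ A C N) (algebraMap Λ A x) := by
        rw [AlgHom.commutes]
        rfl
      change (Algebra.TensorProduct.includeRight (R := A) (A := S) (B := EA ψ A C N))
        ((Algebra.TensorProduct.includeRight (R := Λ) (A := A) (B := BN ψ C N))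
          (algebraMap Λ (BN ψ C N) x)) = _
      rw [h2, AlgHom.commutes]
      rfl
    rw [h1]
    exact Ideal.mem_map_of_mem _ (ls_max_map x hx)
  have hpΛ : (p : Λ) ∈ maximalIdeal Λ := by
    rw [hmax]
    exact Ideal.subset_span (Set.mem_insert _ _)
  have huΛ : ∀ i, u i ∈ maximalIdeal Λ := by
    intro i
    rw [hmax]
    exact Ideal.subset_span (Set.mem_insert_of_mem _ ⟨i, rfl⟩)
  have hp : Ideal.Quotient.mk 𝔞 (toES ψ A S C N (p : BN ψ C N)) = 0 := by
    rw [Ideal.Quotient.eq_zero_iff_mem]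
    have := hΛ _ hpΛ
    rwa [map_natCast] at this
  obtain ⟨π, hπ, hπ0⟩ := ls_projN (ψ := ψ) (C := C) N hN
  have hte : ∀ c, π (teN ψ C N c) = Ideal.Quotient.mk _ c := by
    intro c
    rw [teN, te, hπ, WittVector.teichmuller_coeff_zero]
  have hz : ∀ y, π y = 0 → Ideal.Quotient.mk 𝔞 (toES ψ A S C N y) = 0 := by
    intro y hy
    obtain ⟨x, rfl⟩ := Ideal.mem_span_singleton'.1 (hπ0 y hy)
    rw [Ideal.Quotient.eq_zero_iff_mem] at hp ⊢
    rw [map_mul]
    exact Ideal.mul_mem_left _ _ hp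
  have hsub : ∀ y y', π y = π y' → Ideal.Quotient.mk 𝔞 (toES ψ A S C N y) =
      Ideal.Quotient.mk 𝔞 (toES ψ A S C N y') := by
    intro y y' h
    rw [← sub_eq_zero, ← map_sub, ← map_sub]
    exact hz _ (by rw [map_sub, h, sub_self])
  let ω : C →+* (ES ψ A S C N ⧸ 𝔞) :=
    { toFun := fun c => Ideal.Quotient.mk 𝔞 (toES ψ A S C N (teN ψ C N c))
      map_one' := by
        rw [← map_one (Ideal.Quotient.mk 𝔞), ← map_one (toES ψ A S C N)]
        exact hsub _ _ (by rw [hte, map_one, map_one])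
      map_mul' := fun x y => by
        rw [← map_mul, ← map_mul]
        exact hsub _ _ (by rw [map_mul, hte, hte, hte, map_mul])
      map_zero' := hz _ (by rw [hte, map_zero])
      map_add' := fun x y => by
        rw [← map_add, ← map_add]
        exact hsub _ _ (by rw [map_add, hte, hte, hte, map_add]) }
  have hω : ∀ c, ω c = Ideal.Quotient.mk _ (toES ψ A S C N (teN ψ C N c)) := fun c => rfl
  have hx : ∀ l, ω (algebraMap (Rp p k r) C (xp p k r l)) = 0 := by
    intro l
    induction l using Fin.cases with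
    | zero =>
      rw [hω]
      refine hz _ ?_
      rw [hte]
      exact Ideal.Quotient.eq_zero_iff_mem.2 (Ideal.mem_span_singleton_self _)
    | succ i =>
      have h1 := hΛ _ (huΛ i)
      rw [hω, ← (Ideal.Quotient.eq_zero_iff_mem.2 h1)]
      refine hsub _ _ ?_
      rw [hte]
      change _ = π (mkN ψ C N (toB p C (tC p k r C) (WittVector.map (algebraMap (Rp p k r) C)
        (ψ (u i)))))
      rw [hπ, hb.psi_u, WittVector.map_coeff, WittVector.teichmuller_coeff_zero]
  refine ⟨ω, hω, hx, ?_⟩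
  intro I K c hI hK w hw
  have htI : tC p k r C ∈ I := hI 0
  have htK : tC p k r C ∈ K := hK _ (Ideal.mul_mem_left _ _ htI)
  -- the ideals of `B/p^N`
  have hmem : ∀ (I : Ideal C), tC p k r C ∈ I → ∀ (y : BN ψ C N) (c : C),
      π y = Ideal.Quotient.mk _ c → (y ∈ (I.map (Ideal.Quotient.mk
        (Ideal.span {tC p k r C}))).comap π ↔ c ∈ I) := by
    intro I hI y c hyc
    rw [Ideal.mem_comap, hyc, Ideal.mem_map_iff_of_surjective _ Ideal.Quotient.mk_surjective]
    constructor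
    · rintro ⟨x, hx, hxc⟩
      rw [Ideal.Quotient.eq, Ideal.mem_span_singleton'] at hxc
      obtain ⟨v, hv⟩ := hxc
      have : c = x - v * tC p k r C := by rw [hv]; ring
      rw [this]
      exact Ideal.sub_mem _ hx (Ideal.mul_mem_left _ _ hI)
    · intro hc
      exact ⟨c, hc, rfl⟩
  set IB : Ideal (BN ψ C N) := (I.map (Ideal.Quotient.mk (Ideal.span {tC p k r C}))).comap π
    with hIB
  set KB : Ideal (BN ψ C N) := (K.map (Ideal.Quotient.mk (Ideal.span {tC p k r C}))).comap π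
    with hKB
  have hmapω : ∀ (I : Ideal C), tC p k r C ∈ I →
      (((I.map (Ideal.Quotient.mk (Ideal.span {tC p k r C}))).comap π).map
        (lsj Λ A S (BN ψ C N))).map (Ideal.Quotient.mk 𝔞) = I.map ω := by
    intro I hI
    refine le_antisymm ?_ ?_
    · rw [Ideal.map_le_iff_le_comap, Ideal.map_le_iff_le_comap]
      intro y hy
      obtain ⟨c, hc⟩ := Ideal.Quotient.mk_surjective (π y)
      rw [hmem I hI y c hc.symm] at hy
      rw [Ideal.mem_comap, Ideal.mem_comap, ← hj, hsub y (teN ψ C N c) (by rw [hte, hc]), ← hω]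
      exact Ideal.mem_map_of_mem _ hy
    · rw [Ideal.map_le_iff_le_comap]
      intro c hc
      rw [Ideal.mem_comap, hω, hj]
      refine Ideal.mem_map_of_mem _ (Ideal.mem_map_of_mem _ ?_)
      rw [hmem I hI _ c (hte c)]
      exact hc
  obtain ⟨w, rfl⟩ := Ideal.Quotient.mk_surjective w
  have hcm : ∀ (I : Ideal C), tC p k r C ∈ I → ∀ w : ES ψ A S C N,
      (Ideal.Quotient.mk 𝔞 w ∈ I.map ω ↔ w ∈ 𝔞 ⊔
      ((I.map (Ideal.Quotient.mk (Ideal.span {tC p k r C}))).comap π).map
        (lsj Λ A S (BN ψ C N))) := by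
    intro I hI w
    rw [← hmapω I hI, ← Ideal.mem_comap,
      Ideal.comap_map_of_surjective' _ Ideal.Quotient.mk_surjective, Ideal.mk_ker, sup_comm]
  rw [hcm K htK, ← hKB]
  refine ls_vec (maximalIdeal S) IB KB ?_ (teN ψ C N c) ?_ w ?_
  · rw [hmax, Ideal.map_span, Ideal.span_le]
    rintro _ ⟨x, (rfl | ⟨i, rfl⟩), rfl⟩
    · change _ ∈ IB
      rw [map_natCast, hmem I htI _ 0 (by
        rw [map_natCast, map_zero, ← map_natCast (Ideal.Quotient.mk (Ideal.span {tC p k r C})),
          CharP.cast_eq_zero, map_zero])]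
      exact zero_mem _
    · change _ ∈ IB
      refine (hmem I htI _ (algebraMap (Rp p k r) C (xp p k r i.succ)) ?_).2 (hI _)
      change π (mkN ψ C N (toB p C (tC p k r C) (WittVector.map (algebraMap (Rp p k r) C)
        (ψ (u i))))) = _
      rw [hπ, hb.psi_u, WittVector.map_coeff, WittVector.teichmuller_coeff_zero]
  · intro y hy
    obtain ⟨y', hy'⟩ := Ideal.Quotient.mk_surjective (π y)
    rw [hmem I htI _ (c * y') (by rw [map_mul, hte, ← hy', map_mul])] at hy
    rw [hmem K htK _ y' hy'.symm]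
    exact hK _ hy
  · exact (hcm I htI (toES ψ A S C N (teN ψ C N c) * w)).1 (by
      rw [map_mul, ← hω]
      exact hw)

end Omega


section Final

/-- the `p^e`-th root as a ring homomorphism. -/
noncomputable def lsRt (p : ℕ) [Fact p.Prime] {C : Type u} [CommRing C] [CharP C p]
    [PerfectRing C p] (e : ℕ) : C →+* C :=
  ((iterateFrobeniusEquiv C p e).symm : C →+* C)

theorem lsRt_apply (p : ℕ) [Fact p.Prime] {C : Type u} [CommRing C] [CharP C p]
    [PerfectRing C p] (e : ℕ) (c : C) : lsRt p e c = rt p e c := rfl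

theorem lsRt_pow (p : ℕ) [Fact p.Prime] {C : Type u} [CommRing C] [CharP C p]
    [PerfectRing C p] (e : ℕ) (c : C) : lsRt p e c ^ p ^ e = c := rt_pow_self p C c e

variable {p : ℕ} [Fact p.Prime] {k : Type u} [Field k] [CharP k p] {r : ℕ}

/-- the twisted structure map `R0 → C`, `f ↦ f^(1/p^e)`, and colon ideals. -/
theorem ls_colon_C {r0 : ℕ} (d : PExt.{u} p k r r0) (e : ℕ) (K K' : Ideal (R0 k r)) (f : R0 k r)
    (h : ∀ y, f * y ∈ K → y ∈ K') (y : d.C)
    (hy : ((lsRt p e).comp ((algebraMap (Rp p k r) d.C).comp (PerfectClosure.of (R0 k r) p))) f *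
      y ∈ K.map
        ((lsRt p e).comp ((algebraMap (Rp p k r) d.C).comp (PerfectClosure.of (R0 k r) p)))) :
    y ∈ K'.map
      ((lsRt p e).comp ((algebraMap (Rp p k r) d.C).comp (PerfectClosure.of (R0 k r) p))) := by
  let _ : Algebra (R0 k r) (Rp p k r) := (PerfectClosure.of (R0 k r) p).toAlgebra
  let _ : Algebra (R0 k r) d.C :=
    ((algebraMap (Rp p k r) d.C).comp (PerfectClosure.of (R0 k r) p)).toAlgebra
  have _ : IsScalarTower (R0 k r) (Rp p k r) d.C := IsScalarTower.of_algebraMap_eq fun x => rfl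
  have _ : Module.Flat (R0 k r) (Rp p k r) := flat_perfectClosure p k r
  have _ : Module.Flat (Rp p k r) d.C := d.flat
  have _ : Module.Flat (R0 k r) d.C := Module.Flat.trans (R0 k r) (Rp p k r) d.C
  set φ0 : R0 k r →+* d.C := (algebraMap (Rp p k r) d.C).comp (PerfectClosure.of (R0 k r) p)
    with hφ0
  have hal : algebraMap (R0 k r) d.C = φ0 := rfl
  set F : d.C →+* d.C := (iterateFrobeniusEquiv d.C p e : d.C →+* d.C) with hF
  have hFr : F.comp (lsRt p e) = RingHom.id d.C := by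
    ext c
    change iterateFrobeniusEquiv d.C p e ((iterateFrobeniusEquiv d.C p e).symm c) = c
    exact RingEquiv.apply_symm_apply _ _
  have hrF : (lsRt p e).comp F = RingHom.id d.C := by
    ext c
    change (iterateFrobeniusEquiv d.C p e).symm (iterateFrobeniusEquiv d.C p e c) = c
    exact RingEquiv.symm_apply_apply _ _
  have h1 := Ideal.mem_map_of_mem F hy
  rw [Ideal.map_map, ← RingHom.comp_assoc, hFr, RingHom.id_comp, map_mul] at h1
  have h2 : F (((lsRt p e).comp φ0) f) = φ0 f := RingHom.congr_fun hFr (φ0 f)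
  rw [h2, ← hal] at h1
  have h3 := ls_colon_flat K K' f h (F y) h1
  have h4 := Ideal.mem_map_of_mem (lsRt p e) h3
  rw [Ideal.map_map, hal] at h4
  have h5 : lsRt p e (F y) = y := RingHom.congr_fun hrF y
  rwa [h5] at h4

variable {Λ : Type u} [CommRing Λ] [IsLocalRing Λ] {u : Fin r → Λ}
  {ψ : Λ →+* WittVector p (Rp p k r)}
  {red : Λ →+* R0 k r ⧸ Ideal.span {(MvPowerSeries.X 0 : R0 k r)}}
  {ι : Type u} {b : ι → Λ} {β : ι → k} {res : ResidueField Λ →+* k}
variable {A S : Type u} [CommRing A] [CommRing S] [IsLocalRing A] [IsLocalRing S]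
  [IsNoetherianRing A] [IsNoetherianRing S]
  [Algebra Λ A] [Algebra A S] [IsLocalHom (algebraMap Λ A)] [IsLocalHom (algebraMap A S)]

/-- TASK M15b: smallness. For `γ = t^a (g + t^(1/p) x) ∈ C`, `g ∈ R0`:
`L(E/(n_S, [γ^(1/q)]^c)) ≤ p c (a + Cg)/q`, `q = p^e`. Proof (`W = E/n_S E = k_S ⊗_(k0) C/(t,u)`,
`W/J` for ideals `J` of `C`): replace `c` by `p c`; `L(W/γ^(c/q)) ≤ L(W/t^(ac/q)) + L(W/γ'^(c/q))`,
`γ' = g + t^(1/p) x`; `L(W/t^(m/q)) ≤ m/q` (multiplication by `t^(1/q)`: `C` flat over `Rp`);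
`L(W/γ'^(c/q)) ≤ q L(W/(t^(1/q), γ'^(c/q)))`, `γ'^(c/q) = g^(c/q)` modulo `t^(c/(pq))`;
`L(W/(t^(1/q), g^(c/q))) ≤ l(R0/(x_0, x_i^q, g^c)) L(W/(x_l^(1/q)))` (devissage over the `q`-th
roots of `R0`), `L(W/(x_l^(1/q))) ≤ 1/q^(r+1)`. -/
theorem len_small (hb : IsBase p k r Λ u ψ red)
    (hmax : maximalIdeal Λ = Ideal.span (insert (p : Λ) (Set.range u)))
    {r0 : ℕ} (d : PExt.{u} p k r r0) (N : ℕ) (hN : 1 ≤ N) (L : AddLen (ES ψ A S d.C N))
    (hL : L.len (ES ψ A S d.C N ⧸ (maximalIdeal S).map (algebraMap S (ES ψ A S d.C N))) = 1)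
    (g : R0 k r) (Cg : ℕ) (hCg : ∀ q c : ℕ, 1 ≤ q → 1 ≤ c →
      (q : ℝ≥0∞) * ENat.toENNReal (Module.length (R0 k r) (R0 k r ⧸ Ideal.span
        ({(MvPowerSeries.X 0 : R0 k r), g ^ c} ∪
          Set.range fun i : Fin r => (MvPowerSeries.X i.succ : R0 k r) ^ q))) ≤
        (c * Cg * q ^ r : ℕ))
    (a : ℕ) (x γ : d.C) (hγ : γ = tC p k r d.C ^ a *
      (algebraMap (Rp p k r) d.C (PerfectClosure.of (R0 k r) p g) + rt p 1 (tC p k r d.C) * x))
    (e c : ℕ) (hc : 1 ≤ c) :
    L.len (ES ψ A S d.C N ⧸ ((maximalIdeal S).map (algebraMap S (ES ψ A S d.C N)) ⊔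
      Ideal.span {toES ψ A S d.C N (teN ψ d.C N (rt p e γ)) ^ c})) ≤
      (p * c * (a + Cg) : ℕ) / (p : ℝ≥0∞) ^ e := by
  obtain ⟨ω, hω, hx0, hT⟩ := ls_omega (A := A) (S := S) hb hmax (C := d.C) N hN
  set φ0 : R0 k r →+* d.C := (algebraMap (Rp p k r) d.C).comp (PerfectClosure.of (R0 k r) p)
    with hφ0
  have hp1 : 1 ≤ p := (Fact.out : p.Prime).one_lt.le
  have hXl : ∀ l, φ0 (MvPowerSeries.X l) = algebraMap (Rp p k r) d.C (xp p k r l) := fun l => rfl
  have hmk : Function.Surjective (Ideal.Quotient.mk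
    ((maximalIdeal S).map (algebraMap S (ES ψ A S d.C N)))) := Ideal.Quotient.mk_surjective
  have key := ls_main (lsRes L (Ideal.Quotient.mk
    ((maximalIdeal S).map (algebraMap S (ES ψ A S d.C N))))) (ω.comp ((lsRt p e).comp φ0)) (p ^ e)
    (Nat.one_le_pow _ _ hp1) (by
      intro l
      change ω (lsRt p e (φ0 (MvPowerSeries.X l))) ^ p ^ e = 0
      rw [← map_pow, lsRt_pow, hXl, hx0]) (by
      intro K K' f hK h w hw
      rw [← Ideal.map_map] at hw ⊢
      refine hT (K.map ((lsRt p e).comp φ0)) (K'.map ((lsRt p e).comp φ0))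
        (((lsRt p e).comp φ0) f) ?_ (fun y hy => ls_colon_C d e K K' f h y hy) w hw
      intro l
      have h1 := Ideal.mem_map_of_mem ((lsRt p e).comp φ0) (hK l)
      rw [map_pow] at h1
      change lsRt p e (φ0 (MvPowerSeries.X l)) ^ p ^ e ∈ _ at h1
      rwa [lsRt_pow, hXl] at h1) (by
      rw [lsRes_len L _ hmk, ← RingHom.ker_eq_comap_bot, Ideal.mk_ker, hL]) g Cg hCg p c a hp1 hc
    (ω (rt p e γ)) (ω (rt p e (φ0 g + rt p 1 (tC p k r d.C) * x))) (ω (rt p e x) ^ p) (by
      have h1 : rt p 1 (tC p k r d.C) ^ p = tC p k r d.C := by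
        have := rt_pow_self p d.C (tC p k r d.C) 1
        rwa [pow_one] at this
      change ω (lsRt p e (φ0 g + rt p 1 (tC p k r d.C) * x)) ^ p = ω (lsRt p e (φ0 g)) ^ p +
        ω (lsRt p e (tC p k r d.C)) * ω (lsRt p e x) ^ p
      rw [← map_pow, ← map_pow, add_pow_char, mul_pow, h1, map_add, map_add, map_mul, map_mul,
        map_pow, map_pow, map_pow, map_pow]) (by
      rw [hγ]
      change ω (lsRt p e (tC p k r d.C ^ a * (φ0 g + rt p 1 (tC p k r d.C) * x))) =
        ω (lsRt p e (tC p k r d.C)) ^ a * ω (lsRt p e (φ0 g + rt p 1 (tC p k r d.C) * x))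
      rw [map_mul, map_mul, map_pow, map_pow])
  rw [lsRes_len L _ hmk, hω, ← map_pow, ← Set.image_singleton, ← Ideal.map_span,
    Ideal.comap_map_of_surjective' _ hmk, Ideal.mk_ker, sup_comm] at key
  push_cast at key ⊢
  exact key

end Final

end Vale.Agent.P202.Mix
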