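import Vale.Agent.P202.Mix.Defs2

/-!
P202, mixed characteristic: the ring `A ⊗_Λ B/p^N`, its ideals `K_π`, the package `APkg`.
-/

namespace Vale.Agent.P202.Mix

open Polynomial TensorProduct

universe u

/-- the annihilator of an element. -/
def annI {R : Type*} [CommRing R] (d : R) : Ideal R :=
  LinearMap.ker (LinearMap.toSpanSingleton R R d)

theorem mem_annI {R : Type*} [CommRing R] (d x : R) : x ∈ annI d ↔ x * d = 0 := by
  rw [annI, LinearMap.mem_ker, LinearMap.toSpanSingleton_apply, smul_eq_mul]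

section

variable {p : ℕ} [Fact p.Prime] {k : Type u} [Field k] [CharP k p] {r : ℕ}
variable {Λ : Type u} [CommRing Λ] {ψ : Λ →+* WittVector p (Rp p k r)} {s D : ℕ}
  {F : Fin s → Λ[X]} {E : MvPolynomial (Fin s) Λ} {g : Λ} {I r0 : ℕ}

/-- the element `[δ_π^(1/p^e)]` of `B/p^N`. -/
noncomputable def dq (d : CData.{u} ψ (D := D) F E g I r0) (e N : ℕ) (π : Fin s → Fin D) :
    BN ψ d.C N :=
  teN ψ d.C N (rt p e (d.δ π))

end

/-- The package over `A` (and later over `S`): a ring `E` with ideals `K_π` such that the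
`E/K_π` are almost regular for `x = (p, u_1, .., u_r)`, almost Frobenius-root-closed, and
together almost equal to `E`. -/
structure APkg {A : Type u} [CommRing A] (p : ℕ) (m : Ideal A) {n : ℕ} (x : Fin n → A)
    (P : Type) [Fintype P] (g0 g1 : A) (w w' N : ℕ) (E : Type u) [CommRing E] [Algebra A E] where
  K : P → Ideal E
  h : P → E
  z : P → Fin n → E
  η : P → E
  θ : P → E
  hη : ∀ π, ∀ y ∈ K π, y * η π = 0
  hη' : algebraMap A E g1 ∈ Ideal.span (Set.range η)
  hθ : ∀ π π', π ≠ π' → θ π ∈ K π'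
  hθ' : ∀ π, θ π - algebraMap A E g0 ∈ K π
  hz : ∀ π, m.map (algebraMap A E) ≤ Ideal.span (Set.range (z π)) ^ w ⊔ K π
  hz' : ∀ π l, z π l ^ w' ∈ m.map (algebraMap A E) ⊔ K π
  hp : algebraMap A E (p : A) ^ N = 0
  regp : ∀ π y, algebraMap A E (p : A) * y ∈ K π →
    h π * y ∈ Ideal.span {algebraMap A E (p : A) ^ (N - 1)} ⊔ K π
  regu : ∀ π (i : Fin n), 0 < (i : ℕ) → ∀ y,
    algebraMap A E (x i) * y ∈ Ideal.span ((fun l => algebraMap A E (x l)) '' {l | l < i}) ⊔ K π →
    h π * y ∈ Ideal.span ((fun l => algebraMap A E (x l)) '' {l | l < i}) ⊔ K π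

end Vale.Agent.P202.Mix
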