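import Vale.Agent.P202.Mix.Defs3

/-!
P202, mixed characteristic: the norm package (M10).
-/

namespace Vale.Agent.P202.Mix

open Polynomial TensorProduct

universe u

section Core

variable {Λ A B T : Type*} [CommRing Λ] [CommRing A] [CommRing B] [CommRing T] [Algebra Λ A]
  [Algebra Λ B] (iA : A →+* T) (iB : B →+* T) {s D : ℕ} (a : Fin s → A) (F : Fin s → Λ[X])
  (t : Fin s → Fin D → B)

/-- the elements `ε_π`. -/
noncomputable def nmEps (π : Fin s → Fin D) : T :=
  ∏ j, ∏ i ∈ Finset.univ.erase (π j), (iA (a j) - iB (t j i))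

variable {iA iB a F t}

theorem nm_eval₂ (hc : ∀ l, iA (algebraMap Λ A l) = iB (algebraMap Λ B l)) (x : A) (G : Λ[X]) :
    iA (aeval x G) = eval₂ (iB.comp (algebraMap Λ B)) (iA x) G := by
  rw [aeval_def, hom_eval₂]
  congr 1
  ext l
  exact hc l

/-- product formula over any ring above `B`. -/
theorem nm_prod {T' : Type*} [CommRing T'] (f : B →+* T')
    (hs : ∀ j, (F j).map (algebraMap Λ B) = ∏ i, (X - C (t j i))) (j : Fin s) :
    (F j).map (f.comp (algebraMap Λ B)) = ∏ i, (X - C (f (t j i))) := by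
  rw [← Polynomial.map_map, hs, Polynomial.map_prod]
  refine Finset.prod_congr rfl fun i _ => ?_
  rw [Polynomial.map_sub, Polynomial.map_X, Polynomial.map_C]

theorem nm_deriv_prod {T' : Type*} [CommRing T'] (c : Fin D → T') (z : T') :
    eval z (derivative (∏ i, (X - C (c i)))) = ∑ i, ∏ i' ∈ Finset.univ.erase i, (z - c i') := by
  rw [derivative_prod_finset, eval_finsetSum]
  refine Finset.sum_congr rfl fun i _ => ?_
  rw [eval_mul, eval_prod, derivative_X_sub_C, eval_one, mul_one]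
  refine Finset.prod_congr rfl fun i' _ => ?_
  rw [eval_sub, eval_X, eval_C]

theorem nm_deriv {T' : Type*} [CommRing T'] (f : B →+* T')
    (hs : ∀ j, (F j).map (algebraMap Λ B) = ∏ i, (X - C (t j i))) (j : Fin s) (z : T') :
    eval₂ (f.comp (algebraMap Λ B)) z (derivative (F j)) =
      ∑ i, ∏ i' ∈ Finset.univ.erase i, (z - f (t j i')) := by
  rw [← eval_map, ← derivative_map, nm_prod f hs, nm_deriv_prod]

theorem nm_root (hc : ∀ l, iA (algebraMap Λ A l) = iB (algebraMap Λ B l))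
    (hF : ∀ j, aeval (a j) (F j) = 0)
    (hs : ∀ j, (F j).map (algebraMap Λ B) = ∏ i, (X - C (t j i))) (π : Fin s → Fin D)
    (j : Fin s) : (iA (a j) - iB (t j (π j))) * nmEps iA iB a t π = 0 := by
  have h1 : ∏ i, (iA (a j) - iB (t j i)) = 0 := by
    have h2 := nm_eval₂ (Λ := Λ) hc (a j) (F j)
    rw [hF, map_zero, ← eval_map, nm_prod iB hs, eval_prod] at h2
    rw [h2]
    refine Finset.prod_congr rfl fun i _ => ?_
    rw [eval_sub, eval_X, eval_C]
  unfold nmEps
  rw [← Finset.mul_prod_erase _ _ (Finset.mem_univ j), ← mul_assoc,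
    Finset.mul_prod_erase Finset.univ (fun i => iA (a j) - iB (t j i)) (Finset.mem_univ (π j)),
    h1, zero_mul]

/-- polynomials in `a` may be evaluated at the roots, in presence of `ε_π`. -/
theorem nm_eval (hc : ∀ l, iA (algebraMap Λ A l) = iB (algebraMap Λ B l))
    (hF : ∀ j, aeval (a j) (F j) = 0)
    (hs : ∀ j, (F j).map (algebraMap Λ B) = ∏ i, (X - C (t j i))) (π : Fin s → Fin D)
    (f : MvPolynomial (Fin s) Λ) :
    iA (MvPolynomial.aeval a f) * nmEps iA iB a t π =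
      iB (MvPolynomial.eval₂ (algebraMap Λ B) (fun j => t j (π j)) f) * nmEps iA iB a t π := by
  induction f using MvPolynomial.induction_on with
  | C l => rw [MvPolynomial.aeval_C, MvPolynomial.eval₂_C, hc]
  | add f g hf hg =>
    rw [map_add, map_add, add_mul, hf, hg, MvPolynomial.eval₂_add, map_add, add_mul]
  | mul_X f j hf =>
    have h1 : iA (a j) * nmEps iA iB a t π = iB (t j (π j)) * nmEps iA iB a t π := by
      rw [← sub_eq_zero, ← sub_mul]
      exact nm_root hc hF hs π j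
    rw [map_mul, map_mul, MvPolynomial.aeval_X, MvPolynomial.eval₂_mul, MvPolynomial.eval₂_X,
      map_mul, mul_assoc, h1, mul_left_comm, hf, mul_left_comm, mul_assoc]

theorem nm_core (hc : ∀ l, iA (algebraMap Λ A l) = iB (algebraMap Λ B l))
    (hind : ∀ q : T → Prop, (∀ x b, q (iA x * iB b)) → (∀ y z, q y → q z → q (y + z)) →
      q 0 → ∀ y, q y)
    (ha : Function.Surjective (MvPolynomial.aeval a : MvPolynomial (Fin s) Λ →ₐ[Λ] A))
    (hF : ∀ j, aeval (a j) (F j) = 0)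
    (hs : ∀ j, (F j).map (algebraMap Λ B) = ∏ i, (X - C (t j i)))
    {E : MvPolynomial (Fin s) Λ} {g : Λ} (hEg : MvPolynomial.aeval a E = algebraMap Λ A g)
    (dq : (Fin s → Fin D) → B) {q : ℕ} (hq : 1 ≤ q)
    (hδ : ∀ π, dq π ^ q = MvPolynomial.eval₂ (algebraMap Λ B) (fun j => t j (π j)) E)
    (φ : ∀ π : Fin s → Fin D, T →+* B ⧸ annI (dq π))
    (hφ1 : ∀ π b, φ π (iB b) = Ideal.Quotient.mk _ b)
    (hφ2 : ∀ π j, φ π (iA (a j)) = Ideal.Quotient.mk _ (t j (π j))) :
    (∀ π, ∀ y ∈ RingHom.ker (φ π), y * (nmEps iA iB a t π * iB (dq π)) = 0) ∧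
    (∀ π π', π ≠ π' → nmEps iA iB a t π ∈ RingHom.ker (φ π')) ∧
    (∀ π, nmEps iA iB a t π - iA (∏ j, aeval (a j) (derivative (F j))) ∈ RingHom.ker (φ π)) ∧
    iA (algebraMap Λ A g * ∏ j, aeval (a j) (derivative (F j))) ∈
      Ideal.span (Set.range fun π => nmEps iA iB a t π * iB (dq π)) := by
  have hφε : ∀ π π', φ π' (nmEps iA iB a t π) = ∏ j, ∏ i ∈ Finset.univ.erase (π j),
      (Ideal.Quotient.mk (annI (dq π')) (t j (π' j)) -
        Ideal.Quotient.mk (annI (dq π')) (t j i)) := by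
    intro π π'
    unfold nmEps
    rw [map_prod]
    refine Finset.prod_congr rfl fun j _ => ?_
    rw [map_prod]
    refine Finset.prod_congr rfl fun i _ => ?_
    rw [map_sub, hφ1, hφ2]
  refine ⟨fun π y hy => ?_, fun π π' hne => ?_, fun π => ?_, ?_⟩
  · -- kernel
    have h1 : ∀ y : T, ∃ b : B, y * nmEps iA iB a t π = iB b * nmEps iA iB a t π ∧
        φ π y = Ideal.Quotient.mk _ b := by
      refine hind _ (fun x b => ?_) ?_ ⟨0, by rw [map_zero], by rw [map_zero, map_zero]⟩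
      · obtain ⟨f, rfl⟩ := ha x
        refine ⟨MvPolynomial.eval₂ (algebraMap Λ B) (fun j => t j (π j)) f * b, ?_, ?_⟩
        · rw [mul_right_comm, nm_eval hc hF hs π f, map_mul, mul_right_comm]
        · rw [map_mul, hφ1, map_mul]
          congr 1
          induction f using MvPolynomial.induction_on with
          | C l => rw [MvPolynomial.aeval_C, MvPolynomial.eval₂_C, hc, hφ1]
          | add f g hf hg => rw [map_add, map_add, map_add, hf, hg, MvPolynomial.eval₂_add, map_add]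
          | mul_X f j hf =>
            rw [map_mul, map_mul, map_mul, hf, MvPolynomial.aeval_X, hφ2,
              MvPolynomial.eval₂_mul, MvPolynomial.eval₂_X, map_mul]
      · rintro y z ⟨b, hb, hb'⟩ ⟨c, hc, hc'⟩
        exact ⟨b + c, by rw [add_mul, hb, hc, map_add, add_mul], by rw [map_add, hb', hc', map_add]⟩
    obtain ⟨b, hb, hb'⟩ := h1 y
    have h2 : b * dq π = 0 := by
      rw [← mem_annI, ← Ideal.Quotient.eq_zero_iff_mem, ← hb']
      exact hy
    rw [← mul_assoc, hb, mul_right_comm, ← map_mul, h2, map_zero, zero_mul]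
  · -- off diagonal
    rw [RingHom.mem_ker, hφε]
    obtain ⟨j, hj⟩ := Function.ne_iff.mp hne
    refine Finset.prod_eq_zero (Finset.mem_univ j)
      (Finset.prod_eq_zero (i := π' j) (Finset.mem_erase.mpr ⟨Ne.symm hj, Finset.mem_univ _⟩) ?_)
    rw [sub_self]
  · -- diagonal
    rw [RingHom.mem_ker, map_sub, hφε, sub_eq_zero, map_prod, map_prod]
    refine Finset.prod_congr rfl fun j _ => ?_
    have h3 : (φ π).comp (iB.comp (algebraMap Λ B)) =
        (Ideal.Quotient.mk (annI (dq π))).comp (algebraMap Λ B) := by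
      ext l
      exact hφ1 π _
    rw [nm_eval₂ (Λ := Λ) hc, hom_eval₂, h3, hφ2, nm_deriv _ hs,
      Finset.sum_eq_single (π j)]
    · intro i _ hi
      refine Finset.prod_eq_zero (Finset.mem_erase.mpr ⟨Ne.symm hi, Finset.mem_univ _⟩) ?_
      rw [sub_self]
    · intro h
      exact absurd (Finset.mem_univ _) h
  · -- norm
    have h4 : iA (∏ j, aeval (a j) (derivative (F j))) = ∑ π, nmEps iA iB a t π := by
      rw [map_prod]
      have h5 : ∀ j, iA (aeval (a j) (derivative (F j))) =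
          ∑ i, ∏ i' ∈ Finset.univ.erase i, (iA (a j) - iB (t j i')) := by
        intro j
        rw [nm_eval₂ (Λ := Λ) hc, nm_deriv _ hs]
      rw [Finset.prod_congr rfl fun j _ => h5 j, Finset.prod_univ_sum, Fintype.piFinset_univ]
      rfl
    rw [map_mul, h4, Finset.mul_sum]
    refine Ideal.sum_mem _ fun π _ => ?_
    have h6 : iA (algebraMap Λ A g) * nmEps iA iB a t π =
        iB (dq π ^ (q - 1)) * (nmEps iA iB a t π * iB (dq π)) := by
      rw [← hEg, nm_eval hc hF hs π E, ← hδ, mul_comm (nmEps iA iB a t π) (iB (dq π)),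
        ← mul_assoc, ← map_mul, ← pow_succ, Nat.sub_add_cancel hq]
    rw [h6]
    exact Ideal.mul_mem_left _ _ (Ideal.subset_span ⟨π, rfl⟩)

end Core

section

variable {p : ℕ} [Fact p.Prime] {k : Type u} [Field k] [CharP k p] {r : ℕ}
variable {Λ : Type u} [CommRing Λ] {ψ : Λ →+* WittVector p (Rp p k r)}

theorem nm_teN_pow (C : Type u) [CommRing C] [Algebra (Rp p k r) C] (N : ℕ) (c : C) (n : ℕ) :
    teN ψ C N c ^ n = teN ψ C N (c ^ n) := by
  unfold teN te
  rw [map_pow (WittVector.teichmuller p), map_pow, map_pow]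

theorem nm_rt_pow {C : Type u} [CommRing C] [CharP C p] [PerfectRing C p] (e : ℕ) (c : C) :
    rt p e c ^ p ^ e = c := by
  unfold rt
  have h := (iterateFrobeniusEquiv C p e).apply_symm_apply c
  rwa [iterateFrobeniusEquiv_apply, iterateFrobenius_def] at h

theorem nm_mkN_zero (C : Type u) [CommRing C] [Algebra (Rp p k r) C] {N I : ℕ} (hN : N ≤ I + 1)
    {x : Bt p C (tC p k r C)} (hx : x ∈ Ideal.span {(p : Bt p C (tC p k r C)) ^ (I + 1)}) :
    mkN ψ C N x = 0 := by
  exact Ideal.Quotient.eq_zero_iff_mem.mpr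
    (Ideal.span_singleton_le_span_singleton.mpr (pow_dvd_pow _ hN) hx)

variable {A : Type u} [CommRing A] [Algebra Λ A] {s D : ℕ} {a : Fin s → A}
  {F : Fin s → Λ[X]} {E : MvPolynomial (Fin s) Λ} {g : Λ} {I r0 : ℕ}

theorem nm_split (d : CData.{u} ψ (D := D) F E g I r0) {N : ℕ} (hN : N ≤ I + 1) (j : Fin s) :
    (F j).map (algebraMap Λ (BN ψ d.C N)) = ∏ i, (X - C (teN ψ d.C N (d.c j i))) := by
  have h1 : ∏ i, (X - C (teN ψ d.C N (d.c j i))) =
      (∏ i, (X - C (te p d.C (tC p k r d.C) (d.c j i)))).map (mkN ψ d.C N) := by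
    rw [Polynomial.map_prod]
    refine Finset.prod_congr rfl fun i _ => ?_
    rw [Polynomial.map_sub, Polynomial.map_X, Polynomial.map_C]
    rfl
  have h2 : (F j).map (algebraMap Λ (BN ψ d.C N)) = ((F j).map (laB ψ d.C)).map (mkN ψ d.C N) := by
    rw [Polynomial.map_map]
    rfl
  rw [h1, h2, ← sub_eq_zero, ← Polynomial.map_sub]
  ext n
  rw [coeff_map, coeff_zero]
  exact nm_mkN_zero d.C hN (d.split j n)

theorem nm_delta (d : CData.{u} ψ (D := D) F E g I r0) {N : ℕ} (hN : N ≤ I + 1) (e : ℕ)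
    (π : Fin s → Fin D) : dq d e N π ^ p ^ e = MvPolynomial.eval₂ (algebraMap Λ (BN ψ d.C N))
      (fun j => teN ψ d.C N (d.c j (π j))) E := by
  unfold dq
  rw [nm_teN_pow, nm_rt_pow]
  have h1 := nm_mkN_zero (ψ := ψ) d.C hN (d.hδ π)
  rw [map_sub, sub_eq_zero, MvPolynomial.eval₂_comp_left] at h1
  exact h1

/-- the elements `ε_π` -/
noncomputable def epsPi (a : Fin s → A) (d : CData.{u} ψ (D := D) F E g I r0) (N : ℕ)
    (π : Fin s → Fin D) : A ⊗[Λ] BN ψ d.C N :=
  ∏ j, ∏ i ∈ Finset.univ.erase (π j),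
    (a j ⊗ₜ[Λ] (1 : BN ψ d.C N) - (1 : A) ⊗ₜ[Λ] teN ψ d.C N (d.c j i))

/-- M10: NORM. -/
theorem norm_package (d : CData.{u} ψ (D := D) F E g I r0)
    (ha : Function.Surjective (MvPolynomial.aeval a : MvPolynomial (Fin s) Λ →ₐ[Λ] A))
    (hF : ∀ j, aeval (a j) (F j) = 0)
    (hEg : MvPolynomial.aeval a E = algebraMap Λ A g)
    (e N : ℕ) (he : p ^ e * N ≤ I + 1)
    (φ : ∀ π : Fin s → Fin D, A ⊗[Λ] BN ψ d.C N →+* BN ψ d.C N ⧸ annI (dq d e N π))
    (hφ1 : ∀ π b, φ π (1 ⊗ₜ b) = Ideal.Quotient.mk _ b)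
    (hφ2 : ∀ π j, φ π (a j ⊗ₜ 1) = Ideal.Quotient.mk _ (teN ψ d.C N (d.c j (π j)))) :
    (∀ π, ∀ y ∈ RingHom.ker (φ π), y * (epsPi a d N π * 1 ⊗ₜ dq d e N π) = 0) ∧
    (∀ π π', π ≠ π' → epsPi a d N π ∈ RingHom.ker (φ π')) ∧
    (∀ π, epsPi a d N π - (∏ j, aeval (a j) (derivative (F j))) ⊗ₜ 1 ∈ RingHom.ker (φ π)) ∧
    (algebraMap Λ A g * ∏ j, aeval (a j) (derivative (F j))) ⊗ₜ 1 ∈
      Ideal.span (Set.range fun π => epsPi a d N π * 1 ⊗ₜ dq d e N π) := by
  have hp1 : 1 ≤ p ^ e := Nat.one_le_pow _ _ (Fact.out : p.Prime).pos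
  have hN : N ≤ I + 1 := (Nat.le_mul_of_pos_left N hp1).trans he
  exact nm_core (iA := (Algebra.TensorProduct.includeLeftRingHom : A →+* A ⊗[Λ] BN ψ d.C N))
    (iB := ((Algebra.TensorProduct.includeRight : BN ψ d.C N →ₐ[Λ] A ⊗[Λ] BN ψ d.C N) :
      BN ψ d.C N →+* A ⊗[Λ] BN ψ d.C N))
    (t := fun j i => teN ψ d.C N (d.c j i))
    (fun l => Algebra.TensorProduct.tmul_one_eq_one_tmul l) (fun q h1 h2 h0 y => by
      induction y using TensorProduct.induction_on with
      | zero => exact h0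
      | tmul x b =>
        have h3 := h1 x b
        rw [Algebra.TensorProduct.includeLeftRingHom_apply] at h3
        have h4 : (x ⊗ₜ[Λ] (1 : BN ψ d.C N)) * ((1 : A) ⊗ₜ[Λ] b) = x ⊗ₜ b := by
          rw [Algebra.TensorProduct.tmul_mul_tmul, mul_one, one_mul]
        rw [← h4]
        exact h3
      | add y z hy hz => exact h2 y z hy hz)
    ha hF (nm_split d hN) hEg (dq d e N) hp1 (nm_delta d hN e) φ hφ1 hφ2

end

end Vale.Agent.P202.Mix
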