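import Vale.Agent.P202.Mix.Defs

/-!
P202, mixed characteristic, task M8b: Teichmueller lifts of the reduction.
-/

namespace Vale.Agent.P202.Mix

universe u

/-- rounding of exponents -/
theorem redB_pow_le {R : Type*} [CommRing R] {n : ℕ} (x : Fin n → R) (q k N : ℕ) (hq : 0 < q)
    (hN : q * k + n * q ≤ N) :
    Ideal.span (Set.range x) ^ N ≤ Ideal.span (Set.range fun l => x l ^ q) ^ k := by
  classical
  rw [Ideal.span, Submodule.span_pow]
  refine Submodule.span_le.2 ?_
  intro a ha
  obtain ⟨f, hf⟩ := Set.mem_pow.1 ha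
  choose g hg using fun i => (f i).2
  have ha' : a = ∏ i : Fin N, x (g i) := by
    rw [← hf, List.prod_ofFn]
    exact Finset.prod_congr rfl fun i _ => (hg i).symm
  rw [ha', Finset.prod_comp x g]
  set s : Finset (Fin n) := Finset.image g Finset.univ with hs
  set c : Fin n → ℕ := fun l => (Finset.univ.filter fun i => g i = l).card with hc
  have hsum : ∑ l ∈ s, c l = N := by
    have := Finset.card_eq_sum_card_image g (Finset.univ : Finset (Fin N))
    rw [Finset.card_univ, Fintype.card_fin] at this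
    exact this.symm
  have hmem : ∏ l ∈ s, x l ^ c l ∈
      Ideal.span (Set.range fun l => x l ^ q) ^ (∑ l ∈ s, c l / q) := by
    rw [← Finset.prod_pow_eq_pow_sum]
    refine Ideal.prod_mem_prod fun l _ => ?_
    have h1 : x l ^ c l = (x l ^ q) ^ (c l / q) * x l ^ (c l % q) := by
      rw [← pow_mul, ← pow_add, Nat.div_add_mod]
    rw [h1]
    have h0 : x l ^ q ∈ Ideal.span (Set.range fun l => x l ^ q) :=
      Ideal.subset_span (Set.mem_range_self (f := fun l => x l ^ q) l)
    exact Ideal.mul_mem_right _ _ (Ideal.pow_mem_pow h0 _)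
  have hk : k ≤ ∑ l ∈ s, c l / q := by
    have h2 : ∑ l ∈ s, c l ≤ ∑ l ∈ s, (q * (c l / q) + q) := by
      refine Finset.sum_le_sum fun l _ => ?_
      have h3 := Nat.div_add_mod (c l) q
      have h4 := Nat.mod_lt (c l) hq
      omega
    rw [Finset.sum_add_distrib, ← Finset.mul_sum, Finset.sum_const, smul_eq_mul] at h2
    have h5 : s.card ≤ n := by
      have := Finset.card_le_univ s
      rwa [Fintype.card_fin] at this
    have h6 : s.card * q ≤ n * q := Nat.mul_le_mul_right _ h5
    have h7 : q * k ≤ q * ∑ l ∈ s, c l / q := by omega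
    exact Nat.le_of_mul_le_mul_left h7 hq
  exact Ideal.pow_le_pow_right hk hmem

section
variable (p : ℕ) [Fact p.Prime] {C : Type u} [CommRing C] (t : C)

theorem redB_te_mul (a b : C) : te p C t (a * b) = te p C t a * te p C t b := by
  unfold te
  rw [map_mul, map_mul]

theorem redB_te_one : te p C t 1 = 1 := by
  unfold te
  rw [map_one, map_one]

theorem redB_te_zero' : te p C t 0 = 0 := by
  unfold te
  rw [WittVector.teichmuller_zero, map_zero]

theorem redB_te_pow (a : C) (n : ℕ) : te p C t (a ^ n) = te p C t a ^ n := by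
  unfold te
  rw [map_pow, map_pow]

theorem redB_te_t : te p C t t = (p : Bt p C t) := by
  have h : toB p C t ((p : WittVector p C) - WittVector.teichmuller p t) = 0 := by
    unfold toB
    exact Ideal.Quotient.eq_zero_iff_mem.2 (Ideal.subset_span rfl)
  rw [map_sub, map_natCast, sub_eq_zero] at h
  exact h.symm

theorem redB_te_add_dvd [CharP C p] [PerfectRing C p] (a b : C) :
    (p : Bt p C t) ∣ te p C t (a + b) - (te p C t a + te p C t b) := by
  have h : (p : WittVector p C) ^ 1 ∣ WittVector.teichmuller p (a + b) -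
      (WittVector.teichmuller p a + WittVector.teichmuller p b) := by
    rw [← Ideal.mem_span_singleton, WittVector.mem_span_p_pow_iff_le_coeff_eq_zero,
      ← WittVector.le_coeff_eq_iff_le_sub_coeff_eq_zero]
    intro i hi
    obtain rfl : i = 0 := by omega
    rw [WittVector.add_coeff_zero, WittVector.teichmuller_coeff_zero,
      WittVector.teichmuller_coeff_zero, WittVector.teichmuller_coeff_zero]
  rw [pow_one] at h
  have h2 := map_dvd (toB p C t) h
  rw [map_natCast, RingHom.map_sub, RingHom.map_add] at h2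
  exact h2

/-- `c ↦ [c] mod p` -/
noncomputable def redB_redHom (C : Type u) [CommRing C] [CharP C p] [PerfectRing C p] (t : C) :
    C →+* Bt p C t ⧸ Ideal.span {(p : Bt p C t)} where
  toFun c := Ideal.Quotient.mk _ (te p C t c)
  map_one' := by rw [redB_te_one, map_one]
  map_mul' a b := by rw [redB_te_mul, map_mul]
  map_zero' := by rw [redB_te_zero', map_zero]
  map_add' a b := by
    rw [← map_add]
    exact Ideal.Quotient.eq.2 (Ideal.mem_span_singleton.2 (redB_te_add_dvd p t a b))

end

variable (p : ℕ) [Fact p.Prime]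

theorem te_mem_pow_sup (C : Type u) [CommRing C] [CharP C p] [PerfectRing C p] (t : C) {n : ℕ}
    (ζ : Fin n → C) (m : ℕ) (α : C) (hα : α ∈ Ideal.span (Set.range ζ) ^ m) :
    te p C t α ∈ Ideal.span (Set.range fun l => te p C t (ζ l)) ^ m ⊔
      Ideal.span {(p : Bt p C t)} := by
  have h1 : redB_redHom p C t α ∈ (Ideal.span (Set.range ζ) ^ m).map (redB_redHom p C t) :=
    Ideal.mem_map_of_mem _ hα
  rw [Ideal.map_pow, Ideal.map_span, ← Set.range_comp] at h1
  have h2 : Ideal.span (Set.range (redB_redHom p C t ∘ ζ)) ^ m =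
      (Ideal.span (Set.range fun l => te p C t (ζ l)) ^ m).map
        (Ideal.Quotient.mk (Ideal.span {(p : Bt p C t)})) := by
    rw [Ideal.map_pow, Ideal.map_span, ← Set.range_comp]
    rfl
  rw [h2] at h1
  have h3 : Ideal.Quotient.mk (Ideal.span {(p : Bt p C t)}) (te p C t α) ∈
      (Ideal.span (Set.range fun l => te p C t (ζ l)) ^ m).map
        (Ideal.Quotient.mk (Ideal.span {(p : Bt p C t)})) := h1
  exact (Ideal.mem_quotient_iff_mem_sup).1 h3

theorem p_mem_pow_sup (C : Type u) [CommRing C] [CharP C p] [PerfectRing C p] (t : C) {n : ℕ}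
    (ζ : Fin n → C) (m : ℕ) (ht : t ∈ Ideal.span (Set.range ζ) ^ m) :
    (p : Bt p C t) ∈ Ideal.span (Set.range fun l => te p C t (ζ l)) ^ (m - n) ⊔
      Ideal.span {(p : Bt p C t) ^ 2} := by
  rcases le_total m n with hmn | hmn
  · rw [Nat.sub_eq_zero_of_le hmn, pow_zero, Ideal.one_eq_top, top_sup_eq]
    exact Submodule.mem_top
  have hp : 0 < p := (Fact.out : p.Prime).pos
  have hroot : ∀ c : C, rt p 1 c ^ p = c := by
    intro c
    have := (iterateFrobeniusEquiv C p 1).apply_symm_apply c
    rw [iterateFrobeniusEquiv_def, pow_one] at this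
    exact this
  have h1 : rt p 1 t ∈ Ideal.span (Set.range fun l => rt p 1 (ζ l)) ^ m := by
    have h := Ideal.mem_map_of_mem ((iterateFrobeniusEquiv C p 1).symm : C →+* C) ht
    rw [Ideal.map_pow, Ideal.map_span, ← Set.range_comp] at h
    exact h
  have h2 := te_mem_pow_sup p C t _ m _ h1
  rw [Submodule.mem_sup] at h2
  obtain ⟨S, hS, y, hy, hSy⟩ := h2
  obtain ⟨w, rfl⟩ := Ideal.mem_span_singleton'.1 hy
  have h3 : (p : Bt p C t) ∣ te p C t (rt p 1 t) - S := ⟨w, by rw [← hSy]; ring⟩
  have h4 := dvd_sub_pow_of_dvd_sub h3 1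
  rw [pow_one, ← redB_te_pow, hroot, redB_te_t] at h4
  have h5 : S ^ p ∈ Ideal.span (Set.range fun l => te p C t (ζ l)) ^ (m - n) := by
    have h6 : S ^ p ∈ Ideal.span (Set.range fun l => te p C t (rt p 1 (ζ l))) ^ (m * p) := by
      rw [pow_mul]
      exact Ideal.pow_mem_pow hS p
    have h7 := redB_pow_le (fun l => te p C t (rt p 1 (ζ l))) p (m - n) (m * p) hp (by
      obtain ⟨d, rfl⟩ := Nat.exists_eq_add_of_le hmn
      rw [Nat.add_sub_cancel_left]
      exact le_of_eq (by ring))
    have h8 : (fun l => te p C t (rt p 1 (ζ l)) ^ p) = fun l => te p C t (ζ l) := by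
      funext l
      rw [← redB_te_pow, hroot]
    rw [h8] at h7
    exact h7 h6
  rw [Submodule.mem_sup]
  refine ⟨S ^ p, h5, (p : Bt p C t) - S ^ p, Ideal.mem_span_singleton.2 h4, by ring⟩

end Vale.Agent.P202.Mix
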