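import Vale.Agent.P202.Mix.Defs
import Vale.Agent.P202.RedMax
import Vale.Agent.P202.CharZero.MM

/-!
P202 MIX, task M8a: the reduction in characteristic `p` over the perfection.
-/

namespace Vale.Agent.P202.Mix

open IsLocalRing

universe u

/-- pigeonhole: high powers of `(ζ_i)` lie in powers of `(ζ_i ^ w)` -/
theorem span_pow_round {C ι : Type*} [CommRing C] [DecidableEq ι] (ζ : ι → C) (w : ℕ)
    (hw : 1 ≤ w) (s : Finset ι) : ∀ j m : ℕ, w * j + s.card * (w - 1) + 1 ≤ m →
    Ideal.span (ζ '' s) ^ m ≤ Ideal.span ((fun i => ζ i ^ w) '' s) ^ (j + 1) := by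
  induction s using Finset.induction_on with
  | empty =>
    intro j m hm
    have : m ≠ 0 := by omega
    simp [this]
  | insert a s ha ih =>
    intro j m hm
    rw [Finset.card_insert_of_notMem ha] at hm
    rw [Finset.coe_insert, Set.image_insert_eq, Ideal.span_insert, Set.image_insert_eq,
      Ideal.span_insert]
    set I := Ideal.span {ζ a} with hI
    set J := Ideal.span (ζ '' (s : Set ι)) with hJ
    set I' := Ideal.span {ζ a ^ w} with hI'
    set J' := Ideal.span ((fun i => ζ i ^ w) '' (s : Set ι)) with hJ'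
    rw [← Ideal.add_eq_sup, add_pow]
    rw [Ideal.sum_eq_sup]
    refine Finset.sup_le ?_
    intro k hk
    have hk' : k ≤ m := by
      have := Finset.mem_range.mp hk
      omega
    refine Ideal.mul_le_left.trans ?_
    have hIk : I ^ k ≤ (I' ⊔ J') ^ (k / w) := by
      have h1 : I ^ k ≤ I ^ (w * (k / w)) := Ideal.pow_le_pow_right (Nat.mul_div_le k w)
      refine h1.trans ?_
      rw [pow_mul, hI, Ideal.span_singleton_pow]
      exact Ideal.pow_right_mono le_sup_left _
    by_cases hcase : j + 1 ≤ k / w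
    · exact (Ideal.mul_le_left.trans hIk).trans (Ideal.pow_le_pow_right hcase)
    · push Not at hcase
      have hdiv := Nat.div_add_mod k w
      have hmod := Nat.mod_lt k (by omega : 0 < w)
      obtain ⟨j', hj'⟩ : ∃ j', j = k / w + j' := ⟨j - k / w, by omega⟩
      have hmul : w * j = w * (k / w) + w * j' := by rw [hj', Nat.mul_add]
      have hcm : (s.card + 1) * (w - 1) = s.card * (w - 1) + (w - 1) := by ring
      have h2 := ih j' (m - k) (by omega)
      have h3 : J ^ (m - k) ≤ (I' ⊔ J') ^ (j' + 1) :=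
        h2.trans (Ideal.pow_right_mono le_sup_right _)
      refine (Ideal.mul_mono hIk h3).trans ?_
      rw [← pow_add]
      exact Ideal.pow_le_pow_right (by omega)

theorem core_local {R A : Type u} [CommRing R] [IsLocalRing R]
    [Infinite (ResidueField R)] [CommRing A] [Nontrivial A] [Algebra R A] [Module.Finite R A]
    [IsNoetherianRing A] {n : ℕ} (X : Fin n → R)
    (hX : Ideal.span (Set.range X) = maximalIdeal R) {ι : Type} (cA : ι → A)
    (hcP : ∀ P : Ideal A, P.IsPrime → (∀ l, algebraMap R A (X l) ∈ P) → ∀ i, cA i ∈ P)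
    (hconst : ∀ a : A, ∃ x : R, a - algebraMap R A x ∈
      Ideal.span ((Set.range fun l => algebraMap R A (X l)) ∪ Set.range cA)) :
    ∃ z : Fin n → A, ∃ s0 : ℕ, (∀ l, z l ∈
      Ideal.span ((Set.range fun l => algebraMap R A (X l)) ∪ Set.range cA)) ∧
      ∀ j : ℕ, Ideal.span ((Set.range fun l => algebraMap R A (X l)) ∪ Set.range cA) ^ (j + s0) ≤
        Ideal.span (Set.range z) ^ j := by
  classical
  let XA : Fin n → A := fun l => algebraMap R A (X l)
  have hXm : ∀ l, X l ∈ maximalIdeal R := fun l => hX ▸ Ideal.subset_span ⟨l, rfl⟩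
  set J : Ideal A := Ideal.span (Set.range XA ∪ Set.range cA) with hJ
  have hJle : ∀ P : Ideal A, P.IsPrime → (∀ l, XA l ∈ P) → J ≤ P := by
    intro P hP hXP
    rw [hJ, Ideal.span_le]
    rintro _ (⟨l, rfl⟩ | ⟨i, rfl⟩)
    · exact hXP l
    · exact hcP P hP hXP i
  have hPJ : ∀ P : Ideal A, P.IsPrime → (∀ l, XA l ∈ P) → P = J := by
    intro P hP hXP
    refine le_antisymm ?_ (hJle P hP hXP)
    intro a ha
    obtain ⟨x, hx⟩ := hconst a
    have h1 : algebraMap R A x ∈ P := by
      have := P.sub_mem ha (hJle P hP hXP hx)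
      simpa using this
    have h2 : x ∈ maximalIdeal R := by
      rw [mem_maximalIdeal, mem_nonunits_iff]
      intro hu
      exact hP.ne_top (Ideal.eq_top_of_isUnit_mem _ h1 (hu.map _))
    have h3 : algebraMap R A x ∈ J := by
      have h4 : Ideal.map (algebraMap R A) (maximalIdeal R) ≤ J := by
        rw [← hX, Ideal.map_span, Ideal.span_le]
        rintro _ ⟨_, ⟨l, rfl⟩, rfl⟩
        exact Ideal.subset_span (Or.inl ⟨l, rfl⟩)
      exact h4 (Ideal.mem_map_of_mem _ h2)
    have := J.add_mem hx h3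
    simpa using this
  have hmaxX : ∀ P : Ideal A, P.IsMaximal → ∀ l, XA l ∈ P := by
    intro P hP l
    have h1 : (P.comap (algebraMap R A)).IsMaximal :=
      Ideal.isMaximal_comap_of_isIntegral_of_isMaximal P
    have h2 := eq_maximalIdeal h1
    have h3 := hXm l
    rw [← h2] at h3
    exact h3
  obtain ⟨P0, hP0⟩ := Ideal.exists_maximal A
  have hJmax : J.IsMaximal := by
    rw [← hPJ P0 hP0.isPrime (hmaxX P0 hP0)]
    exact hP0
  have hloc : IsLocalRing A := IsLocalRing.of_unique_max_ideal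
    ⟨J, hJmax, fun P hP => hPJ P hP.isPrime (hmaxX P hP)⟩
  have hmaxJ : maximalIdeal A = J := (eq_maximalIdeal hJmax).symm
  -- the residue field
  have hlh : IsLocalHom (algebraMap R A) := by
    refine ⟨fun x hx => ?_⟩
    by_contra hu
    have h2 : x ∈ maximalIdeal R := hu
    have h3 : algebraMap R A x ∈ J := by
      have h4 : Ideal.map (algebraMap R A) (maximalIdeal R) ≤ J := by
        rw [← hX, Ideal.map_span, Ideal.span_le]
        rintro _ ⟨_, ⟨l, rfl⟩, rfl⟩
        exact Ideal.subset_span (Or.inl ⟨l, rfl⟩)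
      exact h4 (Ideal.mem_map_of_mem _ h2)
    exact hJmax.ne_top (Ideal.eq_top_of_isUnit_mem _ h3 hx)
  have hinfA : Infinite (ResidueField A) :=
    Infinite.of_injective (ResidueField.map (algebraMap R A))
      (ResidueField.map (algebraMap R A)).injective
  -- the dimension
  have hheight : J.height ≤ (n : ℕ∞) := by
    have hmin : J ∈ (Ideal.span (Set.range XA)).minimalPrimes := by
      refine ⟨⟨hJmax.isPrime, Ideal.span_mono Set.subset_union_left⟩, ?_⟩
      rintro Q ⟨hQ, hXQ⟩ _
      exact hJle Q hQ (fun l => hXQ (Ideal.subset_span ⟨l, rfl⟩))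
    refine (Ideal.height_le_spanRank_toENat_of_mem_minimalPrimes _ J hmin).trans ?_
    rw [Submodule.spanRank_toENat_eq_iInf_finset_card]
    have hsp : Submodule.span A ((Finset.univ.image XA : Finset A) : Set A)
        = Ideal.span (Set.range XA) := by
      rw [Finset.coe_image, Finset.coe_univ, Set.image_univ]
    have hcard : (Finset.univ.image XA).card ≤ n := by
      refine Finset.card_image_le.trans ?_
      simp
    refine (iInf_le _ ⟨Finset.univ.image XA, hsp⟩).trans ?_
    exact_mod_cast hcard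
  obtain ⟨d, hd, hdn⟩ : ∃ d : ℕ, ringKrullDim A = d ∧ d ≤ n := by
    rw [← IsLocalRing.maximalIdeal_height_eq_ringKrullDim, hmaxJ]
    have hne : J.height ≠ ⊤ := fun h => by
      rw [h] at hheight
      exact absurd hheight (by simp)
    refine ⟨J.height.toNat, ?_, ?_⟩
    · have h1 := ENat.natCast_toNat hne
      conv_lhs => rw [← h1]
      rfl
    · have h1 := ENat.natCast_toNat hne
      rw [← h1] at hheight
      exact_mod_cast hheight
  obtain ⟨z, hz, s0, hs0⟩ := exists_reduction_max (A := A) d hd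
  have hpow : ∀ j, maximalIdeal A ^ (s0 + j) ≤
      Ideal.span (Set.range z) ^ j * maximalIdeal A ^ s0 := by
    intro j
    induction j with
    | zero => simp
    | succ j ih =>
      calc maximalIdeal A ^ (s0 + (j + 1)) = maximalIdeal A ^ (s0 + j) * maximalIdeal A := by
            rw [← add_assoc, pow_succ]
        _ ≤ (Ideal.span (Set.range z) ^ j * maximalIdeal A ^ s0) * maximalIdeal A :=
            Ideal.mul_mono_left ih
        _ = Ideal.span (Set.range z) ^ j * maximalIdeal A ^ (s0 + 1) := by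
            rw [pow_succ]; ring
        _ ≤ Ideal.span (Set.range z) ^ j *
            (Ideal.span (Set.range z) * maximalIdeal A ^ s0) := Ideal.mul_mono_right hs0
        _ = _ := by rw [pow_succ]; ring
  refine ⟨fun l => if h : (l : ℕ) < d then z ⟨l, h⟩ else 0, s0, ?_, ?_⟩
  · intro l
    dsimp only
    split_ifs with h
    · have h1 := hz ⟨l, h⟩
      rw [hmaxJ] at h1
      exact h1
    · exact Ideal.zero_mem _
  · intro j
    have h2 := hpow j
    rw [hmaxJ, add_comm] at h2
    refine h2.trans (Ideal.mul_le_left.trans (Ideal.pow_right_mono ?_ j))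
    rw [Ideal.span_le]
    rintro _ ⟨i, rfl⟩
    refine Ideal.subset_span ⟨⟨i, lt_of_lt_of_le i.2 hdn⟩, ?_⟩
    dsimp only
    rw [dif_pos i.2]

theorem reduction_core {R C : Type u} [CommRing R] [IsLocalRing R] [IsNoetherianRing R]
    [Infinite (ResidueField R)] [CommRing C] [Algebra R C] [Algebra.IsIntegral R C]
    (hinj : Function.Injective (algebraMap R C)) {n : ℕ} (X : Fin n → R)
    (hX : Ideal.span (Set.range X) = maximalIdeal R) {ι : Type} [Finite ι] (c : ι → C)
    (hc : ∀ i, ∃ M : ℕ, c i ^ M ∈ Ideal.span (Set.range fun l => algebraMap R C (X l))) :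
    ∃ ξ : Fin n → C,
      (∀ l, ξ l ∈ Ideal.span ((Set.range fun l => algebraMap R C (X l)) ∪ Set.range c)) ∧
      ∃ s0 : ℕ, ∀ j : ℕ, ∀ α ∈ (Set.range fun l => algebraMap R C (X l)) ∪ Set.range c,
        α ^ (j + s0) ∈ Ideal.span (Set.range ξ) ^ j := by
  classical
  have hCn : Nontrivial C := hinj.nontrivial
  set A := Algebra.adjoin R (Set.range c) with hA
  have hfin : Module.Finite R A := Algebra.finite_adjoin_of_finite_of_isIntegral
    (Set.finite_range c) (fun x _ => Algebra.IsIntegral.isIntegral x)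
  have hnoeth : IsNoetherianRing A := IsNoetherianRing.of_finite R A
  have hintA : Algebra.IsIntegral R A := Algebra.IsIntegral.of_finite R A
  have hintC : Algebra.IsIntegral A C := Algebra.IsIntegral.tower_top R
  have hAinj : Function.Injective (algebraMap A C) := Subtype.val_injective
  let cA : ι → A := fun i => ⟨c i, Algebra.subset_adjoin ⟨i, rfl⟩⟩
  let XA : Fin n → A := fun l => algebraMap R A (X l)
  -- primes of `A` containing the `X_l` contain the `c_i`
  have hcP : ∀ P : Ideal A, P.IsPrime → (∀ l, XA l ∈ P) → ∀ i, cA i ∈ P := by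
    intro P hP hXP i
    obtain ⟨Q, -, hQp, hQ⟩ := Ideal.exists_ideal_over_prime_of_isIntegral P (⊥ : Ideal C) (by
      intro a ha
      have h1 : algebraMap A C a = 0 := by simpa using ha
      rw [hAinj (h1.trans (map_zero _).symm)]
      exact P.zero_mem)
    obtain ⟨M, hM⟩ := hc i
    have h1 : Ideal.span (Set.range fun l => algebraMap R C (X l)) ≤ Q := by
      rw [Ideal.span_le]
      rintro _ ⟨l, rfl⟩
      have h2 := hXP l
      rw [← hQ] at h2
      exact h2
    have h3 : c i ∈ Q := hQp.mem_of_pow_mem M (h1 hM)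
    rw [← hQ]
    exact h3
  set J : Ideal A := Ideal.span (Set.range XA ∪ Set.range cA) with hJ
  -- every element is congruent to a constant
  have hconst : ∀ a : A, ∃ x : R, a - algebraMap R A x ∈ J := by
    rintro ⟨a, ha⟩
    induction ha using Algebra.adjoin_induction with
    | mem y hy =>
      obtain ⟨i, rfl⟩ := hy
      refine ⟨0, ?_⟩
      rw [map_zero, sub_zero]
      exact Ideal.subset_span (Or.inr ⟨i, rfl⟩)
    | algebraMap x =>
      refine ⟨x, ?_⟩
      have : (⟨algebraMap R C x, by exact Subalgebra.algebraMap_mem _ x⟩ : A) - algebraMap R A x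
          = 0 := by
        ext
        simp
      rw [this]
      exact J.zero_mem
    | add y z hy hz ihy ihz =>
      obtain ⟨x1, h1⟩ := ihy
      obtain ⟨x2, h2⟩ := ihz
      refine ⟨x1 + x2, ?_⟩
      have := J.add_mem h1 h2
      rw [map_add]
      convert this using 1
      ext
      simp
      ring
    | mul y z hy hz ihy ihz =>
      obtain ⟨x1, h1⟩ := ihy
      obtain ⟨x2, h2⟩ := ihz
      refine ⟨x1 * x2, ?_⟩
      have := J.add_mem (J.mul_mem_right (⟨z, hz⟩ : A) h1)
        (J.mul_mem_left (algebraMap R A x1) h2)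
      rw [map_mul]
      convert this using 1
      ext
      simp
      ring
  obtain ⟨z, s0, hz, hpow⟩ := core_local X hX cA hcP hconst
  refine ⟨fun l => (z l : C), ?_, s0, ?_⟩
  · intro l
    have h2 := Ideal.mem_map_of_mem (algebraMap A C) (hz l)
    rw [Ideal.map_span] at h2
    refine Ideal.span_mono ?_ h2
    rintro _ ⟨_, (⟨m, rfl⟩ | ⟨i, rfl⟩), rfl⟩
    · exact Or.inl ⟨m, rfl⟩
    · exact Or.inr ⟨i, rfl⟩
  · intro j α hα
    obtain ⟨a, haJ, rfl⟩ : ∃ a : A, a ∈ J ∧ algebraMap A C a = α := by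
      rcases hα with ⟨l, rfl⟩ | ⟨i, rfl⟩
      · exact ⟨XA l, Ideal.subset_span (Or.inl ⟨l, rfl⟩), rfl⟩
      · exact ⟨cA i, Ideal.subset_span (Or.inr ⟨i, rfl⟩), rfl⟩
    have h1 : a ^ (j + s0) ∈ Ideal.span (Set.range z) ^ j :=
      hpow j (Ideal.pow_mem_pow haJ _)
    have h3 := Ideal.mem_map_of_mem (algebraMap A C) h1
    rw [map_pow, Ideal.map_pow, Ideal.map_span] at h3
    refine Ideal.pow_right_mono (Ideal.span_mono ?_) j h3
    rintro _ ⟨_, ⟨i, rfl⟩, rfl⟩
    exact ⟨i, rfl⟩

section

variable (p : ℕ) [Fact p.Prime]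

theorem mem_span_rt {C : Type u} [CommRing C] [CharP C p] [PerfectRing C p] {n : ℕ} (e m : ℕ)
    (ξ : Fin n → C) (α : C) (h : α ^ p ^ e ∈ Ideal.span (Set.range ξ) ^ m) :
    α ∈ Ideal.span (Set.range fun l => rt p e (ξ l)) ^ m := by
  have h1 := Ideal.mem_map_of_mem (iterateFrobeniusEquiv C p e).symm h
  rw [← iterateFrobeniusEquiv_def, RingEquiv.symm_apply_apply, Ideal.map_pow,
    Ideal.map_span] at h1
  refine Ideal.pow_right_mono (Ideal.span_mono ?_) m h1
  rintro _ ⟨_, ⟨l, rfl⟩, rfl⟩
  exact ⟨l, rfl⟩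

theorem rt_add_pow {C : Type u} [CommRing C] [CharP C p] [PerfectRing C p] (b v : ℕ) (x : C) :
    rt p (v + b) x ^ p ^ v = rt p b x := by
  unfold rt
  rw [iterateFrobeniusEquiv_symm_add_apply, ← iterateFrobeniusEquiv_def,
    RingEquiv.apply_symm_apply]

theorem of_injective (k : Type u) [Field k] [CharP k p] (r : ℕ) :
    Function.Injective (PerfectClosure.of (R0 k r) p) := by
  intro x y h
  rw [PerfectClosure.of_apply, PerfectClosure.of_apply, PerfectClosure.eq_iff] at h
  simpa using h

theorem of_isIntegral (k : Type u) [Field k] [CharP k p] (r : ℕ) :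
    (PerfectClosure.of (R0 k r) p).IsIntegral := by
  intro y
  obtain ⟨⟨n, x⟩, rfl⟩ := PerfectClosure.mk_surjective (R0 k r) p y
  let _ : Algebra (R0 k r) (Rp p k r) := (PerfectClosure.of (R0 k r) p).toAlgebra
  have hpos : 0 < p ^ n := Nat.pow_pos (Fact.out : p.Prime).pos
  have h1 : (PerfectClosure.mk (R0 k r) p (n, x)) ^ p ^ n = algebraMap (R0 k r) (Rp p k r) x := by
    rw [← iterateFrobenius_def, coe_iterateFrobenius]
    exact PerfectClosure.iterate_frobenius_mk (R0 k r) p n x
  have h2 : IsIntegral (R0 k r) ((PerfectClosure.mk (R0 k r) p (n, x)) ^ p ^ n) := by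
    rw [h1]
    exact isIntegral_algebraMap
  exact IsIntegral.of_pow hpos h2

theorem reduction_charP (k : Type u) [Field k] [Infinite k] [CharP k p] (r : ℕ)
    (C : Type u) [CommRing C] [CharP C p] [PerfectRing C p] [Algebra (Rp p k r) C]
    (hinj : Function.Injective (algebraMap (Rp p k r) C)) [Algebra.IsIntegral (Rp p k r) C]
    {ι : Type} [Finite ι] (c : ι → C)
    (hc : ∀ i, ∃ M : ℕ, c i ^ M ∈
      Ideal.span (Set.range fun l => algebraMap (Rp p k r) C (xp p k r l))) :
    ∃ ξ : Fin (r + 1) → C,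
      (∀ l, ξ l ∈ Ideal.span
        ((Set.range fun l => algebraMap (Rp p k r) C (xp p k r l)) ∪ Set.range c)) ∧
      ∀ b : ℕ, ∀ α ∈ (Set.range fun l => algebraMap (Rp p k r) C (xp p k r l)) ∪ Set.range c,
        α ∈ Ideal.span (Set.range fun l => rt p b (ξ l)) ^ (p ^ b - (r + 1) - 1) := by
  let _ : Algebra (R0 k r) C :=
    ((algebraMap (Rp p k r) C).comp (PerfectClosure.of (R0 k r) p)).toAlgebra
  have hinj' : Function.Injective (algebraMap (R0 k r) C) :=
    hinj.comp (of_injective p k r)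
  have : Algebra.IsIntegral (R0 k r) C := ⟨fun y => RingHom.IsIntegral.trans _ _
    (of_isIntegral p k r) (algebraMap_isIntegral_iff.mpr inferInstance) y⟩
  have : Infinite (ResidueField (R0 k r)) :=
    Infinite.of_injective ((residue (R0 k r)).comp (MvPowerSeries.C : k →+* R0 k r))
      (RingHom.injective _)
  have hX : Ideal.span (Set.range fun l : Fin (r + 1) => (MvPowerSeries.X l : R0 k r)) =
      maximalIdeal (R0 k r) := (CZ.maximalIdeal_eq).symm
  obtain ⟨ξ, h1, s0, h2⟩ := reduction_core hinj' (fun l => (MvPowerSeries.X l : R0 k r)) hX c hc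
  refine ⟨ξ, h1, ?_⟩
  intro b α hα
  obtain ⟨v, hv⟩ : ∃ v : ℕ, s0 ≤ p ^ v :=
    ⟨s0, (Nat.lt_pow_self (Fact.out : p.Prime).one_lt).le⟩
  have hw : 1 ≤ p ^ v := Nat.pow_pos (Fact.out : p.Prime).pos
  have hb : 1 ≤ p ^ b := Nat.pow_pos (Fact.out : p.Prime).pos
  have hpe : p ^ (v + b) = p ^ v * p ^ b := pow_add _ _ _
  have hle : s0 ≤ p ^ (v + b) := by
    rw [hpe]
    calc s0 ≤ p ^ v * 1 := by omega
      _ ≤ _ := Nat.mul_le_mul_left _ hb
  have h3 := h2 (p ^ (v + b) - s0) α hα
  rw [Nat.sub_add_cancel hle] at h3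
  have h4 := mem_span_rt p _ _ ξ α h3
  rcases Nat.eq_zero_or_pos (p ^ b - (r + 1) - 1) with h0 | hpos
  · rw [h0, pow_zero, Ideal.one_eq_top]
    trivial
  · obtain ⟨j, hj⟩ : ∃ j, p ^ b - (r + 1) - 1 = j + 1 := ⟨p ^ b - (r + 1) - 1 - 1, by omega⟩
    rw [hj]
    have hpb : p ^ b = j + (r + 1) + 2 := by omega
    have h5 := span_pow_round (fun l => rt p (v + b) (ξ l)) (p ^ v) hw Finset.univ j
      (p ^ (v + b) - s0) (by
        rw [hpe, hpb, Finset.card_univ, Fintype.card_fin]
        have h6 : (r + 1) * (p ^ v - 1) ≤ (r + 1) * p ^ v :=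
          Nat.mul_le_mul_left _ (Nat.sub_le _ _)
        have h7 : p ^ v * (j + (r + 1) + 2) = p ^ v * j + (r + 1) * p ^ v + 2 * p ^ v := by
          ring
        omega)
    rw [Finset.coe_univ, Set.image_univ, Set.image_univ] at h5
    have h6 := h5 h4
    have h7 : (fun i => rt p (v + b) (ξ i) ^ p ^ v) = fun l => rt p b (ξ l) := by
      funext l
      exact rt_add_pow p b v (ξ l)
    rw [h7] at h6
    exact h6

end

end Vale.Agent.P202.Mix
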