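import Vale.Agent.P202.Mix.T7
import Vale.Agent.P202.Mix.RedB
import Vale.Agent.P202.Mix.RedP
import Vale.Agent.P202.Mix.Norm
import Vale.Agent.P202.Mix.Defs3

/-!
P202, mixed characteristic, M11: the reduction of `(p, u, a_j)` in `B/p^N`.
-/

namespace Vale.Agent.P202.Mix

open Polynomial TensorProduct

universe u

theorem te_mem_span_sup (p : ℕ) [Fact p.Prime] (C : Type u) [CommRing C] [CharP C p]
    [PerfectRing C p] (t : C) (T : Set C) (α : C) (hα : α ∈ Ideal.span T) :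
    te p C t α ∈ Ideal.span (te p C t '' T) ⊔ Ideal.span {(p : Bt p C t)} := by
  have h1 : redB_redHom p C t α ∈ (Ideal.span T).map (redB_redHom p C t) :=
    Ideal.mem_map_of_mem _ hα
  rw [Ideal.map_span] at h1
  have h2 : Ideal.span (redB_redHom p C t '' T) =
      (Ideal.span (te p C t '' T)).map (Ideal.Quotient.mk (Ideal.span {(p : Bt p C t)})) := by
    rw [Ideal.map_span, ← Set.image_comp]
    rfl
  rw [h2] at h1
  have h3 : Ideal.Quotient.mk (Ideal.span {(p : Bt p C t)}) (te p C t α) ∈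
      (Ideal.span (te p C t '' T)).map (Ideal.Quotient.mk (Ideal.span {(p : Bt p C t)})) := h1
  exact (Ideal.mem_quotient_iff_mem_sup).1 h3

/-- Nakayama: a nilpotent element in `J + (x²)` lies in `J`. -/
theorem mem_of_mem_sup_sq {R : Type*} [CommRing R] (J : Ideal R) (x : R) (hx : IsNilpotent x)
    (h : x ∈ J ⊔ Ideal.span {x ^ 2}) : x ∈ J := by
  obtain ⟨j, hj, y, hy, hxy⟩ := Submodule.mem_sup.1 h
  obtain ⟨c, rfl⟩ := Ideal.mem_span_singleton'.1 hy
  have h1 : IsUnit (1 - c * x) := by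
    have : IsNilpotent (c * x) := (Commute.all c x).isNilpotent_mul_left hx
    exact this.isUnit_one_sub
  have h2 : (1 - c * x) * x = j := by linear_combination -hxy
  rw [← h1.unit_spec] at h2
  have h3 : x = ↑h1.unit⁻¹ * j := by
    rw [← h2, ← mul_assoc, Units.inv_mul, one_mul]
  rw [h3]
  exact J.mul_mem_left _ hj

variable {p : ℕ} [Fact p.Prime] {k : Type u} [Field k] [CharP k p] {r : ℕ}
variable {Λ : Type u} [CommRing Λ] {u : Fin r → Λ} {ψ : Λ →+* WittVector p (Rp p k r)}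
  {red : Λ →+* R0 k r ⧸ Ideal.span {(MvPowerSeries.X 0 : R0 k r)}}
variable {s D : ℕ} {F : Fin s → Λ[X]} {E : MvPolynomial (Fin s) Λ} {g : Λ} {I r0 : ℕ}

/-- the roots are nilpotent modulo the variables. -/
theorem root_pow_mem (hb : IsBase p k r Λ u ψ red) (d : CData.{u} ψ (D := D) F E g I r0)
    (hFm : ∀ j, (F j).Monic) (hFD : ∀ j, (F j).natDegree = D)
    (hFc : ∀ j, ∀ i < D, (F j).coeff i ∈ Ideal.span (insert (p : Λ) (Set.range u)))
    (j : Fin s) (i : Fin D) :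
    d.c j i ^ D ∈ Ideal.span (Set.range fun l => algebraMap (Rp p k r) d.C (xp p k r l)) := by
  set J : Ideal d.C := Ideal.span (Set.range fun l => algebraMap (Rp p k r) d.C (xp p k r l)) with hJ
  obtain ⟨π, hπ, -, hk⟩ := exists_proj p d.C (tC p k r d.C)
  have htJ : Ideal.span {tC p k r d.C} ≤ J := by
    rw [Ideal.span_singleton_le_iff_mem]
    exact Ideal.subset_span ⟨0, rfl⟩
  let h : Bt p d.C (tC p k r d.C) →+* d.C ⧸ J := (Ideal.Quotient.factor htJ).comp π
  have hte : ∀ c, h (te p d.C (tC p k r d.C) c) = Ideal.Quotient.mk J c := by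
    intro c
    change Ideal.Quotient.factor htJ (π (toB p d.C (tC p k r d.C) _)) = _
    rw [hπ, WittVector.teichmuller_coeff_zero]
    rfl
  have hp : h (p : Bt p d.C (tC p k r d.C)) = 0 := by
    have h1 : π (p : Bt p d.C (tC p k r d.C)) = 0 := by
      have : (p : Bt p d.C (tC p k r d.C)) ∈ RingHom.ker π := by
        rw [hk]
        exact Ideal.mem_span_singleton_self _
      exact this
    change Ideal.Quotient.factor htJ (π _) = 0
    rw [h1, map_zero]
  have hker : Ideal.span (insert (p : Λ) (Set.range u)) ≤ RingHom.ker (h.comp (laB ψ d.C)) := by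
    rw [Ideal.span_le]
    intro x hx
    rw [SetLike.mem_coe, RingHom.mem_ker, RingHom.comp_apply]
    rcases hx with rfl | ⟨l, rfl⟩
    · rw [map_natCast, hp]
    · rw [laB_u hb, hte, Ideal.Quotient.eq_zero_iff_mem]
      exact Ideal.subset_span ⟨l.succ, rfl⟩
  have hmap : (F j).map (h.comp (laB ψ d.C)) = X ^ D := by
    ext n
    rw [coeff_map, coeff_X_pow]
    rcases lt_trichotomy n D with hn | hn | hn
    · rw [if_neg hn.ne]
      exact hker (hFc j n hn)
    · rw [if_pos hn, hn]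
      have h1 := (hFm j).coeff_natDegree
      rw [hFD j] at h1
      rw [h1, map_one]
    · rw [if_neg hn.ne', coeff_eq_zero_of_natDegree_lt (by rw [hFD j]; exact hn), map_zero]
  set t0 := te p d.C (tC p k r d.C) (d.c j i) with ht0
  have h2 : eval₂ (laB ψ d.C) t0 (F j) ∈ Ideal.span {(p : Bt p d.C (tC p k r d.C)) ^ (I + 1)} := by
    have h3 : eval₂ (laB ψ d.C) t0 (F j) = eval t0 ((F j).map (laB ψ d.C) -
        ∏ i, (X - C (te p d.C (tC p k r d.C) (d.c j i)))) := by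
      rw [eval_sub, eval_map, eval_prod, Finset.prod_eq_zero (Finset.mem_univ i), sub_zero]
      rw [eval_sub, eval_X, eval_C, ← ht0, sub_self]
    rw [h3, eval_eq_sum]
    exact Ideal.sum_mem _ fun n _ => Ideal.mul_mem_right _ _ (d.split j n)
  have h4 : h (eval₂ (laB ψ d.C) t0 (F j)) = 0 := by
    obtain ⟨y, hy⟩ := Ideal.mem_span_singleton'.1 h2
    rw [← hy, map_mul, map_pow, hp, zero_pow (Nat.succ_ne_zero I), mul_zero]
  rw [hom_eval₂, ← eval_map, hmap, eval_pow, eval_X, hte, ← map_pow,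
    Ideal.Quotient.eq_zero_iff_mem] at h4
  exact h4

/-- the reduction in `B/p^N`. -/
theorem red_BN [Infinite k] (hb : IsBase p k r Λ u ψ red) (d : CData.{u} ψ (D := D) F E g I r0)
    (hFm : ∀ j, (F j).Monic) (hFD : ∀ j, (F j).natDegree = D)
    (hFc : ∀ j, ∀ i < D, (F j).coeff i ∈ Ideal.span (insert (p : Λ) (Set.range u)))
    (N b : ℕ) (π : Fin s → Fin D) :
    ∃ ξ : Fin (r + 1) → d.C,
      (∀ j, teN ψ d.C N (d.c j (π j)) ∈
        Ideal.span (Set.range fun l => teN ψ d.C N (rt p b (ξ l))) ^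
          (p ^ b - (r + 1) - 1 - (r + 1))) ∧
      ∀ l, teN ψ d.C N (rt p b (ξ l)) ^ p ^ b ∈
        Ideal.span (insert (p : BN ψ d.C N) ((Set.range fun i => algebraMap Λ (BN ψ d.C N) (u i)) ∪
          Set.range fun j => teN ψ d.C N (d.c j (π j)))) := by
  have := d.integral
  obtain ⟨ξ, h1, h2⟩ := reduction_charP p k r d.C d.inj (fun j => d.c j (π j))
    (fun j => ⟨D, root_pow_mem hb d hFm hFD hFc j (π j)⟩)
  refine ⟨ξ, fun j => ?_, fun l => ?_⟩
  · set m := p ^ b - (r + 1) - 1 with hm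
    set Z : Ideal (Bt p d.C (tC p k r d.C)) :=
      Ideal.span (Set.range fun l => te p d.C (tC p k r d.C) (rt p b (ξ l))) with hZ
    have hZm : Z.map (mkN ψ d.C N) = Ideal.span (Set.range fun l => teN ψ d.C N (rt p b (ξ l))) := by
      rw [hZ, Ideal.map_span, ← Set.range_comp]
      rfl
    have e1 := te_mem_pow_sup p d.C (tC p k r d.C) (fun l => rt p b (ξ l)) m (d.c j (π j))
      (h2 b _ (Or.inr ⟨j, rfl⟩))
    have e2 := p_mem_pow_sup p d.C (tC p k r d.C) (fun l => rt p b (ξ l)) m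
      (h2 b _ (Or.inl ⟨0, rfl⟩))
    have e3 := Ideal.mem_map_of_mem (mkN ψ d.C N) e2
    rw [Ideal.map_sup, Ideal.map_pow, ← hZ, hZm, Ideal.map_span, Set.image_singleton, map_natCast,
      map_pow, map_natCast] at e3
    have hnil : IsNilpotent (p : BN ψ d.C N) := by
      refine ⟨N, ?_⟩
      have : mkN ψ d.C N ((p : Bt p d.C (tC p k r d.C)) ^ N) = 0 :=
        Ideal.Quotient.eq_zero_iff_mem.mpr (Ideal.mem_span_singleton_self _)
      rwa [map_pow, map_natCast] at this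
    have e4 := mem_of_mem_sup_sq _ _ hnil e3
    have e5 := Ideal.mem_map_of_mem (mkN ψ d.C N) e1
    rw [Ideal.map_sup, Ideal.map_pow, ← hZ, hZm, Ideal.map_span, Set.image_singleton,
      map_natCast] at e5
    refine (show _ ≤ _ from sup_le (Ideal.pow_le_pow_right (Nat.sub_le _ _)) ?_ :
      _ ⊔ _ ≤ Ideal.span (Set.range fun l => teN ψ d.C N (rt p b (ξ l))) ^ (m - (r + 1))) e5
    rw [Ideal.span_singleton_le_iff_mem]
    exact e4
  · have e1 : teN ψ d.C N (rt p b (ξ l)) ^ p ^ b = teN ψ d.C N (ξ l) := by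
      rw [nm_teN_pow, nm_rt_pow]
    rw [e1]
    have e2 := te_mem_span_sup p d.C (tC p k r d.C) _ _ (h1 l)
    have e3 := Ideal.mem_map_of_mem (mkN ψ d.C N) e2
    rw [Ideal.map_sup, Ideal.map_span, Ideal.map_span, Set.image_singleton, map_natCast] at e3
    refine (show _ ≤ _ from sup_le ?_ ?_ : _ ⊔ _ ≤
      Ideal.span (insert (p : BN ψ d.C N) ((Set.range fun i => algebraMap Λ (BN ψ d.C N) (u i)) ∪
          Set.range fun j => teN ψ d.C N (d.c j (π j))))) e3
    · rw [Ideal.span_le]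
      rintro _ ⟨_, ⟨α, hα, rfl⟩, rfl⟩
      rcases hα with ⟨i, rfl⟩ | ⟨j, rfl⟩
      · refine Fin.cases ?_ (fun i => ?_) i
        · refine Ideal.subset_span (Or.inl ?_)
          change mkN ψ d.C N (te p d.C (tC p k r d.C) (tC p k r d.C)) = _
          rw [te_t, map_natCast]
        · refine Ideal.subset_span (Or.inr (Or.inl ⟨i, ?_⟩))
          change mkN ψ d.C N (laB ψ d.C (u i)) = _
          rw [laB_u hb]
      · exact Ideal.subset_span (Or.inr (Or.inr ⟨j, rfl⟩))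
    · rw [Ideal.span_singleton_le_iff_mem]
      exact Ideal.subset_span (Set.mem_insert _ _)

/-- the fields `hz`, `hz'` of the package. -/
theorem exists_z [Infinite k] (hb : IsBase p k r Λ u ψ red)
    {A : Type u} [CommRing A] [Algebra Λ A] {a : Fin s → A}
    (d : CData.{u} ψ (D := D) F E g I r0)
    (hFm : ∀ j, (F j).Monic) (hFD : ∀ j, (F j).natDegree = D)
    (hFc : ∀ j, ∀ i < D, (F j).coeff i ∈ Ideal.span (insert (p : Λ) (Set.range u)))
    (hp : (p : A) ∈ Ideal.span (Set.range a))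
    (hu : ∀ i, algebraMap Λ A (u i) ∈ Ideal.span (Set.range a))
    (N b : ℕ) (π : Fin s → Fin D) :
    ∃ ζ : Fin (r + 1) → BN ψ d.C N, ∀ {Q : Type u} [CommRing Q] (φ : A ⊗[Λ] BN ψ d.C N →+* Q)
      (_ : ∀ j, φ (a j ⊗ₜ 1) = φ (1 ⊗ₜ teN ψ d.C N (d.c j (π j)))),
      (Ideal.span (Set.range a)).map (algebraMap A (A ⊗[Λ] BN ψ d.C N)) ≤
        Ideal.span (Set.range fun l => (1 : A) ⊗ₜ[Λ] ζ l) ^
          (p ^ b - (r + 1) - 1 - (r + 1)) ⊔ RingHom.ker φ ∧
      ∀ l, ((1 : A) ⊗ₜ[Λ] ζ l) ^ p ^ b ∈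
        (Ideal.span (Set.range a)).map (algebraMap A (A ⊗[Λ] BN ψ d.C N)) ⊔ RingHom.ker φ := by
  obtain ⟨ξ, h1, h2⟩ := red_BN hb d hFm hFD hFc N b π
  set iB : BN ψ d.C N →+* A ⊗[Λ] BN ψ d.C N :=
    (Algebra.TensorProduct.includeRight (R := Λ) (A := A) (B := BN ψ d.C N)).toRingHom with hiB
  have hiBa : ∀ y, iB y = 1 ⊗ₜ y := fun y => rfl
  have hA : ∀ y : A, algebraMap A (A ⊗[Λ] BN ψ d.C N) y = y ⊗ₜ 1 := fun y => rfl
  have hΛ : ∀ l : Λ, iB (algebraMap Λ (BN ψ d.C N) l) =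
      algebraMap A (A ⊗[Λ] BN ψ d.C N) (algebraMap Λ A l) := by
    intro l
    rw [hiBa, hA]
    exact (Algebra.TensorProduct.tmul_one_eq_one_tmul l).symm
  refine ⟨fun l => teN ψ d.C N (rt p b (ξ l)), fun {Q} _ φ hφ => ?_⟩
  have hk : ∀ j, a j ⊗ₜ[Λ] (1 : BN ψ d.C N) - 1 ⊗ₜ teN ψ d.C N (d.c j (π j)) ∈ RingHom.ker φ := by
    intro j
    rw [RingHom.mem_ker, map_sub, hφ, sub_self]
  refine ⟨?_, fun l => ?_⟩
  · rw [Ideal.map_span, Ideal.span_le]
    rintro _ ⟨_, ⟨j, rfl⟩, rfl⟩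
    have e1 := Ideal.mem_map_of_mem iB (h1 j)
    rw [Ideal.map_pow, Ideal.map_span, ← Set.range_comp] at e1
    have e2 : algebraMap A (A ⊗[Λ] BN ψ d.C N) (a j) =
        iB (teN ψ d.C N (d.c j (π j))) +
          (a j ⊗ₜ[Λ] (1 : BN ψ d.C N) - 1 ⊗ₜ teN ψ d.C N (d.c j (π j))) := by
      rw [hA, hiBa]
      ring
    rw [SetLike.mem_coe, e2]
    exact Submodule.add_mem_sup e1 (hk j)
  · have e1 := Ideal.mem_map_of_mem iB (h2 l)
    rw [map_pow, Ideal.map_span] at e1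
    refine (Ideal.span_le.2 ?_) e1
    rintro _ ⟨y, hy, rfl⟩
    rcases hy with rfl | ⟨i, rfl⟩ | ⟨j, rfl⟩
    · refine Ideal.mem_sup_left ?_
      have e3 := Ideal.mem_map_of_mem (algebraMap A (A ⊗[Λ] BN ψ d.C N)) hp
      rw [map_natCast] at e3
      rw [map_natCast]
      exact e3
    · refine Ideal.mem_sup_left ?_
      have e3 := Ideal.mem_map_of_mem (algebraMap A (A ⊗[Λ] BN ψ d.C N)) (hu i)
      change iB (algebraMap Λ (BN ψ d.C N) (u i)) ∈ _
      rw [hΛ]
      exact e3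
    · have e3 : iB (teN ψ d.C N (d.c j (π j))) = algebraMap A (A ⊗[Λ] BN ψ d.C N) (a j) +
          -(a j ⊗ₜ[Λ] (1 : BN ψ d.C N) - 1 ⊗ₜ teN ψ d.C N (d.c j (π j))) := by
        rw [hA, hiBa]
        ring
      change iB (teN ψ d.C N (d.c j (π j))) ∈ _
      rw [e3]
      exact Submodule.add_mem_sup (Ideal.mem_map_of_mem _ (Ideal.subset_span ⟨j, rfl⟩))
        (neg_mem (hk j))

end Vale.Agent.P202.Mix
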