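import Vale.Agent.P202.Mix.ApkgMain
import Vale.Agent.P202.Mix.ApkgRed

/-!
P202, mixed characteristic, M11: the package over `A`.
-/

namespace Vale.Agent.P202.Mix

open Polynomial TensorProduct

universe u

variable {p : ℕ} [Fact p.Prime] {k : Type u} [Field k] [CharP k p] {r : ℕ}
variable {Λ : Type u} [CommRing Λ] {u : Fin r → Λ} {ψ : Λ →+* WittVector p (Rp p k r)}
  {red : Λ →+* R0 k r ⧸ Ideal.span {(MvPowerSeries.X 0 : R0 k r)}}
variable {A : Type u} [CommRing A] [Algebra Λ A] {s D : ℕ} {a : Fin s → A}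
  {F : Fin s → Λ[X]} {E : MvPolynomial (Fin s) Λ} {g : Λ} {I r0 : ℕ}

/-- M11: assembly of the package over `A`. -/
theorem exists_apkg [Infinite k] (hb : IsBase p k r Λ u ψ red)
    (d : CData.{u} ψ (D := D) F E g I r0)
    (ha : Function.Surjective (MvPolynomial.aeval a : MvPolynomial (Fin s) Λ →ₐ[Λ] A))
    (hF : ∀ j, aeval (a j) (F j) = 0) (hFm : ∀ j, (F j).Monic) (hFD : ∀ j, (F j).natDegree = D)
    (hFc : ∀ j, ∀ i < D, (F j).coeff i ∈ Ideal.span (insert (p : Λ) (Set.range u)))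
    (hp : (p : A) ∈ Ideal.span (Set.range a)) (hu : ∀ i, algebraMap Λ A (u i) ∈ Ideal.span (Set.range a))
    (hEg : MvPolynomial.aeval a E = algebraMap Λ A g)
    (hE : ∀ f : MvPolynomial (Fin s) Λ, MvPolynomial.aeval a f = 0 →
      E * f ∈ Ideal.span (Set.range fun j => Polynomial.toMvPolynomial j (F j)))
    (e N b : ℕ) (hN : 1 ≤ N) (he : p ^ e * N ≤ I + 1) :
    ∃ P : APkg (A := A) p (Ideal.span (Set.range a))
      (Fin.cons (p : A) fun i => algebraMap Λ A (u i) : Fin (r + 1) → A)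
      (Fin s → Fin D) (∏ j, aeval (a j) (derivative (F j)))
      (algebraMap Λ A g * ∏ j, aeval (a j) (derivative (F j)))
      (p ^ b - (r + 1) - 1 - (r + 1)) (p ^ b) N (A ⊗[Λ] BN ψ d.C N),
      ∀ π, P.h π = 1 ⊗ₜ (dq d e N π + teN ψ d.C N (rt p e (d.δ' π))) := by
  choose ζ hζ using fun π => exists_z (A := A) (a := a) hb d hFm hFD hFc hp hu N b π
  exact exists_apkg_of hb d ha hF hEg hE e N _ _ hN he ζ
    (fun π φ h1 h2 => (hζ π φ fun j => by rw [h1, h2]).1)
    (fun π φ h1 h2 => (hζ π φ fun j => by rw [h1, h2]).2)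

end Vale.Agent.P202.Mix
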