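import Vale.Agent.P202.Mix.Defs3
import Vale.Agent.P202.Mix.VarReg

/-!
P202, mixed characteristic, M11b: base change of the package along a flat homomorphism.
-/

namespace Vale.Agent.P202.Mix

open TensorProduct

universe u

/-- colon ideals and flat base change, for ring homomorphisms. -/
theorem colon_flat_hom {E E' : Type u} [CommRing E] [CommRing E'] (f : E →+* E') (hf : f.Flat)
    (K K' : Ideal E) (a h : E) (H : ∀ x, a * x ∈ K → h * x ∈ K') (x : E')
    (hx : f a * x ∈ K.map f) : f h * x ∈ K'.map f := by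
  let _ : Algebra E E' := f.toAlgebra
  have : Module.Flat E E' := hf
  exact colon_flat K K' a h H x hx

theorem flat_includeRight {A : Type u} [CommRing A] (S E : Type u) [CommRing S] [Algebra A S]
    [CommRing E] [Algebra A E] [Module.Flat A S] :
    ((Algebra.TensorProduct.includeRight (R := A) (A := S) (B := E)).toRingHom).Flat := by
  have h1 : (algebraMap E (E ⊗[A] S)).Flat := RingHom.flat_algebraMap_iff.mpr inferInstance
  have h2 : ((Algebra.TensorProduct.comm A E S).toRingEquiv.toRingHom).Flat :=
    RingHom.Flat.of_bijective (Algebra.TensorProduct.comm A E S).bijective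
  have h3 := RingHom.Flat.comp h1 h2
  have h4 : (Algebra.TensorProduct.includeRight (R := A) (A := S) (B := E)).toRingHom =
      ((Algebra.TensorProduct.comm A E S).toRingEquiv.toRingHom).comp
        (algebraMap E (E ⊗[A] S)) := by
    ext x
    rfl
  rw [h4]
  exact h3

/-- M11b: base change of the package along a flat `A → S`. -/
theorem apkg_baseChange {A : Type u} [CommRing A] {m : Ideal A} {n : ℕ} {x : Fin n → A}
    {P : Type} [Fintype P] {g0 g1 : A} {p w w' N : ℕ} {E : Type u} [CommRing E] [Algebra A E]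
    (Pk : APkg p m x P g0 g1 w w' N E) (S : Type u) [CommRing S] [Algebra A S] [Module.Flat A S] :
    ∃ Q : APkg (A := S) p (m.map (algebraMap A S)) (fun i => algebraMap A S (x i)) P
      (algebraMap A S g0) (algebraMap A S g1) w w' N (S ⊗[A] E),
      (∀ π, Q.h π = 1 ⊗ₜ Pk.h π) ∧ (∀ π l, Q.z π l = 1 ⊗ₜ Pk.z π l) ∧
      (∀ π, Q.K π = (Pk.K π).map (Algebra.TensorProduct.includeRight (R := A) (A := S) (B := E))) := by
  set f : E →+* S ⊗[A] E :=
    (Algebra.TensorProduct.includeRight (R := A) (A := S) (B := E)).toRingHom with hf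
  have hfl : f.Flat := flat_includeRight S E
  have hfa : ∀ y : E, (1 : S) ⊗ₜ[A] y = f y := fun y => rfl
  have hA : ∀ y : A, algebraMap S (S ⊗[A] E) (algebraMap A S y) = f (algebraMap A E y) := by
    intro y
    rw [hf]
    change (algebraMap A S y) ⊗ₜ[A] (1 : E) = (1 : S) ⊗ₜ[A] algebraMap A E y
    rw [Algebra.algebraMap_eq_smul_one, Algebra.algebraMap_eq_smul_one, smul_tmul]
  have hmap : ∀ I : Ideal A, (I.map (algebraMap A S)).map (algebraMap S (S ⊗[A] E)) =
      (I.map (algebraMap A E)).map f := by
    intro I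
    rw [Ideal.map_map, Ideal.map_map]
    congr 1
    ext y
    exact hA y
  have hK : ∀ K : Ideal E, K.map (Algebra.TensorProduct.includeRight (R := A) (A := S) (B := E)) =
      K.map f := fun K => rfl
  have hp : ((p : S) : S) = algebraMap A S (p : A) := by rw [map_natCast]
  refine ⟨{
    K := fun π => (Pk.K π).map f
    h := fun π => f (Pk.h π)
    z := fun π l => f (Pk.z π l)
    η := fun π => f (Pk.η π)
    θ := fun π => f (Pk.θ π)
    hη := ?_
    hη' := ?_
    hθ := ?_
    hθ' := ?_
    hz := ?_
    hz' := ?_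
    hp := ?_
    regp := ?_
    regu := ?_ }, ?_, ?_, ?_⟩
  · intro π y hy
    induction hy using Submodule.span_induction with
    | mem y hy =>
      obtain ⟨z, hz, rfl⟩ := hy
      rw [← map_mul, Pk.hη π z hz, map_zero]
    | zero => rw [zero_mul]
    | add a b _ _ ha hb => rw [add_mul, ha, hb, add_zero]
    | smul c a _ ha => rw [smul_eq_mul, mul_assoc, ha, mul_zero]
  · rw [hA]
    have h1 := Ideal.mem_map_of_mem f Pk.hη'
    rw [Ideal.map_span, ← Set.range_comp] at h1
    exact h1
  · intro π π' h
    exact Ideal.mem_map_of_mem f (Pk.hθ π π' h)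
  · intro π
    rw [hA, ← map_sub]
    exact Ideal.mem_map_of_mem f (Pk.hθ' π)
  · intro π
    rw [hmap]
    refine (Ideal.map_mono (Pk.hz π)).trans ?_
    rw [Ideal.map_sup, Ideal.map_pow, Ideal.map_span, ← Set.range_comp]
    exact le_rfl
  · intro π l
    rw [hmap, ← Ideal.map_sup, ← map_pow]
    exact Ideal.mem_map_of_mem f (Pk.hz' π l)
  · rw [hp, hA, ← map_pow, Pk.hp, map_zero]
  · intro π y hy
    rw [hp, hA] at hy ⊢
    have h1 := colon_flat_hom f hfl _ _ _ _ (Pk.regp π) y hy
    rw [Ideal.map_sup, Ideal.map_span, Set.image_singleton, map_pow] at h1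
    exact h1
  · intro π i hi y hy
    have himg : (fun l => algebraMap S (S ⊗[A] E) (algebraMap A S (x l))) '' {l | l < i} =
        f '' ((fun l => algebraMap A E (x l)) '' {l | l < i}) := by
      rw [Set.image_image]
      exact Set.image_congr fun l _ => hA (x l)
    rw [hA, himg, ← Ideal.map_span, ← Ideal.map_sup] at hy
    rw [himg, ← Ideal.map_span, ← Ideal.map_sup]
    exact colon_flat_hom f hfl _ _ _ _ (Pk.regu π i hi) y hy
  · intro π
    rfl
  · intro π l
    rfl
  · intro π
    rfl

end Vale.Agent.P202.Mix
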