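import Vale.Agent.P202.Mix.T7
import Vale.Agent.P202.Mix.Norm

/-!
P202 MIX, M11: the package over `A` from the homomorphisms `φ_π` and the reduction data.
-/

namespace Vale.Agent.P202.Mix

open Polynomial TensorProduct

universe u

section general

variable {R E : Type*} [CommRing R] [CommRing E] (ι : R →+* E) (D D' : R)
  (φ : E →+* R ⧸ annI D)

theorem reg_transfer (hφ : ∀ b, φ (ι b) = Ideal.Quotient.mk _ b) (hD : D * D' = 0) (c : R)
    (J1 J2 : Ideal R) (H : ∀ b, c * b ∈ J1 → b ∈ J2) (y : E)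
    (hy : ι c * y ∈ J1.map ι ⊔ RingHom.ker φ) :
    ι (D + D') * y ∈ J2.map ι ⊔ RingHom.ker φ := by
  obtain ⟨b, hb⟩ := Ideal.Quotient.mk_surjective (φ y)
  have h1 : Ideal.Quotient.mk (annI D) (c * b) ∈ J1.map (Ideal.Quotient.mk (annI D)) := by
    have h2 := Ideal.mem_map_of_mem φ hy
    rw [Ideal.map_sup, Ideal.map_map, map_mul, hφ, ← hb, ← map_mul] at h2
    have h3 : φ.comp ι = Ideal.Quotient.mk (annI D) := by
      ext b
      exact hφ b
    rw [h3] at h2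
    have h4 : (RingHom.ker φ).map φ = ⊥ := by
      rw [Ideal.map_eq_bot_iff_le_ker]
    rwa [h4, sup_bot_eq] at h2
  rw [Ideal.mem_map_iff_of_surjective _ Ideal.Quotient.mk_surjective] at h1
  obtain ⟨j, hj, hjc⟩ := h1
  have h5 : c * b - j ∈ annI D := by
    rw [← Ideal.Quotient.eq_zero_iff_mem, map_sub, hjc, sub_self]
  rw [mem_annI] at h5
  have h6 : c * (b * D) ∈ J1 := by
    have : c * (b * D) = (c * b - j) * D + j * D := by ring
    rw [this, h5, zero_add]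
    exact J1.mul_mem_right _ hj
  have h7 := H _ h6
  have h8 : ι (D + D') * y = ι (b * D) + (ι (D + D') * y - ι (b * D)) := by ring
  rw [h8]
  refine Submodule.add_mem_sup (Ideal.mem_map_of_mem ι h7) ?_
  rw [RingHom.mem_ker, map_sub, map_mul, hφ, hφ, ← hb, ← map_mul, ← map_sub,
    Ideal.Quotient.eq_zero_iff_mem, mem_annI]
  have : ((D + D') * b - b * D) * D = (D * D') * b := by ring
  rw [this, hD, zero_mul]

end general

variable {p : ℕ} [Fact p.Prime] {k : Type u} [Field k] [CharP k p] {r : ℕ}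
variable {Λ : Type u} [CommRing Λ] {u : Fin r → Λ} {ψ : Λ →+* WittVector p (Rp p k r)}
  {red : Λ →+* R0 k r ⧸ Ideal.span {(MvPowerSeries.X 0 : R0 k r)}}
variable {A : Type u} [CommRing A] [Algebra Λ A] {s D : ℕ} {a : Fin s → A}
  {F : Fin s → Λ[X]} {E : MvPolynomial (Fin s) Λ} {g : Λ} {I r0 : ℕ}

theorem exists_apkg_of (hb : IsBase p k r Λ u ψ red)
    (d : CData.{u} ψ (D := D) F E g I r0)
    (ha : Function.Surjective (MvPolynomial.aeval a : MvPolynomial (Fin s) Λ →ₐ[Λ] A))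
    (hF : ∀ j, aeval (a j) (F j) = 0)
    (hEg : MvPolynomial.aeval a E = algebraMap Λ A g)
    (hE : ∀ f : MvPolynomial (Fin s) Λ, MvPolynomial.aeval a f = 0 →
      E * f ∈ Ideal.span (Set.range fun j => Polynomial.toMvPolynomial j (F j)))
    (e N w w' : ℕ) (hN : 1 ≤ N) (he : p ^ e * N ≤ I + 1)
    (ζ : (Fin s → Fin D) → Fin (r + 1) → BN ψ d.C N)
    (hz : ∀ π, ∀ φ : A ⊗[Λ] BN ψ d.C N →+* BN ψ d.C N ⧸ annI (dq d e N π),
      (∀ b, φ (1 ⊗ₜ b) = Ideal.Quotient.mk _ b) →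
      (∀ j, φ (a j ⊗ₜ 1) = Ideal.Quotient.mk _ (teN ψ d.C N (d.c j (π j)))) →
      (Ideal.span (Set.range a)).map (algebraMap A (A ⊗[Λ] BN ψ d.C N)) ≤
        Ideal.span (Set.range fun l => (1 : A) ⊗ₜ[Λ] ζ π l) ^ w ⊔ RingHom.ker φ)
    (hz' : ∀ π, ∀ φ : A ⊗[Λ] BN ψ d.C N →+* BN ψ d.C N ⧸ annI (dq d e N π),
      (∀ b, φ (1 ⊗ₜ b) = Ideal.Quotient.mk _ b) →
      (∀ j, φ (a j ⊗ₜ 1) = Ideal.Quotient.mk _ (teN ψ d.C N (d.c j (π j)))) →
      ∀ l, ((1 : A) ⊗ₜ[Λ] ζ π l) ^ w' ∈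
        (Ideal.span (Set.range a)).map (algebraMap A (A ⊗[Λ] BN ψ d.C N)) ⊔ RingHom.ker φ) :
    ∃ P : APkg (A := A) p (Ideal.span (Set.range a))
      (Fin.cons (p : A) fun i => algebraMap Λ A (u i) : Fin (r + 1) → A)
      (Fin s → Fin D) (∏ j, aeval (a j) (derivative (F j)))
      (algebraMap Λ A g * ∏ j, aeval (a j) (derivative (F j)))
      w w' N (A ⊗[Λ] BN ψ d.C N),
      ∀ π, P.h π = 1 ⊗ₜ (dq d e N π + teN ψ d.C N (rt p e (d.δ' π))) := by
  choose φ hφ1 hφ2 using fun π => exists_phi d ha hE e N he π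
  obtain ⟨n1, n2, n3, n4⟩ := norm_package d ha hF hEg e N he φ hφ1 hφ2
  let ι : BN ψ d.C N →+* A ⊗[Λ] BN ψ d.C N :=
    (Algebra.TensorProduct.includeRight (R := Λ) (A := A) (B := BN ψ d.C N)).toRingHom
  have hιΛ : ∀ l : Λ, algebraMap A (A ⊗[Λ] BN ψ d.C N) (algebraMap Λ A l) =
      ι (algebraMap Λ (BN ψ d.C N) l) := by
    intro l
    change (algebraMap Λ A l) ⊗ₜ[Λ] (1 : BN ψ d.C N) = (1 : A) ⊗ₜ[Λ] (algebraMap Λ _ l)
    rw [Algebra.algebraMap_eq_smul_one, Algebra.algebraMap_eq_smul_one, TensorProduct.smul_tmul]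
  have hιp : algebraMap A (A ⊗[Λ] BN ψ d.C N) (p : A) = ι (p : BN ψ d.C N) := by
    rw [map_natCast, map_natCast]
  refine ⟨{
    K := fun π => RingHom.ker (φ π)
    h := fun π => 1 ⊗ₜ (dq d e N π + teN ψ d.C N (rt p e (d.δ' π)))
    z := fun π l => (1 : A) ⊗ₜ[Λ] ζ π l
    η := fun π => epsPi a d N π * 1 ⊗ₜ dq d e N π
    θ := fun π => epsPi a d N π
    hη := n1
    hη' := n4
    hθ := n2
    hθ' := n3
    hz := fun π => hz π (φ π) (hφ1 π) (hφ2 π)
    hz' := fun π => hz' π (φ π) (hφ1 π) (hφ2 π)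
    hp := ?_
    regp := ?_
    regu := ?_ }, fun π => rfl⟩
  · rw [hιp, ← map_pow]
    have h1 : (p : BN ψ d.C N) ^ N = 0 := by
      have h2 := (mkN_eq_zero_iff (ψ := ψ) d.C N (x := (p : Bt p d.C (tC p k r d.C)) ^ N)).mpr
        (Ideal.mem_span_singleton_self _)
      rwa [map_pow, map_natCast] at h2
    rw [h1, map_zero]
  · intro π y hy
    have h1 := reg_transfer ι (dq d e N π) (teN ψ d.C N (rt p e (d.δ' π))) (φ π) (hφ1 π)
      (dq_mul_dq' d hEg hE e N he π) (p : BN ψ d.C N) ⊥ (Ideal.span {(p : BN ψ d.C N) ^ (N - 1)})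
      (fun b hb => BN_p d.toPExt N b (by simpa using hb)) y (by
        rw [Ideal.map_bot, bot_sup_eq, ← hιp]
        exact hy)
    rw [Ideal.map_span, Set.image_singleton, map_pow, ← hιp] at h1
    exact h1
  · intro π i hi y hy
    obtain ⟨l, rfl⟩ : ∃ l : Fin r, i = l.succ := ⟨i.pred (by
      intro h
      rw [h] at hi
      exact lt_irrefl _ hi), by simp⟩
    have himg : Ideal.span ((fun l' => algebraMap A (A ⊗[Λ] BN ψ d.C N)
        ((Fin.cons (p : A) fun i => algebraMap Λ A (u i) : Fin (r + 1) → A) l')) ''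
          {l' | l' < l.succ}) = (Ideal.span (insert (p : BN ψ d.C N)
      ((fun l => algebraMap Λ (BN ψ d.C N) (u l)) '' {l' | l' < l}))).map ι := by
      rw [Ideal.map_span]
      congr 1
      ext x
      simp only [Set.mem_image, Set.mem_ofPred_eq, Set.mem_insert_iff]
      constructor
      · rintro ⟨l', hl', rfl⟩
        revert hl'
        refine Fin.cases ?_ (fun i => ?_) l'
        · intro _
          exact ⟨(p : BN ψ d.C N), Or.inl rfl, hιp.symm⟩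
        · intro hl'
          exact ⟨_, Or.inr ⟨i, Fin.succ_lt_succ_iff.mp hl', rfl⟩, (hιΛ (u i)).symm⟩
      · rintro ⟨z, (rfl | ⟨i, hi, rfl⟩), rfl⟩
        · exact ⟨0, Fin.succ_pos l, hιp⟩
        · exact ⟨i.succ, Fin.succ_lt_succ_iff.mpr hi, hιΛ (u i)⟩
    rw [himg] at hy ⊢
    refine reg_transfer ι (dq d e N π) (teN ψ d.C N (rt p e (d.δ' π))) (φ π) (hφ1 π)
      (dq_mul_dq' d hEg hE e N he π) (algebraMap Λ (BN ψ d.C N) (u l)) _ _
      (fun b hb' => BN_u hb d.toPExt N hN l b hb') y ?_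
    rw [← hιΛ]
    exact hy

end Vale.Agent.P202.Mix
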