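import Mathlib

/-!
P202, mixed characteristic: the limits `e → ∞` and `b → ∞` in the final assembly.
-/

namespace Vale.Agent.P202.Mix

open scoped ENNReal Topology

/-- The limit `e → ∞`. -/
theorem arith_limit {P : Type} [Fintype P] (W W' bj bL t0 lT a a1 s s1 : ℝ≥0∞)
    (_ : W ≠ ⊤) (hW' : W' ≠ ⊤) (hbj : bj ≠ ⊤) (hbL : bL ≠ ⊤) (_ : t0 ≠ ⊤) (hlT : lT ≠ ⊤)
    (Q Z Pj M T ζ : ℕ → P → ℝ≥0∞) (hZ : ∀ e π, Z e π = t0 * ζ e π)
    (hT : ∀ e π, T e π = lT * ζ e π)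
    (h1 : ∀ ε : ℝ≥0∞, ε ≠ 0 → ∀ π, ∀ᶠ e in Filter.atTop, W * Z e π ≤ Q e π + ε)
    (h2 : ∀ ε : ℝ≥0∞, ε ≠ 0 → ∀ π, ∀ᶠ e in Filter.atTop, bj * Q e π ≤ Pj e π + ε)
    (h3 : ∀ e π, M e π ≤ bL * (W' * T e π))
    (h4 : ∀ᶠ e in Filter.atTop, a ≤ ∑ π, M e π + a1)
    (h5 : ∀ᶠ e in Filter.atTop, ∑ π, Pj e π ≤ s + s1) :
    bj * W * t0 * a ≤ bL * W' * lT * (s + s1) + bj * W * t0 * a1 := by
  set K : ℝ≥0∞ := bL * W' * lT * (Fintype.card P * (1 + bj)) + 1 with hK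
  have hK0 : K ≠ 0 := by
    rw [hK]
    exact (lt_of_lt_of_le one_pos le_add_self).ne'
  have hKt : K ≠ ⊤ := by
    rw [hK]
    refine ENNReal.add_ne_top.mpr ⟨ENNReal.mul_ne_top (ENNReal.mul_ne_top (ENNReal.mul_ne_top
      hbL hW') hlT) (ENNReal.mul_ne_top (ENNReal.natCast_ne_top _)
      (ENNReal.add_ne_top.mpr ⟨ENNReal.one_ne_top, hbj⟩)), ENNReal.one_ne_top⟩
  refine ENNReal.le_of_forall_pos_le_add fun δ hδ _ => ?_
  have hδ0 : (δ : ℝ≥0∞) ≠ 0 := by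
    exact_mod_cast hδ.ne'
  set ε : ℝ≥0∞ := δ / K with hε
  have hε0 : ε ≠ 0 := ENNReal.div_ne_zero.mpr ⟨hδ0, hKt⟩
  have hKε : bL * W' * lT * (Fintype.card P * (1 + bj)) * ε ≤ δ := by
    calc bL * W' * lT * (Fintype.card P * (1 + bj)) * ε ≤ K * ε :=
          mul_le_mul_left (le_self_add) _
      _ ≤ δ := ENNReal.mul_div_le
  have e1 := Filter.eventually_all.mpr (h1 ε hε0)
  have e2 := Filter.eventually_all.mpr (h2 ε hε0)
  obtain ⟨e, ⟨⟨⟨g1, g2⟩, g4⟩, g5⟩⟩ := (((e1.and e2).and h4).and h5).exists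
  have k1 : ∀ π, bj * W * t0 * ζ e π ≤ Pj e π + (1 + bj) * ε := by
    intro π
    calc bj * W * t0 * ζ e π = bj * (W * Z e π) := by rw [hZ]; ring
      _ ≤ bj * (Q e π + ε) := mul_le_mul_right (g1 π) _
      _ = bj * Q e π + bj * ε := by ring
      _ ≤ (Pj e π + ε) + bj * ε := add_le_add_left (g2 π) _
      _ = Pj e π + (1 + bj) * ε := by ring
  have k2 : bj * W * t0 * ∑ π, M e π ≤ bL * W' * lT * (s + s1) + δ := by
    calc bj * W * t0 * ∑ π, M e π ≤ bj * W * t0 * ∑ π, bL * (W' * T e π) :=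
          mul_le_mul_right (Finset.sum_le_sum fun π _ => h3 e π) _
      _ = bL * W' * lT * ∑ π, bj * W * t0 * ζ e π := by
          rw [Finset.mul_sum, Finset.mul_sum]
          refine Finset.sum_congr rfl fun π _ => ?_
          rw [hT]
          ring
      _ ≤ bL * W' * lT * ∑ π, (Pj e π + (1 + bj) * ε) :=
          mul_le_mul_right (Finset.sum_le_sum fun π _ => k1 π) _
      _ = bL * W' * lT * (∑ π, Pj e π) +
          bL * W' * lT * (Fintype.card P * (1 + bj)) * ε := by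
          rw [Finset.sum_add_distrib, Finset.sum_const, Finset.card_univ, nsmul_eq_mul]
          ring
      _ ≤ bL * W' * lT * (s + s1) + δ :=
          add_le_add (mul_le_mul_right g5 _) hKε
  calc bj * W * t0 * a ≤ bj * W * t0 * (∑ π, M e π + a1) := mul_le_mul_right g4 _
    _ = bj * W * t0 * ∑ π, M e π + bj * W * t0 * a1 := by ring
    _ ≤ (bL * W' * lT * (s + s1) + δ) + bj * W * t0 * a1 := add_le_add_left k2 _
    _ = bL * W' * lT * (s + s1) + bj * W * t0 * a1 + δ := by ring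

/-- The limit `b → ∞`. -/
theorem arith_final (p : ℕ) (hp : 2 ≤ p) (r bj bL t0 lT a a1 s s1 : ℕ) (hlT : 1 ≤ lT)
    (h : ∀ b : ℕ, 1 ≤ p ^ b - (r + 1) - 1 - (r + 1) →
      (bj : ℝ≥0∞) * (((p ^ b - (r + 1) - 1 - (r + 1) : ℕ) : ℝ≥0∞)) ^ (r + 1) * t0 * (lT * a) ≤
        bL * ((p ^ b : ℕ) : ℝ≥0∞) ^ (r + 1) * lT * (s + s1) +
          bj * (((p ^ b - (r + 1) - 1 - (r + 1) : ℕ) : ℝ≥0∞)) ^ (r + 1) * t0 * (lT * a1)) :
    bj * t0 * a ≤ bL * (s + s1) + bj * t0 * a1 := by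
  have hnat : ∀ b : ℕ, 1 ≤ p ^ b - (r + 1) - 1 - (r + 1) →
      bj * (p ^ b - (r + 1) - 1 - (r + 1)) ^ (r + 1) * t0 * a ≤
        bL * (p ^ b) ^ (r + 1) * (s + s1) +
          bj * (p ^ b - (r + 1) - 1 - (r + 1)) ^ (r + 1) * t0 * a1 := by
    intro b hb
    have h1 := h b hb
    have h2 : bj * (p ^ b - (r + 1) - 1 - (r + 1)) ^ (r + 1) * t0 * (lT * a) ≤
        bL * (p ^ b) ^ (r + 1) * lT * (s + s1) +
          bj * (p ^ b - (r + 1) - 1 - (r + 1)) ^ (r + 1) * t0 * (lT * a1) := by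
      exact_mod_cast h1
    refine le_of_mul_le_mul_left (a := lT) ?_ (by omega : 0 < lT)
    calc lT * (bj * (p ^ b - (r + 1) - 1 - (r + 1)) ^ (r + 1) * t0 * a)
        = bj * (p ^ b - (r + 1) - 1 - (r + 1)) ^ (r + 1) * t0 * (lT * a) := by ring
      _ ≤ _ := h2
      _ = _ := by ring
  -- pass to the limit in `ℝ`
  set c : ℕ := (r + 1) + 1 + (r + 1) with hc
  have hpb : Filter.Tendsto (fun b : ℕ => p ^ b) Filter.atTop Filter.atTop :=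
    tendsto_pow_atTop_atTop_of_one_lt (by omega : 1 < p)
  have hpR : Filter.Tendsto (fun b : ℕ => ((p ^ b : ℕ) : ℝ)) Filter.atTop Filter.atTop :=
    tendsto_natCast_atTop_atTop.comp hpb
  have hq : Filter.Tendsto (fun b : ℕ => (1 - (c : ℝ) / ((p ^ b : ℕ) : ℝ)) ^ (r + 1))
      Filter.atTop (𝓝 1) := by
    have h1 : Filter.Tendsto (fun b : ℕ => 1 - (c : ℝ) / ((p ^ b : ℕ) : ℝ))
        Filter.atTop (𝓝 (1 - 0)) :=
      tendsto_const_nhds.sub (Filter.Tendsto.const_div_atTop hpR _)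
    have h2 := h1.pow (r + 1)
    simpa using h2
  have hL : Filter.Tendsto (fun b : ℕ => (bj : ℝ) * (1 - (c : ℝ) / ((p ^ b : ℕ) : ℝ)) ^ (r + 1) *
      t0 * a) Filter.atTop (𝓝 ((bj : ℝ) * 1 * t0 * a)) :=
    ((hq.const_mul _).mul_const _).mul_const _
  have hR : Filter.Tendsto (fun b : ℕ => (bL : ℝ) * (s + s1) +
      (bj : ℝ) * (1 - (c : ℝ) / ((p ^ b : ℕ) : ℝ)) ^ (r + 1) * t0 * a1) Filter.atTop
      (𝓝 ((bL : ℝ) * (s + s1) + (bj : ℝ) * 1 * t0 * a1)) :=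
    tendsto_const_nhds.add (((hq.const_mul _).mul_const _).mul_const _)
  have key : (bj : ℝ) * 1 * t0 * a ≤ (bL : ℝ) * (s + s1) + (bj : ℝ) * 1 * t0 * a1 := by
    refine le_of_tendsto_of_tendsto hL hR ?_
    filter_upwards [hpb.eventually_ge_atTop (c + 1)] with b hb
    have hb1 : 1 ≤ p ^ b - (r + 1) - 1 - (r + 1) := by omega
    have h1 := hnat b hb1
    have h2 : p ^ b - (r + 1) - 1 - (r + 1) = p ^ b - c := by omega
    rw [h2] at h1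
    have hpos : (0 : ℝ) < ((p ^ b : ℕ) : ℝ) := by
      exact_mod_cast (by omega : 0 < p ^ b)
    have h3 : (bj : ℝ) * ((p ^ b - c : ℕ) : ℝ) ^ (r + 1) * t0 * a ≤
        (bL : ℝ) * ((p ^ b : ℕ) : ℝ) ^ (r + 1) * (s + s1) +
          (bj : ℝ) * ((p ^ b - c : ℕ) : ℝ) ^ (r + 1) * t0 * a1 := by
      exact_mod_cast h1
    have h4 : ((p ^ b - c : ℕ) : ℝ) = ((p ^ b : ℕ) : ℝ) * (1 - (c : ℝ) / ((p ^ b : ℕ) : ℝ)) := by
      rw [Nat.cast_sub (by omega)]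
      field_simp
    rw [h4, mul_pow] at h3
    have hN : (0 : ℝ) < ((p ^ b : ℕ) : ℝ) ^ (r + 1) := pow_pos hpos _
    refine le_of_mul_le_mul_left ?_ hN
    calc ((p ^ b : ℕ) : ℝ) ^ (r + 1) *
        ((bj : ℝ) * (1 - (c : ℝ) / ((p ^ b : ℕ) : ℝ)) ^ (r + 1) * t0 * a)
        = (bj : ℝ) * (((p ^ b : ℕ) : ℝ) ^ (r + 1) *
          (1 - (c : ℝ) / ((p ^ b : ℕ) : ℝ)) ^ (r + 1)) * t0 * a := by ring
      _ ≤ _ := h3
      _ = _ := by ring
  have key2 : (bj : ℝ) * t0 * a ≤ (bL : ℝ) * (s + s1) + (bj : ℝ) * t0 * a1 := by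
    simpa using key
  exact_mod_cast key2

end Vale.Agent.P202.Mix
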