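import Vale.Agent.P202.TopComp
import Vale.Agent.P202.LocFinal

/-!
P202, mixed characteristic: Lech's conjecture for all Noetherian local rings from Theorem M (complete
domains of mixed characteristic) and Theorem C (complete rings of characteristic `p`).
-/

set_option linter.unusedSectionVars false

namespace Vale.Agent.P202.Mix

open IsLocalRing Filter Topology

universe u

/-- The statement of Theorem M. -/
def TheoremM (p : ℕ) [Fact p.Prime] : Prop :=
  ∀ {A S : Type u} [CommRing A] [IsDomain A] [IsLocalRing A] [IsNoetherianRing A] [CharZero A]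
    [CharP (ResidueField A) p] [IsAdicComplete (maximalIdeal A) A]
    [Infinite (ResidueField A)]
    [CommRing S] [IsLocalRing S] [IsNoetherianRing S] [IsAdicComplete (maximalIdeal S) S]
    [Algebra A S] [IsLocalHom (algebraMap A S)] [Module.Flat A S]
    {r : ℕ} (_ : ringKrullDim A = (r + 1 : ℕ)) (_ : ringKrullDim S = (r + 1 : ℕ))
    (y : Fin (r + 1) → S) (_ : ∀ i, y i ∈ maximalIdeal S)
    (_ : Module.length S (S ⧸ Ideal.span (Set.range y)) ≠ ⊤) (t0 : ℕ)
    (_ : Module.length S (S ⧸ ((maximalIdeal A).map (algebraMap A S) ⊔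
      Ideal.span (Set.range y))) = t0),
    ∃ C1 C2 : ℝ, ∀ L j : ℕ, 1 ≤ L → 1 ≤ j →
      (t0 : ℝ) * (((Module.length A (A ⧸ maximalIdeal A ^ L)).toNat : ℝ) - C2 * (L : ℝ) ^ r) *
          (((r + j).choose (r + 1) : ℕ) : ℝ) ≤
        (((r + L).choose (r + 1) : ℕ) : ℝ) *
          (((Module.length S (S ⧸ Ideal.span (Set.range y) ^ j)).toNat : ℝ) +
            C1 * (j : ℝ) ^ r)

lemma card_tri_eq {r j : ℕ} (hj : 1 ≤ j) :
    (tri (Fin (r + 1)) j).card = (r + j).choose (r + 1) := by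
  obtain ⟨j, rfl⟩ : ∃ m, j = m + 1 := ⟨j - 1, by omega⟩
  rw [card_tri_succ, Nat.multichoose_eq, Fintype.card_fin]
  have h1 : r + 1 + 1 + j - 1 = r + (j + 1) := by omega
  rw [h1, ← Nat.choose_symm_of_eq_add (show r + (j + 1) = (r + 1) + j by omega)]

/-- Lech's inequality for complete domains of mixed characteristic. -/
theorem le_of_theoremM (p : ℕ) [Fact p.Prime] (HM : TheoremM.{u} p) {A S : Type u}
    [CommRing A] [IsDomain A] [IsLocalRing A] [IsNoetherianRing A] [CharZero A]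
    [CharP (ResidueField A) p] [IsAdicComplete (maximalIdeal A) A]
    [Infinite (ResidueField A)]
    [CommRing S] [IsLocalRing S] [IsNoetherianRing S] [IsAdicComplete (maximalIdeal S) S]
    [Algebra A S] [IsLocalHom (algebraMap A S)] [Module.Flat A S]
    {r : ℕ} (hA : ringKrullDim A = (r + 1 : ℕ)) (hS : ringKrullDim S = (r + 1 : ℕ))
    (eA eS : ℕ) (heA : Tendsto (hsSeq A (r + 1)) atTop (𝓝 (eA : ℝ)))
    (heS : Tendsto (hsSeq S (r + 1)) atTop (𝓝 (eS : ℝ))) : eA ≤ eS := by
  have : Infinite (ResidueField S) :=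
    Infinite.of_injective (algebraMap (ResidueField A) (ResidueField S)) (RingHom.injective _)
  obtain ⟨y, c, hy, hyl, hmin⟩ := exists_max_reduction (S := S) hS
  have hfib : ell ((maximalIdeal A).map (algebraMap A S)) ≠ ⊤ :=
    ell_fibre_ne_top (R := A) (S := S) (by rw [hA, hS])
  have hloc : (maximalIdeal A).map (algebraMap A S) ≤ maximalIdeal S := by
    rw [Ideal.map_le_iff_le_comap]
    intro a ha
    exact (IsLocalRing.mem_maximalIdeal _).mpr fun h =>
      (IsLocalRing.mem_maximalIdeal _).mp ha (isUnit_of_map_unit (algebraMap A S) a h)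
  have ht0 : ell ((maximalIdeal A).map (algebraMap A S) ⊔ Ideal.span (Set.range y)) ≠ ⊤ :=
    ne_top_of_le_ne_top hfib (ell_mono le_sup_left)
  obtain ⟨t0, ht0⟩ := ENat.ne_top_iff_exists.mp ht0
  obtain ⟨E, hE⟩ := ENat.ne_top_iff_exists.mp (emin_ne_top hyl)
  obtain ⟨B, hB⟩ := ENat.ne_top_iff_exists.mp (errB_ne_top hyl)
  have ht1 : 1 ≤ t0 := by
    have h1 : ell ((maximalIdeal A).map (algebraMap A S) ⊔ Ideal.span (Set.range y)) ≠ 0 := by
      rw [Ne, ell_eq_zero_iff]
      intro h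
      have h2 : (maximalIdeal A).map (algebraMap A S) ⊔ Ideal.span (Set.range y) ≤
          maximalIdeal S := by
        refine sup_le hloc ?_
        rw [Ideal.span_le]
        rintro _ ⟨i, rfl⟩
        exact hy i
      rw [h, top_le_iff] at h2
      exact (IsLocalRing.maximalIdeal.isMaximal S).ne_top h2
    rw [← ht0] at h1
    have h3 : t0 ≠ 0 := by exact_mod_cast h1
    omega
  obtain ⟨C1, C2, hC⟩ := HM (A := A) (S := S) hA hS y hy hyl t0 ht0.symm
  -- the lengths of `S / (y)^j`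
  have hyj : ∀ j : ℕ, 1 ≤ j →
      ((Module.length S (S ⧸ Ideal.span (Set.range y) ^ j)).toNat : ℝ) ≤
        (((r + j).choose (r + 1) : ℕ) : ℝ) * E + B * (j : ℝ) ^ r := by
    intro j hj
    have h1 := ell_pow_le y j
    rw [← hE, ← hB, Fintype.card_fin, Nat.add_sub_cancel, card_tri_eq hj] at h1
    have h2 : ell (Ideal.span (Set.range y) ^ j) ≤
        (((r + j).choose (r + 1) * E + B * j ^ r : ℕ) : ℕ∞) := by
      exact_mod_cast h1
    have h3 := ENat.toNat_le_of_le_natCast h2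
    exact_mod_cast h3
  -- the limit `j → ∞`
  have hlim : ∀ L : ℕ, 1 ≤ L →
      (t0 : ℝ) * (((Module.length A (A ⧸ maximalIdeal A ^ L)).toNat : ℝ) -
        C2 * (L : ℝ) ^ r) ≤ (((r + L).choose (r + 1) : ℕ) : ℝ) * E := by
    intro L hL
    have h1 : Tendsto (fun j : ℕ => (((r + L).choose (r + 1) : ℕ) : ℝ) * E +
        (((r + L).choose (r + 1) : ℕ) : ℝ) * (B + |C1|) * ((r + 1).factorial *
          ((j : ℝ) ^ r / (j : ℝ) ^ (r + 1)))) atTop
        (𝓝 ((((r + L).choose (r + 1) : ℕ) : ℝ) * E +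
        (((r + L).choose (r + 1) : ℕ) : ℝ) * (B + |C1|) * ((r + 1).factorial * 0))) := by
      refine tendsto_const_nhds.add (Tendsto.const_mul _ (Tendsto.const_mul _ ?_))
      have h2 : Tendsto (fun j : ℕ => 1 / (j : ℝ)) atTop (𝓝 0) :=
        tendsto_one_div_atTop_nhds_zero_nat
      refine h2.congr' ?_
      filter_upwards [eventually_gt_atTop 0] with j hj
      have : (j : ℝ) ≠ 0 := by positivity
      rw [pow_succ]
      field_simp
    rw [mul_zero, mul_zero, add_zero] at h1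
    refine ge_of_tendsto h1 ?_
    filter_upwards [eventually_gt_atTop 0] with j hj
    have h2 := hC L j hL hj
    have h3 := hyj j hj
    set a : ℝ := (((r + j).choose (r + 1) : ℕ) : ℝ) with ha
    set Y : ℝ := (((r + L).choose (r + 1) : ℕ) : ℝ) with hY
    have hY0 : 0 ≤ Y := Nat.cast_nonneg _
    have hj0 : (0 : ℝ) < (j : ℝ) ^ (r + 1) := by positivity
    have hfa : (j : ℝ) ^ (r + 1) ≤ ((r + 1).factorial : ℝ) * a := by
      have h4 := pow_le_factorial_mul_card_tri (σ := Fin (r + 1)) j hj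
      rw [Fintype.card_fin, card_tri_eq hj] at h4
      rw [ha]
      exact_mod_cast h4
    have hf0 : (0 : ℝ) < ((r + 1).factorial : ℝ) := by positivity
    have ha0 : 0 < a := by
      by_contra h5
      have h6 : ((r + 1).factorial : ℝ) * a ≤ 0 :=
        mul_nonpos_of_nonneg_of_nonpos hf0.le (not_lt.mp h5)
      linarith
    have h7 : C1 * (j : ℝ) ^ r ≤ |C1| * (j : ℝ) ^ r :=
      mul_le_mul_of_nonneg_right (le_abs_self C1) (by positivity)
    have h8 : Y * (((Module.length S (S ⧸ Ideal.span (Set.range y) ^ j)).toNat : ℝ) +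
        C1 * (j : ℝ) ^ r) ≤ Y * (a * E + (B + |C1|) * (j : ℝ) ^ r) := by
      refine mul_le_mul_of_nonneg_left ?_ hY0
      linarith
    have h9 : (j : ℝ) ^ r ≤ a * ((r + 1).factorial * ((j : ℝ) ^ r / (j : ℝ) ^ (r + 1))) := by
      have h10 : (j : ℝ) ^ r = (j : ℝ) ^ (r + 1) * ((j : ℝ) ^ r / (j : ℝ) ^ (r + 1)) := by
        field_simp
      calc (j : ℝ) ^ r = (j : ℝ) ^ (r + 1) * ((j : ℝ) ^ r / (j : ℝ) ^ (r + 1)) := h10
        _ ≤ (((r + 1).factorial : ℝ) * a) * ((j : ℝ) ^ r / (j : ℝ) ^ (r + 1)) :=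
            mul_le_mul_of_nonneg_right hfa (by positivity)
        _ = _ := by ring
    have h11 : (0 : ℝ) ≤ Y * (B + |C1|) :=
      mul_nonneg hY0 (add_nonneg (Nat.cast_nonneg _) (abs_nonneg _))
    have h12 : (t0 : ℝ) * (((Module.length A (A ⧸ maximalIdeal A ^ L)).toNat : ℝ) -
        C2 * (L : ℝ) ^ r) * a ≤ (Y * E + Y * (B + |C1|) * ((r + 1).factorial *
          ((j : ℝ) ^ r / (j : ℝ) ^ (r + 1)))) * a := by
      refine (h2.trans h8).trans ?_
      have h13 := mul_le_mul_of_nonneg_left h9 h11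
      calc Y * (a * E + (B + |C1|) * (j : ℝ) ^ r) =
          Y * E * a + Y * (B + |C1|) * (j : ℝ) ^ r := by ring
        _ ≤ Y * E * a + Y * (B + |C1|) *
            (a * ((r + 1).factorial * ((j : ℝ) ^ r / (j : ℝ) ^ (r + 1)))) := by linarith
        _ = _ := by ring
    exact le_of_mul_le_mul_right h12 ha0
  -- the inequality of lengths
  have hgr : ∀ N : ℕ, (r + 1).factorial * (Module.length A (A ⧸ maximalIdeal A ^ N)).toNat ≤
      1 * ((r + 1).factorial * (Module.length S (S ⧸ maximalIdeal S ^ (N + c))).toNat) +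
        ((r + 1).factorial * ⌈|C2|⌉₊) * (N + 1) ^ (r + 1 - 1) := by
    intro N
    rw [one_mul, mul_assoc, ← mul_add]
    refine Nat.mul_le_mul_left _ ?_
    rw [Nat.add_sub_cancel]
    rcases Nat.eq_zero_or_pos N with rfl | hN
    · have h1 : (Module.length A (A ⧸ maximalIdeal A ^ 0)).toNat = 0 := by
        have : Subsingleton (A ⧸ maximalIdeal A ^ 0) := by
          rw [pow_zero]
          exact Ideal.Quotient.subsingleton_iff.mpr Ideal.one_eq_top
        rw [Module.length_eq_zero]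
        rfl
      rw [h1]
      exact Nat.zero_le _
    · have h1 := hlim N hN
      have hB' : ell (maximalIdeal S ^ (N + c)) ≠ ⊤ := ell_ne_top_of_pow_le le_rfl
      obtain ⟨b, hb⟩ := ENat.ne_top_iff_exists.mp hB'
      have h2 := hmin N
      rw [card_tri_eq hN, ← hE, ← hb] at h2
      have h2' : E * (r + N).choose (r + 1) ≤ b := by exact_mod_cast h2
      have h3 : Module.length S (S ⧸ maximalIdeal S ^ (N + c)) = (b : ℕ∞) := hb.symm
      rw [h3, ENat.toNat_natCast]
      have h4 : C2 ≤ (⌈|C2|⌉₊ : ℝ) := (le_abs_self C2).trans (Nat.le_ceil _)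
      have h5 : C2 * (N : ℝ) ^ r ≤ (⌈|C2|⌉₊ : ℝ) * ((N : ℝ) + 1) ^ r := by
        have h6 : (N : ℝ) ^ r ≤ ((N : ℝ) + 1) ^ r :=
          pow_le_pow_left₀ (Nat.cast_nonneg _) (by linarith) r
        calc C2 * (N : ℝ) ^ r ≤ (⌈|C2|⌉₊ : ℝ) * (N : ℝ) ^ r :=
              mul_le_mul_of_nonneg_right h4 (by positivity)
          _ ≤ _ := mul_le_mul_of_nonneg_left h6 (Nat.cast_nonneg _)
      have h6 : (((Module.length A (A ⧸ maximalIdeal A ^ N)).toNat : ℕ) : ℝ) ≤
          (b : ℝ) + (⌈|C2|⌉₊ : ℝ) * ((N : ℝ) + 1) ^ r := by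
        rcases le_or_gt (((Module.length A (A ⧸ maximalIdeal A ^ N)).toNat : ℝ) -
          C2 * (N : ℝ) ^ r) 0 with h7 | h7
        · have : (0 : ℝ) ≤ b := Nat.cast_nonneg _
          linarith
        · have h8 : ((Module.length A (A ⧸ maximalIdeal A ^ N)).toNat : ℝ) -
              C2 * (N : ℝ) ^ r ≤ (t0 : ℝ) *
              (((Module.length A (A ⧸ maximalIdeal A ^ N)).toNat : ℝ) -
              C2 * (N : ℝ) ^ r) := by
            have ht1' : (1 : ℝ) ≤ t0 := by exact_mod_cast ht1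
            nlinarith
          have h9 : (((r + N).choose (r + 1) : ℕ) : ℝ) * E ≤ b := by
            rw [mul_comm]
            exact_mod_cast h2'
          linarith
      exact_mod_cast h6
  have key := le_of_growth (Nat.succ_pos r) 1 c _
    (fun N => (Module.length A (A ⧸ maximalIdeal A ^ N)).toNat)
    (fun N => (Module.length S (S ⧸ maximalIdeal S ^ N)).toNat) hgr eA eS heA heS
  rw [Nat.cast_one, one_mul] at key
  exact_mod_cast key

/-- Lech's inequality for rings containing a field. -/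
theorem le_of_field (HC : ∀ (p : ℕ) [Fact p.Prime], CharP.TheoremC.{u} p) {R S : Type u}
    [CommRing R] [IsLocalRing R] [IsNoetherianRing R]
    [CommRing S] [IsLocalRing S] [IsNoetherianRing S] [Algebra R S]
    [IsLocalHom (algebraMap R S)] [Module.Flat R S] {d s : ℕ} (hR : ringKrullDim R = d)
    (hS : ringKrullDim S = s) (eR eS : ℕ) (heR : Tendsto (hsSeq R d) atTop (𝓝 (eR : ℝ)))
    (heS : Tendsto (hsSeq S s) atTop (𝓝 (eS : ℝ))) (k : Type u) [Field k] [Algebra k R] :
    eR ≤ eS := by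
  obtain ⟨d', s', e₁', e₂', h1, h2, h3, h4, h5, -⟩ := CharP.hand_field HC (R := R) (S := S)
  have hdd : d = d' := by
    have : ((d : ℕ) : WithBot ℕ∞) = ((d' : ℕ) : WithBot ℕ∞) := hR.symm.trans h1
    exact_mod_cast this
  have hss : s = s' := by
    have : ((s : ℕ) : WithBot ℕ∞) = ((s' : ℕ) : WithBot ℕ∞) := hS.symm.trans h2
    exact_mod_cast this
  subst hdd hss
  have e1 : (eR : ℝ) = e₁' := tendsto_nhds_unique heR h3
  have e2 : (eS : ℝ) = e₂' := tendsto_nhds_unique heS h4
  have e1' : eR = e₁' := by exact_mod_cast e1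
  have e2' : eS = e₂' := by exact_mod_cast e2
  rw [e1', e2']
  exact h5 k

/-- Lech's inequality for complete domains. -/
theorem le_of_complete_domain (HC : ∀ (p : ℕ) [Fact p.Prime], CharP.TheoremC.{u} p)
    (HM : ∀ (p : ℕ) [Fact p.Prime], TheoremM.{u} p) {A S : Type u}
    [CommRing A] [IsDomain A] [IsLocalRing A] [IsNoetherianRing A]
    [IsAdicComplete (maximalIdeal A) A] [Infinite (ResidueField A)]
    [CommRing S] [IsLocalRing S] [IsNoetherianRing S] [IsAdicComplete (maximalIdeal S) S]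
    [Algebra A S] [IsLocalHom (algebraMap A S)] [Module.Flat A S]
    {r : ℕ} (hA : ringKrullDim A = (r + 1 : ℕ)) (hS : ringKrullDim S = (r + 1 : ℕ))
    (eA eS : ℕ) (heA : Tendsto (hsSeq A (r + 1)) atTop (𝓝 (eA : ℝ)))
    (heS : Tendsto (hsSeq S (r + 1)) atTop (𝓝 (eS : ℝ))) : eA ≤ eS := by
  obtain ⟨q, hq⟩ := CharP.exists (ResidueField A)
  rcases CharP.char_is_prime_or_zero (ResidueField A) q with hqp | rfl
  · have : Fact q.Prime := ⟨hqp⟩
    obtain ⟨p', hp'⟩ := CharP.exists A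
    rcases CharP.char_is_prime_or_zero A p' with hpp | rfl
    · have : Fact p'.Prime := ⟨hpp⟩
      let _ : Algebra (ZMod p') A := ZMod.algebra A p'
      let _ : Algebra (ULift.{u} (ZMod p')) A :=
        ((algebraMap (ZMod p') A).comp (ULift.ringEquiv : ULift.{u} (ZMod p') ≃+* _)).toAlgebra
      exact le_of_field HC hA hS eA eS heA heS (ULift.{u} (ZMod p'))
    · have : CharZero A := CharP.charP_to_charZero A
      exact le_of_theoremM q (HM q) hA hS eA eS heA heS
  · have h0 : CharZero (ResidueField A) := CharP.charP_to_charZero _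
    have h1 : ∀ I : Ideal A, I ≠ ⊤ → CharZero (A ⧸ I) := by
      intro I hI
      have hle : I ≤ maximalIdeal A := IsLocalRing.le_maximalIdeal hI
      have h2 : CharZero (A ⧸ maximalIdeal A) := h0
      exact (Ideal.Quotient.factor hle).charZero
    have h3 := (EqualCharZero.nonempty_algebraRat_iff A).mpr h1
    let f : ℚ →+* A := h3.some.algebraMap
    let _ : Algebra (ULift.{u} ℚ) A :=
      (f.comp (ULift.ringEquiv : ULift.{u} ℚ ≃+* ℚ)).toAlgebra
    exact le_of_field HC hA hS eA eS heA heS (ULift.{u} ℚ)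

/-- The class of all rings. -/
def ClsAll : RCls.{u} := fun _ _ _ _ => True

theorem stable_clsAll : RStable ClsAll.{u} where
  compl := fun _ _ _ _ _ _ => trivial
  nag := fun _ _ _ _ _ => trivial

/-- Equal dimensions. -/
theorem eqDim_all (HC : ∀ (p : ℕ) [Fact p.Prime], CharP.TheoremC.{u} p)
    (HM : ∀ (p : ℕ) [Fact p.Prime], TheoremM.{u} p) {d : ℕ} (hd : 0 < d) :
    EqDimCls.{u} ClsAll d 1 := by
  intro R S _ _ _ _ _ _ _ _ _ hCR hR hS eR eS heR heS
  obtain ⟨r, rfl⟩ : ∃ r, d = r + 1 := ⟨d - 1, by omega⟩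
  obtain ⟨R1, S1, _, _, _, _, _, _, _, _, _, hinf, hlR, hlS, hdR, hdS, hC1⟩ :=
    exists_infinite_residue_cls (R := R) (S := S) stable_clsAll hCR
  obtain ⟨R2, S2, _, _, _, _, _, _, _, _, _, _, _, hlR2, hlS2, hdR2, hdS2, hinf2, hC2⟩ :=
    exists_completion_cls (R := R1) (S := S1) stable_clsAll hC1
  have := hinf2 hinf
  rw [one_mul]
  have heR2 : Tendsto (hsSeq R2 (r + 1)) atTop (𝓝 (eR : ℝ)) := by
    have h1 : hsSeq R2 (r + 1) = hsSeq R (r + 1) := by
      funext N
      unfold hsSeq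
      rw [hlR2, hlR]
    rw [h1]
    exact heR
  have heS2 : Tendsto (hsSeq S2 (r + 1)) atTop (𝓝 (eS : ℝ)) := by
    have h1 : hsSeq S2 (r + 1) = hsSeq S (r + 1) := by
      funext N
      unfold hsSeq
      rw [hlS2, hlS]
    rw [h1]
    exact heS
  refine tc_main (R := R2) (S := S2) (fun A _ _ _ n hn => exists_mult_all hn)
    (hdR2.trans (hdR.trans hR)) (hdS2.trans (hdS.trans hS)) eR eS heR2 heS2 ?_
  intro P _ hPd _ _ _ _ e₁ e₂ hd1 hs1 he₁ he₂
  have c1 : IsAdicComplete (maximalIdeal (R2 ⧸ P)) (R2 ⧸ P) :=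
    loc_isAdicComplete_quotient P Ideal.IsPrime.ne_top'
  have c2 : IsAdicComplete (maximalIdeal (S2 ⧸ P.map (algebraMap R2 S2)))
      (S2 ⧸ P.map (algebraMap R2 S2)) :=
    loc_isAdicComplete_quotient _ (by
      have : Nontrivial (S2 ⧸ P.map (algebraMap R2 S2)) := inferInstance
      exact Ideal.Quotient.nontrivial_iff.mp this)
  have : Infinite (ResidueField (R2 ⧸ P)) := by
    have h1 : IsLocalHom (Ideal.Quotient.mk P) :=
      IsLocalHom.of_surjective _ Ideal.Quotient.mk_surjective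
    exact Infinite.of_injective (ResidueField.map (Ideal.Quotient.mk P)) (RingHom.injective _)
  exact le_of_complete_domain HC HM hd1 hs1 e₁ e₂ he₁ he₂

/-- Lech's conjecture, from Theorem C and Theorem M. -/
theorem hand_all (HC : ∀ (p : ℕ) [Fact p.Prime], CharP.TheoremC.{u} p)
    (HM : ∀ (p : ℕ) [Fact p.Prime], TheoremM.{u} p)
    {R S : Type u} [CommRing R] [IsLocalRing R] [IsNoetherianRing R]
    [CommRing S] [IsLocalRing S] [IsNoetherianRing S]
    [Algebra R S] [IsLocalHom (algebraMap R S)] [Module.Flat R S] :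
    ∃ d s eR eS : ℕ, ringKrullDim R = d ∧ ringKrullDim S = s ∧
      Tendsto (fun N : ℕ => (d.factorial : ℝ) *
        ((Module.length R (R ⧸ maximalIdeal R ^ N)).toNat : ℝ) / (N : ℝ) ^ d) atTop
        (𝓝 (eR : ℝ)) ∧
      Tendsto (fun N : ℕ => (s.factorial : ℝ) *
        ((Module.length S (S ⧸ maximalIdeal S ^ N)).toNat : ℝ) / (N : ℝ) ^ s) atTop
        (𝓝 (eS : ℝ)) ∧ eR ≤ eS := by
  obtain ⟨d, hd⟩ := exists_dim R
  obtain ⟨s, hs⟩ := exists_dim S
  obtain ⟨eR, heR⟩ := exists_mult_all hd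
  obtain ⟨eS, heS⟩ := exists_mult_all hs
  refine ⟨d, s, eR, eS, hd, hs, heR, heS, ?_⟩
  rcases Nat.eq_zero_or_pos d with rfl | hd0
  · exact lech_zero_aux s hd hs eR eS heR heS
  · have h := lech_of_eqDim stable_clsAll hd0 (eqDim_all HC HM hd0) (R := R) (S := S) trivial
      hd hs eR eS heR heS
    rwa [one_mul] at h

end Vale.Agent.P202.Mix
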