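import Vale.Agent.P202.Mix.CohenStr

/-!
P202 MIX, task M7, general form: Noether normalization of complete local domains of mixed
characteristic over a Cohen ring.
-/

namespace Vale.Agent.P202.Mix

open IsLocalRing MvPowerSeries

universe u

theorem exists_noether_norm (p : ℕ) [Fact p.Prime] {Cr A : Type u} [CommRing Cr] [IsDomain Cr]
    [IsLocalRing Cr] [IsNoetherianRing Cr] (hCr : maximalIdeal Cr = Ideal.span {(p : Cr)})
    [IsAdicComplete (maximalIdeal Cr) Cr] [CommRing A] [IsDomain A] [IsLocalRing A]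
    [IsNoetherianRing A] [IsAdicComplete (maximalIdeal A) A] [CharZero A]
    (hp : (p : A) ∈ maximalIdeal A) (chi : Cr →+* A)
    (hchi : ∀ x : A, ∃ c : Cr, x - chi c ∈ maximalIdeal A) {r : ℕ}
    (hdim : ringKrullDim A = (r + 1 : ℕ)) :
    ∃ phi : MvPowerSeries (Fin r) Cr →+* A, (∀ c, phi (C c) = chi c) ∧ phi.Finite ∧
      Function.Injective phi ∧ (∀ i, phi (X i) ∈ maximalIdeal A) ∧
      (∃ M, maximalIdeal A ^ M ≤ Ideal.span ({(p : A)} ∪ Set.range fun i => phi (X i))) ∧
      ∃ (s : ℕ) (a : Fin s → A), Ideal.span (Set.range a) = maximalIdeal A ∧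
        ∀ x : A, ∃ (l : MvPowerSeries (Fin r) Cr) (c : Fin s → MvPowerSeries (Fin r) Cr),
          x = phi l + ∑ j, phi (c j) * a j := by
  have hp0 : (p : A) ≠ 0 := Nat.cast_ne_zero.2 (Fact.out : p.Prime).ne_zero
  have hpre : IsPrecomplete (Ideal.span {(p : Cr)}) Cr := by
    rw [← hCr]
    infer_instance
  obtain ⟨φ, h1, h2, h3, h4, h5, h6⟩ := exists_cohen_general p hCr hp0 hp hdim chi hchi
  exact ⟨φ, h4, h1, h2, h3, h5, h6⟩

end Vale.Agent.P202.Mix
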