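import Mathlib

/-!
P202 MIX: `p`-bases and the algebra of all `p`-power roots (definitions).
-/

namespace Vale.Agent.P202.Mix

open Polynomial TensorProduct IsLocalRing

universe u v w

/-- exponents below `q`. -/
abbrev Bx (ι : Type*) (q : ℕ) : Type _ := {α : ι →₀ ℕ // ∀ i, α i < q}

/-- `b` is a `p`-basis of `k`: for every `e`, every element is uniquely a sum of
`c_α ^ (p ^ e) * b ^ α`, the exponents of `b ^ α` being less than `p ^ e`. -/
def IsPBasis (p : ℕ) {k : Type*} [Field k] {ι : Type*} (b : ι → k) : Prop :=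
  (∀ i, b i ≠ 0) ∧ ∀ (e : ℕ) (x : k), ∃! c : (Bx ι (p ^ e) →₀ k),
    (c.sum fun α y => y ^ p ^ e * α.1.prod fun i m => b i ^ m) = x

/-- the algebra of all `p`-power roots of the elements `a i`. -/
def RootAlg (p : ℕ) (S : Type*) [CommRing S] {ι : Type*} (a : ι → S) : Type _ :=
  MvPolynomial (ι × ℕ) S ⧸ Ideal.span
    ((Set.range fun i : ι => (MvPolynomial.X (i, 0) - MvPolynomial.C (a i) :
      MvPolynomial (ι × ℕ) S)) ∪
    Set.range fun x : ι × ℕ => (MvPolynomial.X (x.1, x.2 + 1) ^ p - MvPolynomial.X x :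
      MvPolynomial (ι × ℕ) S))

noncomputable section

variable (p : ℕ) (S : Type u) [CommRing S] {ι : Type v} (a : ι → S)

instance : CommRing (RootAlg p S a) := inferInstanceAs (CommRing (MvPolynomial (ι × ℕ) S ⧸ _))

instance : Algebra S (RootAlg p S a) := inferInstanceAs (Algebra S (MvPolynomial (ι × ℕ) S ⧸ _))

/-- the root of order `p ^ e`. -/
def rx (i : ι) (e : ℕ) : RootAlg p S a := Ideal.Quotient.mk _ (MvPolynomial.X (i, e))

/-- the index set of the tower. -/
abbrev RI (ι : Type v) : Type v := Finset ι × ℕ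

/-- the subalgebra generated by the `p ^ e`-th roots of the `a i`, `i ∈ F`. -/
def rsub (x : RI ι) : Subalgebra S (RootAlg p S a) :=
  Algebra.adjoin S {y | ∃ i ∈ x.1, y = rx p S a i x.2}

end

end Vale.Agent.P202.Mix
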