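import Vale.Agent.P202.Mix.Defs3
import Vale.Agent.P202.Mix.RootDefs
import Vale.Agent.P202.Mix.GeoDefs

/-!
P202, mixed characteristic: the ring `E = S ⊗_A (A ⊗_Λ B/p^N)`, `p`-bases of the base.
-/

namespace Vale.Agent.P202.Mix

open Polynomial TensorProduct IsLocalRing

universe u

section

variable {p : ℕ} [Fact p.Prime] {k : Type u} [Field k] [CharP k p] {r : ℕ}
variable {Λ : Type u} [CommRing Λ] (ψ : Λ →+* WittVector p (Rp p k r))
variable (A S : Type u) [CommRing A] [CommRing S] [Algebra Λ A] [Algebra A S]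
variable (C : Type u) [CommRing C] [Algebra (Rp p k r) C] (N : ℕ)

/-- `A ⊗_Λ B/p^N`. -/
abbrev EA : Type u := A ⊗[Λ] BN ψ C N

/-- `S ⊗_A (A ⊗_Λ B/p^N)`. -/
abbrev ES : Type u := S ⊗[A] EA ψ A C N

/-- `B/p^N → S ⊗_A (A ⊗_Λ B/p^N)`. -/
noncomputable def toES : BN ψ C N →+* ES ψ A S C N :=
  (Algebra.TensorProduct.includeRight (R := A) (A := S) (B := EA ψ A C N)).toRingHom.comp
    (Algebra.TensorProduct.includeRight (R := Λ) (A := A) (B := BN ψ C N)).toRingHom

end

section

variable (p : ℕ) [Fact p.Prime] (k : Type u) [Field k] [CharP k p] (r : ℕ)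

/-- A base with a `p`-basis: `Λ` local with maximal ideal `(p, u)`, residue field `k0`, `b_i ∈ Λ`
lift a `p`-basis of `k0`, `ψ(b_i) = [β_i]`, `k` is the perfect closure of `k0` via `res`. -/
structure IsBaseX {Λ : Type u} [CommRing Λ] [IsLocalRing Λ] (u : Fin r → Λ)
    (ψ : Λ →+* WittVector p (Rp p k r))
    (red : Λ →+* R0 k r ⧸ Ideal.span {(MvPowerSeries.X 0 : R0 k r)}) {ι : Type u} (b : ι → Λ)
    (β : ι → k) (res : ResidueField Λ →+* k) : Prop extends IsBase p k r Λ u ψ red where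
  max : maximalIdeal Λ = Ideal.span (insert (p : Λ) (Set.range u))
  psi_b : ∀ i, ψ (b i) =
    WittVector.teichmuller p (PerfectClosure.of (R0 k r) p (MvPowerSeries.C (β i)))
  res_red : ∀ l g, red l = Ideal.Quotient.mk _ g →
    res (residue Λ l) = MvPowerSeries.constantCoeff g
  pbasis : IsPBasis p (fun i => residue Λ (b i))
  perf : PerfectRing k p
  perfClosure : ∀ y : k, ∃ (e : ℕ) (x : ResidueField Λ), y ^ p ^ e = res x

end

end Vale.Agent.P202.Mix
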