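import Vale.Agent.P202.Mix.Cohen
import Vale.Agent.P202.Mix.IsBaseC
import Vale.Agent.P202.Mix.Defs4

/-!
P202, mixed characteristic: the base `Cr[[u]]` with its `p`-basis (`IsBaseX`).
-/

namespace Vale.Agent.P202.Mix

open IsLocalRing

universe u

theorem IsPBasis.symm_congr {p : ℕ} [hp : Fact p.Prime] {k1 k2 : Type*} [Field k1] [Field k2]
    {ι : Type*} (e : k1 ≃+* k2) {b : ι → k2} (hb : IsPBasis p b) :
    IsPBasis p (fun i => e.symm (b i)) := by
  refine ⟨fun i h => hb.1 i ?_, fun n x => ?_⟩
  · exact (map_eq_zero_iff e.symm e.symm.injective).mp h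
  · obtain ⟨c, hc, huniq⟩ := hb.2 n (e x)
    have h0 : p ^ n ≠ 0 := (pow_pos hp.out.pos n).ne'
    have key : ∀ c : Bx ι (p ^ n) →₀ k1,
        e (c.sum fun α y => y ^ p ^ n * α.1.prod fun i m => e.symm (b i) ^ m) =
          ((c.mapRange e (map_zero e)).sum fun α y => y ^ p ^ n * α.1.prod fun i m => b i ^ m) := by
      intro c
      rw [Finsupp.sum_mapRange_index (fun α => by rw [zero_pow h0, zero_mul]), Finsupp.sum,
        Finsupp.sum, map_sum]
      refine Finset.sum_congr rfl fun α _ => ?_
      rw [map_mul, map_pow, Finsupp.prod, Finsupp.prod, map_prod]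
      congr 1
      refine Finset.prod_congr rfl fun i _ => ?_
      rw [map_pow, RingEquiv.apply_symm_apply]
    have hinv : (c.mapRange e.symm (map_zero e.symm)).mapRange e (map_zero e) = c := by
      ext α
      rw [Finsupp.mapRange_apply, Finsupp.mapRange_apply, RingEquiv.apply_symm_apply]
    refine ⟨c.mapRange e.symm (map_zero e.symm), e.injective ?_, fun c' hc' => ?_⟩
    · rw [key, hinv, hc]
    · have h1 := huniq (c'.mapRange e (map_zero e)) ((key c').symm.trans (congrArg e hc'))
      ext α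
      have h2 := DFunLike.congr_fun h1 α
      rw [Finsupp.mapRange_apply] at h2
      rw [Finsupp.mapRange_apply, ← h2, RingEquiv.symm_apply_apply]

/-- elements of `Cr[[u]]` modulo the variables. -/
theorem sub_C_mem {r : ℕ} {Cr : Type*} [CommRing Cr] (l : MvPowerSeries (Fin r) Cr) :
    l - MvPowerSeries.C (MvPowerSeries.constantCoeff l) ∈
      Ideal.span (Set.range (MvPowerSeries.X : Fin r → MvPowerSeries (Fin r) Cr)) := by
  rw [CZ.mem_span_X_iff, map_sub, MvPowerSeries.constantCoeff_C, sub_self]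

theorem maximalIdeal_powerSeries (p : ℕ) {r : ℕ} {Cr : Type*} [CommRing Cr] [IsLocalRing Cr]
    (hCr : maximalIdeal Cr = Ideal.span {(p : Cr)}) :
    maximalIdeal (MvPowerSeries (Fin r) Cr) =
      Ideal.span (insert (p : MvPowerSeries (Fin r) Cr) (Set.range MvPowerSeries.X)) := by
  have hmem : ∀ l : MvPowerSeries (Fin r) Cr, l ∈ maximalIdeal (MvPowerSeries (Fin r) Cr) ↔
      MvPowerSeries.constantCoeff l ∈ maximalIdeal Cr := by
    intro l
    rw [mem_maximalIdeal, mem_nonunits_iff, mem_maximalIdeal, mem_nonunits_iff,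
      MvPowerSeries.isUnit_iff_constantCoeff]
  refine le_antisymm (fun l hl => ?_) ?_
  · have h1 := (hmem l).mp hl
    rw [hCr] at h1
    obtain ⟨d, hd⟩ := Ideal.mem_span_singleton'.mp h1
    have h2 : l = MvPowerSeries.C d * (p : MvPowerSeries (Fin r) Cr) +
        (l - MvPowerSeries.C (MvPowerSeries.constantCoeff l)) := by
      rw [← hd, map_mul, map_natCast]
      ring
    rw [h2]
    refine add_mem (Ideal.mul_mem_left _ _ (Ideal.subset_span (Set.mem_insert _ _))) ?_
    exact Ideal.span_mono (Set.subset_insert _ _) (sub_C_mem l)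
  · rw [Ideal.span_le]
    intro l hl
    rcases hl with rfl | ⟨i, rfl⟩
    · rw [SetLike.mem_coe, hmem, map_natCast, hCr]
      exact Ideal.mem_span_singleton_self _
    · rw [SetLike.mem_coe, hmem, MvPowerSeries.constantCoeff_X]
      exact zero_mem _

/-- The base `Cr[[u]]` with its `p`-basis. -/
theorem exists_baseX (p : ℕ) [hp : Fact p.Prime] {k0 : Type u} [Field k0] [CharP k0 p] (r : ℕ)
    {Cr : Type u} [CommRing Cr] [IsLocalRing Cr] (hCr : maximalIdeal Cr = Ideal.span {(p : Cr)})
    (π : Cr →+* k0) (hπ : Function.Surjective π) (hπk : ∀ c, π c = 0 → ∃ d, c = p * d)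
    (κ : Cr →+* WittVector p (PerfectClosure k0 p))
    (hκ : ∀ c, (κ c).coeff 0 = PerfectClosure.of k0 p (π c)) {ι : Type u} {b : ι → k0}
    (hb : IsPBasis p b) (β : ι → Cr)
    (hβ : ∀ i, κ (β i) = WittVector.teichmuller p (PerfectClosure.of k0 p (b i))) :
    ∃ (ψ : MvPowerSeries (Fin r) Cr →+* WittVector p (Rp p (PerfectClosure k0 p) r))
      (red : MvPowerSeries (Fin r) Cr →+* R0 (PerfectClosure k0 p) r ⧸
        Ideal.span {(MvPowerSeries.X 0 : R0 (PerfectClosure k0 p) r)})
      (res : ResidueField (MvPowerSeries (Fin r) Cr) →+* PerfectClosure k0 p),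
      IsBaseX p (PerfectClosure k0 p) r (fun i => MvPowerSeries.X i) ψ red
        (fun i => MvPowerSeries.C (β i)) (fun i => PerfectClosure.of k0 p (b i)) res := by
  obtain ⟨ψ, red, hbase, hψC⟩ := exists_isBase p (PerfectClosure k0 p) r hCr κ
  -- `Rp → k`
  let cK : R0 (PerfectClosure k0 p) r →+* PerfectClosure k0 p := MvPowerSeries.constantCoeff
  let τ : Rp p (PerfectClosure k0 p) r →+* PerfectClosure k0 p :=
    PerfectClosure.lift (R0 (PerfectClosure k0 p) r) p (PerfectClosure k0 p) cK
  have hτ : ∀ g, τ (PerfectClosure.of _ p g) = MvPowerSeries.constantCoeff g := by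
    intro g
    have := (PerfectClosure.lift (R0 (PerfectClosure k0 p) r) p
      (PerfectClosure k0 p)).symm_apply_apply cK
    exact DFunLike.congr_fun this g
  have hτ0 : ∀ i, τ (xp p (PerfectClosure k0 p) r i) = 0 := by
    intro i
    rw [xp, hτ, MvPowerSeries.constantCoeff_X]
  let θ : (R0 (PerfectClosure k0 p) r ⧸
      Ideal.span {(MvPowerSeries.X 0 : R0 (PerfectClosure k0 p) r)}) →+* PerfectClosure k0 p :=
    Ideal.Quotient.lift _ cK (fun a ha => by
      obtain ⟨y, rfl⟩ := Ideal.mem_span_singleton'.mp ha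
      change MvPowerSeries.constantCoeff _ = 0
      rw [map_mul, MvPowerSeries.constantCoeff_X, mul_zero])
  have hθ : ∀ g, θ (Ideal.Quotient.mk _ g) = MvPowerSeries.constantCoeff g := fun g => rfl
  let cc : MvPowerSeries (Fin r) Cr →+* PerfectClosure k0 p := θ.comp red
  have hcc : ∀ l, cc l = τ ((ψ l).coeff 0) := by
    intro l
    obtain ⟨g, y, h1, h2⟩ := hbase.red_coeff l
    change θ (red l) = _
    rw [h1, hθ, h2, map_add, map_mul, hτ, hτ0, zero_mul, add_zero]
  have hccC : ∀ c, cc (MvPowerSeries.C c) = PerfectClosure.of k0 p (π c) := by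
    intro c
    rw [hcc, hψC, WittVector.map_coeff, hκ, RingHom.comp_apply, hτ,
      MvPowerSeries.constantCoeff_C]
  have hccX : ∀ i, cc (MvPowerSeries.X i) = 0 := by
    intro i
    rw [hcc, hbase.psi_u, WittVector.teichmuller_coeff_zero, hτ0]
  have hccl : ∀ l, cc l = PerfectClosure.of k0 p (π (MvPowerSeries.constantCoeff l)) := by
    intro l
    have h1 : Ideal.span (Set.range (MvPowerSeries.X : Fin r → MvPowerSeries (Fin r) Cr)) ≤
        RingHom.ker cc := by
      rw [Ideal.span_le]
      rintro _ ⟨i, rfl⟩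
      exact hccX i
    have h2 := h1 (sub_C_mem l)
    rw [RingHom.mem_ker, map_sub, hccC, sub_eq_zero] at h2
    exact h2
  have hmemC : ∀ c : Cr, c ∈ maximalIdeal Cr ↔ π c = 0 := by
    intro c
    rw [hCr]
    constructor
    · intro h
      obtain ⟨d, rfl⟩ := Ideal.mem_span_singleton'.mp h
      rw [map_mul, map_natCast, CharP.cast_eq_zero, mul_zero]
    · intro h
      obtain ⟨d, rfl⟩ := hπk c h
      exact Ideal.mul_mem_right _ _ (Ideal.mem_span_singleton_self _)
  have hmem : ∀ l : MvPowerSeries (Fin r) Cr, l ∈ maximalIdeal (MvPowerSeries (Fin r) Cr) ↔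
      π (MvPowerSeries.constantCoeff l) = 0 := by
    intro l
    rw [← hmemC, mem_maximalIdeal, mem_nonunits_iff, mem_maximalIdeal, mem_nonunits_iff,
      MvPowerSeries.isUnit_iff_constantCoeff]
  let res : ResidueField (MvPowerSeries (Fin r) Cr) →+* PerfectClosure k0 p :=
    Ideal.Quotient.lift (maximalIdeal (MvPowerSeries (Fin r) Cr)) cc (fun l hl => by
      rw [hccl, (hmem l).mp hl, map_zero])
  have hres : ∀ l, res (residue _ l) = cc l := fun l => rfl
  -- the residue field
  let g : ResidueField (MvPowerSeries (Fin r) Cr) →+* k0 :=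
    Ideal.Quotient.lift (maximalIdeal (MvPowerSeries (Fin r) Cr))
      (π.comp MvPowerSeries.constantCoeff) (fun l hl => (hmem l).mp hl)
  have hg : ∀ l, g (residue _ l) = π (MvPowerSeries.constantCoeff l) := fun l => rfl
  have hgb : Function.Bijective g := by
    refine ⟨g.injective, fun x => ?_⟩
    obtain ⟨c, rfl⟩ := hπ x
    exact ⟨residue _ (MvPowerSeries.C c), by rw [hg, MvPowerSeries.constantCoeff_C]⟩
  let e : ResidueField (MvPowerSeries (Fin r) Cr) ≃+* k0 := RingEquiv.ofBijective g hgb
  have hπβ : ∀ i, π (β i) = b i := by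
    intro i
    apply (PerfectClosure.of k0 p).injective
    rw [← hκ, hβ, WittVector.teichmuller_coeff_zero]
  refine ⟨ψ, red, res, hbase, maximalIdeal_powerSeries p hCr, fun i => ?_, fun l g' hl => ?_, ?_,
    inferInstance, fun y => ?_⟩
  · rw [hψC, hβ, WittVector.map_teichmuller]
    rfl
  · rw [hres]
    change θ (red l) = _
    rw [hl, hθ]
  · have h1 := hb.symm_congr e
    have h2 : (fun i => e.symm (b i)) = fun i =>
        residue (MvPowerSeries (Fin r) Cr) (MvPowerSeries.C (β i)) := by
      funext i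
      rw [RingEquiv.symm_apply_eq]
      change b i = g (residue _ _)
      rw [hg, MvPowerSeries.constantCoeff_C, hπβ]
    rw [← h2]
    exact h1
  · induction y using PerfectClosure.induction_on with
    | h x =>
      obtain ⟨n, x⟩ := x
      obtain ⟨c, hc⟩ := hπ x
      refine ⟨n, residue _ (MvPowerSeries.C c), ?_⟩
      rw [hres, hccC, hc, ← PerfectClosure.iterate_frobenius_mk (K := k0) (p := p) n x,
        iterate_frobenius]

end Vale.Agent.P202.Mix
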