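import Vale.Agent.P202.Mix.RootDefs

/-!
P202 MIX: existence of `p`-bases (Zorn's lemma).
-/

namespace Vale.Agent.P202.Mix

open Polynomial

universe u

namespace PB

section

variable (p : ℕ) (k : Type u) [Field k] [ExpChar k p]

/-- the subfield `k ^ p` -/
abbrev K : Subfield k := (frobenius k p).fieldRange

variable {k}

/-- the monomial with exponent `α` in the elements of `k` -/
def mn (α : k →₀ ℕ) : k := α.prod fun b m => b ^ m

/-- exponents below `p` supported in `B` -/
def E (B : Set k) : Set (k →₀ ℕ) := {α | (α.support : Set k) ⊆ B ∧ ∀ i, α i < p}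

omit [ExpChar k p] in
theorem mn_add (α β : k →₀ ℕ) : mn (α + β) = mn α * mn β := by
  classical
  exact Finsupp.prod_add_index' (fun _ => pow_zero _) (fun _ _ _ => pow_add _ _ _)

omit [ExpChar k p] in
theorem mn_zero : mn (0 : k →₀ ℕ) = 1 := Finsupp.prod_zero_index

omit [ExpChar k p] in
theorem mn_single (b : k) (m : ℕ) : mn (Finsupp.single b m) = b ^ m :=
  Finsupp.prod_single_index (pow_zero _)

omit [ExpChar k p] in
theorem mn_nsmul (n : ℕ) (α : k →₀ ℕ) : mn (n • α) = mn α ^ n := by
  induction n with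
  | zero => rw [zero_smul, mn_zero, pow_zero]
  | succ n ih => rw [succ_nsmul, mn_add, ih, pow_succ]

/-- `B` is `p`-independent -/
def Ind (B : Set k) : Prop := LinearIndepOn (K p k) (mn : (k →₀ ℕ) → k) (E p B)

theorem pow_mem (x : k) : x ^ p ∈ K p k := ⟨x, rfl⟩

variable {p}

theorem mn_mem_span (hp : 0 < p) {B : Set k} {α : k →₀ ℕ} (hα : (α.support : Set k) ⊆ B) :
    mn α ∈ Submodule.span (K p k) (mn '' E p B) := by
  classical
  set β : k →₀ ℕ := α.mapRange (· / p) (Nat.zero_div _) with hβ
  set γ : k →₀ ℕ := α.mapRange (· % p) (Nat.zero_mod _) with hγ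
  have h1 : α = p • β + γ := by
    ext i
    simp [hβ, hγ, Nat.div_add_mod]
  have h2 : γ ∈ E p B := by
    refine ⟨?_, ?_⟩
    · intro i hi
      apply hα
      have hi' : γ i ≠ 0 := by simpa using hi
      show i ∈ (α.support : Set k)
      have : α i ≠ 0 := by
        intro h0
        apply hi'
        simp [hγ, h0]
      simpa using this
    · intro i
      simp only [hγ, Finsupp.mapRange_apply]
      exact Nat.mod_lt _ hp
  rw [h1, mn_add, mn_nsmul]
  have h3 : mn β ^ p * mn γ = (⟨mn β ^ p, pow_mem p _⟩ : K p k) • mn γ := rfl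
  rw [h3]
  exact Submodule.smul_mem _ _ (Submodule.subset_span ⟨γ, h2, rfl⟩)

theorem isAlg (hp : 0 < p) (x : k) : IsIntegral (K p k) x := by
  refine ⟨X ^ p - C ⟨x ^ p, pow_mem p x⟩, monic_X_pow_sub_C _ hp.ne', ?_⟩
  simp only [eval₂_sub, eval₂_pow, eval₂_X, eval₂_C]
  exact sub_self _

theorem adjoin_le (hp : 0 < p) {B : Set k} {x : k} (hx : x ∈ IntermediateField.adjoin (K p k) B) :
    x ∈ Submodule.span (K p k) (mn '' E p B) := by
  have h1 : x ∈ (IntermediateField.adjoin (K p k) B).toSubalgebra := hx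
  rw [IntermediateField.adjoin_toSubalgebra_of_isAlgebraic
    (fun y _ => (isAlg hp y).isAlgebraic), ← Subalgebra.mem_toSubmodule,
    Algebra.adjoin_eq_span] at h1
  refine (Submodule.span_le.2 ?_ : Submodule.span (K p k) _ ≤ _) h1
  intro y hy
  have : ∃ α : k →₀ ℕ, (α.support : Set k) ⊆ B ∧ mn α = y := by
    classical
    induction hy using Submonoid.closure_induction with
    | mem y hy =>
      refine ⟨Finsupp.single y 1, ?_, by rw [mn_single, pow_one]⟩
      refine (Finset.coe_subset.2 Finsupp.support_single_subset).trans ?_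
      simpa using hy
    | one => exact ⟨0, by simp, mn_zero⟩
    | mul y z _ _ ihy ihz =>
      obtain ⟨α, hα, rfl⟩ := ihy
      obtain ⟨β, hβ, rfl⟩ := ihz
      refine ⟨α + β, ?_, mn_add _ _⟩
      refine (Finset.coe_subset.2 Finsupp.support_add).trans ?_
      rw [Finset.coe_union]
      exact Set.union_subset hα hβ
  obtain ⟨α, hα, rfl⟩ := this
  exact mn_mem_span hp hα

theorem mn_mem_adjoin {B : Set k} {α : k →₀ ℕ} (hα : (α.support : Set k) ⊆ B) :
    mn α ∈ IntermediateField.adjoin (K p k) B :=
  prod_mem fun b hb => pow_mem' b hb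
where
  pow_mem' (b : k) (hb : b ∈ α.support) : b ^ α b ∈ IntermediateField.adjoin (K p k) B :=
    _root_.pow_mem (IntermediateField.subset_adjoin _ _ (hα hb)) _

theorem natDegree_minpoly (hp : p.Prime) (L : IntermediateField (K p k) k) {x : k} (hx : x ∉ L) :
    (minpoly L x).natDegree = p := by
  set a : L := algebraMap (K p k) L ⟨x ^ p, pow_mem p x⟩ with ha
  have hirr : Irreducible (X ^ p - C a : L[X]) := by
    refine X_pow_sub_C_irreducible_of_prime hp ?_
    intro b hb
    apply hx
    have h1 : ((b : k)) ^ p = x ^ p := congrArg (Subtype.val : L → k) hb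
    have h2 : (b : k) = x := frobenius_inj k p h1
    rw [← h2]
    exact b.2
  have h := minpoly.eq_of_irreducible_of_monic hirr (x := x) (by
    simp only [map_sub, map_pow, aeval_X, aeval_C]
    exact sub_self _) (monic_X_pow_sub_C _ hp.ne_zero)
  rw [← h, natDegree_X_pow_sub_C]

theorem ind_insert (hp : p.Prime) {B : Set k} (hB : Ind p B) {x : k}
    (hx : x ∉ IntermediateField.adjoin (K p k) B) : Ind p (insert x B) := by
  classical
  set L := IntermediateField.adjoin (K p k) B with hL
  have hxB : x ∉ B := fun h => hx (IntermediateField.subset_adjoin _ _ h)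
  have h1 : LinearIndependent (K p k)
      (fun α : E p B => (⟨mn α.1, mn_mem_adjoin α.2.1⟩ : L)) :=
    LinearIndependent.of_comp L.val.toLinearMap hB
  have h2 : LinearIndependent L (fun i : Fin p => x ^ (i : ℕ)) := by
    have h := linearIndependent_pow (K := L) x
    have e := natDegree_minpoly hp L hx
    exact h.comp (Fin.cast e.symm) (Fin.cast_injective _)
  have h3 := linearIndependent_smul h1 h2
  have herase : ∀ γ : E p (insert x B), (γ.1.erase x) ∈ E p B := by
    intro γ
    refine ⟨?_, ?_⟩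
    · intro i hi
      have hi' : γ.1.erase x i ≠ 0 := Finsupp.mem_support_iff.1 hi
      have hix : i ≠ x := by
        rintro rfl
        exact hi' Finsupp.erase_same
      rw [Finsupp.erase_ne hix] at hi'
      have : i ∈ insert x B := γ.2.1 (by simpa using hi')
      exact this.resolve_left hix
    · intro i
      by_cases hix : i = x
      · rw [hix, Finsupp.erase_same]; exact hp.pos
      · rw [Finsupp.erase_ne hix]; exact γ.2.2 i
  have h4 := h3.comp (fun γ : E p (insert x B) =>
    ((⟨γ.1.erase x, herase γ⟩, ⟨γ.1 x, γ.2.2 x⟩) : E p B × Fin p)) (by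
      intro γ γ' h
      simp only [Prod.mk.injEq, Subtype.mk.injEq, Fin.mk.injEq] at h
      apply Subtype.ext
      rw [← Finsupp.erase_add_single x γ.1, ← Finsupp.erase_add_single x γ'.1, h.1, h.2])
  have h5 : (fun γ : E p (insert x B) => mn (γ : k →₀ ℕ)) =
      fun γ : E p (insert x B) => mn (γ.1.erase x) * x ^ (γ.1 x) := by
    funext γ
    rw [← mn_single, ← mn_add, Finsupp.erase_add_single]
  show LinearIndependent _ (fun γ : E p (insert x B) => mn (γ : k →₀ ℕ))
  rw [h5]
  exact h4

theorem exists_max (hp : p.Prime) : ∃ B : Set k, Ind p B ∧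
    ∀ x : k, x ∈ Submodule.span (K p k) (mn '' E p B) := by
  classical
  obtain ⟨B, -, hB⟩ := zorn_subset_nonempty {B : Set k | Ind p B} (by
    intro c hc hch hne
    refine ⟨⋃₀ c, ?_, fun s hs => Set.subset_sUnion_of_mem hs⟩
    have hdir : DirectedOn ((E p : Set k → Set (k →₀ ℕ)) ⁻¹'o (· ⊆ ·)) c := by
      intro s hs t ht
      obtain ⟨u, hu, h1, h2⟩ := hch.directedOn s hs t ht
      exact ⟨u, hu, fun α hα => ⟨hα.1.trans h1, hα.2⟩, fun α hα => ⟨hα.1.trans h2, hα.2⟩⟩
    refine (linearIndepOn_biUnion_of_directed (R := K p k) (v := mn) hdir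
      (fun a ha => hc ha)).mono ?_
    intro α hα
    obtain ⟨u, hu, h1⟩ := DirectedOn.exists_mem_subset_of_finset_subset_biUnion (f := fun s => s)
      hne hch.directedOn (s := α.support) (by rw [← Set.sUnion_eq_biUnion]; exact hα.1)
    exact Set.mem_biUnion hu ⟨h1, hα.2⟩) ∅ (by
      show LinearIndepOn _ _ _
      have : E p (∅ : Set k) ⊆ {0} := by
        intro α hα
        have h0 : (α.support : Set k) = ∅ := Set.subset_empty_iff.1 hα.1
        simpa using h0
      refine LinearIndepOn.mono ?_ this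
      rw [linearIndepOn_singleton_iff, mn_zero]
      exact one_ne_zero)
  refine ⟨B, hB.prop, ?_⟩
  intro x
  by_contra hx
  have hx' : x ∉ IntermediateField.adjoin (K p k) B := fun h => hx (adjoin_le hp.pos h)
  have h1 := hB.le_of_ge (ind_insert hp hB.prop hx') (Set.subset_insert x B)
  exact hx' (IntermediateField.subset_adjoin _ _ (h1 (Set.mem_insert x B)))

/-- the map `c ↦ ∑ c_α ^ (p ^ e) b ^ α` -/
noncomputable def Phi (p : ℕ) {k : Type u} [Field k] [ExpChar k p] {ι : Type u} (b : ι → k)
    (q e : ℕ) : (Bx ι q →₀ k) →+ k :=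
  Finsupp.liftAddHom fun α => (AddMonoidHom.mulRight (α.1.prod fun i m => b i ^ m)).comp
    (iterateFrobenius k p e).toAddMonoidHom

theorem Phi_single {ι : Type u} (b : ι → k) (q e : ℕ) (α : Bx ι q) (y : k) :
    Phi p b q e (Finsupp.single α y) = y ^ p ^ e * α.1.prod fun i m => b i ^ m := by
  unfold Phi
  rw [Finsupp.liftAddHom_apply_single]
  rfl

theorem Phi_apply {ι : Type u} (b : ι → k) (q e : ℕ) (c : Bx ι q →₀ k) :
    Phi p b q e c = c.sum fun α y => y ^ p ^ e * α.1.prod fun i m => b i ^ m := by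
  unfold Phi
  rw [Finsupp.liftAddHom_apply]
  rfl

/-- division with remainder of the exponents -/
noncomputable def bxEquiv (ι : Type u) (p q : ℕ) (hp : 0 < p) : Bx ι (q * p) ≃ Bx ι p × Bx ι q where
  toFun γ := (⟨γ.1.mapRange (· % p) (Nat.zero_mod _), fun i => by
      simp only [Finsupp.mapRange_apply]; exact Nat.mod_lt _ hp⟩,
    ⟨γ.1.mapRange (· / p) (Nat.zero_div _), fun i => by
      simp only [Finsupp.mapRange_apply]
      exact (Nat.div_lt_iff_lt_mul hp).2 (γ.2 i)⟩)
  invFun x := ⟨p • x.2.1 + x.1.1, fun i => by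
    simp only [Finsupp.add_apply, Finsupp.smul_apply, smul_eq_mul]
    calc p * x.2.1 i + x.1.1 i < p * x.2.1 i + p := by have := x.1.2 i; omega
      _ = (x.2.1 i + 1) * p := by ring
      _ ≤ q * p := Nat.mul_le_mul_right _ (x.2.2 i)⟩
  left_inv γ := by
    apply Subtype.ext
    ext i
    simp [Nat.div_add_mod]
  right_inv x := by
    have h1 : ∀ i, (p * x.2.1 i + x.1.1 i) % p = x.1.1 i := fun i => by
      rw [Nat.mul_add_mod, Nat.mod_eq_of_lt (x.1.2 i)]
    have h2 : ∀ i, (p * x.2.1 i + x.1.1 i) / p = x.2.1 i := fun i => by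
      rw [Nat.mul_add_div hp, Nat.div_eq_of_lt (x.1.2 i), add_zero]
    apply Prod.ext
    · apply Subtype.ext
      ext i
      simpa using h1 i
    · apply Subtype.ext
      ext i
      simpa using h2 i

theorem bijective_Phi_mul (hp : 0 < p) {ι : Type u} (b : ι → k) (q e : ℕ)
    (h1 : Function.Bijective (Phi p b p 1)) (h2 : Function.Bijective (Phi p b q e)) :
    Function.Bijective (Phi p b (q * p) (e + 1)) := by
  classical
  let F : (Bx ι (q * p) →₀ k) ≃+ k :=
    (Finsupp.domCongr (bxEquiv ι p q hp)).trans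
      (Finsupp.curryAddEquiv.trans
        ((Finsupp.mapRange.addEquiv (AddEquiv.ofBijective _ h2)).trans
          (AddEquiv.ofBijective _ h1)))
  have hF : Phi p b (q * p) (e + 1) = F.toAddMonoidHom := by
    apply Finsupp.addHom_ext
    intro γ y
    have hγ : (bxEquiv ι p q hp).symm (bxEquiv ι p q hp γ) = γ := Equiv.symm_apply_apply _ _
    set α := (bxEquiv ι p q hp γ).1 with hα
    set β := (bxEquiv ι p q hp γ).2 with hβ
    have e1 : F (Finsupp.single γ y) = Phi p b p 1 (Finsupp.single α
        (Phi p b q e (Finsupp.single β y))) := by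
      show Phi p b p 1 (Finsupp.mapRange (Phi p b q e) (map_zero _) (Finsupp.curry
        (Finsupp.equivMapDomain (bxEquiv ι p q hp) (Finsupp.single γ y)))) = _
      rw [Finsupp.equivMapDomain_single]
      show Phi p b p 1 (Finsupp.mapRange (Phi p b q e) (map_zero _) (Finsupp.curry
        (Finsupp.single (α, β) y))) = _
      rw [Finsupp.curry_single, Finsupp.mapRange_single]
    show _ = F (Finsupp.single γ y)
    rw [e1, Phi_single, Phi_single, Phi_single, ← hγ]
    show _ = (y ^ p ^ e * _) ^ p ^ 1 * _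
    have e2 : (((bxEquiv ι p q hp).symm (α, β)).1.prod fun i m => b i ^ m) =
        (β.1.prod fun i m => b i ^ m) ^ p * α.1.prod fun i m => b i ^ m := by
      show ((p • β.1 + α.1).prod fun i m => b i ^ m) = _
      rw [Finsupp.prod_add_index' (fun _ => pow_zero _) (fun _ _ _ => pow_add _ _ _)]
      congr 1
      rw [Finsupp.prod_of_support_subset (s := β.1.support) _ Finsupp.support_smul _
        (fun _ _ => pow_zero _), Finsupp.prod, ← Finset.prod_pow]
      refine Finset.prod_congr rfl fun i _ => ?_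
      rw [Finsupp.smul_apply, smul_eq_mul, mul_comm, pow_mul]
    rw [show ((α, β) : Bx ι p × Bx ι q) = bxEquiv ι p q hp γ from rfl] at e2
    rw [e2, pow_one, mul_pow, ← pow_mul, pow_succ, mul_assoc]
  rw [hF]
  exact F.bijective

theorem bijective_Phi_one (hp : 0 < p) {B : Set k} (hB : Ind p B)
    (hs : ∀ x : k, x ∈ Submodule.span (K p k) (mn '' E p B)) :
    Function.Bijective (Phi p (fun i : B => (i : k)) p 1) := by
  classical
  set v : Bx B p → k := fun α => α.1.prod fun i m => (i : k) ^ m with hv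
  have hemb : ∀ α : Bx B p, α.1.embDomain (Function.Embedding.subtype _) ∈ E p B := by
    intro α
    refine ⟨?_, ?_⟩
    · rw [Finsupp.support_embDomain]
      intro i hi
      obtain ⟨j, -, rfl⟩ := Finset.mem_map.1 (Finset.mem_coe.1 hi)
      exact j.2
    · intro i
      by_cases hi : i ∈ B
      · have := Finsupp.embDomain_apply_self (Function.Embedding.subtype (· ∈ B)) α.1 ⟨i, hi⟩
        have h2 := α.2 ⟨i, hi⟩
        rw [← this] at h2
        exact h2
      · rw [Finsupp.embDomain_of_notMem_range _ _ _ (by simpa using hi)]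
        exact hp
  have hval : ∀ α : Bx B p, mn (α.1.embDomain (Function.Embedding.subtype _)) = v α := by
    intro α
    unfold mn
    rw [Finsupp.prod_embDomain]
    rfl
  have hli : LinearIndependent (K p k) v := by
    have h1 := LinearIndependent.comp hB (fun α : Bx B p => (⟨_, hemb α⟩ : E p B)) (by
      intro α β h
      simp only [Subtype.mk.injEq] at h
      exact Subtype.ext (Finsupp.embDomain_injective _ h))
    have h2 : v = fun α : Bx B p => mn (α.1.embDomain (Function.Embedding.subtype _)) := by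
      funext α
      rw [hval]
    rw [h2]
    exact h1
  have hsp : ⊤ ≤ Submodule.span (K p k) (Set.range v) := by
    rintro x -
    refine Submodule.span_mono ?_ (hs x)
    rintro _ ⟨γ, hγ, rfl⟩
    refine ⟨⟨γ.subtypeDomain (· ∈ B), fun i => hγ.2 i⟩, ?_⟩
    rw [← hval]
    congr 1
    show Finsupp.embDomain (Function.Embedding.subtype _) (γ.subtypeDomain (· ∈ B)) = γ
    rw [← Finsupp.extendDomain_eq_embDomain_subtype]
    exact Finsupp.extendDomain_subtypeDomain γ fun a ha => hγ.1 ha
  let bs := Module.Basis.mk hli hsp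
  let Fr : k →+* K p k := (frobenius k p).rangeRestrictField
  have hFr : Function.Bijective Fr := by
    refine ⟨Fr.injective, ?_⟩
    rintro ⟨_, ⟨y, rfl⟩⟩
    exact ⟨y, rfl⟩
  let G : (Bx B p →₀ k) ≃+ (Bx B p →₀ K p k) :=
    Finsupp.mapRange.addEquiv (RingEquiv.ofBijective Fr hFr).toAddEquiv
  have h : (Phi p (fun i : B => (i : k)) p 1 : (Bx B p →₀ k) → k) = bs.repr.symm ∘ G := by
    funext c
    rw [Function.comp_apply, Phi_apply, Module.Basis.repr_symm_apply,
      Finsupp.linearCombination_apply]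
    show _ = (Finsupp.mapRange Fr (map_zero _) c).sum _
    rw [Finsupp.sum_mapRange_index (h := fun α (a : K p k) => a • bs α)
      (fun α => zero_smul (K p k) (bs α))]
    refine Finsupp.sum_congr fun α _ => ?_
    rw [Module.Basis.mk_apply, pow_one]
    rfl
  rw [h]
  exact bs.repr.symm.bijective.comp G.bijective

theorem bijective_Phi (hp : 0 < p) {ι : Type u} (b : ι → k)
    (h1 : Function.Bijective (Phi p b p 1)) (e : ℕ) :
    Function.Bijective (Phi p b (p ^ e) e) := by
  induction e with
  | zero =>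
    rw [pow_zero]
    have h0 : ∀ α : Bx ι 1, α = ⟨0, fun _ => Nat.zero_lt_one⟩ := fun α => by
      apply Subtype.ext
      ext i
      have := α.2 i
      show α.1 i = 0
      omega
    have hs : ∀ c : Bx ι 1 →₀ k, c = Finsupp.single ⟨0, fun _ => Nat.zero_lt_one⟩
        (c ⟨0, fun _ => Nat.zero_lt_one⟩) := fun c => by
      ext α
      rw [h0 α, Finsupp.single_eq_same]
    have hv : ∀ c : Bx ι 1 →₀ k, Phi p b 1 0 c = c ⟨0, fun _ => Nat.zero_lt_one⟩ := fun c => by
      conv_lhs => rw [hs c]
      rw [Phi_single]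
      simp
    refine ⟨?_, ?_⟩
    · intro c c' h
      rw [hv, hv] at h
      rw [hs c, hs c', h]
    · intro y
      refine ⟨Finsupp.single ⟨0, fun _ => Nat.zero_lt_one⟩ y, ?_⟩
      rw [hv, Finsupp.single_eq_same]
  | succ e ih =>
    rw [pow_succ]
    exact bijective_Phi_mul hp b (p ^ e) e h1 ih

end

end PB

/-- every field of characteristic `p` has a `p`-basis -/
theorem exists_pbasis (p : ℕ) [Fact p.Prime] (k : Type u) [Field k] [CharP k p] :
    ∃ (ι : Type u) (b : ι → k), IsPBasis p b := by
  classical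
  have hp : p.Prime := Fact.out
  have : ExpChar k p := ExpChar.prime hp
  obtain ⟨B, hB, hs⟩ := PB.exists_max (k := k) hp
  refine ⟨B, fun i => (i : k), ?_, ?_⟩
  · rintro ⟨i, hi⟩ h0
    have h0' : i = 0 := h0
    subst h0'
    have hE : Finsupp.single (0 : k) 1 ∈ PB.E p B := by
      refine ⟨?_, ?_⟩
      · refine (Finset.coe_subset.2 Finsupp.support_single_subset).trans ?_
        simpa using hi
      · intro j
        refine lt_of_le_of_lt ?_ hp.one_lt
        rw [Finsupp.single_apply]
        split_ifs <;> omega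
    have h1 := LinearIndepOn.ne_zero hB hE
    rw [PB.mn_single, pow_one] at h1
    exact h1 rfl
  · intro e x
    obtain ⟨c, hc, hu⟩ :=
      (PB.bijective_Phi hp.pos _ (PB.bijective_Phi_one hp.pos hB hs) e).existsUnique x
    exact ⟨c, (PB.Phi_apply _ _ _ c).symm.trans hc,
      fun c' hc' => hu c' ((PB.Phi_apply _ _ _ c').trans hc')⟩

end Vale.Agent.P202.Mix
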