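import Vale.Agent.P202.Mix.Cohen
import Vale.Agent.P202.Mix.GonA
import Vale.Agent.P202.Mix.PBasis
import Vale.Agent.P202.Mix.Cohen7

/-!
P202, mixed characteristic: the base of a complete local domain (assembly).
-/

namespace Vale.Agent.P202.Mix

open IsLocalRing

universe u

/-- divisibility by the powers of `p` in `Cr[[X]]`. -/
theorem powerSeries_p_adic (p : ℕ) {Cr : Type*} [CommRing Cr] [IsDomain Cr]
    [IsLocalRing Cr] [IsNoetherianRing Cr] (hCr : maximalIdeal Cr = Ideal.span {(p : Cr)}) {r : ℕ}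
    (g : MvPowerSeries (Fin r) Cr) (hg : g ≠ 0) :
    ∃ (n : ℕ) (g' : MvPowerSeries (Fin r) Cr),
      g = (p : MvPowerSeries (Fin r) Cr) ^ n * g' ∧
      g' ∉ Ideal.span {(p : MvPowerSeries (Fin r) Cr)} := by
  obtain ⟨d, hd⟩ : ∃ d, MvPowerSeries.coeff d g ≠ 0 := by
    by_contra hcon
    push Not at hcon
    exact hg (MvPowerSeries.ext fun n => by rw [hcon n, map_zero])
  have hnu : ¬ IsUnit (p : Cr) := by
    intro h
    have h1 : (p : Cr) ∈ maximalIdeal Cr := by
      rw [hCr]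
      exact Ideal.mem_span_singleton_self _
    exact (mem_maximalIdeal _).mp h1 h
  have hfin : FiniteMultiplicity (p : Cr) (MvPowerSeries.coeff d g) :=
    FiniteMultiplicity.of_not_isUnit hnu hd
  have hfin' : FiniteMultiplicity (p : MvPowerSeries (Fin r) Cr) g := by
    obtain ⟨n, hn⟩ := hfin
    refine ⟨n, fun h => hn ?_⟩
    obtain ⟨h', rfl⟩ := h
    refine ⟨MvPowerSeries.coeff d h', ?_⟩
    have h2 : (p : MvPowerSeries (Fin r) Cr) ^ (n + 1) = MvPowerSeries.C ((p : Cr) ^ (n + 1)) := by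
      rw [map_pow, map_natCast]
    rw [h2, MvPowerSeries.coeff_C_mul]
  obtain ⟨c, hc1, hc2⟩ := hfin'.exists_eq_pow_mul_and_not_dvd
  exact ⟨_, c, hc1, fun h => hc2 (Ideal.mem_span_singleton.mp h)⟩

/-- TASK M17-0: the base of a complete local domain of mixed characteristic. -/
theorem exists_base (p : ℕ) [Fact p.Prime] {A : Type u} [CommRing A] [IsDomain A] [IsLocalRing A]
    [IsNoetherianRing A] [CharZero A] [CharP (ResidueField A) p]
    [IsAdicComplete (maximalIdeal A) A] [Infinite (ResidueField A)] {r : ℕ}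
    (hdim : ringKrullDim A = (r + 1 : ℕ)) :
    ∃ (k : Type u) (_ : Field k) (_ : CharP k p) (_ : Infinite k)
      (Λ : Type u) (_ : CommRing Λ) (_ : IsDomain Λ) (_ : IsLocalRing Λ) (_ : Algebra Λ A)
      (_ : IsLocalHom (algebraMap Λ A)) (_ : Module.Finite Λ A)
      (u : Fin r → Λ) (ψ : Λ →+* WittVector p (Rp p k r))
      (red : Λ →+* R0 k r ⧸ Ideal.span {(MvPowerSeries.X 0 : R0 k r)})
      (ι : Type u) (b : ι → Λ) (β : ι → k) (res : ResidueField Λ →+* k)
      (s : ℕ) (a : Fin s → A),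
      IsBaseX p k r u ψ red b β res ∧ Function.Injective (algebraMap Λ A) ∧
      (∀ g : Λ, g ≠ 0 → ∃ (n : ℕ) (g' : Λ), g = (p : Λ) ^ n * g' ∧ g' ∉ Ideal.span {(p : Λ)}) ∧
      Ideal.span (Set.range a) = maximalIdeal A ∧
      (∀ x : A, ∃ (l : Λ) (c : Fin s → Λ), x = algebraMap Λ A l + ∑ j, algebraMap Λ A (c j) * a j) ∧
      ∃ M : ℕ, maximalIdeal A ^ M ≤ (maximalIdeal Λ).map (algebraMap Λ A) := by
  obtain ⟨ι, b, hb⟩ := exists_pbasis p (ResidueField A)
  obtain ⟨Cr, iC, iD, iV, iA, χ, κ, π, β, hCr, hπ, hπk, hπχ, hχ, hκ, hκβ, hχβ⟩ :=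
    exists_cohen p (A := A) hb
  have hpA : (p : A) ∈ maximalIdeal A := by
    rw [← residue_eq_zero_iff, map_natCast, CharP.cast_eq_zero]
  obtain ⟨φ, hφC, hφfin, hφinj, hφX, ⟨M, hM⟩, s, a, ha1, ha2⟩ :=
    exists_noether_norm p hCr hpA χ hχ hdim
  obtain ⟨ψ, red, res, hbase⟩ := exists_baseX p r hCr π hπ hπk κ hκ hb β hκβ
  let _ : Algebra (MvPowerSeries (Fin r) Cr) A := φ.toAlgebra
  have hdom : IsDomain (MvPowerSeries (Fin r) Cr) := NoZeroDivisors.to_isDomain _
  have halg : algebraMap (MvPowerSeries (Fin r) Cr) A = φ := rfl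
  have hmax := maximalIdeal_powerSeries p (r := r) hCr
  have hle : maximalIdeal (MvPowerSeries (Fin r) Cr) ≤ (maximalIdeal A).comap φ := by
    rw [hmax, Ideal.span_le]
    rintro l (rfl | ⟨i, rfl⟩)
    · rw [SetLike.mem_coe, Ideal.mem_comap, map_natCast]
      exact hpA
    · exact hφX i
  have hloc : IsLocalHom (algebraMap (MvPowerSeries (Fin r) Cr) A) := by
    refine ⟨fun l hl => ?_⟩
    by_contra hcon
    exact (mem_maximalIdeal _).mp (hle ((mem_maximalIdeal _).mpr hcon)) hl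
  refine ⟨PerfectClosure (ResidueField A) p, inferInstance, inferInstance,
    Infinite.of_injective (PerfectClosure.of (ResidueField A) p) (RingHom.injective _),
    MvPowerSeries (Fin r) Cr, inferInstance, hdom, inferInstance, φ.toAlgebra, hloc,
    hφfin, _, ψ, red, ι, _, _, res, s, a, hbase, hφinj,
    fun g hg => powerSeries_p_adic p hCr g hg, ha1, ha2, M, hM.trans ?_⟩
  rw [hmax, Ideal.map_span, Ideal.span_le]
  rintro x (rfl | ⟨i, rfl⟩)
  · refine Ideal.subset_span ⟨(p : MvPowerSeries (Fin r) Cr), Set.mem_insert _ _, ?_⟩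
    rw [map_natCast]
  · exact Ideal.subset_span ⟨MvPowerSeries.X i, Set.mem_insert_of_mem _ ⟨i, rfl⟩, rfl⟩

end Vale.Agent.P202.Mix
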