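import Vale.Agent.P202.Mix.GeoDefs

/-!
P202-MIX, part GEO, task C1: lengths of the Koszul cycles of a nilpotent representation.
-/

namespace Vale.Agent.P202.Mix

open Vale.Agent.P202.CharP
open scoped ENNReal

universe u

namespace RepLen

section Len

variable {R : Type u} [CommRing R] (L : AddLen R) {M N : Type u} [AddCommGroup M] [Module R M]
  [AddCommGroup N] [Module R N]

theorem len_sub (h : Subsingleton M) : L.len M = 0 := by
  have h1 := L.add (M := M) (N := PUnit.{u + 1}) (K := PUnit.{u + 1})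
    (0 : M →ₗ[R] PUnit.{u + 1}) LinearMap.id (fun a b _ => Subsingleton.elim a b)
    (fun a => ⟨a, rfl⟩) (fun y => ⟨fun _ => ⟨0, Subsingleton.elim _ _⟩, fun _ =>
      Subsingleton.elim _ _⟩)
  rw [L.zero, add_zero] at h1
  exact h1.symm

theorem len_eq_of_bij (f : M →ₗ[R] N) (hi : Function.Injective f)
    (hs : Function.Surjective f) : L.len M = L.len N := by
  have h1 := L.add (M := M) (N := N) (K := PUnit.{u + 1}) f 0 hi
    (fun a => ⟨0, Subsingleton.elim _ _⟩)
    (fun y => ⟨fun _ => hs y, fun _ => Subsingleton.elim _ _⟩)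
  rw [L.zero, add_zero] at h1
  exact h1.symm

/-- the length of `M` from a map with null cokernel. -/
theorem len_of_rl {X Y : Submodule R M} (hXY : X ≤ Y) (h : L.rl X Y = 0) :
    L.len Y = L.len X := by
  have h1 := L.add (M := ↥(X.submoduleOf Y)) (N := ↥Y) (K := ↥Y ⧸ X.submoduleOf Y)
    (X.submoduleOf Y).subtype (X.submoduleOf Y).mkQ (Submodule.subtype_injective _)
    (Submodule.mkQ_surjective _) (LinearMap.exact_subtype_mkQ _)
  unfold AddLen.rl at h
  rw [h, add_zero] at h1
  rw [h1]
  refine len_eq_of_bij L ((Submodule.submoduleOfEquivOfLe hXY).toLinearMap)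
    (Submodule.submoduleOfEquivOfLe hXY).injective (Submodule.submoduleOfEquivOfLe hXY).surjective

/-- the length of a submodule from its image and its kernel. -/
theorem len_map {K : Type u} [AddCommGroup K] [Module R K] (X : Submodule R M)
    (Z : Submodule R K) (j : K →ₗ[R] M) (f : M →ₗ[R] N) (hj : Function.Injective j)
    (hZ : ∀ z ∈ Z, j z ∈ X) (hf : ∀ z, f (j z) = 0)
    (hex : ∀ v ∈ X, f v = 0 → ∃ z ∈ Z, j z = v) :
    L.len X = L.len Z + L.len ↥(X.map f) := by
  refine L.add (M := ↥Z) (N := ↥X) (K := ↥(X.map f)) (j.restrict hZ)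
    (f.restrict fun v hv => Submodule.mem_map_of_mem hv) ?_ ?_ ?_
  · intro a b hab
    have := congrArg Subtype.val hab
    exact Subtype.ext (hj this)
  · rintro ⟨y, hy⟩
    obtain ⟨v, hv, rfl⟩ := hy
    exact ⟨⟨v, hv⟩, rfl⟩
  · rintro ⟨v, hv⟩
    constructor
    · intro h
      obtain ⟨z, hz, hzv⟩ := hex v hv (congrArg Subtype.val h)
      exact ⟨⟨z, hz⟩, Subtype.ext hzv⟩
    · rintro ⟨⟨z, hz⟩, h⟩
      apply Subtype.ext
      have h1 : j z = v := congrArg Subtype.val h
      change f v = 0
      rw [← h1]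
      exact hf z

end Len

section Mat

variable {R : Type u} [CommRing R] {M : Type u} [AddCommGroup M] [Module R M]
  {α β γ : Type} [Fintype β] [Fintype γ]

theorem za_mul (A : Matrix α β ℤ) (B : Matrix β γ ℤ) (f : γ → M) :
    za (A * B) R M f = za A R M (za B R M f) := by
  ext a
  simp only [za, LinearMap.coe_mk, AddHom.coe_mk, Matrix.mul_apply, Finset.sum_smul,
    Finset.smul_sum, mul_smul]
  exact Finset.sum_comm

end Mat

section Ker

variable {n : ℕ} (W : MRep n)

/-- a common kernel vector of the endomorphisms. -/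
theorem exists_ker {q : ℕ} (hW : W.IsNil q) (h : Nonempty W.ι) :
    ∃ v : W.ι → ℤ, v ≠ 0 ∧ ∀ l, (W.X l).mulVec v = 0 := by
  by_contra hc
  push Not at hc
  have key : ∀ k : ℕ, ∃ (f : Fin k → Fin n) (v : W.ι → ℤ),
      ((List.ofFn fun i => W.X (f i)).prod).mulVec v ≠ 0 := by
    intro k
    induction k with
    | zero =>
      obtain ⟨a⟩ := h
      refine ⟨Fin.elim0, Pi.single a 1, ?_⟩
      rw [List.ofFn_zero, List.prod_nil, Matrix.one_mulVec]
      intro h0
      have := congrFun h0 a
      simp at this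
    | succ k ih =>
      obtain ⟨f, v, hv⟩ := ih
      obtain ⟨l, hl⟩ := hc _ hv
      refine ⟨Fin.cons l f, v, ?_⟩
      rw [List.ofFn_succ]
      simpa [Matrix.mulVec_mulVec] using hl
  obtain ⟨f, v, hv⟩ := key q
  rw [hW.nil f] at hv
  simp at hv

/-- a basis containing a common kernel vector. -/
theorem exists_basis {q : ℕ} (hW : W.IsNil q) (h : Nonempty W.ι) :
    ∃ (b : Module.Basis W.ι ℤ (W.ι → ℤ)) (a : W.ι), ∀ l, (W.X l).mulVec (b a) = 0 := by
  obtain ⟨v, hv, hv'⟩ := exists_ker W hW h
  let N : Submodule ℤ (W.ι → ℤ) := ⨅ l, LinearMap.ker (W.X l).mulVecLin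
  have hN : ∀ w, w ∈ N ↔ ∀ l, (W.X l).mulVec w = 0 := by
    intro w
    simp [N, Submodule.mem_iInf]
  obtain ⟨m, S⟩ := Submodule.smithNormalForm (Pi.basisFun ℤ W.ι) N
  have hm : 0 < m := by
    rcases Nat.eq_zero_or_pos m with h0 | h0
    · subst h0
      exfalso
      have hb := S.bN.ext_elem (x := (⟨v, (hN v).2 hv'⟩ : N)) (y := 0) (fun i => i.elim0)
      exact hv (congrArg Subtype.val hb)
    · exact h0
  refine ⟨S.bM, S.f ⟨0, hm⟩, fun l => ?_⟩
  have h1 := S.snf ⟨0, hm⟩
  have h2 : ((S.bN ⟨0, hm⟩ : N) : W.ι → ℤ) ∈ N := (S.bN ⟨0, hm⟩).2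
  have h3 : S.a ⟨0, hm⟩ ≠ 0 := by
    intro h0
    rw [h0, zero_smul] at h1
    exact S.bN.ne_zero ⟨0, hm⟩ (Subtype.ext h1)
  rw [h1, hN] at h2
  have h4 := h2 l
  rw [Matrix.mulVec_smul] at h4
  exact (smul_eq_zero.mp h4).resolve_left h3

/-- splitting off a trivial representation of rank one. -/
theorem exists_split {q : ℕ} (hW : W.IsNil q) (h : Nonempty W.ι) :
    ∃ (W' : MRep n) (f : W.Surj W') (e : Matrix W.ι Unit ℤ) (ρ : Matrix Unit W.ι ℤ),
      W'.IsNil q ∧ Fintype.card W.ι = 1 + Fintype.card W'.ι ∧ (∀ l, W.X l * e = 0) ∧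
      f.P * e = 0 ∧ ρ * e = 1 ∧ e * ρ + f.σ * f.P = 1 := by
  obtain ⟨b, a, hb⟩ := exists_basis W hW h
  -- the two base change matrices
  let B : Matrix W.ι W.ι ℤ := Matrix.of fun c j => b j c
  let C : Matrix W.ι W.ι ℤ := Matrix.of fun j c => b.repr (Pi.single c 1) j
  have hB : B = (Pi.basisFun ℤ W.ι).toMatrix b := by
    ext c j
    simp [B, Module.Basis.toMatrix_apply]
  have hC : C = b.toMatrix (Pi.basisFun ℤ W.ι) := by
    ext c j
    simp [C, Module.Basis.toMatrix_apply]
  have hCB : C * B = 1 := by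
    rw [hB, hC]
    exact Module.Basis.toMatrix_mul_toMatrix_flip _ _
  have hBC : B * C = 1 := by
    rw [hB, hC]
    exact Module.Basis.toMatrix_mul_toMatrix_flip _ _
  let P : Matrix {j // j ≠ a} W.ι ℤ := Matrix.of fun j c => C j c
  let σ : Matrix W.ι {j // j ≠ a} ℤ := Matrix.of fun c j => B c j
  let e : Matrix W.ι Unit ℤ := Matrix.of fun c _ => B c a
  let ρ : Matrix Unit W.ι ℤ := Matrix.of fun _ c => C a c
  have hPσ : P * σ = 1 := by
    ext i j
    have h1 := congrFun (congrFun hCB i.1) j.1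
    rw [Matrix.mul_apply] at h1
    rw [Matrix.mul_apply]
    change ∑ c, C i.1 c * B c j.1 = _
    rw [h1, Matrix.one_apply, Matrix.one_apply]
    simp only [Subtype.ext_iff]
  have hPe : P * e = 0 := by
    ext i j
    have h1 := congrFun (congrFun hCB i.1) a
    rw [Matrix.mul_apply] at h1
    rw [Matrix.mul_apply]
    change ∑ c, C i.1 c * B c a = _
    rw [h1, Matrix.one_apply_ne i.2]
    rfl
  have hρe : ρ * e = 1 := by
    ext i j
    have h1 := congrFun (congrFun hCB a) a
    rw [Matrix.mul_apply] at h1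
    rw [Matrix.mul_apply]
    change ∑ c, C a c * B c a = _
    rw [h1]
    simp
  have hsum : e * ρ + σ * P = 1 := by
    rw [← hBC]
    ext c d
    rw [Matrix.add_apply, Matrix.mul_apply, Matrix.mul_apply, Matrix.mul_apply]
    rw [Fintype.sum_unique]
    change B c a * C a d + ∑ j : {j // j ≠ a}, B c j * C j d = _
    rw [Fintype.sum_eq_add_sum_subtype_ne (fun j => B c j * C j d) a]
  have hXe : ∀ l, W.X l * e = 0 := by
    intro l
    ext c j
    have h1 := congrFun (hb l) c
    exact h1
  have hcomm : ∀ l, P * W.X l = (P * W.X l * σ) * P := by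
    intro l
    have h1 : σ * P = 1 - e * ρ := by rw [← hsum]; abel
    rw [Matrix.mul_assoc, h1, Matrix.mul_sub, Matrix.mul_one, Matrix.mul_assoc P,
      ← Matrix.mul_assoc (W.X l), hXe, Matrix.zero_mul, Matrix.mul_zero, sub_zero]
  let W' : MRep n := { ι := {j // j ≠ a}, X := fun l => P * W.X l * σ }
  have hcomm' : ∀ l, P * W.X l = W'.X l * P := hcomm
  refine ⟨W', ⟨P, σ, hPσ, hcomm⟩, e, ρ, ⟨?_, ?_⟩, ?_, hXe, hPe, hρe, hsum⟩
  · intro k l
    change W'.X k * W'.X l = W'.X l * W'.X k
    have h1 : ∀ k l, W'.X k * W'.X l = P * (W.X k * W.X l) * σ := by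
      intro k l
      change W'.X k * (P * W.X l * σ) = _
      rw [← Matrix.mul_assoc, ← Matrix.mul_assoc, ← hcomm', Matrix.mul_assoc P]
    rw [h1, h1, hW.comm]
  · intro f
    have h1 : ∀ (k : ℕ) (f : Fin k → Fin n), (List.ofFn fun i => W'.X (f i)).prod =
        P * (List.ofFn fun i => W.X (f i)).prod * σ := by
      intro k
      induction k with
      | zero =>
        intro f
        simp only [List.ofFn_zero, List.prod_nil, Matrix.mul_one]
        exact hPσ.symm
      | succ k ih =>
        intro f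
        rw [List.ofFn_succ, List.ofFn_succ, List.prod_cons, List.prod_cons,
          ih (fun i => f i.succ), ← Matrix.mul_assoc, ← Matrix.mul_assoc, ← hcomm',
          Matrix.mul_assoc P]
    rw [h1, hW.nil, Matrix.mul_zero, Matrix.zero_mul]
  · change Fintype.card W.ι = 1 + Fintype.card {j // j ≠ a}
    rw [Fintype.card_subtype_compl, Fintype.card_subtype_eq]
    have := Fintype.card_pos (α := W.ι)
    omega

end Ker

section Kz

variable {R : Type u} [CommRing R] {V V' : Type u} [AddCommGroup V] [Module R V]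
  [AddCommGroup V'] [Module R V'] {n : ℕ}

theorem kz_map (T : Fin n → V →ₗ[R] V) (T' : Fin n → V' →ₗ[R] V') (f : V →ₗ[R] V')
    (h : ∀ l v, f (T l v) = T' l (f v)) (v : Finset (Fin n) → V) :
    kz T' (kmap n f v) = kmap n f (kz T v) := by
  ext J
  simp only [kz, kmap, LinearMap.coe_mk, AddHom.coe_mk, LinearMap.pi_apply,
    LinearMap.coe_comp, Function.comp_apply, LinearMap.proj_apply, map_sum, map_zsmul, h]

theorem kcyc_map (T : Fin n → V →ₗ[R] V) (T' : Fin n → V' →ₗ[R] V') (f : V →ₗ[R] V')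
    (h : ∀ l v, f (T l v) = T' l (f v)) (i : ℤ) (v : Finset (Fin n) → V) (hv : v ∈ kcyc T i) :
    kmap n f v ∈ kcyc T' i := by
  refine ⟨fun J hJ => hv.1 J ?_, ?_⟩
  · intro h0
    apply hJ
    change f (v J) = 0
    rw [h0, map_zero]
  · have h1 : kz T v = 0 := hv.2
    change kz T' (kmap n f v) = 0
    rw [kz_map T T' f h, h1, map_zero]

end Kz

end RepLen

open RepLen

variable {R : Type u} [CommRing R] (L : AddLen R) {n q : ℕ} (Q : Type u) [AddCommGroup Q]
  [Module R Q] (x : Fin n → R)

theorem len_cyc_rep (hfin : L.len Q ≠ ⊤) (hCL : CLnull L n q Q x) (hq : 1 ≤ q) (W : MRep n)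
    (hW : W.IsNil q) (i : ℤ) :
    L.len ↥(kcyc (W.T Q x) i) =
      Fintype.card W.ι * L.len ↥(kcyc (fun l => -(x l • (LinearMap.id : Q →ₗ[R] Q))) i) := by
  obtain ⟨m, hm⟩ : ∃ m, Fintype.card W.ι = m := ⟨_, rfl⟩
  induction m generalizing W with
  | zero =>
    have : IsEmpty W.ι := Fintype.card_eq_zero_iff.mp hm
    rw [hm, Nat.cast_zero, zero_mul]
    exact len_sub L inferInstance
  | succ m ih =>
    have hne : Nonempty W.ι := Fintype.card_pos_iff.mp (by omega)
    obtain ⟨W', f, e, ρ, hW', hcard, hXe, hPe, hρe, hsum⟩ := exists_split W hW hne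
    have ih' := ih W' hW' (by omega)
    have hnull := hCL W W' hW hW' f i
    -- the rank one trivial representation inside `W`
    let j : Q →ₗ[R] (W.ι → Q) := za e R Q ∘ₗ LinearMap.pi fun _ : Unit => LinearMap.id
    let r : (W.ι → Q) →ₗ[R] Q := LinearMap.proj () ∘ₗ za ρ R Q
    have hrj : ∀ v, r (j v) = v := by
      intro v
      have h1 := za_mul (R := R) ρ e (fun _ : Unit => v)
      rw [hρe] at h1
      have h2 := congrFun h1 ()
      change r (j v) = v
      have h3 : r (j v) = za ρ R Q (za e R Q fun _ => v) () := rfl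
      rw [h3, ← h2]
      simp [za]
    have hTj : ∀ l v, j (-(x l • (LinearMap.id : Q →ₗ[R] Q)) v) = W.T Q x l (j v) := by
      intro l v
      have h1 := za_mul (R := R) (W.X l) e (fun _ : Unit => v)
      rw [hXe] at h1
      have h2 : za (W.X l) R Q (j v) = 0 := by
        have h3 : za (W.X l) R Q (j v) = za (W.X l) R Q (za e R Q fun _ => v) := rfl
        rw [h3, ← h1]
        ext c
        simp [za]
      simp only [MRep.T, LinearMap.sub_apply, LinearMap.smul_apply, LinearMap.id_apply, h2,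
        zero_sub, map_neg, map_smul]
    have hPj : ∀ v, za f.P R Q (j v) = 0 := by
      intro v
      have h1 := za_mul (R := R) f.P e (fun _ : Unit => v)
      rw [hPe] at h1
      have h3 : za f.P R Q (j v) = za f.P R Q (za e R Q fun _ => v) := rfl
      rw [h3, ← h1]
      ext c
      simp [za]
    have hker : ∀ v, za f.P R Q v = 0 → j (r v) = v := by
      intro v hv
      have h1 := za_mul (R := R) e ρ v
      have h2 := za_mul (R := R) f.σ f.P v
      rw [hv, map_zero] at h2
      have h3 : za (e * ρ + f.σ * f.P) R Q v = v := by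
        rw [hsum]
        ext c
        simp [za, Matrix.one_apply]
      have h4 : za (e * ρ + f.σ * f.P) R Q v = za (e * ρ) R Q v + za (f.σ * f.P) R Q v := by
        ext c
        simp [za, add_smul, Finset.sum_add_distrib]
      rw [h4, h1, h2, add_zero] at h3
      exact h3
    have hPT : ∀ l v, za f.P R Q (W.T Q x l v) = W'.T Q x l (za f.P R Q v) := by
      intro l v
      simp only [MRep.T, LinearMap.sub_apply, LinearMap.smul_apply, LinearMap.id_apply, map_sub,
        map_smul]
      rw [← za_mul, ← za_mul, f.comm]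
    have h1 := len_map L (kcyc (W.T Q x) i)
      (kcyc (fun l => -(x l • (LinearMap.id : Q →ₗ[R] Q))) i) (kmap n j)
      (kmap n (za f.P R Q)) ?_ ?_ ?_ ?_
    · have h2 : (kcyc (W.T Q x) i).map (kmap n (za f.P R Q)) ≤ kcyc (W'.T Q x) i := by
        rintro _ ⟨v, hv, rfl⟩
        exact kcyc_map _ _ _ hPT i v hv
      have h3 := len_of_rl L h2 hnull
      rw [h1, ← h3, ih', hcard, Nat.cast_add, Nat.cast_one, add_mul, one_mul]
    · intro v w hvw
      ext J
      have h2 := congrArg (fun u => r (u J)) hvw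
      change r (j (v J)) = r (j (w J)) at h2
      rwa [hrj, hrj] at h2
    · intro z hz
      exact kcyc_map _ _ _ hTj i z hz
    · intro z
      ext J : 1
      exact hPj (z J)
    · intro v hv hv0
      have h2 : ∀ J, j (r (v J)) = v J := fun J => hker _ (congrFun hv0 J)
      have h3 : kmap n j (kmap n r v) = v := by
        ext J : 1
        exact h2 J
      refine ⟨kmap n r v, ⟨fun J hJ => hv.1 J ?_, ?_⟩, h3⟩
      · intro h0
        apply hJ
        change r (v J) = 0
        rw [h0, map_zero]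
      · have h4 : kz (W.T Q x) v = 0 := hv.2
        have h5 := kz_map (fun l => -(x l • (LinearMap.id : Q →ₗ[R] Q))) (W.T Q x) j hTj
          (kmap n r v)
        rw [h3, h4] at h5
        change kz (fun l => -(x l • (LinearMap.id : Q →ₗ[R] Q))) (kmap n r v) = 0
        ext J : 1
        have h6 := congrArg (fun u => r (u J)) h5
        change r 0 = r (j (kz (fun l => -(x l • (LinearMap.id : Q →ₗ[R] Q)))
          (kmap n r v) J)) at h6
        rw [hrj, map_zero] at h6
        exact h6.symm

end Vale.Agent.P202.Mix
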