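import Vale.Agent.P202.Mix.HonDefs
import Vale.Agent.P202.Mix.RepLen

/-!
P202-MIX, bridge BR-1: elements of `(z)^w` kill `(W ⊗ V)/(X - z)` for `w`-nilpotent `W`.
-/

namespace Vale.Agent.P202.Mix

open Vale.Agent.P202.CharP
open scoped ENNReal

universe u

section Br1

variable {R : Type u} [CommRing R] {V : Type u} [AddCommGroup V] [Module R V] {n : ℕ}

private theorem br1_T_mem (z : Fin n → R) (W : MRep n) (l : Fin n) (x : W.ι → V) :
    z l • x - za (W.X l) R V x ∈ trg (W.T V z) := by
  have h1 : z l • x - za (W.X l) R V x = W.T V z l (-x) := by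
    simp only [MRep.T, LinearMap.sub_apply, LinearMap.smul_apply, LinearMap.id_apply, map_neg]
    abel
  rw [h1]
  exact Submodule.mem_iSup_of_mem l (LinearMap.mem_range_self _ _)

/-- modulo the images of the `X_l - z_l`, powers of `(z)` act through words in the `X_l`. -/
private theorem br1_pow (z : Fin n → R) (W : MRep n) (k : ℕ) :
    Ideal.span (Set.range z) ^ k • (⊤ : Submodule R (W.ι → V)) ≤
      trg (W.T V z) ⊔ ⨆ f : Fin k → Fin n,
        LinearMap.range (za (List.ofFn fun i => W.X (f i)).prod R V) := by
  induction k with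
  | zero =>
    intro x _
    refine Submodule.mem_sup_right (Submodule.mem_iSup_of_mem (fun i => i.elim0) ⟨x, ?_⟩)
    funext a
    change ∑ b, (List.ofFn fun i : Fin 0 => W.X (i.elim0)).prod a b • x b = x a
    simp [Matrix.one_apply]
  | succ k ih =>
    rw [pow_succ', Submodule.mul_smul]
    refine (Submodule.smul_mono le_rfl ih).trans ?_
    rw [Submodule.smul_le]
    intro r hr x hx
    induction hr using Submodule.span_induction with
    | mem r hr =>
      obtain ⟨l, rfl⟩ := hr
      obtain ⟨t, ht, y, hy, rfl⟩ := Submodule.mem_sup.mp hx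
      rw [smul_add]
      refine Submodule.add_mem _ (Submodule.mem_sup_left (Submodule.smul_mem _ _ ht)) ?_
      clear hx ht
      induction hy using Submodule.iSup_induction' with
      | mem f y hy =>
        obtain ⟨v, rfl⟩ := hy
        have h1 := br1_T_mem z W l (za (List.ofFn fun i => W.X (f i)).prod R V v)
        have h2 : za (W.X l) R V (za (List.ofFn fun i => W.X (f i)).prod R V v) =
            za (List.ofFn fun i => W.X ((Fin.cons l f : Fin (k + 1) → Fin n) i)).prod R V v := by
          rw [List.ofFn_succ, List.prod_cons]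
          exact (RepLen.za_mul (R := R) _ _ v).symm
        rw [← sub_add_cancel (z l • za (List.ofFn fun i => W.X (f i)).prod R V v)
          (za (W.X l) R V (za (List.ofFn fun i => W.X (f i)).prod R V v))]
        refine Submodule.add_mem _ (Submodule.mem_sup_left h1) (Submodule.mem_sup_right ?_)
        rw [h2]
        exact Submodule.mem_iSup_of_mem (Fin.cons l f) (LinearMap.mem_range_self _ _)
      | zero => rw [smul_zero]; exact Submodule.zero_mem _
      | add y y' _ _ h1 h2 => rw [smul_add]; exact Submodule.add_mem _ h1 h2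
    | zero => rw [zero_smul]; exact Submodule.zero_mem _
    | add r r' _ _ h1 h2 => rw [add_smul]; exact Submodule.add_mem _ h1 h2
    | smul s r _ h1 => rw [smul_assoc]; exact Submodule.smul_mem _ _ h1

end Br1

/-- if `a V ⊆ (z)^w V` then `a` kills `(W ⊗ V)/(X - z)` for every `w`-nilpotent `W`. -/
theorem pk_of_le {R : Type u} [CommRing R] {V : Type u} [AddCommGroup V] [Module R V] {n : ℕ}
    (z : Fin n → R) (a : R) (w : ℕ)
    (h : ∀ v : V, a • v ∈ Ideal.span (Set.range z) ^ w • (⊤ : Submodule R V)) (W : MRep n)
    (hW : W.IsNil w) (x : W.ι → V) : a • x ∈ trg (W.T V z) := by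
  classical
  have h0 : Ideal.span (Set.range z) ^ w • (⊤ : Submodule R (W.ι → V)) ≤ trg (W.T V z) := by
    refine (br1_pow z W w).trans (sup_le le_rfl (iSup_le fun f => ?_))
    rintro _ ⟨v, rfl⟩
    rw [hW.nil f]
    have h1 : za (0 : Matrix W.ι W.ι ℤ) R V v = 0 := by
      funext b
      change ∑ c, (0 : Matrix W.ι W.ι ℤ) b c • v c = 0
      simp
    rw [h1]
    exact Submodule.zero_mem _
  refine h0 ?_
  have h2 : a • x = ∑ b, LinearMap.single R (fun _ : W.ι => V) b (a • x b) := by
    simp only [LinearMap.coe_single]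
    exact (Finset.univ_sum_single (a • x)).symm
  rw [h2]
  refine Submodule.sum_mem _ fun b _ => ?_
  have h3 := Submodule.mem_map_of_mem (f := LinearMap.single R (fun _ : W.ι => V) b) (h (x b))
  rw [Submodule.map_smul''] at h3
  exact Submodule.smul_mono le_rfl le_top h3

end Vale.Agent.P202.Mix
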