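import Vale.Agent.P202.Mix.GeoDefs

/-!
P202-MIX, part HON (honest limit module, cycle lifting): definitions.
-/

namespace Vale.Agent.P202.Mix

open Vale.Agent.P202.CharP
open scoped ENNReal

universe u

section

variable {R : Type u} [CommRing R] {n : ℕ}

/-- scalar operators. -/
def sop (V : Type u) [AddCommGroup V] [Module R V] (y : Fin n → R) (l : Fin n) : V →ₗ[R] V :=
  y l • LinearMap.id

/-- Koszul acyclicity in positive degrees. -/
def Acyc {V : Type u} [AddCommGroup V] [Module R V] (T : Fin n → V →ₗ[R] V) : Prop :=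
  ∀ i : ℤ, 1 ≤ i → kcyc T i ≤ kbd T i

/-- weakly regular sequences. -/
def WReg (V : Type u) [AddCommGroup V] [Module R V] (v : Fin n → R) : Prop :=
  ∀ (k : Fin n) (s : V), v k • s ∈ Ideal.span (v '' Set.Iio k) • (⊤ : Submodule R V) →
    s ∈ Ideal.span (v '' Set.Iio k) • (⊤ : Submodule R V)

/-- Koszul cycles modulo `N`, `N'` lift along `f`, elementwise. -/
def LiftMod {M M' : Type u} [AddCommGroup M] [Module R M] [AddCommGroup M'] [Module R M']
    (T : Fin n → M →ₗ[R] M) (N : Submodule R M) (T' : Fin n → M' →ₗ[R] M') (N' : Submodule R M')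
    (f : M →ₗ[R] M') : Prop :=
  ∀ (i : ℤ), ∀ c' ∈ kgr R M' n i, (∀ J, kz T' c' J ∈ N') →
    ∃ c ∈ kgr R M n i, (∀ J, kz T c J ∈ N) ∧ ∀ J, f (c J) - c' J ∈ N'

/-- the submodule `(y) V`. -/
def ys (V : Type u) [AddCommGroup V] [Module R V] (y : Fin n → R) : Submodule R V :=
  Ideal.span (Set.range y) • ⊤

/-- sum of the images of the operators. -/
def trg {V : Type u} [AddCommGroup V] [Module R V] (T : Fin n → V →ₗ[R] V) : Submodule R V :=
  ⨆ l, LinearMap.range (T l)

end

section Limit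

variable (R : ℕ → Type u) [∀ e, CommRing (R e)] (X : ℕ → Type u) [∀ e, AddCommGroup (X e)]
  [∀ e, Module (R e) (X e)] (p : ℕ)

/-- the families which are eventually divisible by every power of `p`. -/
def Jinf : Submodule (∀ e, R e) (∀ e, X e) where
  carrier := {x | ∀ j : ℕ, ∃ e₀, ∀ e, e₀ ≤ e → ∃ x' : X e, x e = (p : R e) ^ j • x'}
  add_mem' := by
    intro x y hx hy j
    obtain ⟨e₁, h1⟩ := hx j
    obtain ⟨e₂, h2⟩ := hy j
    refine ⟨max e₁ e₂, fun e he => ?_⟩
    obtain ⟨x', hx'⟩ := h1 e (le_trans (le_max_left _ _) he)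
    obtain ⟨y', hy'⟩ := h2 e (le_trans (le_max_right _ _) he)
    exact ⟨x' + y', by rw [Pi.add_apply, hx', hy', smul_add]⟩
  zero_mem' := fun j => ⟨0, fun e _ => ⟨0, by simp⟩⟩
  smul_mem' := by
    intro c x hx j
    obtain ⟨e₁, h1⟩ := hx j
    refine ⟨e₁, fun e he => ?_⟩
    obtain ⟨x', hx'⟩ := h1 e he
    exact ⟨c e • x', by rw [Pi.smul_apply', hx', smul_comm]⟩

/-- the limit module before inverting `h`. -/
abbrev XX : Type u := (∀ e, X e) ⧸ Jinf R X p

/-- the honest module. -/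
abbrev SS (h : ∀ e, R e) : Type u := LocalizedModule (Submonoid.powers h) (XX R X p)

end Limit

end Vale.Agent.P202.Mix
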