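import Vale.Agent.P202.Mix.Defs3
import Vale.Agent.P202.Mix.HonDefs

/-!
P202-MIX: the rings `(S ⊗_A E)/K`.
-/

namespace Vale.Agent.P202.Mix

open TensorProduct

universe u

section

variable (A : Type u) [CommRing A] (S : Type u) [CommRing S] [Algebra A S]
  (E : Type u) [CommRing E] [Algebra A E] (K : Ideal E)

/-- the ring `(S ⊗_A E)/K`. -/
abbrev XS : Type u :=
  (S ⊗[A] E) ⧸ K.map (Algebra.TensorProduct.includeRight : E →ₐ[A] S ⊗[A] E)

variable {A S E}

/-- the class of `s ⊗ 1`. -/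
noncomputable def sX (s : S) : XS A S E K := Ideal.Quotient.mk _ (s ⊗ₜ 1)

/-- the class of `1 ⊗ b`. -/
noncomputable def bX (b : E) : XS A S E K := Ideal.Quotient.mk _ (1 ⊗ₜ b)

end

end Vale.Agent.P202.Mix
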