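import Vale.Agent.P202.Mix.GeoDefs

/-!
P202-MIX, part GEO, task C2a: the cycles of an exact complex of representations.
-/

namespace Vale.Agent.P202.Mix

open scoped ENNReal

universe u

/-! ### integer matrices acting on modules -/

section Za

variable {α β γ : Type} [Fintype β] [Fintype γ] (R : Type u) [CommRing R] (M : Type u)
  [AddCommGroup M] [Module R M]

theorem repcyc_za_mul (A : Matrix α β ℤ) (B : Matrix β γ ℤ) (f : γ → M) :
    za (A * B) R M f = za A R M (za B R M f) := by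
  ext a
  show ∑ c, (A * B) a c • f c = ∑ b, A a b • ∑ c, B b c • f c
  simp only [Matrix.mul_apply, Finset.sum_smul, Finset.smul_sum, mul_smul]
  exact Finset.sum_comm

theorem repcyc_za_one [DecidableEq β] (f : β → M) : za (1 : Matrix β β ℤ) R M f = f := by
  ext a
  show ∑ b, (1 : Matrix β β ℤ) a b • f b = f a
  rw [Finset.sum_eq_single a]
  · simp
  · intro b _ hb
    simp [Matrix.one_apply_ne hb.symm]
  · intro h
    exact absurd (Finset.mem_univ a) h

theorem repcyc_za_zero (f : β → M) : za (0 : Matrix α β ℤ) R M f = 0 := by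
  ext a
  show ∑ b, (0 : Matrix α β ℤ) a b • f b = 0
  simp

theorem repcyc_za_sub (A B : Matrix α β ℤ) (f : β → M) :
    za (A - B) R M f = za A R M f - za B R M f := by
  ext a
  show ∑ b, (A - B) a b • f b = ∑ b, A a b • f b - ∑ b, B a b • f b
  simp [sub_smul, Finset.sum_sub_distrib]

end Za

/-! ### splittings over `ℤ` -/

section Split

theorem repcyc_section {α β : Type} [Fintype α] [Fintype β]
    (f : (α → ℤ) →ₗ[ℤ] (β → ℤ)) :
    ∃ s : LinearMap.range f →ₗ[ℤ] (α → ℤ), ∀ y, f.rangeRestrict (s y) = y := by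
  obtain ⟨s, hs⟩ := Module.projective_lifting_property f.rangeRestrict
    (LinearMap.id : LinearMap.range f →ₗ[ℤ] LinearMap.range f) f.surjective_rangeRestrict
  exact ⟨s, fun y => LinearMap.congr_fun hs y⟩

/-- a map whose range is a kernel has a generalized inverse. -/
theorem repcyc_ginv {α β γ : Type} [Fintype α] [Fintype β] [Fintype γ]
    (f : (α → ℤ) →ₗ[ℤ] (β → ℤ)) (g : (β → ℤ) →ₗ[ℤ] (γ → ℤ)) (hgf : ∀ v, g (f v) = 0)
    (hex : ∀ w, g w = 0 → ∃ v, f v = w) :
    ∃ S : (β → ℤ) →ₗ[ℤ] (α → ℤ), ∀ v, f (S (f v)) = f v := by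
  obtain ⟨s, hs⟩ := repcyc_section f
  obtain ⟨t, ht⟩ := repcyc_section g
  have h1 : ∀ w, g (w - t (g.rangeRestrict w)) = 0 := by
    intro w
    have := congrArg Subtype.val (ht (g.rangeRestrict w))
    rw [map_sub, sub_eq_zero]
    exact this.symm
  let ρ : (β → ℤ) →ₗ[ℤ] LinearMap.range f :=
    LinearMap.codRestrict (LinearMap.range f) (LinearMap.id - t ∘ₗ g.rangeRestrict) (by
      intro w
      obtain ⟨v, hv⟩ := hex _ (h1 w)
      exact ⟨v, hv⟩)
  refine ⟨s ∘ₗ ρ, fun v => ?_⟩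
  have h2 : f (s (ρ (f v))) = (ρ (f v) : β → ℤ) := congrArg Subtype.val (hs (ρ (f v)))
  have h3 : (ρ (f v) : β → ℤ) = f v - t (g.rangeRestrict (f v)) := rfl
  have h4 : g.rangeRestrict (f v) = 0 := Subtype.ext (hgf v)
  rw [LinearMap.comp_apply, h2, h3, h4, map_zero, sub_zero]

/-- idempotent integer matrices split. -/
theorem repcyc_idem {ι : Type} [Fintype ι] [DecidableEq ι] (e : Matrix ι ι ℤ) (he : e * e = e) :
    ∃ (k : ℕ) (E : Matrix ι (Fin k) ℤ) (ρ : Matrix (Fin k) ι ℤ), E * ρ = e ∧ ρ * E = 1 := by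
  let f : (ι → ℤ) →ₗ[ℤ] (ι → ℤ) := Matrix.toLin' e
  have hf : ∀ v, f (f v) = f v := by
    intro v
    show Matrix.toLin' e (Matrix.toLin' e v) = Matrix.toLin' e v
    rw [← LinearMap.comp_apply, ← Matrix.toLin'_mul, he]
  obtain ⟨k, ⟨b⟩⟩ := Submodule.nonempty_basis_of_pid (Pi.basisFun ℤ ι) (LinearMap.range f)
  let φ : LinearMap.range f ≃ₗ[ℤ] (Fin k → ℤ) := b.equivFun
  refine ⟨k, LinearMap.toMatrix' ((LinearMap.range f).subtype ∘ₗ φ.symm.toLinearMap),
    LinearMap.toMatrix' (φ.toLinearMap ∘ₗ f.rangeRestrict), ?_, ?_⟩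
  · rw [← LinearMap.toMatrix'_comp]
    have : ((LinearMap.range f).subtype ∘ₗ φ.symm.toLinearMap) ∘ₗ
        (φ.toLinearMap ∘ₗ f.rangeRestrict) = f := by
      refine LinearMap.ext fun v => ?_
      show ((φ.symm (φ (f.rangeRestrict v)) : LinearMap.range f) : ι → ℤ) = f v
      rw [LinearEquiv.symm_apply_apply]
      rfl
    rw [this]
    exact LinearMap.toMatrix'_toLin' e
  · rw [← LinearMap.toMatrix'_comp]
    have : (φ.toLinearMap ∘ₗ f.rangeRestrict) ∘ₗ
        ((LinearMap.range f).subtype ∘ₗ φ.symm.toLinearMap) = LinearMap.id := by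
      refine LinearMap.ext fun v => ?_
      obtain ⟨w, hw⟩ := (φ.symm v).2
      have h1 : f.rangeRestrict ((φ.symm v : LinearMap.range f) : ι → ℤ) = φ.symm v := by
        refine Subtype.ext ?_
        show f ((φ.symm v : LinearMap.range f) : ι → ℤ) = _
        rw [← hw, hf]
      show φ (f.rangeRestrict ((φ.symm v : LinearMap.range f) : ι → ℤ)) = v
      rw [h1, LinearEquiv.apply_symm_apply]
    rw [this, LinearMap.toMatrix'_id]

end Split

theorem repcyc_za_toLin {α β : Type} [Fintype β] [DecidableEq β] (A : Matrix α β ℤ) :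
    za A ℤ ℤ = Matrix.toLin' A := by
  refine LinearMap.ext fun v => funext fun a => ?_
  rfl

/-- a matrix whose image is a kernel has a generalized inverse. -/
theorem repcyc_ginv_mat {α β γ : Type} [Fintype α] [Fintype β] [Fintype γ] [DecidableEq α]
    [DecidableEq β] [DecidableEq γ] (A : Matrix β α ℤ) (B : Matrix γ β ℤ) (hBA : B * A = 0)
    (hex : ∀ w : β → ℤ, za B ℤ ℤ w = 0 → ∃ v, za A ℤ ℤ v = w) :
    ∃ S : Matrix α β ℤ, A * S * A = A := by
  obtain ⟨S, hS⟩ := repcyc_ginv (za A ℤ ℤ) (za B ℤ ℤ) (by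
    intro v
    rw [← repcyc_za_mul, hBA, repcyc_za_zero]) hex
  refine ⟨LinearMap.toMatrix' S, ?_⟩
  apply Matrix.toLin'.injective
  rw [Matrix.toLin'_mul, Matrix.toLin'_mul, Matrix.toLin'_toMatrix', ← repcyc_za_toLin]
  exact LinearMap.ext hS

/-- lifting of matrices. -/
theorem repcyc_lift_mat {α β γ : Type} [Fintype α] [Fintype β] [Fintype γ]
    {k : ℕ} (A : Matrix β α ℤ) (B : Matrix γ β ℤ)
    (hex : ∀ w : β → ℤ, za B ℤ ℤ w = 0 → ∃ v, za A ℤ ℤ v = w) (E : Matrix β (Fin k) ℤ)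
    (hE : B * E = 0) : ∃ σ : Matrix α (Fin k) ℤ, A * σ = E := by
  have h : ∀ b : Fin k, ∃ v, za A ℤ ℤ v = fun a => E a b := by
    intro b
    refine hex _ (funext fun c => ?_)
    exact congrFun (congrFun hE c) b
  choose v hv using h
  refine ⟨Matrix.of fun a b => v b a, ?_⟩
  ext a b
  exact congrFun (hv b) a

/-! ### relative lengths -/

section Rl

variable {R : Type u} [CommRing R] (L : AddLen R) {M N : Type u} [AddCommGroup M] [Module R M]
  [AddCommGroup N] [Module R N]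

theorem repcyc_len_le (f : M →ₗ[R] N) (hf : Function.Surjective f) : L.len N ≤ L.len M := by
  rw [L.add (LinearMap.ker f).subtype f (Submodule.subtype_injective _) hf (by
    intro x
    constructor
    · intro h
      exact ⟨⟨x, h⟩, rfl⟩
    · rintro ⟨y, rfl⟩
      exact y.2)]
  exact le_add_self

theorem repcyc_rl_map_le (f : M →ₗ[R] N) (X Y : Submodule R M) :
    L.rl (X.map f) (Y.map f) ≤ L.rl X Y := by
  unfold AddLen.rl
  refine repcyc_len_le L (Submodule.mapQ (X.submoduleOf Y) ((X.map f).submoduleOf (Y.map f))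
    (f.submoduleMap Y) ?_) ?_
  · rintro ⟨y, hy⟩ hx
    exact ⟨y, hx, rfl⟩
  · intro z
    obtain ⟨z, rfl⟩ := Submodule.mkQ_surjective _ z
    obtain ⟨y, rfl⟩ := f.submoduleMap_surjective Y z
    exact ⟨Submodule.mkQ _ y, rfl⟩

end Rl

/-! ### Koszul complexes -/

section Kz

variable {R : Type u} [CommRing R] {V W : Type u} [AddCommGroup V] [Module R V]
  [AddCommGroup W] [Module R W] {n : ℕ}

theorem repcyc_kz_kmap (T : Fin n → V →ₗ[R] V) (T' : Fin n → W →ₗ[R] W) (f : V →ₗ[R] W)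
    (h : ∀ l v, f (T l v) = T' l (f v)) (v : Finset (Fin n) → V) :
    kmap n f (kz T v) = kz T' (kmap n f v) := by
  ext J
  show f (∑ l ∈ Jᶜ, ksg l J • T l (v (insert l J))) =
    ∑ l ∈ Jᶜ, ksg l J • T' l (f (v (insert l J)))
  rw [map_sum]
  refine Finset.sum_congr rfl fun l _ => ?_
  rw [map_zsmul, h]

end Kz

section Rep

variable {R : Type u} [CommRing R] (L : AddLen R) {n q : ℕ} (Q : Type u) [AddCommGroup Q]
  [Module R Q] (x : Fin n → R)

theorem repcyc_za_T {W W' : MRep n} (A : Matrix W'.ι W.ι ℤ) (l : Fin n)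
    (h : A * W.X l = W'.X l * A) (v : W.ι → Q) :
    za A R Q (W.T Q x l v) = W'.T Q x l (za A R Q v) := by
  show za A R Q (za (W.X l) R Q v - x l • v) = za (W'.X l) R Q (za A R Q v) - x l • za A R Q v
  rw [map_sub, map_smul, ← repcyc_za_mul, ← repcyc_za_mul, h]

/-- the cycles of an exact complex form a complex exact up to null modules (above the degree of
the cohomology). -/
theorem cyc_null (hCL : CLnull L n q Q x) (C : MCx n) (hC : C.IsCx q) (top : ℕ)
    (htop : ∀ p, top ≤ p → IsEmpty (C.W p).ι) (p₀ : ℕ) (hex : ∀ p, p ≠ p₀ → C.ExAt p) (p : ℕ)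
    (hp : p₀ < p + 1) (i : ℤ) :
    L.rl ((kcyc ((C.W p).T Q x) i).map (kmap n (za (C.D p) R Q)))
      (kcyc ((C.W (p + 1)).T Q x) i ⊓ LinearMap.ker (kmap n (za (C.D (p + 1)) R Q))) = 0 := by
  have hex1 : ∀ w : (C.W (p + 1)).ι → ℤ, za (C.D (p + 1)) ℤ ℤ w = 0 →
      ∃ v, za (C.D p) ℤ ℤ v = w := hex (p + 1) (by omega) ℤ
  have hex2 : ∀ w : (C.W (p + 2)).ι → ℤ, za (C.D (p + 2)) ℤ ℤ w = 0 →
      ∃ v, za (C.D (p + 1)) ℤ ℤ v = w := hex (p + 2) (by omega) ℤ
  obtain ⟨S, hS⟩ := repcyc_ginv_mat (C.D (p + 1)) (C.D (p + 2)) (hC.dd (p + 1)) hex2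
  have hidem : (1 - S * C.D (p + 1)) * (1 - S * C.D (p + 1)) = 1 - S * C.D (p + 1) := by
    have h1 : S * C.D (p + 1) * (S * C.D (p + 1)) = S * C.D (p + 1) := by
      rw [Matrix.mul_assoc, ← Matrix.mul_assoc (C.D (p + 1)), hS]
    rw [Matrix.sub_mul, Matrix.mul_sub, Matrix.mul_sub, h1]
    simp
  obtain ⟨k, E, ρ, hEρ, hρE⟩ := repcyc_idem _ hidem
  have hDE : C.D (p + 1) * E = 0 := by
    have h1 : C.D (p + 1) * E = C.D (p + 1) * (E * ρ) * E := by
      rw [Matrix.mul_assoc, Matrix.mul_assoc, hρE, Matrix.mul_one]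
    rw [h1, hEρ, Matrix.mul_sub, Matrix.mul_one, ← Matrix.mul_assoc, hS, sub_self,
      Matrix.zero_mul]
  -- matrices with image in the kernel
  have hY : ∀ {κ : Type} (Y : Matrix (C.W (p + 1)).ι κ ℤ), C.D (p + 1) * Y = 0 →
      E * (ρ * Y) = Y := by
    intro κ Y hY
    rw [← Matrix.mul_assoc, hEρ, Matrix.sub_mul, Matrix.one_mul, Matrix.mul_assoc, hY,
      Matrix.mul_zero, sub_zero]
  have hDXE : ∀ l, C.D (p + 1) * ((C.W (p + 1)).X l * E) = 0 := by
    intro l
    rw [← Matrix.mul_assoc, hC.comm, Matrix.mul_assoc, hDE, Matrix.mul_zero]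
  let V : MRep n := { ι := Fin k, X := fun l => ρ * ((C.W (p + 1)).X l * E) }
  have hEX : ∀ l, E * V.X l = (C.W (p + 1)).X l * E := fun l => hY _ (hDXE l)
  have hprod : ∀ s : List (Fin n), E * (s.map V.X).prod = (s.map (C.W (p + 1)).X).prod * E := by
    intro s
    induction s with
    | nil => simp [V]
    | cons l s ih =>
      rw [List.map_cons, List.prod_cons, List.map_cons, List.prod_cons]
      show E * (V.X l * (s.map V.X).prod) = _
      rw [← Matrix.mul_assoc, hEX, Matrix.mul_assoc, ih, Matrix.mul_assoc]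
  have hinj : ∀ {κ : Type} (A B : Matrix (Fin k) κ ℤ), E * A = E * B → A = B := by
    intro κ A B h
    have := congrArg (fun Z => ρ * Z) h
    simpa only [← Matrix.mul_assoc, hρE, Matrix.one_mul] using this
  have hV : V.IsNil q := by
    constructor
    · intro a b
      apply hinj
      show E * (V.X a * V.X b) = E * (V.X b * V.X a)
      have h2 : ∀ a b, E * (V.X a * V.X b) =
          (C.W (p + 1)).X a * (C.W (p + 1)).X b * E := fun a b => by
        calc E * (V.X a * V.X b) = (E * V.X a) * V.X b := (Matrix.mul_assoc _ _ _).symm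
          _ = ((C.W (p + 1)).X a * E) * V.X b := by rw [hEX]
          _ = (C.W (p + 1)).X a * (E * V.X b) := Matrix.mul_assoc _ _ _
          _ = (C.W (p + 1)).X a * ((C.W (p + 1)).X b * E) := by rw [hEX]
          _ = _ := (Matrix.mul_assoc _ _ _).symm
      rw [h2, h2, (hC.nil (p + 1)).comm]
    · intro f
      have h1 := hprod (List.ofFn f)
      have h2 := (hC.nil (p + 1)).nil f
      rw [List.map_ofFn, List.map_ofFn] at h1
      have h3 : (List.ofFn ((C.W (p + 1)).X ∘ f)).prod = 0 := h2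
      rw [h3, Matrix.zero_mul] at h1
      apply hinj
      show E * (List.ofFn (V.X ∘ f)).prod = E * (0 : Matrix (Fin k) (Fin k) ℤ)
      rw [h1, Matrix.mul_zero]
  obtain ⟨σ, hσ⟩ := repcyc_lift_mat (C.D p) (C.D (p + 1)) hex1 E hDE
  have hEP : E * (ρ * C.D p) = C.D p := hY _ (hC.dd p)
  let F : (C.W p).Surj V :=
    { P := ρ * C.D p
      σ := σ
      split := by
        rw [Matrix.mul_assoc, hσ]
        exact hρE
      comm := by
        intro l
        apply hinj
        show E * (ρ * C.D p * (C.W p).X l) = E * (V.X l * (ρ * C.D p))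
        rw [← Matrix.mul_assoc, hEP, ← Matrix.mul_assoc, hEX, Matrix.mul_assoc _ E, hEP, hC.comm] }
  have key : L.rl ((kcyc ((C.W p).T Q x) i).map (kmap n (za F.P R Q))) (kcyc (V.T Q x) i) = 0 :=
    hCL (C.W p) V (hC.nil p) hV F i
  have hmap : ((kcyc ((C.W p).T Q x) i).map (kmap n (za F.P R Q))).map (kmap n (za E R Q)) =
      (kcyc ((C.W p).T Q x) i).map (kmap n (za (C.D p) R Q)) := by
    rw [← Submodule.map_comp]
    congr 1
    refine LinearMap.ext fun v => funext fun J => ?_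
    show za E R Q (za (ρ * C.D p) R Q (v J)) = za (C.D p) R Q (v J)
    rw [← repcyc_za_mul, hEP]
  have hEinj : ∀ v : Fin k → Q, za E R Q v = 0 → v = 0 := by
    intro v hv
    have := congrArg (za ρ R Q) hv
    rwa [← repcyc_za_mul, hρE, repcyc_za_one, map_zero] at this
  have hcomm : ∀ v, kmap n (za E R Q) (kz (V.T Q x) v) =
      kz ((C.W (p + 1)).T Q x) (kmap n (za E R Q) v) := fun v =>
    repcyc_kz_kmap _ _ _ (fun l w => repcyc_za_T Q x (W := V) (W' := C.W (p + 1)) E l (hEX l) w) v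
  have hY2 : kcyc ((C.W (p + 1)).T Q x) i ⊓ LinearMap.ker (kmap n (za (C.D (p + 1)) R Q)) =
      (kcyc (V.T Q x) i).map (kmap n (za E R Q)) := by
    refine le_antisymm ?_ ?_
    · rintro v ⟨⟨hv1, hv2⟩, hv3⟩
      have hv3' : ∀ J, za (C.D (p + 1)) R Q (v J) = 0 := fun J => congrFun hv3 J
      have hEv : ∀ J, za E R Q (za ρ R Q (v J)) = v J := by
        intro J
        rw [← repcyc_za_mul, hEρ, repcyc_za_sub, repcyc_za_one, repcyc_za_mul, hv3' J, map_zero,
          sub_zero]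
      have hEv' : kmap n (za E R Q) (kmap n (za ρ R Q) v) = v := funext hEv
      refine ⟨kmap n (za ρ R Q) v, ⟨?_, ?_⟩, hEv'⟩
      · intro J hJ
        refine hv1 J fun h => hJ ?_
        show za ρ R Q (v J) = 0
        rw [h, map_zero]
      · have h1 : kmap n (za E R Q) (kz (V.T Q x) (kmap n (za ρ R Q) v)) = 0 := by
          rw [hcomm, hEv']
          exact hv2
        exact funext fun J => hEinj _ (congrFun h1 J)
    · rintro _ ⟨v, ⟨hv1, hv2⟩, rfl⟩
      refine ⟨⟨?_, ?_⟩, ?_⟩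
      · intro J hJ
        refine hv1 J fun h => hJ ?_
        show za E R Q (v J) = 0
        rw [h, map_zero]
      · show kz ((C.W (p + 1)).T Q x) (kmap n (za E R Q) v) = 0
        rw [← hcomm]
        have : kz (V.T Q x) v = 0 := hv2
        rw [this, map_zero]
      · refine funext fun J => ?_
        show za (C.D (p + 1)) R Q (za E R Q (v J)) = 0
        rw [← repcyc_za_mul, hDE, repcyc_za_zero]
  rw [hY2, ← hmap]
  exact le_antisymm ((repcyc_rl_map_le L _ _ _).trans key.le) zero_le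

end Rep

end Vale.Agent.P202.Mix
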