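import Vale.Agent.P202.Mix.Bridge1
import Vale.Agent.P202.Mix.BridgeDefs
import Vale.Agent.P202.Mix.RepCyc

/-!
P202-MIX, bridge from the packages `APkg` to `HonData`, BR-2: lifting of Koszul cycles over
`(S ⊗_A E)/K` modulo the relations of a representation.
-/

namespace Vale.Agent.P202.Mix

open Vale.Agent.P202.CharP IsLocalRing TensorProduct
open scoped ENNReal Topology

universe u

/-- surjections of modules killed by the maximal ideal split. -/
theorem lft_section {A : Type u} [CommRing A] [IsLocalRing A] {N N' : Type u} [AddCommGroup N]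
    [Module A N] [AddCommGroup N'] [Module A N'] (hN : ∀ a ∈ maximalIdeal A, ∀ x : N, a • x = 0)
    (hN' : ∀ a ∈ maximalIdeal A, ∀ x : N', a • x = 0) (ψ : N →ₗ[A] N')
    (hψ : Function.Surjective ψ) : ∃ τ : N' →ₗ[A] N, ∀ x, ψ (τ x) = x := by
  have h1 : Module.IsTorsionBySet A N (maximalIdeal A) := fun x a => hN a.1 a.2 x
  have h2 : Module.IsTorsionBySet A N' (maximalIdeal A) := fun x a => hN' a.1 a.2 x
  let _ : Module (A ⧸ maximalIdeal A) N := h1.module
  let _ : Module (A ⧸ maximalIdeal A) N' := h2.module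
  let _ : Field (A ⧸ maximalIdeal A) := Ideal.Quotient.field _
  let ψ' : N →ₗ[A ⧸ maximalIdeal A] N' :=
    { toFun := ψ
      map_add' := map_add ψ
      map_smul' := by
        intro c x
        obtain ⟨a, rfl⟩ := Ideal.Quotient.mk_surjective c
        exact map_smul ψ a x }
  obtain ⟨τ, hτ⟩ := ψ'.exists_rightInverse_of_surjective (LinearMap.range_eq_top.2 hψ)
  refine ⟨{ toFun := τ, map_add' := map_add τ, map_smul' := ?_ }, fun x => ?_⟩
  · intro a x
    exact map_smul τ (Ideal.Quotient.mk (maximalIdeal A) a) x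
  · exact LinearMap.congr_fun hτ x

section

variable {A : Type u} [CommRing A] [IsLocalRing A] (S : Type u) [CommRing S] [Algebra A S]
  (E : Type u) [CommRing E] [Algebra A E] (K : Ideal E)

theorem lft_killed {n : ℕ} (z : Fin n → E) (w : ℕ)
    (hz : (maximalIdeal A).map (algebraMap A E) ≤ Ideal.span (Set.range z) ^ w ⊔ K)
    (W : MRep n) (hW : W.IsNil w) (a : A) (ha : a ∈ maximalIdeal A)
    (q : (W.ι → E ⧸ K) ⧸ trg (W.T (E ⧸ K) z)) : a • q = 0 := by
  obtain ⟨x, rfl⟩ := Submodule.Quotient.mk_surjective _ q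
  rw [← algebraMap_smul E a, ← Submodule.Quotient.mk_smul, Submodule.Quotient.mk_eq_zero]
  refine pk_of_le z _ w (fun v => ?_) W hW x
  obtain ⟨b, rfl⟩ := Ideal.Quotient.mk_surjective v
  obtain ⟨t, ht, k, hk, htk⟩ := Submodule.mem_sup.1 (hz (Ideal.mem_map_of_mem _ ha))
  have h1 : (algebraMap A E a) • (Ideal.Quotient.mk K b) = t • Ideal.Quotient.mk K b := by
    rw [← htk, add_smul]
    have : k • Ideal.Quotient.mk K b = 0 := by
      show Ideal.Quotient.mk K (k * b) = 0
      exact Ideal.Quotient.eq_zero_iff_mem.2 (K.mul_mem_right _ hk)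
    rw [this, add_zero]
  rw [h1]
  exact Submodule.smul_mem_smul ht trivial

end

section Gen

variable {A R R' M M' : Type u} [CommRing A] [CommRing R] [Algebra A R] [CommRing R']
  [Algebra A R'] [AddCommGroup M] [Module A M] [Module R M] [IsScalarTower A R M]
  [AddCommGroup M'] [Module A M'] [Module R' M'] [IsScalarTower A R' M']

theorem lft_lift (P : Submodule R M) (f : M →ₗ[A] M') (h : ∀ x ∈ P, f x = 0) :
    ∃ g : (M ⧸ P) →ₗ[A] M', ∀ x, g (Submodule.Quotient.mk x) = f x :=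
  ⟨(Submodule.liftQ (P.restrictScalars A) f fun x hx => h x hx) ∘ₗ
    (Submodule.Quotient.restrictScalarsEquiv A P).symm.toLinearMap, fun _ => rfl⟩

theorem lft_desc (P : Submodule R M) (P' : Submodule R' M') (f : M →ₗ[A] M')
    (h : ∀ x ∈ P, f x ∈ P') :
    ∃ g : (M ⧸ P) →ₗ[A] (M' ⧸ P'), ∀ x, g (Submodule.Quotient.mk x) = Submodule.Quotient.mk (f x) :=
  lft_lift P ((P'.mkQ.restrictScalars A) ∘ₗ f) fun x hx => by
    show Submodule.Quotient.mk (f x) = 0
    exact (Submodule.Quotient.mk_eq_zero _).2 (h x hx)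

theorem lft_trg {n : ℕ} (T : Fin n → M →ₗ[R] M) (T' : Fin n → M' →ₗ[R'] M') (g : M →+ M')
    (h : ∀ l v, g (T l v) = T' l (g v)) (x : M) (hx : x ∈ trg T) : g x ∈ trg T' := by
  unfold trg at hx
  refine Submodule.iSup_induction (fun l => LinearMap.range (T l))
    (motive := fun x => g x ∈ trg T') hx ?_ ?_ ?_
  · rintro l _ ⟨v, rfl⟩
    rw [h]
    exact (le_iSup (fun l => LinearMap.range (T' l)) l) ⟨_, rfl⟩
  · rw [map_zero]
    exact Submodule.zero_mem _
  · intro x y hx hy
    rw [map_add]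
    exact Submodule.add_mem _ hx hy

end Gen

section

variable {A : Type u} [CommRing A] (S : Type u) [CommRing S] [Algebra A S]
  (E : Type u) [CommRing E] [Algebra A E] (K : Ideal E)

/-- the map `E/K → (S ⊗ E)/K`. -/
noncomputable def lft_j : (E ⧸ K) →ₐ[A] XS A S E K :=
  Ideal.quotientMapₐ _ (Algebra.TensorProduct.includeRight : E →ₐ[A] S ⊗[A] E) Ideal.le_comap_map

theorem lft_j_mk (b : E) :
    lft_j (A := A) S E K (Ideal.Quotient.mk K b) = bX (A := A) (S := S) K b := rfl

theorem lft_j_smul (b : E) (q : E ⧸ K) :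
    lft_j (A := A) S E K (b • q) = bX (A := A) (S := S) K b • lft_j S E K q := by
  obtain ⟨c, rfl⟩ := Ideal.Quotient.mk_surjective q
  show lft_j (A := A) S E K (Ideal.Quotient.mk K b * Ideal.Quotient.mk K c) = _
  rw [map_mul]
  rfl

/-- the map on functions. -/
noncomputable def lft_jf (ι : Type) : (ι → E ⧸ K) →ₗ[A] (ι → XS A S E K) :=
  (lft_j S E K).toLinearMap.compLeft ι

theorem lft_jf_apply (ι : Type) (v : ι → E ⧸ K) (a : ι) :
    lft_jf (A := A) S E K ι v a = lft_j S E K (v a) := rfl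

theorem lft_jf_za {α β : Type} [Fintype β] (P : Matrix α β ℤ) (v : β → E ⧸ K) :
    lft_jf (A := A) S E K α (za P E (E ⧸ K) v) =
      za P (XS A S E K) (XS A S E K) (lft_jf S E K β v) := by
  funext a
  rw [lft_jf_apply]
  show lft_j S E K (∑ b, P a b • v b) = ∑ b, P a b • lft_j S E K (v b)
  rw [map_sum]
  exact Finset.sum_congr rfl fun b _ => map_zsmul _ _ _

theorem lft_jf_T {n : ℕ} (W : MRep n) (z : Fin n → E) (l : Fin n) (v : W.ι → E ⧸ K) :
    lft_jf (A := A) S E K W.ι (W.T (E ⧸ K) z l v) =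
      W.T (XS A S E K) (fun l => bX (A := A) (S := S) K (z l)) l (lft_jf S E K W.ι v) := by
  show lft_jf (A := A) S E K W.ι (za (W.X l) E (E ⧸ K) v - z l • v) =
    za (W.X l) (XS A S E K) (XS A S E K) (lft_jf (A := A) S E K W.ι v) -
      bX (A := A) (S := S) K (z l) • lft_jf (A := A) S E K W.ι v
  rw [map_sub, lft_jf_za]
  congr 1
  funext a
  exact lft_j_smul (A := A) S E K (z l) (v a)

theorem lft_ext {ι : Type} [Fintype ι] [DecidableEq ι] {Q : Type u} [AddCommGroup Q] [Module S Q]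
    (F G : (ι → XS A S E K) →ₗ[S] Q)
    (h : ∀ v : ι → E ⧸ K, F (lft_jf S E K ι v) = G (lft_jf S E K ι v)) (v : ι → XS A S E K) :
    F v = G v := by
  rw [← sub_eq_zero, ← LinearMap.sub_apply]
  have h' : ∀ v : ι → E ⧸ K, (F - G) (lft_jf S E K ι v) = 0 := fun v => by
    rw [LinearMap.sub_apply, h, sub_self]
  generalize F - G = H at h' ⊢
  rw [← Finset.univ_sum_single v, map_sum]
  refine Finset.sum_eq_zero fun a _ => ?_
  obtain ⟨t, ht⟩ := Ideal.Quotient.mk_surjective (v a)
  rw [← ht]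
  clear ht v
  induction t using TensorProduct.induction_on with
  | zero =>
    rw [map_zero, Pi.single_zero, map_zero]
  | add x y hx hy =>
    rw [map_add, Pi.single_add, map_add, hx, hy, add_zero]
  | tmul s b =>
    have h1 : (Pi.single a (Ideal.Quotient.mk (K.map
        (Algebra.TensorProduct.includeRight : E →ₐ[A] S ⊗[A] E)) (s ⊗ₜ[A] b)) :
        ι → XS A S E K) = s • lft_jf S E K ι (Pi.single a (Ideal.Quotient.mk K b)) := by
      funext c
      rw [Pi.smul_apply, lft_jf_apply]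
      by_cases hc : c = a
      · subst hc
        rw [Pi.single_eq_same, Pi.single_eq_same, lft_j_mk]
        show Ideal.Quotient.mk _ (s ⊗ₜ[A] b) = Ideal.Quotient.mk _ (s • ((1 : S) ⊗ₜ[A] b))
        rw [TensorProduct.smul_tmul', smul_eq_mul, mul_one]
      · rw [Pi.single_eq_of_ne hc, Pi.single_eq_of_ne hc, map_zero, smul_zero]
    rw [h1, map_smul, h', smul_zero]

/-- extension of an `A`-linear map on functions to an `S`-linear map. -/
theorem lft_extend {ι : Type} [Fintype ι] [DecidableEq ι] {Q : Type u} [AddCommGroup Q]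
    [Module A Q] [Module S Q] [IsScalarTower A S Q] (F : (ι → E ⧸ K) →ₗ[A] Q) :
    ∃ G : (ι → XS A S E K) →ₗ[S] Q, ∀ v, G (lft_jf S E K ι v) = F v := by
  let r : ι → E →ₗ[A] Q := fun a =>
    F ∘ₗ (LinearMap.single A (fun _ => E ⧸ K) a) ∘ₗ (Ideal.Quotient.mkₐ A K).toLinearMap
  let ρ : ι → (S ⊗[A] E) →ₗ[S] Q := fun a => LinearMap.liftBaseChange S (r a)
  have hρ : ∀ a, ∀ x ∈ K.map (Algebra.TensorProduct.includeRight : E →ₐ[A] S ⊗[A] E),
      ρ a x = 0 := by
    intro a x hx
    have h1 : ∀ t : S ⊗[A] E, ρ a (t * x) = 0 := by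
      refine Submodule.span_induction (p := fun x _ => ∀ t : S ⊗[A] E, ρ a (t * x) = 0)
        ?_ ?_ ?_ ?_ hx
      · rintro _ ⟨k, hk, rfl⟩ t
        induction t using TensorProduct.induction_on with
        | zero => rw [zero_mul, map_zero]
        | add x y hx hy => rw [add_mul, map_add, hx, hy, add_zero]
        | tmul s b =>
          show ρ a ((s ⊗ₜ[A] b) * ((1 : S) ⊗ₜ[A] k)) = 0
          rw [Algebra.TensorProduct.tmul_mul_tmul, mul_one]
          show LinearMap.liftBaseChange S (r a) _ = 0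
          rw [LinearMap.liftBaseChange_tmul]
          have h2 : r a (b * k) = 0 := by
            show F (LinearMap.single A (fun _ => E ⧸ K) a (Ideal.Quotient.mk K (b * k))) = 0
            rw [Ideal.Quotient.eq_zero_iff_mem.2 (K.mul_mem_left _ hk), map_zero, map_zero]
          rw [h2, smul_zero]
      · intro t
        rw [mul_zero, map_zero]
      · intro x y _ _ hx hy t
        rw [mul_add, map_add, hx, hy, add_zero]
      · intro c x _ hx t
        rw [smul_eq_mul, ← mul_assoc]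
        exact hx _
    have h2 := h1 1
    rwa [one_mul] at h2
  have hex : ∀ a, ∃ g : XS A S E K →ₗ[S] Q, ∀ x, g (Submodule.Quotient.mk x) = ρ a x :=
    fun a => lft_lift _ (ρ a) (hρ a)
  choose g hg using hex
  refine ⟨∑ a, g a ∘ₗ LinearMap.proj a, fun v => ?_⟩
  rw [LinearMap.sum_apply]
  have h3 : ∀ a, (g a ∘ₗ LinearMap.proj a) (lft_jf S E K ι v) = F (Pi.single a (v a)) := by
    intro a
    rw [LinearMap.comp_apply, LinearMap.proj_apply, lft_jf_apply]
    obtain ⟨b, hb⟩ := Ideal.Quotient.mk_surjective (v a)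
    rw [← hb, lft_j_mk]
    show g a (Submodule.Quotient.mk ((1 : S) ⊗ₜ[A] b)) = _
    rw [hg]
    show LinearMap.liftBaseChange S (r a) _ = _
    rw [LinearMap.liftBaseChange_tmul, one_smul]
    rfl
  rw [Finset.sum_congr rfl fun a _ => h3 a, ← map_sum, Finset.univ_sum_single]

end

section

variable {A : Type u} [CommRing A] [IsLocalRing A] (S : Type u) [CommRing S] [Algebra A S]
  (E : Type u) [CommRing E] [Algebra A E] (K : Ideal E)

theorem lft_main {n : ℕ} (z : Fin n → E) (w : ℕ)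
    (hz : (maximalIdeal A).map (algebraMap A E) ≤ Ideal.span (Set.range z) ^ w ⊔ K)
    (W W' : MRep n) (hW : W.IsNil w) (hW' : W'.IsNil w) (f : W.Surj W') :
    ∃ σ : (W'.ι → XS A S E K) →ₗ[S]
        ((W.ι → XS A S E K) ⧸ trg (W.T (XS A S E K) fun l => bX (A := A) (S := S) K (z l))),
      (∀ v ∈ trg (W'.T (XS A S E K) fun l => bX (A := A) (S := S) K (z l)), σ v = 0) ∧
      ∀ v x, Submodule.Quotient.mk x = σ v →
        za f.P (XS A S E K) (XS A S E K) x - v ∈
          trg (W'.T (XS A S E K) fun l => bX (A := A) (S := S) K (z l)) := by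
  classical
  -- the maps
  obtain ⟨ψ, hψ⟩ := lft_desc (A := A) (trg (W.T (E ⧸ K) z)) (trg (W'.T (E ⧸ K) z))
    ((za f.P E (E ⧸ K)).restrictScalars A)
    (lft_trg _ _ (za f.P E (E ⧸ K)).toAddMonoidHom
      fun l v => repcyc_za_T _ _ f.P l (f.comm l) v)
  obtain ⟨j, hj⟩ := lft_desc (A := A) (trg (W.T (E ⧸ K) z))
    (trg (W.T (XS A S E K) fun l => bX (A := A) (S := S) K (z l))) (lft_jf S E K W.ι)
    (lft_trg _ _ (lft_jf S E K W.ι).toAddMonoidHom fun l v => lft_jf_T S E K W z l v)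
  obtain ⟨φ, hφ⟩ := lft_desc (A := S)
    (trg (W.T (XS A S E K) fun l => bX (A := A) (S := S) K (z l)))
    (trg (W'.T (XS A S E K) fun l => bX (A := A) (S := S) K (z l)))
    ((za f.P (XS A S E K) (XS A S E K)).restrictScalars S)
    (lft_trg _ _ (za f.P (XS A S E K) (XS A S E K)).toAddMonoidHom
      fun l v => repcyc_za_T _ _ f.P l (f.comm l) v)
  have hψs : Function.Surjective ψ := by
    intro q
    obtain ⟨x, rfl⟩ := Submodule.Quotient.mk_surjective _ q
    refine ⟨Submodule.Quotient.mk (za f.σ E (E ⧸ K) x), ?_⟩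
    rw [hψ]
    show Submodule.Quotient.mk (za f.P E (E ⧸ K) (za f.σ E (E ⧸ K) x)) = _
    rw [← repcyc_za_mul, f.split, repcyc_za_one]
  obtain ⟨τ, hτ⟩ := lft_section (lft_killed E K z w hz W hW) (lft_killed E K z w hz W' hW') ψ hψs
  obtain ⟨σ, hσ⟩ := lft_extend (A := A) S E K (ι := W'.ι) (j ∘ₗ τ ∘ₗ
    ((trg (W'.T (E ⧸ K) z)).mkQ.restrictScalars A))
  have hσ' : ∀ v, σ (lft_jf S E K W'.ι v) = j (τ (Submodule.Quotient.mk v)) := hσ
  have h1 : ∀ v ∈ trg (W'.T (XS A S E K) fun l => bX (A := A) (S := S) K (z l)), σ v = 0 := by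
    intro v hv
    unfold trg at hv
    refine Submodule.iSup_induction (fun l => LinearMap.range
      (W'.T (XS A S E K) (fun l => bX (A := A) (S := S) K (z l)) l))
      (motive := fun x => σ x = 0) hv ?_ ?_ ?_
    · rintro l _ ⟨v, rfl⟩
      refine lft_ext S E K (σ ∘ₗ ((W'.T (XS A S E K)
        (fun l => bX (A := A) (S := S) K (z l)) l).restrictScalars S)) 0 (fun v => ?_) v
      show σ (W'.T (XS A S E K) (fun l => bX (A := A) (S := S) K (z l)) l
        (lft_jf S E K W'.ι v)) = 0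
      rw [← lft_jf_T, hσ', (Submodule.Quotient.mk_eq_zero _).2, map_zero, map_zero]
      exact (le_iSup (fun l => LinearMap.range (W'.T (E ⧸ K) z l)) l) ⟨_, rfl⟩
    · exact map_zero σ
    · intro x y hx hy
      rw [map_add, hx, hy, add_zero]
  have h2 : ∀ v, φ (σ v) = Submodule.Quotient.mk v := by
    refine lft_ext S E K (φ ∘ₗ σ) ((trg (W'.T (XS A S E K)
      fun l => bX (A := A) (S := S) K (z l))).mkQ.restrictScalars S) fun v => ?_
    show φ (σ (lft_jf S E K W'.ι v)) = Submodule.Quotient.mk (lft_jf S E K W'.ι v)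
    rw [hσ']
    obtain ⟨x, hx⟩ := Submodule.Quotient.mk_surjective _ (τ (Submodule.Quotient.mk v))
    rw [← hx, hj, hφ]
    have h3 : ψ (Submodule.Quotient.mk x) = Submodule.Quotient.mk v := by
      rw [hx, hτ]
    rw [hψ] at h3
    have h4 := (Submodule.Quotient.eq _).1 h3
    rw [Submodule.Quotient.eq]
    show za f.P (XS A S E K) (XS A S E K) (lft_jf S E K W.ι x) - lft_jf S E K W'.ι v ∈ _
    rw [← lft_jf_za, ← map_sub]
    exact lft_trg _ _ (lft_jf S E K W'.ι).toAddMonoidHom (fun l v => lft_jf_T S E K W' z l v) _ h4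
  refine ⟨σ, h1, fun v x hx => ?_⟩
  rw [← Submodule.Quotient.eq, ← h2 v, ← hx, hφ]
  rfl

theorem lf_tensor {n : ℕ} (z : Fin n → E) (w : ℕ)
    (hz : (maximalIdeal A).map (algebraMap A E) ≤ Ideal.span (Set.range z) ^ w ⊔ K)
    (y : Fin n → S) (W W' : MRep n) (hW : W.IsNil w) (hW' : W'.IsNil w) (f : W.Surj W') :
    LiftMod (sop (W.ι → XS A S E K) fun l => sX K (y l))
      (trg (W.T (XS A S E K) fun l => bX K (z l)))
      (sop (W'.ι → XS A S E K) fun l => sX K (y l))
      (trg (W'.T (XS A S E K) fun l => bX K (z l)))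
      (za f.P (XS A S E K) (XS A S E K)) := by
  classical
  obtain ⟨σ, h1, h2⟩ := lft_main S E K z w hz W W' hW hW' f
  intro i c' hc' hk
  have hrep : ∀ J, ∃ x : W.ι → XS A S E K, Submodule.Quotient.mk x = σ (c' J) ∧
      (c' J = 0 → x = 0) := by
    intro J
    by_cases h0 : c' J = 0
    · exact ⟨0, by rw [h0, map_zero, Submodule.Quotient.mk_zero], fun _ => rfl⟩
    · obtain ⟨x, hx⟩ := Submodule.Quotient.mk_surjective _ (σ (c' J))
      exact ⟨x, hx, fun h => absurd h h0⟩
  choose c hc hc0 using hrep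
  refine ⟨c, fun J hJ => hc' J fun h => hJ (hc0 J h), fun J => ?_, fun J => h2 _ _ (hc J)⟩
  rw [← Submodule.Quotient.mk_eq_zero, ← h1 _ (hk J)]
  show (trg (W.T (XS A S E K) fun l => bX (A := A) (S := S) K (z l))).mkQ
    (∑ l ∈ Jᶜ, ksg l J • (sX (A := A) (E := E) K (y l) • c (insert l J))) =
    σ (∑ l ∈ Jᶜ, ksg l J • (sX (A := A) (E := E) K (y l) • c' (insert l J)))
  rw [map_sum, map_sum]
  refine Finset.sum_congr rfl fun l _ => ?_
  rw [map_zsmul, map_zsmul]
  congr 1
  have h3 : sX (A := A) (E := E) K (y l) • c' (insert l J) = y l • c' (insert l J) :=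
    algebraMap_smul (XS A S E K) (y l) _
  have h4 : sX (A := A) (E := E) K (y l) • c (insert l J) = y l • c (insert l J) :=
    algebraMap_smul (XS A S E K) (y l) _
  rw [h3, h4, σ.map_smul, ← hc]
  rfl

end

end Vale.Agent.P202.Mix
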