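import Vale.Agent.P202.Mix.HonDefs

/-!
P202-MIX, part HON, task HON-6: extraction of a uniform exponent.
-/

namespace Vale.Agent.P202.Mix

open Vale.Agent.P202.CharP
open scoped ENNReal

universe u

section

variable {R : Type u} [CommRing R] {n : ℕ}

theorem he_mem_ys {V : Type u} [AddCommGroup V] [Module R V] (y : Fin n → R) (x : V) :
    x ∈ ys V y ↔ ∃ t : Fin n → V, x = ∑ l, y l • t l := by
  constructor
  · intro hx
    refine Submodule.smul_induction_on hx ?_ ?_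
    · intro a ha m _
      obtain ⟨c, hc⟩ := (Ideal.mem_span_range_iff_exists_fun).mp ha
      refine ⟨fun l => c l • m, ?_⟩
      rw [← hc, Finset.sum_smul]
      exact Finset.sum_congr rfl fun l _ => by rw [mul_comm, mul_smul]
    · rintro x1 x2 ⟨t1, h1⟩ ⟨t2, h2⟩
      refine ⟨fun l => t1 l + t2 l, ?_⟩
      rw [h1, h2, ← Finset.sum_add_distrib]
      exact Finset.sum_congr rfl fun l _ => (smul_add _ _ _).symm
  · rintro ⟨t, rfl⟩
    exact sum_mem fun l _ => Submodule.smul_mem_smul (Ideal.subset_span ⟨l, rfl⟩) trivial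

variable {M M' : Type u} [AddCommGroup M] [Module R M] [AddCommGroup M'] [Module R M']

theorem he_za {α β : Type} [Fintype β] (A : Matrix α β ℤ) (φ : M →ₗ[R] M') (f : β → M) (a : α) :
    φ (za A R M f a) = za A R M' (fun b => φ (f b)) a := by
  simp [za]

theorem he_T (W : MRep n) (z : Fin n → R) (φ : M →ₗ[R] M') (l : Fin n) (f : W.ι → M) (b : W.ι) :
    φ (W.T M z l f b) = W.T M' z l (fun b => φ (f b)) b := by
  simp [MRep.T, he_za]

theorem he_kz (W : MRep n) (z : Fin n → R) (φ : M →ₗ[R] M') (ζ : Finset (Fin n) → W.ι → M)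
    (J : Finset (Fin n)) (b : W.ι) :
    φ (kz (W.T M z) ζ J b) = kz (W.T M' z) (fun J b => φ (ζ J b)) J b := by
  simp only [kz, LinearMap.coe_mk, AddHom.coe_mk, Finset.sum_apply, Pi.smul_apply, map_sum,
    map_zsmul, he_T]

end

section Limit

variable (R : ℕ → Type u) [∀ e, CommRing (R e)] (X : ℕ → Type u) [∀ e, AddCommGroup (X e)]
  [∀ e, Module (R e) (X e)] (p : ℕ) {r : ℕ} (h : ∀ e, R e)
  (v y z : ∀ e, Fin (r + 1) → R e)

variable {R X} in
theorem he_za_eval {α β : Type} [Fintype β] (A : Matrix α β ℤ) (f : β → ∀ e, X e) (a : α) (e : ℕ) :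
    za A (∀ e, R e) (∀ e, X e) f a e = za A (R e) (X e) (fun b => f b e) a := by
  simp [za]

variable {R X} in
theorem he_kz_eval (W : MRep (r + 1)) (z : ∀ e, Fin (r + 1) → R e)
    (ζ : Finset (Fin (r + 1)) → W.ι → ∀ e, X e) (J : Finset (Fin (r + 1))) (b : W.ι) (e : ℕ) :
    kz (W.T (∀ e, X e) (fun l e => z e l)) ζ J b e =
      kz (W.T (X e) (z e)) (fun J b => ζ J b e) J b := by
  simp [kz, MRep.T, he_za_eval]

/-- the map to the honest module. -/
noncomputable def heSS : (∀ e, X e) →ₗ[∀ e, R e] SS R X p h :=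
  (LocalizedModule.mkLinearMap (Submonoid.powers h) (XX R X p)) ∘ₗ (Jinf R X p).mkQ

theorem he_zero {x : ∀ e, X e} (hx : heSS R X p h x = 0) : ∃ b : ℕ, h ^ b • x ∈ Jinf R X p := by
  have h1 := (IsLocalizedModule.eq_zero_iff (Submonoid.powers h)
    (LocalizedModule.mkLinearMap (Submonoid.powers h) (XX R X p))).mp hx
  obtain ⟨⟨_, b, rfl⟩, hb⟩ := h1
  refine ⟨b, ?_⟩
  rw [← Submodule.Quotient.mk_eq_zero, Submodule.Quotient.mk_smul]
  exact hb

theorem he_surj (s : SS R X p h) : ∃ (a : ℕ) (x : ∀ e, X e), h ^ a • s = heSS R X p h x := by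
  obtain ⟨⟨m, ⟨_, a, rfl⟩⟩, hm⟩ := IsLocalizedModule.surj (Submonoid.powers h)
    (LocalizedModule.mkLinearMap (Submonoid.powers h) (XX R X p)) s
  obtain ⟨x, rfl⟩ := Submodule.mkQ_surjective _ m
  exact ⟨a, x, hm⟩

theorem he_common {κ : Type*} [Fintype κ] (s : κ → SS R X p h) :
    ∃ (a : ℕ) (x : κ → ∀ e, X e), ∀ k, h ^ a • s k = heSS R X p h (x k) := by
  choose a x hx using fun k => he_surj R X p h (s k)
  refine ⟨∑ k, a k, fun k => h ^ (∑ k, a k - a k) • x k, fun k => ?_⟩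
  have h1 : a k ≤ ∑ k, a k := Finset.single_le_sum (f := a) (fun _ _ => Nat.zero_le _)
    (Finset.mem_univ k)
  rw [map_smul, ← hx, smul_smul, ← pow_add, Nat.sub_add_cancel h1]

theorem he_mem (L : ℕ) (hy : ∀ e, (p : R e) ^ L ∈ Ideal.span (Set.range (y e))) {ι : Type}
    [Fintype ι] (u : ι → ∀ e, X e)
    (hu : (fun b => heSS R X p h (u b)) ∈ ys (ι → SS R X p h) (fun l e => y e l)) :
    ∃ b e₁ : ℕ, ∀ e, e₁ ≤ e → (fun i => h e ^ b • u i e) ∈ ys (ι → X e) (y e) := by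
  classical
  obtain ⟨t, ht⟩ := (he_mem_ys _ _).mp hu
  obtain ⟨a, t', ht'⟩ := he_common R X p h (fun k : Fin (r + 1) × ι => t k.1 k.2)
  have h0 : ∀ i, heSS R X p h (h ^ a • u i - ∑ l, (fun e => y e l) • t' (l, i)) = 0 := by
    intro i
    have h1 := congrFun ht i
    simp only [Finset.sum_apply, Pi.smul_apply] at h1
    rw [map_sub, map_smul, map_sum, h1, Finset.smul_sum, ← Finset.sum_sub_distrib]
    refine Finset.sum_eq_zero fun l _ => ?_
    rw [map_smul, ← ht' (l, i), smul_comm, sub_self]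
  choose b hb using fun i => he_zero R X p h (h0 i)
  choose e₁ he₁ using fun i => hb i L
  refine ⟨(∑ i, b i) + a, ∑ i, e₁ i, fun e he => ?_⟩
  have h2 : ∀ i, ∃ x' : X e, h e ^ b i • (h e ^ a • u i e - ∑ l, y e l • t' (l, i) e) =
      (p : R e) ^ L • x' := by
    intro i
    have h3 : e₁ i ≤ ∑ i, e₁ i := Finset.single_le_sum (f := e₁) (fun _ _ => Nat.zero_le _)
      (Finset.mem_univ i)
    obtain ⟨x', hx'⟩ := he₁ i e (h3.trans he)
    refine ⟨x', ?_⟩
    rw [← hx']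
    simp only [Pi.smul_apply', Pi.sub_apply, Finset.sum_apply, Pi.pow_apply]
  choose x' hx' using h2
  have h4 : (fun i => h e ^ (∑ i, b i + a) • u i e) =
      (fun i => (p : R e) ^ L • (h e ^ (∑ i, b i - b i) • x' i)) +
        ∑ l, y e l • (fun i => h e ^ (∑ i, b i) • t' (l, i) e) := by
    funext i
    have h5 : b i ≤ ∑ i, b i := Finset.single_le_sum (f := b) (fun _ _ => Nat.zero_le _)
      (Finset.mem_univ i)
    simp only [Pi.add_apply, Finset.sum_apply, Pi.smul_apply]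
    rw [smul_comm ((p : R e) ^ L), ← hx' i, smul_smul, ← pow_add, Nat.sub_add_cancel h5,
      smul_sub, smul_smul, ← pow_add, Finset.smul_sum, sub_add_eq_add_sub, add_sub_assoc,
      ← Finset.sum_sub_distrib]
    simp only [smul_comm (h e ^ (∑ i, b i)), sub_self, Finset.sum_const_zero, add_zero]
  rw [h4]
  refine add_mem ?_ ?_
  · exact Submodule.smul_mem_smul (r := (p : R e) ^ L)
      (n := fun i => h e ^ (∑ i, b i - b i) • x' i) (hy e) trivial
  · exact (he_mem_ys _ _).mpr ⟨_, rfl⟩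

theorem he_mem_fin (L : ℕ) (hy : ∀ e, (p : R e) ^ L ∈ Ideal.span (Set.range (y e))) {ι : Type}
    [Fintype ι] {κ : Type} [Fintype κ] (u : κ → ι → ∀ e, X e)
    (hu : ∀ k, (fun b => heSS R X p h (u k b)) ∈ ys (ι → SS R X p h) (fun l e => y e l)) :
    ∃ b e₁ : ℕ, ∀ k e c, e₁ ≤ e → b ≤ c → (fun i => h e ^ c • u k i e) ∈ ys (ι → X e) (y e) := by
  classical
  choose b e₁ hb using fun k => he_mem R X p h y L hy (u k) (hu k)
  refine ⟨∑ k, b k, ∑ k, e₁ k, fun k e c he hc => ?_⟩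
  have h1 : b k ≤ ∑ k, b k := Finset.single_le_sum (f := b) (fun _ _ => Nat.zero_le _)
    (Finset.mem_univ k)
  have h2 : e₁ k ≤ ∑ k, e₁ k := Finset.single_le_sum (f := e₁) (fun _ _ => Nat.zero_le _)
    (Finset.mem_univ k)
  have h3 := (ys (ι → X e) (y e)).smul_mem (h e ^ (c - b k)) (hb k e (h2.trans he))
  have h4 : h e ^ (c - b k) • (fun i => h e ^ b k • u k i e) = fun i => h e ^ c • u k i e := by
    funext i
    rw [Pi.smul_apply, smul_smul, ← pow_add, Nat.sub_add_cancel (h1.trans hc)]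
  rwa [h4] at h3

theorem extract (L : ℕ) (hy : ∀ e, (p : R e) ^ L ∈ Ideal.span (Set.range (y e)))
    (W W' : MRep (r + 1)) (f : W.Surj W')
    (HL : LiftMod (W.T (SS R X p h) (fun l e => z e l)) (ys _ (fun l e => y e l))
      (W'.T (SS R X p h) (fun l e => z e l)) (ys _ (fun l e => y e l))
      (za f.P (∀ e, R e) (SS R X p h))) (i : ℤ) :
    ∃ c e₀ : ℕ, ∀ e, e₀ ≤ e → ∀ ζ' ∈ kgr (R e) (W'.ι → X e) (r + 1) i,
      (∀ J, kz (W'.T (X e) (z e)) ζ' J ∈ ys (W'.ι → X e) (y e)) →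
      ∃ ζ ∈ kgr (R e) (W.ι → X e) (r + 1) i,
        (∀ J, kz (W.T (X e) (z e)) ζ J ∈ ys (W.ι → X e) (y e)) ∧
        ∀ J, za f.P (R e) (X e) (ζ J) - h e ^ c • ζ' J ∈ ys (W'.ι → X e) (y e) := by
  classical
  by_contra hcon
  push Not at hcon
  obtain ⟨s, hs, hbad⟩ := Filter.extraction_forall_of_frequently
    (P := fun c e => ∃ ζ' ∈ kgr (R e) (W'.ι → X e) (r + 1) i,
      (∀ J, kz (W'.T (X e) (z e)) ζ' J ∈ ys (W'.ι → X e) (y e)) ∧
      ∀ ζ ∈ kgr (R e) (W.ι → X e) (r + 1) i,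
        (∀ J, kz (W.T (X e) (z e)) ζ J ∈ ys (W.ι → X e) (y e)) →
        ∃ J, za f.P (R e) (X e) (ζ J) - h e ^ c • ζ' J ∉ ys (W'.ι → X e) (y e))
    (fun c => Filter.frequently_atTop.mpr fun e₀ => hcon c e₀)
  have hfam : ∀ e, ∃ ζ' ∈ kgr (R e) (W'.ι → X e) (r + 1) i,
      (∀ J, kz (W'.T (X e) (z e)) ζ' J ∈ ys (W'.ι → X e) (y e)) ∧
      ∀ c, s c = e → ∀ ζ ∈ kgr (R e) (W.ι → X e) (r + 1) i,
        (∀ J, kz (W.T (X e) (z e)) ζ J ∈ ys (W.ι → X e) (y e)) →
        ∃ J, za f.P (R e) (X e) (ζ J) - h e ^ c • ζ' J ∉ ys (W'.ι → X e) (y e) := by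
    intro e
    by_cases h1 : ∃ c, s c = e
    · obtain ⟨c, rfl⟩ := h1
      obtain ⟨ζ', a1, a2, a3⟩ := hbad c
      refine ⟨ζ', a1, a2, fun c' hc' => ?_⟩
      have : c' = c := hs.injective hc'
      rw [this]
      exact a3
    · refine ⟨0, zero_mem _, fun J => ?_, fun c hc => absurd ⟨c, hc⟩ h1⟩
      rw [map_zero]
      exact zero_mem _
  choose ζ' hk hz hb using hfam
  -- the lift over the honest module
  obtain ⟨Z, hZ⟩ : ∃ Z : Finset (Fin (r + 1)) → W'.ι → ∀ e, X e, Z = fun J b e => ζ' e J b :=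
    ⟨_, rfl⟩
  have hkgr : (fun J b => heSS R X p h (Z J b)) ∈ kgr (∀ e, R e) (W'.ι → SS R X p h) (r + 1) i := by
    intro J hJ
    by_contra hJi
    apply hJ
    funext b
    have h1 : Z J b = 0 := by
      rw [hZ]
      funext e
      by_contra h2
      exact hJi (hk e J fun h3 => h2 (by
        change ζ' e J b = 0
        rw [h3]
        rfl))
    change heSS R X p h (Z J b) = 0
    rw [h1, map_zero]
  have hkzZ : ∀ J, kz (W'.T (SS R X p h) (fun l e => z e l)) (fun J b => heSS R X p h (Z J b)) J ∈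
      ys (W'.ι → SS R X p h) (fun l e => y e l) := by
    intro J
    choose t ht using fun e => (he_mem_ys _ _).mp (hz e J)
    refine (he_mem_ys _ _).mpr ⟨fun l b => heSS R X p h (fun e => t e l b), ?_⟩
    funext b
    rw [← he_kz]
    have h1 : kz (W'.T (∀ e, X e) (fun l e => z e l)) Z J b =
        ∑ l, (fun e => y e l) • (fun e => t e l b) := by
      funext e
      rw [he_kz_eval]
      have h2 := congrFun (ht e) b
      rw [hZ]
      simp only [Finset.sum_apply, Pi.smul_apply, Pi.smul_apply'] at h2 ⊢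
      exact h2
    rw [h1, map_sum]
    simp only [Finset.sum_apply, Pi.smul_apply, map_smul]
  obtain ⟨ζb, hζk, hζz, hζd⟩ := HL i _ hkgr hkzZ
  obtain ⟨a, x, hx⟩ := he_common R X p h (fun k : Finset (Fin (r + 1)) × W.ι => ζb k.1 k.2)
  obtain ⟨ξ, hξ⟩ : ∃ ξ : Finset (Fin (r + 1)) → W.ι → ∀ e, X e,
      ξ = fun J b => if (J.card : ℤ) = i then x (J, b) else 0 := ⟨_, rfl⟩
  have hξs : ∀ J b, heSS R X p h (ξ J b) = h ^ a • ζb J b := by
    intro J b
    rw [hξ]
    dsimp only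
    split_ifs with h1
    · exact (hx (J, b)).symm
    · have h2 : ζb J = 0 := by
        by_contra h3
        exact h1 (hζk J h3)
      rw [h2, map_zero]
      simp
  have hξs' : (fun J b => heSS R X p h (ξ J b)) = h ^ a • ζb := by
    funext J b
    exact hξs J b
  obtain ⟨b1, e1, hb1⟩ := he_mem_fin R X p h y L hy
    (fun J => kz (W.T (∀ e, X e) (fun l e => z e l)) ξ J) (by
      intro J
      have h1 : (fun b => heSS R X p h (kz (W.T (∀ e, X e) (fun l e => z e l)) ξ J b)) =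
          h ^ a • kz (W.T (SS R X p h) (fun l e => z e l)) ζb J := by
        funext b
        rw [he_kz, hξs', map_smul]
        rfl
      rw [h1]
      exact Submodule.smul_mem _ _ (hζz J))
  obtain ⟨b2, e2, hb2⟩ := he_mem_fin R X p h y L hy
    (fun J b => za f.P (∀ e, R e) (∀ e, X e) (ξ J) b - h ^ a • Z J b) (by
      intro J
      have h1 : (fun b => heSS R X p h (za f.P (∀ e, R e) (∀ e, X e) (ξ J) b - h ^ a • Z J b)) =
          h ^ a • (za f.P (∀ e, R e) (SS R X p h) (ζb J) - fun b => heSS R X p h (Z J b)) := by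
        funext b
        rw [map_sub, he_za, map_smul]
        have h2 : (fun b => heSS R X p h (ξ J b)) = h ^ a • ζb J := by
          funext b
          exact hξs J b
        rw [h2, map_smul, smul_sub]
        rfl
      rw [h1]
      exact Submodule.smul_mem _ _ (hζd J))
  -- the contradiction
  obtain ⟨c, hc⟩ : ∃ c : ℕ, c = (b1 + b2 + e1 + e2) + a := ⟨_, rfl⟩
  have hsc : c ≤ s c := hs.le_apply
  obtain ⟨J, hJ⟩ := hb (s c) c rfl (fun J b => h (s c) ^ (b1 + b2 + e1 + e2) • ξ J b (s c)) (by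
    intro J hJ
    by_contra h1
    apply hJ
    funext b
    rw [hξ]
    simp [h1]) (by
    intro J
    have h1 : kz (W.T (X (s c)) (z (s c)))
        (fun J b => h (s c) ^ (b1 + b2 + e1 + e2) • ξ J b (s c)) J =
        fun b => h (s c) ^ (b1 + b2 + e1 + e2) •
          kz (W.T (∀ e, X e) (fun l e => z e l)) ξ J b (s c) := by
      funext b
      rw [he_kz_eval]
      have h2 : (fun J b => h (s c) ^ (b1 + b2 + e1 + e2) • ξ J b (s c)) =
          h (s c) ^ (b1 + b2 + e1 + e2) • (fun J b => ξ J b (s c)) := rfl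
      rw [h2, map_smul]
      rfl
    rw [h1]
    exact hb1 J (s c) _ (by omega) (by omega))
  apply hJ
  have h1 : za f.P (R (s c)) (X (s c)) (fun b => h (s c) ^ (b1 + b2 + e1 + e2) • ξ J b (s c)) -
      h (s c) ^ c • ζ' (s c) J = fun b => h (s c) ^ (b1 + b2 + e1 + e2) •
        (za f.P (∀ e, R e) (∀ e, X e) (ξ J) b - h ^ a • Z J b) (s c) := by
    funext b
    have h2 : (fun b => h (s c) ^ (b1 + b2 + e1 + e2) • ξ J b (s c)) =
        h (s c) ^ (b1 + b2 + e1 + e2) • (fun b => ξ J b (s c)) := rfl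
    rw [h2, map_smul, Pi.sub_apply, Pi.smul_apply, Pi.smul_apply, Pi.sub_apply, he_za_eval,
      smul_sub, Pi.smul_apply', Pi.pow_apply, smul_smul, ← pow_add, ← hc, hZ]
  rw [h1]
  exact hb2 J (s c) _ (by omega) (by omega)

end Limit

end Vale.Agent.P202.Mix
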