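import Vale.Agent.P202.Mix.HonDefs

/-!
P202-MIX, task HON-5: the levelwise liftings give the lifting on the honest module.
-/

namespace Vale.Agent.P202.Mix

open Vale.Agent.P202.CharP
open scoped ENNReal

universe u

namespace HonLift

section

variable {R : Type u} [CommRing R] {n : ℕ} {V V' : Type u} [AddCommGroup V] [Module R V]
  [AddCommGroup V'] [Module R V']

theorem mem_trg (T : Fin n → V →ₗ[R] V) (x : V) :
    x ∈ trg T ↔ ∃ u : Fin n → V, x = ∑ l, T l (u l) := by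
  constructor
  · intro hx
    have h : trg T ≤ LinearMap.range
        (∑ l, T l ∘ₗ (LinearMap.proj l : (Fin n → V) →ₗ[R] V)) := by
      refine iSup_le fun l => ?_
      rintro _ ⟨w, rfl⟩
      refine ⟨Pi.single l w, ?_⟩
      rw [LinearMap.sum_apply, Finset.sum_eq_single l]
      · simp
      · intro k _ hk
        simp [hk]
      · intro hl
        exact absurd (Finset.mem_univ l) hl
    obtain ⟨u, hu⟩ := h hx
    refine ⟨u, ?_⟩
    rw [← hu, LinearMap.sum_apply]
    rfl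
  · rintro ⟨u, rfl⟩
    exact Submodule.sum_mem _ fun l _ =>
      (le_iSup (fun l => LinearMap.range (T l)) l) ⟨u l, rfl⟩

theorem T_apply (W : MRep n) (z : Fin n → R) (l : Fin n) (x : W.ι → V) (a : W.ι) :
    W.T V z l x a = ∑ b, W.X l a b • x b - z l • x a := rfl

theorem za_apply {α β : Type} [Fintype β] (P : Matrix α β ℤ) (x : β → V) (a : α) :
    za P R V x a = ∑ b, P a b • x b := rfl

theorem kz_apply {ι : Type} (y : Fin n → R) (c : Finset (Fin n) → ι → V) (J : Finset (Fin n))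
    (a : ι) :
    kz (sop (ι → V) y) c J a = ∑ l ∈ Jᶜ, ksg l J • (y l • c (insert l J) a) := by
  show (∑ l ∈ Jᶜ, ksg l J • (sop (ι → V) y l (c (insert l J)))) a = _
  rw [Finset.sum_apply]
  rfl

theorem T_nat (φ : V →ₗ[R] V') (W : MRep n) (z : Fin n → R) (l : Fin n) (x : W.ι → V)
    (a : W.ι) : φ (W.T V z l x a) = W.T V' z l (fun b => φ (x b)) a := by
  rw [T_apply, T_apply, map_sub, map_sum, map_smul]
  simp only [map_zsmul]

theorem za_nat (φ : V →ₗ[R] V') {α β : Type} [Fintype β] (P : Matrix α β ℤ) (x : β → V) (a : α) :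
    φ (za P R V x a) = za P R V' (fun b => φ (x b)) a := by
  rw [za_apply, za_apply, map_sum]
  simp only [map_zsmul]

theorem kz_nat (φ : V →ₗ[R] V') {ι : Type} (y : Fin n → R) (c : Finset (Fin n) → ι → V)
    (J : Finset (Fin n)) (a : ι) :
    φ (kz (sop (ι → V) y) c J a) = kz (sop (ι → V') y) (fun J a => φ (c J a)) J a := by
  rw [kz_apply, kz_apply, map_sum]
  simp only [map_zsmul, map_smul]

theorem sumT_nat (φ : V →ₗ[R] V') (W : MRep n) (z : Fin n → R) (u : Fin n → W.ι → V)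
    (a : W.ι) : φ ((∑ l, W.T V z l (u l)) a) = (∑ l, W.T V' z l (fun b => φ (u l b))) a := by
  rw [Finset.sum_apply, Finset.sum_apply, map_sum]
  exact Finset.sum_congr rfl fun l _ => T_nat φ W z l (u l) a

end

section Fam

variable (R : ℕ → Type u) [∀ e, CommRing (R e)] (X : ℕ → Type u) [∀ e, AddCommGroup (X e)]
  [∀ e, Module (R e) (X e)] {n : ℕ}

theorem T_comp (W : MRep n) (z : ∀ e, Fin n → R e) (l : Fin n) (x : W.ι → ∀ e, X e)
    (a : W.ι) (e : ℕ) :
    W.T (∀ e, X e) (fun l e => z e l) l x a e = W.T (X e) (z e) l (fun b => x b e) a := by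
  rw [T_apply (R := ∀ e, R e), T_apply, Pi.sub_apply, Finset.sum_apply]
  rfl

theorem za_comp {α β : Type} [Fintype β] (P : Matrix α β ℤ) (x : β → ∀ e, X e) (a : α) (e : ℕ) :
    za P (∀ e, R e) (∀ e, X e) x a e = za P (R e) (X e) (fun b => x b e) a := by
  rw [za_apply (R := ∀ e, R e), za_apply, Finset.sum_apply]
  rfl

theorem kz_comp {ι : Type} (y : ∀ e, Fin n → R e) (c : Finset (Fin n) → ι → ∀ e, X e)
    (J : Finset (Fin n)) (a : ι) (e : ℕ) :
    kz (sop (ι → ∀ e, X e) (fun l e => y e l)) c J a e =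
      kz (sop (ι → X e) (y e)) (fun J a => c J a e) J a := by
  rw [kz_apply (R := ∀ e, R e), kz_apply, Finset.sum_apply]
  rfl

theorem sumT_comp (W : MRep n) (z : ∀ e, Fin n → R e) (u : Fin n → W.ι → ∀ e, X e)
    (a : W.ι) (e : ℕ) :
    (∑ l, W.T (∀ e, X e) (fun l e => z e l) l (u l)) a e =
      (∑ l, W.T (X e) (z e) l (fun b => u l b e)) a := by
  rw [Finset.sum_apply, Finset.sum_apply, Finset.sum_apply]
  exact Finset.sum_congr rfl fun l _ => T_comp R X W z l (u l) a e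

end Fam

section Loc

variable {A : Type u} [CommRing A] {M N : Type u} [AddCommGroup M] [Module A M]
  [AddCommGroup N] [Module A N]

theorem exists_inv (h : A) (f : M →ₗ[A] N) [IsLocalizedModule (Submonoid.powers h) f] (k : ℕ) :
    ∃ ψ : N →ₗ[A] N, ∀ x, ψ (h ^ k • x) = x := by
  obtain ⟨u, hu⟩ := IsLocalizedModule.map_units (S := Submonoid.powers h) f ⟨h ^ k, k, rfl⟩
  refine ⟨↑u⁻¹, fun x => ?_⟩
  have h1 : h ^ k • x = (u : Module.End A N) x := by
    rw [hu]
    rfl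
  rw [h1]
  have h2 : (↑u⁻¹ * ↑u : Module.End A N) x = x := by
    rw [Units.inv_mul]
    rfl
  exact h2

theorem exists_kill (h : A) (f : M →ₗ[A] N) [IsLocalizedModule (Submonoid.powers h) f]
    {ι : Type} [Fintype ι] (g : ι → M) (hg : ∀ i, f (g i) = 0) : ∃ m : ℕ, ∀ i, h ^ m • g i = 0 := by
  have h1 : ∀ i, ∃ m : ℕ, h ^ m • g i = 0 := by
    intro i
    obtain ⟨⟨b, m, rfl⟩, hb⟩ := (IsLocalizedModule.eq_zero_iff (Submonoid.powers h) f).1 (hg i)
    exact ⟨m, hb⟩
  choose m hm using h1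
  refine ⟨∑ i, m i, fun i => ?_⟩
  have h2 : m i ≤ ∑ i, m i := Finset.single_le_sum (f := m) (fun _ _ => Nat.zero_le _)
    (Finset.mem_univ i)
  rw [← Nat.sub_add_cancel h2, pow_add, mul_smul, hm, smul_zero]

end Loc

end HonLift

open HonLift in
/-- TASK HON-5: the levelwise liftings give the lifting on the honest module. -/
theorem lift_SS (R : ℕ → Type u) [∀ e, CommRing (R e)] (X : ℕ → Type u)
    [∀ e, AddCommGroup (X e)] [∀ e, Module (R e) (X e)] (p : ℕ) {r : ℕ} (h : ∀ e, R e)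
    (y z : ∀ e, Fin (r + 1) → R e) (W W' : MRep (r + 1)) (f : W.Surj W')
    (Hp : ∀ e (x : W.ι → X e), (p : R e) • x ∈ trg (W.T (X e) (z e)))
    (Hp' : ∀ e (x : W'.ι → X e), (p : R e) • x ∈ trg (W'.T (X e) (z e)))
    (HL : ∀ e, LiftMod (sop (W.ι → X e) (y e)) (trg (W.T (X e) (z e)))
      (sop (W'.ι → X e) (y e)) (trg (W'.T (X e) (z e))) (za f.P (R e) (X e))) :
    LiftMod (sop (W.ι → SS R X p h) (fun l e => y e l))
      (trg (W.T (SS R X p h) (fun l e => z e l)))
      (sop (W'.ι → SS R X p h) (fun l e => y e l))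
      (trg (W'.T (SS R X p h) (fun l e => z e l))) (za f.P (∀ e, R e) (SS R X p h)) := by
  classical
  intro i c' hc' hz
  choose u hu using fun J => (mem_trg _ _).1 (hz J)
  let F : XX R X p →ₗ[∀ e, R e] SS R X p h :=
    LocalizedModule.mkLinearMap (Submonoid.powers h) (XX R X p)
  let G : (∀ e, X e) →ₗ[∀ e, R e] SS R X p h := F ∘ₗ (Jinf R X p).mkQ
  have hG0 : ∀ x ∈ Jinf R X p, G x = 0 := by
    intro x hx
    show F ((Jinf R X p).mkQ x) = 0
    rw [Submodule.mkQ_apply, (Submodule.Quotient.mk_eq_zero _).2 hx, map_zero]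
  -- clearing denominators
  obtain ⟨⟨b, k, rfl⟩, hb⟩ := IsLocalizedModule.exist_integer_multiples_of_finite
    (Submonoid.powers h) F (ι := (Finset (Fin (r + 1)) × W'.ι) ⊕
      (Finset (Fin (r + 1)) × Fin (r + 1) × W'.ι))
    (Sum.elim (fun t => c' t.1 t.2) (fun t => u t.1 t.2.1 t.2.2))
  have hb1 : ∀ J a, ∃ q : ∀ e, X e, G q = h ^ k • c' J a := by
    intro J a
    obtain ⟨m, hm⟩ := hb (Sum.inl (J, a))
    obtain ⟨q, rfl⟩ := Submodule.mkQ_surjective _ m
    exact ⟨q, hm⟩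
  have hb2 : ∀ J l a, ∃ q : ∀ e, X e, G q = h ^ k • u J l a := by
    intro J l a
    obtain ⟨m, hm⟩ := hb (Sum.inr (J, l, a))
    obtain ⟨q, rfl⟩ := Submodule.mkQ_surjective _ m
    exact ⟨q, hm⟩
  choose q1 hq1 using hb1
  choose q2 hq2 using hb2
  let c20 : Finset (Fin (r + 1)) → W'.ι → ∀ e, X e := fun J a =>
    if (J.card : ℤ) = i then q1 J a else 0
  have hc20 : ∀ J a, G (c20 J a) = h ^ k • c' J a := by
    intro J a
    show G (if (J.card : ℤ) = i then q1 J a else 0) = _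
    split_ifs with hJ
    · exact hq1 J a
    · have h0 : c' J = 0 := by
        by_contra hne
        exact hJ (hc' J hne)
      rw [h0, map_zero, Pi.zero_apply, smul_zero]
  let D : Finset (Fin (r + 1)) → W'.ι → ∀ e, X e := fun J a =>
    kz (sop (W'.ι → ∀ e, X e) (fun l e => y e l)) c20 J a -
      (∑ l, W'.T (∀ e, X e) (fun l e => z e l) l (q2 J l)) a
  have hD : ∀ J a, G (D J a) = 0 := by
    intro J a
    show G (kz (sop (W'.ι → ∀ e, X e) (fun l e => y e l)) c20 J a -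
      (∑ l, W'.T (∀ e, X e) (fun l e => z e l) l (q2 J l)) a) = 0
    rw [map_sub, kz_nat, sumT_nat]
    simp only [hc20, hq2]
    have e1 := kz_nat (h ^ k • (LinearMap.id : SS R X p h →ₗ[∀ e, R e] SS R X p h))
      (fun l e => y e l) c' J a
    have e2 := sumT_nat (h ^ k • (LinearMap.id : SS R X p h →ₗ[∀ e, R e] SS R X p h)) W'
      (fun l e => z e l) (u J) a
    simp only [LinearMap.smul_apply, LinearMap.id_apply] at e1 e2
    rw [← e1, ← e2, hu J, sub_self]
  obtain ⟨m, hm⟩ := exists_kill h F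
    (fun t : Finset (Fin (r + 1)) × W'.ι => (Jinf R X p).mkQ (D t.1 t.2)) fun t => hD t.1 t.2
  let c2 : Finset (Fin (r + 1)) → W'.ι → ∀ e, X e := fun J a => h ^ m • c20 J a
  let u2 : Finset (Fin (r + 1)) → Fin (r + 1) → W'.ι → ∀ e, X e := fun J l a =>
    h ^ m • q2 J l a
  have hc2 : ∀ J, (J.card : ℤ) ≠ i → ∀ a, c2 J a = 0 := by
    intro J hJ a
    show h ^ m • (if (J.card : ℤ) = i then q1 J a else 0) = 0
    rw [if_neg hJ, smul_zero]
  have hJ : ∀ J a, kz (sop (W'.ι → ∀ e, X e) (fun l e => y e l)) c2 J a -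
      (∑ l, W'.T (∀ e, X e) (fun l e => z e l) l (u2 J l)) a ∈ Jinf R X p := by
    intro J a
    have h1 : h ^ m • D J a ∈ Jinf R X p := by
      rw [← Submodule.Quotient.mk_eq_zero, Submodule.Quotient.mk_smul]
      exact hm (J, a)
    have e1 := kz_nat (h ^ m • (LinearMap.id : (∀ e, X e) →ₗ[∀ e, R e] (∀ e, X e)))
      (fun l e => y e l) c20 J a
    have e2 := sumT_nat (h ^ m • (LinearMap.id : (∀ e, X e) →ₗ[∀ e, R e] (∀ e, X e))) W'
      (fun l e => z e l) (q2 J) a
    simp only [LinearMap.smul_apply, LinearMap.id_apply] at e1 e2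
    have h2 : h ^ m • D J a = kz (sop (W'.ι → ∀ e, X e) (fun l e => y e l)) c2 J a -
        (∑ l, W'.T (∀ e, X e) (fun l e => z e l) l (u2 J l)) a := by
      show h ^ m • (kz (sop (W'.ι → ∀ e, X e) (fun l e => y e l)) c20 J a -
        (∑ l, W'.T (∀ e, X e) (fun l e => z e l) l (q2 J l)) a) = _
      rw [smul_sub, e1, e2]
    rw [← h2]
    exact h1
  obtain ⟨ψ, hψ⟩ := exists_inv h F (k + m)
  let Φ : (∀ e, X e) →ₗ[∀ e, R e] SS R X p h := ψ ∘ₗ G
  have hΦ0 : ∀ x ∈ Jinf R X p, Φ x = 0 := by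
    intro x hx
    show ψ (G x) = 0
    rw [hG0 x hx, map_zero]
  have hΦ : ∀ J a, Φ (c2 J a) = c' J a := by
    intro J a
    show ψ (G (h ^ m • c20 J a)) = _
    rw [map_smul, hc20, ← mul_smul, ← pow_add, add_comm m k, hψ]
  -- the levels
  have he : ∃ e₀, ∀ e, e₀ ≤ e → ∀ J a, ∃ x' : X e,
      (kz (sop (W'.ι → ∀ e, X e) (fun l e => y e l)) c2 J a -
      (∑ l, W'.T (∀ e, X e) (fun l e => z e l) l (u2 J l)) a) e = (p : R e) • x' := by
    have h1 : ∀ t : Finset (Fin (r + 1)) × W'.ι, ∃ e₀, ∀ e, e₀ ≤ e → ∃ x' : X e,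
        (kz (sop (W'.ι → ∀ e, X e) (fun l e => y e l)) c2 t.1 t.2 -
        (∑ l, W'.T (∀ e, X e) (fun l e => z e l) l (u2 t.1 l)) t.2) e = (p : R e) • x' := by
      intro t
      obtain ⟨e₀, h2⟩ := hJ t.1 t.2 1
      refine ⟨e₀, fun e he => ?_⟩
      obtain ⟨x', hx'⟩ := h2 e he
      exact ⟨x', by rw [hx', pow_one]⟩
    choose e1 h1 using h1
    refine ⟨∑ t, e1 t, fun e he J a => h1 (J, a) e (le_trans ?_ he)⟩
    exact Finset.single_le_sum (f := e1) (fun _ _ => Nat.zero_le _) (Finset.mem_univ (J, a))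
  obtain ⟨e₀, he₀⟩ := he
  have key : ∀ e, ∃ (c : Finset (Fin (r + 1)) → W.ι → X e)
      (t : Finset (Fin (r + 1)) → Fin (r + 1) → W.ι → X e)
      (s : Finset (Fin (r + 1)) → Fin (r + 1) → W'.ι → X e),
      c ∈ kgr (R e) (W.ι → X e) (r + 1) i ∧
      (∀ J, kz (sop (W.ι → X e) (y e)) c J = ∑ l, W.T (X e) (z e) l (t J l)) ∧
      (e₀ ≤ e → ∀ J, za f.P (R e) (X e) (c J) - (fun a => c2 J a e) =
        ∑ l, W'.T (X e) (z e) l (s J l)) := by
    intro e
    by_cases hle : e₀ ≤ e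
    · obtain ⟨c, hc1, hc3, hc4⟩ := HL e i (fun J a => c2 J a e) (by
        intro J hne
        by_contra hJi
        exact hne (by funext a; show c2 J a e = 0; rw [hc2 J hJi a]; rfl)) (by
        intro J
        choose x' hx' using he₀ e hle J
        have h1 : kz (sop (W'.ι → X e) (y e)) (fun J a => c2 J a e) J =
            (∑ l, W'.T (X e) (z e) l (fun b => u2 J l b e)) + (p : R e) • x' := by
          funext a
          have h2 := hx' a
          rw [Pi.sub_apply, kz_comp, sumT_comp, sub_eq_iff_eq_add] at h2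
          rw [h2, Pi.add_apply, Pi.smul_apply, add_comm]
        rw [h1]
        exact Submodule.add_mem _ ((mem_trg _ _).2 ⟨_, rfl⟩) (Hp' e x'))
      choose t ht using fun J => (mem_trg _ _).1 (hc3 J)
      choose s hs using fun J => (mem_trg _ _).1 (hc4 J)
      exact ⟨c, t, s, hc1, ht, fun _ => hs⟩
    · refine ⟨0, 0, 0, Submodule.zero_mem _, fun J => ?_, fun h' => absurd h' hle⟩
      rw [map_zero]
      simp
  choose c t s hk ht hs using key
  let c3 : Finset (Fin (r + 1)) → W.ι → ∀ e, X e := fun J a e => c e J a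
  let t3 : Finset (Fin (r + 1)) → Fin (r + 1) → W.ι → ∀ e, X e := fun J l a e => t e J l a
  let s3 : Finset (Fin (r + 1)) → Fin (r + 1) → W'.ι → ∀ e, X e := fun J l a e => s e J l a
  refine ⟨fun J a => Φ (c3 J a), ?_, ?_, ?_⟩
  · intro J hne
    by_contra hJi
    apply hne
    funext a
    have : c3 J a = 0 := by
      funext e
      show c e J a = 0
      have h0 : c e J = 0 := by
        by_contra h0
        exact hJi (hk e J h0)
      rw [h0]
      rfl
    show Φ (c3 J a) = 0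
    rw [this, map_zero]
  · intro J
    rw [mem_trg]
    refine ⟨fun l b => Φ (t3 J l b), ?_⟩
    funext a
    rw [← kz_nat Φ, ← sumT_nat Φ]
    congr 1
    funext e
    rw [kz_comp, sumT_comp]
    exact congrFun (ht e J) a
  · intro J
    rw [mem_trg]
    refine ⟨fun l b => Φ (s3 J l b), ?_⟩
    funext a
    rw [Pi.sub_apply, ← za_nat Φ, ← sumT_nat Φ, ← hΦ J a, ← sub_eq_zero, ← map_sub, ← map_sub]
    apply hΦ0
    intro j
    refine ⟨e₀, fun e hle => ⟨0, ?_⟩⟩
    rw [smul_zero, Pi.sub_apply, Pi.sub_apply, za_comp, sumT_comp, sub_eq_zero]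
    exact congrFun (hs e hle J) a

end Vale.Agent.P202.Mix
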