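import Vale.Agent.P202.Mix.HonDefs

/-!
P202-MIX, part HON, task HON-4: weak regularity on the honest module.
-/

namespace Vale.Agent.P202.Mix

open Vale.Agent.P202.CharP
open scoped ENNReal

universe u

section Aux

variable {A : Type*} [CommRing A] {M : Type*} [AddCommGroup M] [Module A M]

/-- Elements of `(v_i, i < k) M`. -/
private theorem honReg_mem {n : ℕ} (v : Fin n → A) (k : Fin n) (x : M) :
    x ∈ Ideal.span (v '' Set.Iio k) • (⊤ : Submodule A M) ↔
      ∃ w : Fin n → M, x = ∑ i ∈ Finset.Iio k, v i • w i := by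
  classical
  constructor
  · intro hx
    let T : Submodule A M := LinearMap.range
      (∑ i ∈ Finset.Iio k, v i • (LinearMap.proj i : (Fin n → M) →ₗ[A] M))
    have hT : ∀ z, z ∈ T ↔ ∃ w : Fin n → M, z = ∑ i ∈ Finset.Iio k, v i • w i := by
      intro z
      simp only [T, LinearMap.mem_range, LinearMap.sum_apply, LinearMap.smul_apply,
        LinearMap.proj_apply]
      exact ⟨fun ⟨w, hw⟩ => ⟨w, hw.symm⟩, fun ⟨w, hw⟩ => ⟨w, hw.symm⟩⟩
    rw [← hT]
    have hle : Ideal.span (v '' Set.Iio k) • (⊤ : Submodule A M) ≤ T := by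
      rw [Submodule.smul_le]
      intro r hr m _
      have h1 : Ideal.span (v '' Set.Iio k) ≤ T.comap (LinearMap.toSpanSingleton A M m) := by
        rw [Ideal.span_le]
        rintro _ ⟨i, hi, rfl⟩
        show v i • m ∈ T
        rw [hT]
        refine ⟨fun j => if j = i then m else 0, ?_⟩
        rw [Finset.sum_eq_single i]
        · simp only [if_true]
        · intro j _ hj
          simp only [if_neg hj, smul_zero]
        · intro h2
          exact absurd (Finset.mem_Iio.2 hi) h2
      exact h1 hr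
    exact hle hx
  · rintro ⟨w, rfl⟩
    refine Submodule.sum_mem _ fun i hi => Submodule.smul_mem_smul (Ideal.subset_span ?_)
      Submodule.mem_top
    exact ⟨i, Finset.mem_Iio.1 hi, rfl⟩

/-- Membership of a fraction in `K • ⊤`. -/
private theorem honReg_loc (S : Submonoid A) (K : Ideal A) (m : M) (s : S) :
    LocalizedModule.mk m s ∈ K • (⊤ : Submodule A (LocalizedModule S M)) ↔
      ∃ u : S, (u : A) • m ∈ K • (⊤ : Submodule A M) := by
  constructor
  · intro h
    have key : ∀ t ∈ K • (⊤ : Submodule A (LocalizedModule S M)),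
        ∃ m' ∈ K • (⊤ : Submodule A M), ∃ s' : S, t = LocalizedModule.mk m' s' := by
      intro t ht
      refine Submodule.smul_induction_on ht ?_ ?_
      · intro r hr n _
        induction n using LocalizedModule.induction_on with
        | h m s =>
          exact ⟨r • m, Submodule.smul_mem_smul hr Submodule.mem_top, s,
            LocalizedModule.smul'_mk r m s⟩
      · rintro _ _ ⟨m1, h1, s1, rfl⟩ ⟨m2, h2, s2, rfl⟩
        exact ⟨s2 • m1 + s1 • m2, add_mem (Submodule.smul_mem _ _ h1) (Submodule.smul_mem _ _ h2),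
          s1 * s2, LocalizedModule.mk_add_mk⟩
    obtain ⟨m', hm', s', he⟩ := key _ h
    obtain ⟨u, hu⟩ := LocalizedModule.mk_eq.1 he
    refine ⟨u * s', ?_⟩
    have h3 : ((u * s' : S) : A) • m = u • s' • m := by
      rw [Submonoid.coe_mul, mul_smul]
      rfl
    rw [h3, hu]
    exact Submodule.smul_mem _ _ (Submodule.smul_mem _ _ hm')
  · rintro ⟨u, hu⟩
    have h1 : (LocalizedModule.mk m s : LocalizedModule S M) =
        LocalizedModule.mk ((u : A) • m) (u * s) :=
      (LocalizedModule.mk_cancel_common_left u s m).symm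
    rw [h1]
    generalize (u : A) • m = m' at hu
    generalize u * s = s'
    refine Submodule.smul_induction_on hu ?_ ?_
    · intro r hr n _
      rw [← LocalizedModule.smul'_mk]
      exact Submodule.smul_mem_smul hr Submodule.mem_top
    · intro m1 m2 h1 h2
      have h3 : (LocalizedModule.mk (m1 + m2) s' : LocalizedModule S M) =
          LocalizedModule.mk m1 s' + LocalizedModule.mk m2 s' := by
        rw [LocalizedModule.mk_add_mk, ← smul_add, LocalizedModule.mk_cancel_common_left]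
      rw [h3]
      exact add_mem h1 h2

end Aux

section Limit

variable (R : ℕ → Type u) [∀ e, CommRing (R e)] (X : ℕ → Type u) [∀ e, AddCommGroup (X e)]
  [∀ e, Module (R e) (X e)] (p : ℕ) {r : ℕ} (h : ∀ e, R e)
  (v : ∀ e, Fin (r + 1) → R e)

/-- Before inverting `h`. -/
private theorem honReg_XX (hv0 : ∀ e, v e 0 = (p : R e)) (N : ℕ → ℕ)
    (hN : Filter.Tendsto N Filter.atTop Filter.atTop)
    (H1a : ∀ e (x : X e), (p : R e) • x = 0 → ∃ x', h e • x = (p : R e) ^ (N e) • x')
    (H1b : ∀ e (k : Fin (r + 1)), k ≠ 0 → ∀ x : X e,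
      v e k • x ∈ Ideal.span (v e '' Set.Iio k) • (⊤ : Submodule (R e) (X e)) →
      h e • x ∈ Ideal.span (v e '' Set.Iio k) • (⊤ : Submodule (R e) (X e)))
    (k : Fin (r + 1)) (x : XX R X p)
    (hx : (fun e => v e k : ∀ e, R e) • x ∈
      Ideal.span ((fun (k : Fin (r + 1)) (e : ℕ) => v e k) '' Set.Iio k) •
        (⊤ : Submodule (∀ e, R e) (XX R X p))) :
    h • x ∈ Ideal.span ((fun (k : Fin (r + 1)) (e : ℕ) => v e k) '' Set.Iio k) •
        (⊤ : Submodule (∀ e, R e) (XX R X p)) := by
  obtain ⟨x, rfl⟩ := (Jinf R X p).mkQ_surjective x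
  rw [honReg_mem] at hx ⊢
  obtain ⟨w, hw⟩ := hx
  have hsurj : ∀ i, ∃ w' : ∀ e, X e, (Jinf R X p).mkQ w' = w i := fun i =>
    (Jinf R X p).mkQ_surjective (w i)
  choose w' hw' using hsurj
  have h1 : (fun e => v e k : ∀ e, R e) • x -
      ∑ i ∈ Finset.Iio k, (fun e => v e i : ∀ e, R e) • w' i ∈ Jinf R X p := by
    rw [← Submodule.Quotient.mk_eq_zero, ← Submodule.mkQ_apply, map_sub, map_sum, map_smul, hw,
      sub_eq_zero]
    exact Finset.sum_congr rfl fun i _ => by rw [map_smul, hw']
  have happ : ∀ e (u : Fin (r + 1) → ∀ e, X e),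
      (∑ i ∈ Finset.Iio k, (fun e => v e i : ∀ e, R e) • u i) e =
        ∑ i ∈ Finset.Iio k, v e i • u i e := by
    intro e u
    rw [Finset.sum_apply]
    rfl
  by_cases hk : k = 0
  · -- divisibility by `p`
    subst hk
    have hempty : Finset.Iio (0 : Fin (r + 1)) = ∅ := by
      ext i
      simp
    rw [hempty, Finset.sum_empty, sub_zero] at h1
    refine ⟨0, ?_⟩
    rw [hempty, Finset.sum_empty, ← map_smul, Submodule.mkQ_apply, Submodule.Quotient.mk_eq_zero]
    intro j
    obtain ⟨e₁, he₁⟩ := h1 (j + 1)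
    obtain ⟨e₂, he₂⟩ := Filter.eventually_atTop.1 (hN.eventually_ge_atTop j)
    refine ⟨max e₁ e₂, fun e he => ?_⟩
    obtain ⟨x', hx'⟩ := he₁ e (le_trans (le_max_left _ _) he)
    have hNe := he₂ e (le_trans (le_max_right _ _) he)
    have h2 : (p : R e) • x e = (p : R e) ^ (j + 1) • x' := by
      rw [← hx', ← hv0 e]
      rfl
    have h3 : (p : R e) • (x e - (p : R e) ^ j • x') = 0 := by
      rw [smul_sub, h2, smul_smul, ← pow_succ', sub_self]
    obtain ⟨x'', hx''⟩ := H1a e _ h3
    refine ⟨h e • x' + (p : R e) ^ (N e - j) • x'', ?_⟩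
    rw [smul_add, smul_smul ((p : R e) ^ j) ((p : R e) ^ (N e - j)), ← pow_add,
      Nat.add_sub_cancel' hNe, ← hx'', smul_sub, smul_comm ((p : R e) ^ j) (h e) x']
    rw [Pi.smul_apply']
    abel
  · obtain ⟨e₀, he₀⟩ := h1 1
    have h2 : ∀ e, e₀ ≤ e → ∃ u : Fin (r + 1) → X e,
        h e • x e = ∑ i ∈ Finset.Iio k, v e i • u i := by
      intro e he
      rw [← honReg_mem]
      apply H1b e k hk
      obtain ⟨x', hx'⟩ := he₀ e he
      rw [Pi.sub_apply, happ, pow_one] at hx'
      have h3 : v e k • x e = v e 0 • x' + ∑ i ∈ Finset.Iio k, v e i • w' i e := by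
        rw [hv0, ← hx']
        rw [sub_add_cancel]
        rfl
      rw [h3]
      refine add_mem (Submodule.smul_mem_smul (Ideal.subset_span ?_) Submodule.mem_top)
        ((honReg_mem _ _ _).2 ⟨fun i => w' i e, rfl⟩)
      exact ⟨0, Fin.pos_iff_ne_zero.2 hk, rfl⟩
    have h3 : ∀ e, ∃ u : Fin (r + 1) → X e, e₀ ≤ e →
        h e • x e = ∑ i ∈ Finset.Iio k, v e i • u i := by
      intro e
      by_cases he : e₀ ≤ e
      · obtain ⟨u, hu⟩ := h2 e he
        exact ⟨u, fun _ => hu⟩
      · exact ⟨0, fun h => absurd h he⟩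
    choose u hu using h3
    refine ⟨fun i => (Jinf R X p).mkQ fun e => u e i, ?_⟩
    have h4 : h • x - ∑ i ∈ Finset.Iio k, (fun e => v e i : ∀ e, R e) • (fun e => u e i) ∈
        Jinf R X p := by
      intro j
      refine ⟨e₀, fun e he => ⟨0, ?_⟩⟩
      rw [Pi.sub_apply, happ, smul_zero, Pi.smul_apply', hu e he, sub_self]
    rw [← Submodule.Quotient.mk_eq_zero, ← Submodule.mkQ_apply, map_sub, map_sum, map_smul,
      sub_eq_zero] at h4
    rw [h4]
    exact Finset.sum_congr rfl fun i _ => by rw [map_smul]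

theorem wreg_SS (hv0 : ∀ e, v e 0 = (p : R e)) (N : ℕ → ℕ)
    (hN : Filter.Tendsto N Filter.atTop Filter.atTop)
    (H1a : ∀ e (x : X e), (p : R e) • x = 0 → ∃ x', h e • x = (p : R e) ^ (N e) • x')
    (H1b : ∀ e (k : Fin (r + 1)), k ≠ 0 → ∀ x : X e,
      v e k • x ∈ Ideal.span (v e '' Set.Iio k) • (⊤ : Submodule (R e) (X e)) →
      h e • x ∈ Ideal.span (v e '' Set.Iio k) • (⊤ : Submodule (R e) (X e))) :
    WReg (SS R X p h) (fun k e => v e k) := by
  intro k s hs
  induction s using LocalizedModule.induction_on with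
  | h x s =>
    rw [LocalizedModule.smul'_mk, honReg_loc] at hs
    rw [honReg_loc]
    obtain ⟨u, hu⟩ := hs
    rw [smul_comm] at hu
    have h1 := honReg_XX R X p h v hv0 N hN H1a H1b k _ hu
    rw [smul_smul] at h1
    exact ⟨⟨h, Submonoid.mem_powers h⟩ * u, h1⟩

end Limit

end Vale.Agent.P202.Mix
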