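import Vale.Agent.P202.Mix.HonDefs
import Vale.Agent.P202.Mix.KzBasic
import Vale.Agent.P202.Mix.RepLen

/-!
P202-MIX, part HON, task HON-2: nilpotent representations are Koszul acyclic.
-/

namespace Vale.Agent.P202.Mix

open Vale.Agent.P202.CharP
open scoped ENNReal

universe u

section HonRep

variable {R : Type u} [CommRing R] {V : Type u} [AddCommGroup V] [Module R V] {n : ℕ}

theorem hr_kmap_kgr {M N : Type u} [AddCommGroup M] [Module R M] [AddCommGroup N] [Module R N]
    (f : M →ₗ[R] N) (i : ℤ) (v : Finset (Fin n) → M) (hv : v ∈ kgr R M n i) :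
    kmap n f v ∈ kgr R N n i := by
  intro J hJ
  refine hv J fun h => hJ ?_
  change f (v J) = 0
  rw [h, map_zero]

theorem hr_kz_neg {M : Type u} [AddCommGroup M] [Module R M] (T T' : Fin n → M →ₗ[R] M)
    (h : ∀ l v, T' l v = - T l v) (v : Finset (Fin n) → M) : kz T' v = - kz T v := by
  funext J
  rw [Pi.neg_apply, kzb_apply, kzb_apply, ← Finset.sum_neg_distrib]
  refine Finset.sum_congr rfl fun l _ => ?_
  rw [h, smul_neg]

theorem hr_comm {q : ℕ} (W : MRep n) (hW : W.IsNil q) (z : Fin n → R) (k l : Fin n)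
    (v : W.ι → V) : W.T V z k (W.T V z l v) = W.T V z l (W.T V z k v) := by
  have h1 := RepLen.za_mul (R := R) (W.X k) (W.X l) v
  have h2 := RepLen.za_mul (R := R) (W.X l) (W.X k) v
  rw [hW.comm, h2] at h1
  simp only [MRep.T, LinearMap.sub_apply, LinearMap.smul_apply, LinearMap.id_apply, map_sub,
    map_smul, h1, smul_sub]
  rw [smul_comm (z k) (z l)]
  abel

theorem acyc_rep (q : ℕ) (W : MRep n) (hW : W.IsNil q) (z : Fin n → R) (hz : Acyc (sop V z)) :
    Acyc (W.T V z) := by
  obtain ⟨m, hm⟩ : ∃ m, Fintype.card W.ι = m := ⟨_, rfl⟩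
  induction m generalizing W with
  | zero =>
    have : IsEmpty W.ι := Fintype.card_eq_zero_iff.mp hm
    intro i _ c _
    refine ⟨0, Submodule.zero_mem _, ?_⟩
    rw [map_zero]
    exact Subsingleton.elim _ _
  | succ m ih =>
    have hne : Nonempty W.ι := Fintype.card_pos_iff.mp (by omega)
    obtain ⟨W', f, e, ρ, hW', hcard, hXe, hPe, hρe, hsum⟩ := RepLen.exists_split W hW hne
    have ih' := ih W' hW' (by omega)
    let j : V →ₗ[R] (W.ι → V) := za e R V ∘ₗ LinearMap.pi fun _ : Unit => LinearMap.id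
    let r : (W.ι → V) →ₗ[R] V := LinearMap.proj () ∘ₗ za ρ R V
    have hrj : ∀ v, r (j v) = v := by
      intro v
      have h1 := RepLen.za_mul (R := R) ρ e (fun _ : Unit => v)
      rw [hρe] at h1
      have h2 := congrFun h1 ()
      have h3 : r (j v) = za ρ R V (za e R V fun _ => v) () := rfl
      rw [h3, ← h2]
      simp [za]
    have hTj : ∀ l v, j (-(z l • (LinearMap.id : V →ₗ[R] V)) v) = W.T V z l (j v) := by
      intro l v
      have h1 := RepLen.za_mul (R := R) (W.X l) e (fun _ : Unit => v)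
      rw [hXe] at h1
      have h2 : za (W.X l) R V (j v) = 0 := by
        have h3 : za (W.X l) R V (j v) = za (W.X l) R V (za e R V fun _ => v) := rfl
        rw [h3, ← h1]
        ext c
        simp [za]
      simp only [MRep.T, LinearMap.sub_apply, LinearMap.smul_apply, LinearMap.id_apply, h2,
        zero_sub, map_neg, map_smul]
    have hdec : ∀ v, j (r v) + za f.σ R V (za f.P R V v) = v := by
      intro v
      have h1 := RepLen.za_mul (R := R) e ρ v
      have h2 := RepLen.za_mul (R := R) f.σ f.P v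
      have h3 : j (r v) = za e R V (za ρ R V v) := rfl
      rw [h3, ← h1, ← h2]
      have h4 : za (e * ρ) R V v + za (f.σ * f.P) R V v = za (e * ρ + f.σ * f.P) R V v := by
        ext c
        simp [za, add_smul, Finset.sum_add_distrib]
      rw [h4, hsum]
      ext c
      simp [za, Matrix.one_apply]
    have hPσ : ∀ v, za f.P R V (za f.σ R V v) = v := by
      intro v
      rw [← RepLen.za_mul, f.split]
      ext c
      simp [za, Matrix.one_apply]
    have hPT : ∀ l v, za f.P R V (W.T V z l v) = W'.T V z l (za f.P R V v) := by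
      intro l v
      have h1 := RepLen.za_mul (R := R) f.P (W.X l) v
      have h2 := RepLen.za_mul (R := R) (W'.X l) f.P v
      rw [f.comm l, h2] at h1
      simp only [MRep.T, LinearMap.sub_apply, LinearMap.smul_apply, LinearMap.id_apply, map_sub,
        map_smul, h1]
    intro i hi c hc
    obtain ⟨hc1, hc2⟩ := hc
    have hc0 : kz (W.T V z) c = 0 := hc2
    obtain ⟨b', hb'1, hb'2⟩ := ih' i hi (RepLen.kcyc_map _ _ (za f.P R V) hPT i c ⟨hc1, hc2⟩)
    set b1 := kmap n (za f.σ R V) b' with hb1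
    have hb1k : b1 ∈ kgr R (W.ι → V) n (i + 1) := hr_kmap_kgr _ _ _ hb'1
    have hPb1 : kmap n (za f.P R V) b1 = b' := by
      funext J
      exact hPσ (b' J)
    set d := c - kz (W.T V z) b1 with hd
    have hPd : ∀ J, za f.P R V (d J) = 0 := by
      intro J
      have h1 := kz_kmap (W.T V z) (W'.T V z) (za f.P R V) hPT b1
      rw [hPb1, hb'2] at h1
      have h2 := congrFun h1 J
      change za f.P R V (kz (W.T V z) b1 J) = za f.P R V (c J) at h2
      rw [hd, Pi.sub_apply, map_sub, h2, sub_self]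
    have hdk : d ∈ kgr R (W.ι → V) n i := Submodule.sub_mem _ hc1 (kz_kgr _ _ _ hb1k)
    have hd0 : kz (W.T V z) d = 0 := by
      rw [hd, map_sub, hc0, kz_sq _ (hr_comm W hW z), sub_zero]
    set uu := kmap n r d with hu
    have hju : kmap n j uu = d := by
      funext J
      have h1 := hdec (d J)
      rw [hPd, map_zero, add_zero] at h1
      exact h1
    have hkzj : ∀ w : Finset (Fin n) → V, kz (W.T V z) (kmap n j w) =
        kmap n j (- kz (sop V z) w) := by
      intro w
      rw [← kz_kmap (fun l => -(z l • (LinearMap.id : V →ₗ[R] V))) (W.T V z) j hTj w]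
      congr 1
      exact hr_kz_neg (sop V z) _ (fun l v => rfl) w
    have hu0 : kz (sop V z) uu = 0 := by
      have h1 := hkzj uu
      rw [hju, hd0] at h1
      funext J
      have h2 := congrFun h1 J
      change (0 : W.ι → V) = j (- kz (sop V z) uu J) at h2
      have h3 := congrArg r h2
      rw [map_zero, hrj] at h3
      exact neg_eq_zero.1 h3.symm
    obtain ⟨w, hw1, hw2⟩ := hz i hi ⟨hr_kmap_kgr r i d hdk, hu0⟩
    refine ⟨b1 + kmap n j (-w), Submodule.add_mem _ hb1k
      (hr_kmap_kgr _ _ _ (Submodule.neg_mem _ hw1)), ?_⟩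
    have h5 : kz (W.T V z) (kmap n j (-w)) = d := by
      have h6 : kz (sop V z) (-w) = -kz (sop V z) w := map_neg _ _
      rw [hkzj, h6, neg_neg, hw2]
      exact hju
    rw [map_add, h5, hd]
    abel

theorem acyc_pi (ι : Type) [Fintype ι] (y : Fin n → R) (hy : Acyc (sop V y)) :
    Acyc (sop (ι → V) y) := by
  intro i hi c hc
  obtain ⟨hc1, hc2⟩ := hc
  have hc0 : kz (sop (ι → V) y) c = 0 := hc2
  have hp : ∀ (a : ι) l (v : ι → V), (LinearMap.proj a : (ι → V) →ₗ[R] V) (sop (ι → V) y l v) =
      sop V y l ((LinearMap.proj a : (ι → V) →ₗ[R] V) v) := fun a l v => rfl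
  have h1 : ∀ a : ι, ∃ b ∈ kgr R V n (i + 1), kz (sop V y) b =
      kmap n (LinearMap.proj a : (ι → V) →ₗ[R] V) c := by
    intro a
    obtain ⟨b, hb1, hb2⟩ := hy i hi
      (RepLen.kcyc_map _ _ (LinearMap.proj a : (ι → V) →ₗ[R] V) (hp a) i c ⟨hc1, hc2⟩)
    exact ⟨b, hb1, hb2⟩
  choose b hb1 hb2 using h1
  refine ⟨fun J a => b a J, ?_, ?_⟩
  · intro J hJ
    have h2 : ∃ a, b a J ≠ 0 := by
      by_contra h
      push Not at h
      exact hJ (funext h)
    obtain ⟨a, ha⟩ := h2
    exact hb1 a J ha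
  · funext J a
    have h3 := kz_kmap (sop (ι → V) y) (sop V y) (LinearMap.proj a : (ι → V) →ₗ[R] V) (hp a)
      (fun J a => b a J)
    have h4 : kmap n (LinearMap.proj a : (ι → V) →ₗ[R] V) (fun J a => b a J) = b a := rfl
    rw [h4, hb2 a] at h3
    exact congrFun h3 J

end HonRep

end Vale.Agent.P202.Mix
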