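import Vale.Agent.P202.Mix.HonDefs
import Vale.Agent.P202.Mix.KzBasic

/-!
P202-MIX, part HON, task HON-3: exchanging two Koszul complexes.
-/

namespace Vale.Agent.P202.Mix

open Vale.Agent.P202.CharP

universe u

section

variable {R : Type u} [CommRing R] {n : ℕ} {M M' : Type u} [AddCommGroup M] [Module R M]
  [AddCommGroup M'] [Module R M']

/-- The first differential of the double complex. -/
def hsd (T : Fin n → M →ₗ[R] M) : (Finset (Fin n) → Finset (Fin n) → M) →ₗ[R]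
    (Finset (Fin n) → Finset (Fin n) → M) := kz fun l => kmap n (T l)

/-- The second differential of the double complex. -/
def hse (S : Fin n → M →ₗ[R] M) : (Finset (Fin n) → Finset (Fin n) → M) →ₗ[R]
    (Finset (Fin n) → Finset (Fin n) → M) := kmap n (kz S)

/-- The map of double complexes. -/
def hsF (n : ℕ) (f : M →ₗ[R] M') : (Finset (Fin n) → Finset (Fin n) → M) →ₗ[R]
    (Finset (Fin n) → Finset (Fin n) → M') := kmap n (kmap n f)

/-- The bigraded parts. -/
def hsg (R : Type u) [CommRing R] (M : Type u) [AddCommGroup M] [Module R M] (n : ℕ) (s t : ℤ) :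
    Submodule R (Finset (Fin n) → Finset (Fin n) → M) where
  carrier := {a | ∀ J K, a J K ≠ 0 → (J.card : ℤ) = s ∧ (K.card : ℤ) = t}
  add_mem' := by
    intro v w hv hw J K h
    by_cases h1 : v J K = 0
    · exact hw J K (by intro h2; apply h; simp [h1, h2])
    · exact hv J K h1
  zero_mem' := by intro J K h; exact absurd rfl h
  smul_mem' := by
    intro c v hv J K h
    exact hv J K (by intro h1; apply h; simp [h1])

theorem hsd_apply (T : Fin n → M →ₗ[R] M) (a : Finset (Fin n) → Finset (Fin n) → M)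
    (J K : Finset (Fin n)) : hsd T a J K = kz T (fun J => a J K) J := by
  rw [hsd, kzb_apply, kzb_apply, Finset.sum_apply]
  rfl

theorem hse_apply (S : Fin n → M →ₗ[R] M) (a : Finset (Fin n) → Finset (Fin n) → M)
    (J K : Finset (Fin n)) : hse S a J K = kz S (a J) K := rfl

theorem hsd_mem (T : Fin n → M →ₗ[R] M) {s t : ℤ} {a : Finset (Fin n) → Finset (Fin n) → M}
    (ha : a ∈ hsg R M n (s + 1) t) : hsd T a ∈ hsg R M n s t := by
  intro J K h
  rw [hsd_apply] at h
  by_cases hK : (K.card : ℤ) = t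
  · exact ⟨kz_kgr T s (fun J => a J K) (fun J' h' => (ha J' K h').1) J h, hK⟩
  · exfalso
    apply h
    have h1 : (fun J => a J K) = 0 := by
      funext J'
      by_contra h2
      exact hK (ha J' K h2).2
    rw [h1, map_zero]
    rfl

theorem hse_mem (S : Fin n → M →ₗ[R] M) {s t : ℤ} {a : Finset (Fin n) → Finset (Fin n) → M}
    (ha : a ∈ hsg R M n s (t + 1)) : hse S a ∈ hsg R M n s t := by
  intro J K h
  rw [hse_apply] at h
  by_cases hJ : (J.card : ℤ) = s
  · exact ⟨hJ, kz_kgr S t (a J) (fun K' h' => (ha J K' h').2) K h⟩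
  · exfalso
    apply h
    have h1 : a J = 0 := by
      funext K'
      by_contra h2
      exact hJ (ha J K' h2).1
    rw [h1, map_zero]
    rfl

theorem hs_comm (T S : Fin n → M →ₗ[R] M) (hTS : ∀ k l v, T k (S l v) = S l (T k v))
    (a : Finset (Fin n) → Finset (Fin n) → M) : hsd T (hse S a) = hse S (hsd T a) := by
  refine (kz_kmap (fun l => kmap n (T l)) (fun l => kmap n (T l)) (kz S) (fun l v => ?_) a).symm
  exact (kz_kmap S S (T l) (fun k w => hTS l k w) v).symm

theorem hsd_sq (T : Fin n → M →ₗ[R] M) (hT : ∀ k l v, T k (T l v) = T l (T k v))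
    (a : Finset (Fin n) → Finset (Fin n) → M) : hsd T (hsd T a) = 0 := by
  refine kz_sq _ (fun k l v => ?_) a
  funext K
  exact hT k l (v K)

theorem hse_sq (S : Fin n → M →ₗ[R] M) (hS : ∀ k l v, S k (S l v) = S l (S k v))
    (a : Finset (Fin n) → Finset (Fin n) → M) : hse S (hse S a) = 0 := by
  funext J
  exact kz_sq S hS (a J)

theorem hsF_d (f : M →ₗ[R] M') (T : Fin n → M →ₗ[R] M) (T' : Fin n → M' →ₗ[R] M')
    (hfT : ∀ l v, f (T l v) = T' l (f v)) (a : Finset (Fin n) → Finset (Fin n) → M) :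
    hsF n f (hsd T a) = hsd T' (hsF n f a) := by
  refine kz_kmap (fun l => kmap n (T l)) (fun l => kmap n (T' l)) (kmap n f) (fun l v => ?_) a
  funext K
  exact hfT l (v K)

theorem hsF_e (f : M →ₗ[R] M') (S : Fin n → M →ₗ[R] M) (S' : Fin n → M' →ₗ[R] M')
    (hfS : ∀ l v, f (S l v) = S' l (f v)) (a : Finset (Fin n) → Finset (Fin n) → M) :
    hsF n f (hse S a) = hse S' (hsF n f a) := by
  funext J
  exact kz_kmap S S' f hfS (a J)

theorem hsF_surj (f : M →ₗ[R] M') (hf : Function.Surjective f) {s t : ℤ}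
    {a' : Finset (Fin n) → Finset (Fin n) → M'} (ha : a' ∈ hsg R M' n s t) :
    ∃ a ∈ hsg R M n s t, hsF n f a = a' := by
  have h1 : ∀ J K, ∃ m : M, f m = a' J K ∧ (a' J K = 0 → m = 0) := by
    intro J K
    by_cases h : a' J K = 0
    · exact ⟨0, by rw [map_zero, h], fun _ => rfl⟩
    · obtain ⟨m, hm⟩ := hf (a' J K)
      exact ⟨m, hm, fun h0 => absurd h0 h⟩
  choose a h1 h2 using h1
  refine ⟨a, fun J K h => ha J K fun h0 => h (h2 J K h0), ?_⟩
  funext J K
  exact h1 J K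

theorem hsF_mem (f : M →ₗ[R] M') {s t : ℤ} {a : Finset (Fin n) → Finset (Fin n) → M}
    (ha : a ∈ hsg R M n s t) : hsF n f a ∈ hsg R M' n s t := by
  intro J K h
  refine ha J K fun h0 => h ?_
  show f (a J K) = 0
  rw [h0, map_zero]

theorem hsd_lift (T : Fin n → M →ₗ[R] M) {s t : ℤ} {a : Finset (Fin n) → Finset (Fin n) → M}
    (ha : a ∈ hsg R M n s t) (h : ∀ K, (fun J => a J K) ∈ kbd T s) :
    ∃ b ∈ hsg R M n (s + 1) t, hsd T b = a := by
  have h1 : ∀ K : Finset (Fin n), ∃ v : Finset (Fin n) → M, v ∈ kgr R M n (s + 1) ∧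
      kz T v = (fun J => a J K) ∧ ((K.card : ℤ) ≠ t → v = 0) := by
    intro K
    by_cases hK : (K.card : ℤ) = t
    · obtain ⟨v, hv, hv'⟩ := h K
      exact ⟨v, hv, hv', fun h0 => absurd hK h0⟩
    · refine ⟨0, zero_mem _, ?_, fun _ => rfl⟩
      rw [map_zero]
      funext J
      by_contra h2
      exact hK (ha J K (Ne.symm h2)).2
  choose v hv1 hv2 hv3 using h1
  refine ⟨fun J K => v K J, fun J K h0 => ⟨hv1 K J h0, ?_⟩, ?_⟩
  · by_contra h2
    apply h0
    show v K J = 0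
    rw [hv3 K h2]
    rfl
  · funext J K
    rw [hsd_apply]
    exact congrFun (hv2 K) J

theorem hse_lift (S : Fin n → M →ₗ[R] M) {s t : ℤ} {a : Finset (Fin n) → Finset (Fin n) → M}
    (ha : a ∈ hsg R M n s t) (h : ∀ J, a J ∈ kbd S t) :
    ∃ b ∈ hsg R M n s (t + 1), hse S b = a := by
  have h1 : ∀ J : Finset (Fin n), ∃ v : Finset (Fin n) → M, v ∈ kgr R M n (t + 1) ∧
      kz S v = a J ∧ ((J.card : ℤ) ≠ s → v = 0) := by
    intro J
    by_cases hJ : (J.card : ℤ) = s
    · obtain ⟨v, hv, hv'⟩ := h J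
      exact ⟨v, hv, hv', fun h0 => absurd hJ h0⟩
    · refine ⟨0, zero_mem _, ?_, fun _ => rfl⟩
      rw [map_zero]
      funext K
      by_contra h2
      exact hJ (ha J K (Ne.symm h2)).1
  choose v hv1 hv2 hv3 using h1
  refine ⟨v, fun J K h0 => ⟨?_, hv1 J K h0⟩, ?_⟩
  · by_contra h2
    apply h0
    rw [hv3 J h2]
    rfl
  · funext J
    exact hv2 J

theorem hsd_exact (T : Fin n → M →ₗ[R] M) (hT : Acyc T) {s t : ℤ} (hs : 1 ≤ s)
    {a : Finset (Fin n) → Finset (Fin n) → M} (ha : a ∈ hsg R M n s t) (h : hsd T a = 0) :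
    ∃ b ∈ hsg R M n (s + 1) t, hsd T b = a := by
  refine hsd_lift T ha fun K => hT s hs ⟨fun J h0 => (ha J K h0).1, ?_⟩
  rw [SetLike.mem_coe, LinearMap.mem_ker]
  funext J
  rw [← hsd_apply, h]
  rfl

theorem hse_exact (S : Fin n → M →ₗ[R] M) (hS : Acyc S) {s t : ℤ} (ht : 1 ≤ t)
    {a : Finset (Fin n) → Finset (Fin n) → M} (ha : a ∈ hsg R M n s t) (h : hse S a = 0) :
    ∃ b ∈ hsg R M n s (t + 1), hse S b = a := by
  refine hse_lift S ha fun J => hS t ht ⟨fun K h0 => (ha J K h0).2, ?_⟩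
  rw [SetLike.mem_coe, LinearMap.mem_ker]
  exact congrFun h J

theorem hs_trg (T : Fin n → M →ₗ[R] M) (v : Finset (Fin n) → M) : kz T v ∅ ∈ trg T := by
  rw [kzb_apply]
  refine Submodule.sum_mem _ fun l _ => zsmul_mem ?_ _
  exact Submodule.mem_iSup_of_mem l ⟨_, rfl⟩

theorem hs_trg_iff (T : Fin n → M →ₗ[R] M) {v : Finset (Fin n) → M} (hv : v ∈ kgr R M n 0)
    (h : v ∅ ∈ trg T) : v ∈ kbd T 0 := by
  classical
  obtain ⟨m, hm⟩ : ∃ m : Fin n → M, ∑ l, T l (m l) = v ∅ := by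
    rw [trg, Submodule.mem_iSup_iff_exists_finsupp] at h
    obtain ⟨g, hg, hg'⟩ := h
    choose m hm using hg
    refine ⟨m, ?_⟩
    rw [← hg', Finsupp.sum_fintype _ _ (fun _ => rfl)]
    exact Finset.sum_congr rfl fun l _ => hm l
  refine ⟨fun J => if J.card = 1 then ∑ l ∈ J, m l else 0, ?_, ?_⟩
  · intro J hJ
    by_contra h0
    apply hJ
    show (if J.card = 1 then ∑ l ∈ J, m l else 0) = 0
    rw [if_neg]
    intro h1
    apply h0
    rw [h1]
    norm_num
  · funext J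
    rw [kzb_apply]
    by_cases hJ : J = ∅
    · subst hJ
      rw [← hm, Finset.compl_empty]
      refine Finset.sum_congr rfl fun l _ => ?_
      simp [ksg]
    · have h1 : v J = 0 := by
        by_contra h2
        have h3 := hv J h2
        apply hJ
        rw [← Finset.card_eq_zero]
        exact_mod_cast h3
      rw [h1]
      refine Finset.sum_eq_zero fun l hl => ?_
      rw [if_neg, map_zero, smul_zero]
      rw [Finset.card_insert_of_notMem (by simpa using hl)]
      intro h2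
      apply hJ
      rw [← Finset.card_eq_zero]
      omega

theorem hs_neg {s t : ℤ} (hs : s < 0) {a : Finset (Fin n) → Finset (Fin n) → M}
    (ha : a ∈ hsg R M n s t) : a = 0 := by
  funext J K
  by_contra h
  have := (ha J K h).1
  omega

theorem hs_neg' {s t : ℤ} (ht : t < 0) {a : Finset (Fin n) → Finset (Fin n) → M}
    (ha : a ∈ hsg R M n s t) : a = 0 := by
  funext J K
  by_contra h
  have := (ha J K h).2
  omega

/-- The zigzag. -/
theorem hs_main (f : M →ₗ[R] M') (hf : Function.Surjective f) (T S : Fin n → M →ₗ[R] M)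
    (T' S' : Fin n → M' →ₗ[R] M')
    (hT : ∀ k l v, T k (T l v) = T l (T k v)) (hS : ∀ k l v, S k (S l v) = S l (S k v))
    (hTS : ∀ k l v, T k (S l v) = S l (T k v))
    (hT' : ∀ k l v, T' k (T' l v) = T' l (T' k v)) (hS' : ∀ k l v, S' k (S' l v) = S' l (S' k v))
    (hTS' : ∀ k l v, T' k (S' l v) = S' l (T' k v))
    (hfT : ∀ l v, f (T l v) = T' l (f v)) (hfS : ∀ l v, f (S l v) = S' l (f v))
    (h1 : Acyc T) (h2 : Acyc T') (h4 : Acyc S')
    (h : LiftMod S (trg T) S' (trg T') f) (s : ℕ) :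
    ∀ t : ℤ, 0 ≤ t → ∀ c' ∈ hsg R M' n s t,
      (∃ b' ∈ hsg R M' n (s - 1) (t + 1), hse S' b' = hsd T' c') →
      (∃ a' ∈ hsg R M' n (s + 1) (t - 1), hsd T' a' = hse S' c') →
      ∃ c ∈ hsg R M n s t, hsF n f c = c' ∧
        (∃ b ∈ hsg R M n (s - 1) (t + 1), hse S b = hsd T c) ∧
        (∃ a ∈ hsg R M n (s + 1) (t - 1), hsd T a = hse S c) := by
  induction s with
  | zero =>
    intro t ht c' hc' _ hB
    obtain ⟨a', ha', ha'c⟩ := hB
    obtain ⟨c0, hc0, hc0S, hc0f⟩ := h t (c' ∅) (fun K hK => (hc' ∅ K hK).2) (fun K => by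
      rw [← hse_apply, ← ha'c, hsd_apply]
      exact hs_trg T' _)
    -- the element in the double complex
    obtain ⟨c1, hc1⟩ : ∃ c1 : Finset (Fin n) → Finset (Fin n) → M,
        c1 = fun J => if J = ∅ then c0 else 0 := ⟨_, rfl⟩
    have hc1e : c1 ∅ = c0 := by rw [hc1]; exact if_pos rfl
    have hc1n : ∀ J, J ≠ ∅ → c1 J = 0 := fun J hJ => by rw [hc1]; exact if_neg hJ
    have hc1m : c1 ∈ hsg R M n ((0 : ℕ) : ℤ) t := by
      intro J K hJK
      by_cases hJ : J = ∅
      · subst hJ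
        rw [hc1e] at hJK
        exact ⟨by simp, hc0 K hJK⟩
      · rw [hc1n J hJ] at hJK
        exact absurd rfl hJK
    have key : ∀ (N : Type u) [AddCommGroup N] [Module R N] (U : Fin n → N →ₗ[R] N) (t : ℤ)
        (a : Finset (Fin n) → Finset (Fin n) → N), a ∈ hsg R N n ((0 : ℕ) : ℤ) t →
        (∀ K, a ∅ K ∈ trg U) → ∃ b ∈ hsg R N n (((0 : ℕ) : ℤ) + 1) t, hsd U b = a := by
      intro N _ _ U t a ha haK
      refine hsd_lift U ha fun K => ?_
      rw [Nat.cast_zero]
      exact hs_trg_iff U (fun J hJ => (ha J K hJ).1) (haK K)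
    obtain ⟨g', hg', hg'c⟩ := key M' T' t (hsF n f c1 - c')
      (sub_mem (hsF_mem f hc1m) hc') (fun K => by
        have h3 := hc0f K
        rw [← hc1e] at h3
        exact h3)
    obtain ⟨g, hg, hgf⟩ := hsF_surj f hf hg'
    obtain ⟨b1, hb1, hb1c⟩ := key M T (t - 1) (hse S c1)
      (hse_mem S (by rw [sub_add_cancel]; exact hc1m)) (fun K => by
        rw [hse_apply, hc1e]
        exact hc0S K)
    have hcm : c1 - hsd T g ∈ hsg R M n ((0 : ℕ) : ℤ) t := sub_mem hc1m (hsd_mem T hg)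
    refine ⟨c1 - hsd T g, hcm, ?_, ⟨0, zero_mem _, ?_⟩, ⟨b1 - hse S g, ?_, ?_⟩⟩
    · rw [map_sub, hsF_d f T T' hfT, hgf, hg'c, sub_sub_cancel]
    · rw [map_zero]
      have h5 : hsd T (c1 - hsd T g) ∈ hsg R M n (((0 : ℕ) : ℤ) - 1) t :=
        hsd_mem T (by rw [sub_add_cancel]; exact hcm)
      exact (hs_neg (by norm_num) h5).symm
    · exact sub_mem hb1 (hse_mem S (by rw [sub_add_cancel]; exact hg))
    · rw [map_sub, map_sub, hb1c, hs_comm T S hTS]
  | succ s ih =>
    intro t ht c' hc' hA _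
    obtain ⟨b', hb', hb'c⟩ := hA
    have e1 : ((s + 1 : ℕ) : ℤ) - 1 = s := by push_cast; ring
    rw [e1] at hb' ⊢
    -- conditions for `b'`
    have hdb : ∃ b'' ∈ hsg R M' n ((s : ℤ) - 1) (t + 1 + 1), hse S' b'' = hsd T' b' := by
      refine hse_exact S' h4 (by omega) (hsd_mem T' (by rw [sub_add_cancel]; exact hb')) ?_
      rw [← hs_comm T' S' hTS', hb'c, hsd_sq T' hT']
    obtain ⟨b, hb, hbf, -, ⟨c1, hc1, hc1b⟩⟩ := ih (t + 1) (by omega) b' hb' hdb
      ⟨c', by rw [add_sub_cancel_right]; exact_mod_cast hc', hb'c.symm⟩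
    rw [add_sub_cancel_right] at hc1
    have hc1' : c1 ∈ hsg R M n ((s + 1 : ℕ) : ℤ) t := by exact_mod_cast hc1
    obtain ⟨g', hg', hg'c⟩ := hsd_exact T' h2 (s := ((s + 1 : ℕ) : ℤ)) (t := t)
      (by push_cast; omega) (sub_mem (hsF_mem f hc1') hc') (by
        rw [map_sub, ← hsF_d f T T' hfT, hc1b, hsF_e f S S' hfS, hbf, hb'c, sub_self])
    obtain ⟨g, hg, hgf⟩ := hsF_surj f hf hg'
    have hcm : c1 - hsd T g ∈ hsg R M n ((s + 1 : ℕ) : ℤ) t := sub_mem hc1' (hsd_mem T hg)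
    have hdc : hsd T (c1 - hsd T g) = hse S b := by
      rw [map_sub, hsd_sq T hT, sub_zero, hc1b]
    refine ⟨c1 - hsd T g, hcm, ?_, ⟨b, hb, hdc.symm⟩, ?_⟩
    · rw [map_sub, hsF_d f T T' hfT, hgf, hg'c, sub_sub_cancel]
    · refine hsd_exact T h1 (by push_cast; omega)
        (hse_mem S (by rw [sub_add_cancel]; exact hcm)) ?_
      rw [hs_comm T S hTS, hdc, hse_sq S hS]

/-- Exchanging two commuting families. -/
theorem hs_swap (f : M →ₗ[R] M') (hf : Function.Surjective f) (T S : Fin n → M →ₗ[R] M)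
    (T' S' : Fin n → M' →ₗ[R] M')
    (hT : ∀ k l v, T k (T l v) = T l (T k v)) (hS : ∀ k l v, S k (S l v) = S l (S k v))
    (hTS : ∀ k l v, T k (S l v) = S l (T k v))
    (hT' : ∀ k l v, T' k (T' l v) = T' l (T' k v)) (hS' : ∀ k l v, S' k (S' l v) = S' l (S' k v))
    (hTS' : ∀ k l v, T' k (S' l v) = S' l (T' k v))
    (hfT : ∀ l v, f (T l v) = T' l (f v)) (hfS : ∀ l v, f (S l v) = S' l (f v))
    (h1 : Acyc T) (h2 : Acyc T') (h4 : Acyc S')
    (h : LiftMod S (trg T) S' (trg T') f) : LiftMod T (trg S) T' (trg S') f := by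
  intro i c' hc' hc'S
  rcases lt_or_ge i 0 with hi | hi
  · have h0 : c' = 0 := by
      funext J
      by_contra h0
      have := hc' J h0
      omega
    refine ⟨0, zero_mem _, fun J => ?_, fun J => ?_⟩
    · rw [map_zero]
      exact zero_mem _
    · rw [h0]
      simp
  obtain ⟨s, rfl⟩ := Int.eq_ofNat_of_zero_le hi
  obtain ⟨a', ha'⟩ : ∃ a' : Finset (Fin n) → Finset (Fin n) → M',
      a' = fun J K => if K = ∅ then c' J else 0 := ⟨_, rfl⟩
  have ha'e : ∀ J, a' J ∅ = c' J := fun J => by rw [ha']; exact if_pos rfl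
  have ha'n : ∀ J K, K ≠ ∅ → a' J K = 0 := fun J K hK => by rw [ha']; exact if_neg hK
  have ha'm : a' ∈ hsg R M' n s 0 := by
    intro J K hJK
    by_cases hK : K = ∅
    · subst hK
      rw [ha'e] at hJK
      exact ⟨hc' J hJK, by simp⟩
    · exact absurd (ha'n J K hK) hJK
  have hda : hsd T' a' ∈ hsg R M' n ((s : ℤ) - 1) 0 :=
    hsd_mem T' (by rw [sub_add_cancel]; exact ha'm)
  obtain ⟨a, ha, haf, ⟨b, hb, hbd⟩, -⟩ := hs_main f hf T S T' S' hT hS hTS hT' hS' hTS' hfT hfS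
    h1 h2 h4 h s 0 le_rfl a' ha'm (by
      rw [zero_add]
      have := hse_lift S' hda (fun J => hs_trg_iff S' (fun K hK => (hda J K hK).2) (by
        rw [hsd_apply]
        have e : (fun J => a' J ∅) = c' := funext ha'e
        rw [e]
        exact hc'S J))
      rwa [zero_add] at this) ⟨0, zero_mem _, by
        rw [map_zero]
        have h5 : hse S' a' ∈ hsg R M' n s ((0 : ℤ) - 1) :=
          hse_mem S' (by rw [sub_add_cancel]; exact ha'm)
        exact (hs_neg' (by norm_num) h5).symm⟩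
  refine ⟨fun J => a J ∅, fun J hJ => (ha J ∅ hJ).1, fun J => ?_, fun J => ?_⟩
  · rw [← hsd_apply, ← hbd, hse_apply]
    exact hs_trg S _
  · have h6 : f (a J ∅) = c' J := by
      rw [← ha'e, ← haf]
      rfl
    rw [h6, sub_self]
    exact zero_mem _

theorem hs_ys (V : Type u) [AddCommGroup V] [Module R V] (y : Fin n → R) :
    ys V y = trg (sop V y) := by
  apply le_antisymm
  · rw [ys, Submodule.smul_le]
    intro r hr m _
    refine Submodule.span_induction (p := fun r _ => r • m ∈ trg (sop V y)) ?_ ?_ ?_ ?_ hr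
    · rintro _ ⟨l, rfl⟩
      exact Submodule.mem_iSup_of_mem l ⟨m, rfl⟩
    · rw [zero_smul]
      exact zero_mem _
    · intro a b _ _ ha hb
      rw [add_smul]
      exact add_mem ha hb
    · intro c a _ ha
      rw [smul_assoc]
      exact Submodule.smul_mem _ _ ha
  · refine iSup_le fun l => ?_
    rintro _ ⟨m, rfl⟩
    exact Submodule.smul_mem_smul (Ideal.subset_span ⟨l, rfl⟩) trivial

/-- TASK HON-3: exchanging the two sequences. -/
theorem lift_swap
    (f : M →ₗ[R] M') (hf : Function.Surjective f) (T : Fin n → M →ₗ[R] M)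
    (T' : Fin n → M' →ₗ[R] M') (hT : ∀ k l v, T k (T l v) = T l (T k v))
    (hT' : ∀ k l v, T' k (T' l v) = T' l (T' k v)) (hfT : ∀ l v, f (T l v) = T' l (f v))
    (y : Fin n → R) (h1 : Acyc T) (h2 : Acyc T') (h3 : Acyc (sop M y)) (h4 : Acyc (sop M' y))
    (h : LiftMod (sop M y) (trg T) (sop M' y) (trg T') f) :
    LiftMod T (ys M y) T' (ys M' y) f := by
  rw [hs_ys, hs_ys]
  refine hs_swap f hf T (sop M y) T' (sop M' y) hT (fun k l v => ?_) (fun k l v => ?_) hT'
    (fun k l v => ?_) (fun k l v => ?_) hfT (fun l v => ?_) h1 h2 h4 h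
  · exact smul_comm _ _ _
  · exact map_smul (T k) (y l) v
  · exact smul_comm _ _ _
  · exact map_smul (T' k) (y l) v
  · exact map_smul f (y l) v

end

end Vale.Agent.P202.Mix
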