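import Vale.Agent.P202.Mix.HonDepth
import Vale.Agent.P202.Mix.HonRep
import Vale.Agent.P202.Mix.HonSwap
import Vale.Agent.P202.Mix.HonReg
import Vale.Agent.P202.Mix.HonLift
import Vale.Agent.P202.Mix.HonExtract
import Vale.Agent.P202.Mix.RepCyc

/-!
P202-MIX, part HON: cycles lift up to a uniform power of `h` (assembly).
-/

namespace Vale.Agent.P202.Mix

open Vale.Agent.P202.CharP
open scoped ENNReal

universe u

section Aux

variable {R : Type u} [CommRing R] {M : Type u} [AddCommGroup M] [Module R M]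

/-- `I • ⊤` in a finite power of a module. -/
theorem hon7_mem_pi {ι : Type} [Fintype ι] (I : Ideal R) (x : ι → M) :
    x ∈ I • (⊤ : Submodule R (ι → M)) ↔ ∀ a, x a ∈ I • (⊤ : Submodule R M) := by
  classical
  constructor
  · intro hx a
    have h1 : (I • (⊤ : Submodule R (ι → M))).map (LinearMap.proj (R := R) (φ := fun _ => M) a) ≤
        I • ⊤ := by
      rw [Submodule.map_smul'']
      exact Submodule.smul_mono le_rfl le_top
    exact h1 ⟨x, hx, rfl⟩
  · intro hx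
    rw [← Finset.univ_sum_single x]
    refine Submodule.sum_mem _ fun a _ => ?_
    have h1 : (I • (⊤ : Submodule R M)).map (LinearMap.single R (fun _ => M) a) ≤ I • ⊤ := by
      rw [Submodule.map_smul'']
      exact Submodule.smul_mono le_rfl le_top
    exact h1 ⟨x a, hx a, rfl⟩

theorem hon7_T_comm {n q : ℕ} {W : MRep n} (hW : W.IsNil q) (z : Fin n → R) (k l : Fin n)
    (v : W.ι → M) : W.T M z k (W.T M z l v) = W.T M z l (W.T M z k v) := by
  show za (W.X k) R M (W.T M z l v) - z k • W.T M z l v = _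
  rw [repcyc_za_T M z (W := W) (W' := W) (W.X k) l (hW.comm k l), ← map_smul, ← map_sub]
  rfl

theorem hon7_surj {n : ℕ} {W W' : MRep n} (f : W.Surj W') : Function.Surjective (za f.P R M) :=
  fun v => ⟨za f.σ R M v, by rw [← repcyc_za_mul, f.split, repcyc_za_one]⟩

/-- reduction of functions modulo a submodule. -/
def hon7_red (ι : Type) (N : Submodule R M) : (ι → M) →ₗ[R] (ι → M ⧸ N) :=
  LinearMap.pi fun a => N.mkQ ∘ₗ LinearMap.proj a

theorem hon7_red_za {α β : Type} [Fintype β] (A : Matrix α β ℤ) (N : Submodule R M) (v : β → M) :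
    hon7_red α N (za A R M v) = za A R (M ⧸ N) (hon7_red β N v) := by
  ext a
  show N.mkQ (∑ b, A a b • v b) = ∑ b, A a b • N.mkQ (v b)
  rw [map_sum]
  exact Finset.sum_congr rfl fun b _ => map_zsmul _ _ _

theorem hon7_red_T {n : ℕ} (W : MRep n) (z : Fin n → R) (N : Submodule R M) (l : Fin n)
    (v : W.ι → M) : hon7_red W.ι N (W.T M z l v) = W.T (M ⧸ N) z l (hon7_red W.ι N v) := by
  show hon7_red W.ι N (za (W.X l) R M v - z l • v) =
    za (W.X l) R (M ⧸ N) (hon7_red W.ι N v) - z l • hon7_red W.ι N v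
  rw [map_sub, map_smul, hon7_red_za]

theorem hon7_red_eq_zero {n : ℕ} {ι : Type} [Fintype ι] (y : Fin n → R) (v : ι → M) :
    hon7_red ι (ys M y) v = 0 ↔ v ∈ ys (ι → M) y := by
  unfold ys
  rw [hon7_mem_pi, funext_iff]
  refine forall_congr' fun a => ?_
  exact Submodule.Quotient.mk_eq_zero _

end Aux

section Limit

variable (R : ℕ → Type u) [∀ e, CommRing (R e)] (X : ℕ → Type u) [∀ e, AddCommGroup (X e)]
  [∀ e, Module (R e) (X e)] (p : ℕ) {r : ℕ} (h : ∀ e, R e)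
  (v y z : ∀ e, Fin (r + 1) → R e)

theorem hon7_span {n : ℕ} (z : ∀ e, Fin n → R e) (s : ∀ e, R e)
    (hs : ∀ e, s e ∈ Ideal.span (Set.range (z e))) :
    s ∈ Ideal.span (Set.range fun (l : Fin n) (e : ℕ) => z e l) := by
  have h1 : ∀ e, ∃ c : Fin n → R e, ∑ l, c l * z e l = s e := fun e =>
    Ideal.mem_span_range_iff_exists_fun.1 (hs e)
  choose c hc using h1
  rw [Ideal.mem_span_range_iff_exists_fun]
  refine ⟨fun l e => c e l, ?_⟩
  funext e
  rw [Finset.sum_apply]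
  exact hc e

/-- all hypotheses on the levelwise data (`w` = order of nilpotency of the representations). -/
structure HonData (w : ℕ) : Prop where
  hv0 : ∀ e, v e 0 = (p : R e)
  tr : ∃ N : ℕ → ℕ, Filter.Tendsto N Filter.atTop Filter.atTop ∧
    ∀ e (x : X e), (p : R e) • x = 0 → ∃ x', h e • x = (p : R e) ^ (N e) • x'
  reg : ∀ e (k : Fin (r + 1)), k ≠ 0 → ∀ x : X e,
      v e k • x ∈ Ideal.span (v e '' Set.Iio k) • (⊤ : Submodule (R e) (X e)) →
      h e • x ∈ Ideal.span (v e '' Set.Iio k) • (⊤ : Submodule (R e) (X e))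
  vz : ∀ e k, v e k ∈ Ideal.span (Set.range (z e))
  vy : ∃ L : ℕ, ∀ e k, v e k ^ L ∈ Ideal.span (Set.range (y e))
  pk : ∀ (W : MRep (r + 1)), W.IsNil w → ∀ e (x : W.ι → X e),
    (p : R e) • x ∈ trg (W.T (X e) (z e))
  lf : ∀ (W W' : MRep (r + 1)), W.IsNil w → W'.IsNil w → ∀ (f : W.Surj W') (e : ℕ),
    LiftMod (sop (W.ι → X e) (y e)) (trg (W.T (X e) (z e)))
      (sop (W'.ι → X e) (y e)) (trg (W'.T (X e) (z e))) (za f.P (R e) (X e))

/-- `Q_e = X_e / (y) X_e`. -/
abbrev QQ (e : ℕ) : Type u := X e ⧸ ys (X e) (y e)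

theorem hon (w : ℕ) (H : HonData R X p h v y z w) (W W' : MRep (r + 1)) (hW : W.IsNil w)
    (hW' : W'.IsNil w) (f : W.Surj W') (i : ℤ) :
    ∃ c e₀ : ℕ, ∀ e, e₀ ≤ e → ∀ ζ ∈ kcyc (W'.T (QQ R X y e) (z e)) i,
      h e ^ c • ζ ∈ (kcyc (W.T (QQ R X y e) (z e)) i).map
        (kmap (r + 1) (za f.P (R e) (QQ R X y e))) := by
  classical
  obtain ⟨N, hN, H1a⟩ := H.tr
  obtain ⟨L, hL⟩ := H.vy
  have hreg := wreg_SS R X p h v H.hv0 N hN H1a H.reg
  have hz : Acyc (sop (SS R X p h) (fun l e => z e l)) :=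
    acyc_of_wreg (fun k e => v e k) (fun l e => z e l) hreg 1 fun k =>
      hon7_span R z _ fun e => by
        rw [pow_one]
        exact H.vz e k
  have hy : Acyc (sop (SS R X p h) (fun l e => y e l)) :=
    acyc_of_wreg (fun k e => v e k) (fun l e => y e l) hreg L fun k =>
      hon7_span R y _ fun e => hL e k
  have hlift := lift_SS R X p h y z W W' f (H.pk W hW) (H.pk W' hW') (H.lf W W' hW hW' f)
  have hswap := lift_swap (za f.P (∀ e, R e) (SS R X p h)) (hon7_surj f)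
    (W.T (SS R X p h) (fun l e => z e l)) (W'.T (SS R X p h) (fun l e => z e l))
    (hon7_T_comm hW _) (hon7_T_comm hW' _)
    (fun l v => repcyc_za_T _ _ f.P l (f.comm l) v) (fun l e => y e l)
    (acyc_rep w W hW _ hz) (acyc_rep w W' hW' _ hz)
    (acyc_pi W.ι _ hy) (acyc_pi W'.ι _ hy) hlift
  obtain ⟨c, e₀, hc⟩ := extract R X p h y z L
    (fun e => by rw [← H.hv0 e]; exact hL e 0) W W' f hswap i
  refine ⟨c, e₀, fun e he ζ hζ => ?_⟩
  -- lift `ζ` to `X e`
  have hl : ∀ q : QQ R X y e, ∃ x : X e, (ys (X e) (y e)).mkQ x = q ∧ (q = 0 → x = 0) := by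
    intro q
    by_cases hq : q = 0
    · exact ⟨0, by rw [hq, map_zero], fun _ => rfl⟩
    · obtain ⟨x, hx⟩ := Submodule.mkQ_surjective _ q
      exact ⟨x, hx, fun h0 => absurd h0 hq⟩
  choose s hs hs0 using hl
  set red := hon7_red (R := R e) W'.ι (ys (X e) (y e)) with hred
  let ζ' : Finset (Fin (r + 1)) → (W'.ι → X e) := fun J a => s (ζ J a)
  have hζ' : kmap (r + 1) red ζ' = ζ := by
    funext J a
    exact hs (ζ J a)
  have hζ'gr : ζ' ∈ kgr (R e) (W'.ι → X e) (r + 1) i := by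
    intro J hJ
    refine hζ.1 J fun h0 => hJ ?_
    funext a
    exact hs0 _ (by rw [h0]; rfl)
  have hζ'c : ∀ J, kz (W'.T (X e) (z e)) ζ' J ∈ ys (W'.ι → X e) (y e) := by
    intro J
    rw [← hon7_red_eq_zero]
    have h1 := repcyc_kz_kmap (W'.T (X e) (z e)) (W'.T (QQ R X y e) (z e)) red
      (fun l v => hon7_red_T W' (z e) _ l v) ζ'
    rw [hζ'] at h1
    have h2 : kz (W'.T (QQ R X y e) (z e)) ζ = 0 := hζ.2
    rw [h2] at h1
    exact congrFun h1 J
  obtain ⟨η, hη, hη1, hη2⟩ := hc e he ζ' hζ'gr hζ'c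
  refine ⟨kmap (r + 1) (hon7_red (R := R e) W.ι (ys (X e) (y e))) η, ⟨?_, ?_⟩, ?_⟩
  · intro J hJ
    refine hη J fun h0 => hJ ?_
    show hon7_red (R := R e) W.ι (ys (X e) (y e)) (η J) = 0
    rw [h0, map_zero]
  · show kz _ _ = 0
    rw [← repcyc_kz_kmap (W.T (X e) (z e)) (W.T (QQ R X y e) (z e)) _
      (fun l v => hon7_red_T W (z e) _ l v) η]
    funext J
    exact (hon7_red_eq_zero (y e) _).2 (hη1 J)
  · funext J
    show za f.P (R e) (QQ R X y e) (hon7_red (R := R e) W.ι (ys (X e) (y e)) (η J)) =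
      h e ^ c • ζ J
    rw [← hon7_red_za]
    have h1 := (hon7_red_eq_zero (y e) _).2 (hη2 J)
    rw [map_sub, sub_eq_zero, map_smul] at h1
    rw [h1]
    congr 1
    exact congrFun hζ' J

end Limit

end Vale.Agent.P202.Mix
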