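import Vale.Agent.P202.Mix.Bridge1
import Vale.Agent.P202.Mix.Bridge2
import Vale.Agent.P202.Mix.Hon

/-!
P202-MIX, bridge from the packages `APkg` to `HonData` (assembly).
-/

namespace Vale.Agent.P202.Mix

open Vale.Agent.P202.CharP IsLocalRing TensorProduct
open scoped ENNReal Topology

universe u

section Colon

variable {A : Type u} [CommRing A] {S : Type u} [CommRing S] [Algebra A S]
  {E : Type u} [CommRing E] [Algebra A E]

/-- colon ideals and flat base change. -/
theorem br3_colon [Module.Flat A S] (K K' : Ideal E) (a h : E) (H : ∀ x, a * x ∈ K → h * x ∈ K')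
    (X : S ⊗[A] E)
    (hX : (1 ⊗ₜ a) * X ∈ K.map (Algebra.TensorProduct.includeRight : E →ₐ[A] S ⊗[A] E)) :
    (1 ⊗ₜ h) * X ∈ K'.map (Algebra.TensorProduct.includeRight : E →ₐ[A] S ⊗[A] E) := by
  set g : E →ₗ[A] E ⧸ K := (Ideal.Quotient.mkₐ A K).toLinearMap ∘ₗ LinearMap.mulLeft A a with hg
  have hex : Function.Exact (LinearMap.ker g).subtype g := by
    intro y
    constructor
    · intro hy
      exact ⟨⟨y, hy⟩, rfl⟩
    · rintro ⟨y', rfl⟩
      exact y'.2
  have hex2 := Module.Flat.lTensor_exact S hex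
  have h0 : LinearMap.lTensor S g X = 0 := by
    have h1 : ∀ Y : S ⊗[A] E, Y ∈ K.map (Algebra.TensorProduct.includeRight : E →ₐ[A] S ⊗[A] E) →
        Algebra.TensorProduct.map (AlgHom.id A S) (Ideal.Quotient.mkₐ A K) Y = 0 := by
      intro Y hY
      rw [← RingHom.mem_ker]
      revert Y
      change K.map (Algebra.TensorProduct.includeRight : E →ₐ[A] S ⊗[A] E) ≤
        RingHom.ker (Algebra.TensorProduct.map (AlgHom.id A S) (Ideal.Quotient.mkₐ A K))
      rw [Ideal.map_le_iff_le_comap]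
      intro y hy
      rw [Ideal.mem_comap, RingHom.mem_ker]
      change (1 : S) ⊗ₜ[A] (Ideal.Quotient.mk K y) = 0
      rw [Ideal.Quotient.eq_zero_iff_mem.2 hy, TensorProduct.tmul_zero]
    have h2 : ∀ Y : S ⊗[A] E, LinearMap.lTensor S g Y =
        Algebra.TensorProduct.map (AlgHom.id A S) (Ideal.Quotient.mkₐ A K) ((1 ⊗ₜ a) * Y) := by
      intro Y
      induction Y with
      | zero => simp
      | add Y Z hY hZ => rw [map_add, hY, hZ, mul_add, map_add]
      | tmul s b =>
        rw [Algebra.TensorProduct.tmul_mul_tmul, one_mul]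
        rfl
    rw [h2, h1 _ hX]
  obtain ⟨Y, rfl⟩ := (hex2 X).1 h0
  clear h0 hX
  induction Y with
  | zero => simp
  | add Y Z hY hZ =>
    rw [map_add, mul_add]
    exact Ideal.add_mem _ hY hZ
  | tmul s b =>
    rw [LinearMap.lTensor_tmul, Algebra.TensorProduct.tmul_mul_tmul, one_mul]
    have h3 : h * (b : E) ∈ K' := by
      apply H
      have h4 : g b = 0 := b.2
      exact Ideal.Quotient.eq_zero_iff_mem.1 h4
    have h5 : s ⊗ₜ[A] (h * (b : E)) = (s ⊗ₜ[A] 1) * (Algebra.TensorProduct.includeRight :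
        E →ₐ[A] S ⊗[A] E) (h * (b : E)) := by
      rw [Algebra.TensorProduct.includeRight_apply, Algebra.TensorProduct.tmul_mul_tmul, one_mul,
        mul_one]
    change s ⊗ₜ[A] (h * (b : E)) ∈ _
    rw [h5]
    exact Ideal.mul_mem_left _ _ (Ideal.mem_map_of_mem _ h3)

/-- the class map `E → (S ⊗ E)/K` as a ring homomorphism. -/
noncomputable def br3_b (K : Ideal E) : E →+* XS A S E K :=
  (Ideal.Quotient.mk _).comp
    (Algebra.TensorProduct.includeRight : E →ₐ[A] S ⊗[A] E).toRingHom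

/-- the class map `S → (S ⊗ E)/K` as a ring homomorphism. -/
noncomputable def br3_s (K : Ideal E) : S →+* XS A S E K :=
  (Ideal.Quotient.mk _).comp
    (Algebra.TensorProduct.includeLeftRingHom : S →+* S ⊗[A] E)

theorem br3_b_apply (K : Ideal E) (b : E) : br3_b (A := A) (S := S) K b = bX K b := rfl

theorem br3_s_apply (K : Ideal E) (s : S) : br3_s (A := A) (E := E) K s = sX K s := rfl

theorem br3_sa (K : Ideal E) (a : A) :
    sX (A := A) (S := S) K (algebraMap A S a) = bX K (algebraMap A E a) := by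
  unfold sX bX
  rw [Algebra.algebraMap_eq_smul_one, TensorProduct.smul_tmul, Algebra.algebraMap_eq_smul_one]

theorem br3_K (K : Ideal E) : K.map (br3_b (A := A) (S := S) K) = ⊥ := by
  rw [eq_bot_iff, Ideal.map_le_iff_le_comap]
  intro y hy
  rw [Ideal.mem_comap]
  change (Ideal.Quotient.mk _ _ : XS A S E K) = 0
  exact Ideal.Quotient.eq_zero_iff_mem.2 (Ideal.mem_map_of_mem _ hy)

/-- colon ideals in the quotient. -/
theorem br3_colonX [Module.Flat A S] (K J J' : Ideal E) (a h : E)
    (H : ∀ x, a * x ∈ J ⊔ K → h * x ∈ J' ⊔ K) (X : XS A S E K)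
    (hX : bX K a * X ∈ J.map (br3_b (A := A) (S := S) K)) :
    bX K h * X ∈ J'.map (br3_b (A := A) (S := S) K) := by
  obtain ⟨X, rfl⟩ := Ideal.Quotient.mk_surjective X
  have h1 : ∀ I : Ideal E, I.map (br3_b (A := A) (S := S) K) =
      (I.map (Algebra.TensorProduct.includeRight : E →ₐ[A] S ⊗[A] E)).map
        (Ideal.Quotient.mk (K.map (Algebra.TensorProduct.includeRight : E →ₐ[A] S ⊗[A] E))) := by
    intro I
    rw [br3_b, ← Ideal.map_map]
    rfl
  rw [h1] at hX ⊢
  have h2 : ∀ c : E, bX (A := A) (S := S) K c * Ideal.Quotient.mk _ X =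
      Ideal.Quotient.mk _ ((1 ⊗ₜ c) * X) := fun c => by
    rw [map_mul]
    rfl
  rw [h2, Ideal.mem_quotient_iff_mem_sup, ← Ideal.map_sup] at hX ⊢
  exact br3_colon _ _ a h H X hX

end Colon

/-- the powers of the ideal generated by `z`. -/
theorem br3_pow_le {R : Type u} [CommRing R] {n : ℕ} (z : Fin n → R) (I : Ideal R) (c : ℕ)
    (h : ∀ l, z l ^ c ∈ I) : Ideal.span (Set.range z) ^ (n * c + 1) ≤ I := by
  classical
  have key : ∀ s : Finset (Fin n),
      Ideal.span (z '' (s : Set (Fin n))) ^ (s.card * c + 1) ≤ I := by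
    intro s
    induction s using Finset.induction_on with
    | empty => simp
    | insert a s ha ih =>
      have e1 : (insert a s).card * c + 1 = c + (s.card * c + 1) := by
        rw [Finset.card_insert_of_notMem ha]
        ring
      rw [e1, Finset.coe_insert, Set.image_insert_eq, Set.insert_eq, Ideal.span_union]
      refine le_trans Ideal.sup_pow_add_le_pow_sup_pow (sup_le ?_ ih)
      rw [Ideal.span_singleton_pow, Ideal.span_singleton_le_iff_mem]
      exact h a
  have h1 := key Finset.univ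
  rw [Finset.coe_univ, Set.image_univ, Finset.card_univ, Fintype.card_fin] at h1
  exact h1

section Bridge

variable {A : Type u} [CommRing A] {S : Type u} [CommRing S] [Algebra A S]
  {E : Type u} [CommRing E] [Algebra A E] (K : Ideal E)

theorem br3_map_range {n : ℕ} (z : Fin n → E) :
    (Ideal.span (Set.range z)).map (br3_b (A := A) (S := S) K) =
      Ideal.span (Set.range fun l => bX (A := A) (S := S) K (z l)) := by
  rw [Ideal.map_span, ← Set.range_comp]
  rfl

theorem br3_sup (J : Ideal E) :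
    (J ⊔ K).map (br3_b (A := A) (S := S) K) = J.map (br3_b (A := A) (S := S) K) := by
  rw [Ideal.map_sup, br3_K, sup_bot_eq]

/-- `x ∈ m` lies in `(z)^w`. -/
theorem br3_mz [IsLocalRing A] {n : ℕ} (z : Fin n → E) (w : ℕ)
    (hz : (maximalIdeal A).map (algebraMap A E) ≤ Ideal.span (Set.range z) ^ w ⊔ K) (x : A)
    (hx : x ∈ maximalIdeal A) :
    bX (A := A) (S := S) K (algebraMap A E x) ∈
      Ideal.span (Set.range fun l => bX (A := A) (S := S) K (z l)) ^ w := by
  have h1 := Ideal.mem_map_of_mem (br3_b (A := A) (S := S) K) (hz (Ideal.mem_map_of_mem _ hx))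
  rw [br3_sup, Ideal.map_pow, br3_map_range] at h1
  exact h1

theorem br3_smul_top {R : Type u} [CommRing R] (I : Ideal R) : I • (⊤ : Submodule R R) = I := by
  rw [smul_eq_mul]
  exact Ideal.mul_top I

end Bridge

theorem honData_of_apkg {A : Type u} [CommRing A] [IsLocalRing A] (S : Type u) [CommRing S]
    [Algebra A S] [Module.Flat A S] (p : ℕ) {r : ℕ} (x : Fin (r + 1) → A) (hx0 : x 0 = (p : A))
    (hx : ∀ k, x k ∈ maximalIdeal A) (P : Type) [Fintype P] (g0 g1 : A) (w w' : ℕ) (hw : 1 ≤ w)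
    (N : ℕ → ℕ) (hN : Filter.Tendsto N Filter.atTop Filter.atTop) (E : ℕ → Type u)
    [∀ e, CommRing (E e)] [∀ e, Algebra A (E e)]
    (Pk : ∀ e, APkg p (maximalIdeal A) x P g0 g1 w w' (N e) (E e)) (π : P)
    (y : Fin (r + 1) → S)
    (hy : ∃ L : ℕ, ∀ k, algebraMap A S (x k) ^ L ∈ Ideal.span (Set.range y)) :
    HonData (fun e => XS A S (E e) ((Pk e).K π)) (fun e => XS A S (E e) ((Pk e).K π)) p
      (fun e => bX ((Pk e).K π) ((Pk e).h π))
      (fun e k => sX ((Pk e).K π) (algebraMap A S (x k)))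
      (fun e l => sX ((Pk e).K π) (y l))
      (fun e l => bX ((Pk e).K π) ((Pk e).z π l)) w := by
  have hp : ∀ e, (p : XS A S (E e) ((Pk e).K π)) =
      bX (A := A) (S := S) ((Pk e).K π) (algebraMap A (E e) (p : A)) := by
    intro e
    rw [map_natCast, ← br3_b_apply, map_natCast]
  have hpm : (p : A) ∈ maximalIdeal A := hx0 ▸ hx 0
  have hsb : ∀ e k, sX (A := A) (S := S) ((Pk e).K π) (algebraMap A S (x k)) =
      bX ((Pk e).K π) (algebraMap A (E e) (x k)) := fun e k => br3_sa _ _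
  refine ⟨?_, ?_, ?_, ?_, ?_, ?_, ?_⟩
  · intro e
    rw [hsb, hx0, hp]
  · refine ⟨fun e => N e - 1, (Filter.tendsto_sub_atTop_nat 1).comp hN, fun e X hX => ?_⟩
    have h1 := br3_colonX (A := A) (S := S) ((Pk e).K π) ⊥
      (Ideal.span {algebraMap A (E e) (p : A) ^ (N e - 1)}) (algebraMap A (E e) (p : A))
      ((Pk e).h π) (fun y hy => (Pk e).regp π y (by rwa [bot_sup_eq] at hy)) X (by
        rw [← hp, Ideal.map_bot, Ideal.mem_bot]
        exact hX)
    rw [Ideal.map_span, Set.image_singleton, Ideal.mem_span_singleton] at h1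
    obtain ⟨c, hc⟩ := h1
    refine ⟨c, ?_⟩
    rw [map_pow, br3_b_apply, ← hp] at hc
    exact hc
  · intro e k hk X hX
    have h1 : Ideal.span ((fun k => sX (A := A) (S := S) ((Pk e).K π) (algebraMap A S (x k))) ''
        Set.Iio k) = (Ideal.span ((fun l => algebraMap A (E e) (x l)) '' {l | l < k})).map
          (br3_b (A := A) (S := S) ((Pk e).K π)) := by
      rw [Ideal.map_span, ← Set.image_comp]
      congr 1
      refine Set.image_congr fun l _ => ?_
      rw [hsb]
      rfl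
    rw [br3_smul_top, h1] at hX ⊢
    rw [smul_eq_mul, hsb] at hX
    exact br3_colonX (A := A) (S := S) ((Pk e).K π) _ _ _ _
      (fun y hy => (Pk e).regu π k (Nat.pos_of_ne_zero fun h => hk (Fin.ext h)) y hy) X hX
  · intro e k
    rw [hsb]
    exact Ideal.pow_le_self (by omega) (br3_mz _ _ w ((Pk e).hz π) (x k) (hx k))
  · obtain ⟨L, hL⟩ := hy
    refine ⟨L, fun e k => ?_⟩
    have h1 := Ideal.mem_map_of_mem (br3_s (A := A) (E := E e) ((Pk e).K π)) (hL k)
    rw [Ideal.map_span, ← Set.range_comp, map_pow] at h1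
    exact h1
  · intro W hW e X
    refine pk_of_le _ _ w (fun V => ?_) W hW X
    rw [br3_smul_top, smul_eq_mul, hp]
    exact Ideal.mul_mem_right _ _ (br3_mz _ _ w ((Pk e).hz π) _ hpm)
  · intro W W' hW hW' f e
    exact lf_tensor S (E e) ((Pk e).K π) ((Pk e).z π) w ((Pk e).hz π) y W W' hW hW' f

theorem hnil_of_apkg {A : Type u} [CommRing A] [IsLocalRing A] (S : Type u) [CommRing S]
    [Algebra A S] (p : ℕ) {r : ℕ} (x : Fin (r + 1) → A)
    (P : Type) [Fintype P] (g0 g1 : A) (w w' : ℕ)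
    (N : ℕ → ℕ) (E : ℕ → Type u)
    [∀ e, CommRing (E e)] [∀ e, Algebra A (E e)]
    (Pk : ∀ e, APkg p (maximalIdeal A) x P g0 g1 w w' (N e) (E e)) (π : P)
    (y : Fin (r + 1) → S)
    (hy : ∃ L : ℕ, (maximalIdeal A ^ L).map (algebraMap A S) ≤ Ideal.span (Set.range y)) :
    ∃ M : ℕ, ∀ e, Ideal.span (Set.range fun l =>
        bX (A := A) (S := S) ((Pk e).K π) ((Pk e).z π l)) ^ M •
        (⊤ : Submodule (XS A S (E e) ((Pk e).K π)) (XS A S (E e) ((Pk e).K π))) ≤
      ys (XS A S (E e) ((Pk e).K π)) (fun l => sX ((Pk e).K π) (y l)) := by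
  obtain ⟨L, hL⟩ := hy
  refine ⟨((r + 1) * w' + 1) * L, fun e => ?_⟩
  unfold ys
  rw [br3_smul_top, br3_smul_top]
  have h1 : ((maximalIdeal A).map (algebraMap A (E e))).map
      (br3_b (A := A) (S := S) ((Pk e).K π)) = ((maximalIdeal A).map (algebraMap A S)).map
      (br3_s (A := A) (E := E e) ((Pk e).K π)) := by
    rw [Ideal.map_map, Ideal.map_map]
    congr 1
    ext a
    exact (br3_sa ((Pk e).K π) a).symm
  have h2 : Ideal.span (Set.range fun l =>
      bX (A := A) (S := S) ((Pk e).K π) ((Pk e).z π l)) ^ ((r + 1) * w' + 1) ≤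
      ((maximalIdeal A).map (algebraMap A (E e))).map
        (br3_b (A := A) (S := S) ((Pk e).K π)) := by
    refine br3_pow_le _ _ w' fun l => ?_
    have h3 := Ideal.mem_map_of_mem (br3_b (A := A) (S := S) ((Pk e).K π)) ((Pk e).hz' π l)
    rw [br3_sup, map_pow] at h3
    exact h3
  have h0 : ∀ (I : Ideal (XS A S (E e) ((Pk e).K π))) (a b : ℕ), I ^ (a * b) = (I ^ a) ^ b :=
    fun I a b => pow_mul I a b
  refine le_trans (le_of_eq (h0 _ _ _)) (le_trans (Ideal.pow_right_mono h2 L) ?_)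
  rw [h1, ← Ideal.map_pow, ← Ideal.map_pow]
  refine le_trans (Ideal.map_mono hL) ?_
  rw [Ideal.map_span, ← Set.range_comp]
  exact le_rfl

end Vale.Agent.P202.Mix
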