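import Vale.Agent.P202.Mix.GeoCell

/-!
P202-MIX, part GEO, task B4a: counting the valid cells.
-/

namespace Vale.Agent.P202.Mix

variable {r : ℕ} (a : Fin r → ℤ) (B : ℤ)

theorem ncell_window (p j₀ j₁ : ℤ) :
    ncell a B p j₀ j₁ = ∑ j ∈ Finset.Ico j₀ j₁, ncell a B p j (j + 1) := by
  classical
  rw [ncell, Set.ncard_eq_toFinset_card _ (cellset_finite a B p j₀ j₁),
    Finset.card_eq_sum_card_fiberwise (f := fun c => c.2.2) (t := Finset.Ico j₀ j₁)]
  · refine Finset.sum_congr rfl fun j hj => ?_
    rw [ncell, Set.ncard_eq_toFinset_card _ (cellset_finite a B p j (j + 1))]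
    congr 1
    ext c
    rw [Finset.mem_Ico] at hj
    simp only [Finset.mem_filter, Set.Finite.mem_toFinset, cellset, Set.mem_ofPred_eq]
    constructor
    · rintro ⟨⟨h1, h2, h3, h4⟩, h5⟩
      exact ⟨h1, h2, by omega, by omega⟩
    · rintro ⟨h1, h2, h3, h4⟩
      exact ⟨⟨h1, h2, by omega, by omega⟩, by omega⟩
  · intro c hc
    simp only [Finset.mem_coe, Set.Finite.mem_toFinset, cellset, Set.mem_ofPred_eq] at hc
    simp only [Finset.mem_coe, Finset.mem_Ico]
    exact ⟨hc.2.2.1, hc.2.2.2⟩

/-- the number of valid cells in terms of `I`. -/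
theorem ncell_eq_sum (p j : ℤ) (h1 : ∀ l, a l ≤ B) (h2 : -1 ≤ B + j) :
    (ncell a B p j (j + 1) : ℤ) =
      ∑ I ∈ (Finset.univ : Finset (Finset (Fin r))) with ((I.card : ℕ) : ℤ) = p,
        ∏ l, (if l ∈ I then B - a l else B + j + 1) := by
  classical
  rw [ncell, Set.ncard_eq_toFinset_card _ (cellset_finite a B p j (j + 1)),
    Finset.card_eq_sum_card_fiberwise (f := Prod.fst)
      (t := (Finset.univ : Finset (Finset (Fin r))).filter fun I => ((I.card : ℕ) : ℤ) = p)]
  · push_cast
    refine Finset.sum_congr rfl fun I hI => ?_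
    rw [Finset.mem_filter] at hI
    have key : (cellset_finite a B p j (j + 1)).toFinset.filter (fun c => c.1 = I) =
        (Fintype.piFinset fun l =>
          if l ∈ I then Finset.Ioc (a l + j) (B + j) else Finset.Icc 0 (B + j)).map
          ⟨fun s => (I, (s, j)), fun s s' h => by simpa using h⟩ := by
      ext ⟨I', s, j'⟩
      simp only [Finset.mem_filter, Set.Finite.mem_toFinset, cellset, valid, inF, inG,
        Set.mem_ofPred_eq, Finset.mem_map, Fintype.mem_piFinset, not_exists, not_and, not_le]
      constructor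
      · rintro ⟨⟨⟨⟨h3, h4⟩, h5⟩, h6, h7, h8⟩, rfl⟩
        have hj : j' = j := by omega
        subst hj
        refine ⟨s, fun l => ?_, rfl⟩
        by_cases hl : l ∈ I'
        · rw [if_pos hl, Finset.mem_Ioc]
          exact ⟨h5 l hl, h4 l⟩
        · rw [if_neg hl, Finset.mem_Icc]
          exact ⟨h3 l hl, h4 l⟩
      · rintro ⟨s', h3, h⟩
        obtain ⟨h6, h⟩ := Prod.mk.inj h
        obtain ⟨h7, h8⟩ := Prod.mk.inj h
        subst h6 h7 h8
        refine ⟨⟨⟨⟨fun l hl => ?_, fun l => ?_⟩, fun l hl => ?_⟩, hI.2, le_rfl, by omega⟩, rfl⟩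
        · have h4 := h3 l
          rw [if_neg hl, Finset.mem_Icc] at h4
          exact h4.1
        · have h4 := h3 l
          split_ifs at h4
          · exact (Finset.mem_Ioc.1 h4).2
          · exact (Finset.mem_Icc.1 h4).2
        · have h4 := h3 l
          rw [if_pos hl, Finset.mem_Ioc] at h4
          exact h4.1
    rw [key, Finset.card_map, Fintype.card_piFinset]
    push_cast
    refine Finset.prod_congr rfl fun l _ => ?_
    have h3 := h1 l
    split_ifs
    · rw [Int.card_Ioc]
      omega
    · rw [Int.card_Icc]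
      omega
  · intro c hc
    simp only [Finset.mem_coe, Set.Finite.mem_toFinset, cellset, Set.mem_ofPred_eq] at hc
    simp only [Finset.mem_coe, Finset.mem_filter, Finset.mem_univ, true_and]
    exact hc.2.1

theorem ncell_euler (j : ℤ) (h1 : ∀ l, a l ≤ B) (h2 : -1 ≤ B + j) :
    ∑ p ∈ Finset.range (r + 1), (-1 : ℤ) ^ p * (ncell a B p j (j + 1) : ℤ) =
      ∏ l, (a l + j + 1) := by
  classical
  have h3 : ∏ l, (a l + j + 1) = ∏ l, (-(B - a l) + (B + j + 1)) :=
    Finset.prod_congr rfl fun l _ => by ring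
  rw [h3, Finset.prod_add, Finset.powerset_univ,
    ← Finset.sum_fiberwise_of_maps_to (s := Finset.univ) (t := Finset.range (r + 1))
      (g := fun I : Finset (Fin r) => I.card)]
  · refine Finset.sum_congr rfl fun p _ => ?_
    rw [ncell_eq_sum a B p j h1 h2, Finset.mul_sum]
    refine Finset.sum_congr ?_ fun I hI => ?_
    · ext I
      simp
    · rw [Finset.mem_filter] at hI
      have hI2 : I.card = p := by exact_mod_cast hI.2
      rw [Finset.prod_ite, Finset.prod_neg, hI2, mul_assoc]
      congr 2
      · congr 1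
        ext l
        simp
      · congr 1
        ext l
        simp
  · intro I _
    rw [Finset.mem_range]
    have := Finset.card_le_univ I
    rw [Fintype.card_fin] at this
    omega

end Vale.Agent.P202.Mix
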