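import Vale.Agent.P202.Mix.GeoCell
import Vale.Agent.P202.Mix.LenBasic

/-!
P202-MIX, part GEO: relative length of the cell families.
-/

namespace Vale.Agent.P202.Mix

open Vale.Agent.P202.CharP
open scoped ENNReal

universe u

section

variable {R : Type u} [CommRing R] (L : AddLen R) {Q : Type u} [AddCommGroup Q] [Module R Q]
  {r : ℕ}

/-- relative length via restriction to a finite set of coordinates. -/
theorem CellLen_restrict {ι κ : Type} [Fintype κ] (f : κ → ι) (hf : Function.Injective f)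
    (C C' : ι → Submodule R Q) (hCC : ∀ i, C i ≤ C' i) (h : ∀ i, i ∉ Set.range f → C i = C' i)
    {M : Type u} [AddCommGroup M] [Module R M] (e : M ≃ₗ[R] (ι → Q))
    (X Y : Submodule R M) (hX : ∀ m, m ∈ X ↔ ∀ i, e m i ∈ C i)
    (hY : ∀ m, m ∈ Y ↔ ∀ i, e m i ∈ C' i) :
    L.rl X Y = ∑ k, L.rl (C (f k)) (C' (f k)) := by
  classical
  set ρ : M →ₗ[R] (κ → Q) := LinearMap.pi fun k => (LinearMap.proj (f k)) ∘ₗ (e : M →ₗ[R] (ι → Q))
    with hρ
  have hρa : ∀ m k, ρ m k = e m (f k) := fun m k => rfl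
  set P : Submodule R (κ → Q) := Submodule.pi Set.univ fun k => C (f k) with hP
  set P' : Submodule R (κ → Q) := Submodule.pi Set.univ fun k => C' (f k) with hP'
  -- extension by zero
  have hext : ∀ w ∈ P', ∃ m ∈ Y, ρ m = w := by
    intro w hw
    refine ⟨e.symm (fun i => if hi : ∃ k, f k = i then w hi.choose else 0), ?_, ?_⟩
    · rw [hY]
      intro i
      rw [LinearEquiv.apply_symm_apply]
      by_cases hi : ∃ k, f k = i
      · rw [dif_pos hi]
        have h1 : w hi.choose ∈ C' (f hi.choose) := hw hi.choose (Set.mem_univ _)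
        rw [hi.choose_spec] at h1
        exact h1
      · rw [dif_neg hi]
        exact Submodule.zero_mem _
    · funext k
      rw [hρa, LinearEquiv.apply_symm_apply]
      have hi : ∃ k', f k' = f k := ⟨k, rfl⟩
      rw [dif_pos hi, hf hi.choose_spec]
  have hsurj : Function.Surjective ρ := by
    intro w
    refine ⟨e.symm (fun i => if hi : ∃ k, f k = i then w hi.choose else 0), ?_⟩
    funext k
    rw [hρa, LinearEquiv.apply_symm_apply]
    have hi : ∃ k', f k' = f k := ⟨k, rfl⟩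
    rw [dif_pos hi, hf hi.choose_spec]
  have hXeq : X = P.comap ρ ⊓ Y := by
    ext m
    rw [Submodule.mem_inf, Submodule.mem_comap, hX, hY]
    constructor
    · intro hm
      exact ⟨fun k _ => hm (f k), fun i => hCC i (hm i)⟩
    · rintro ⟨h1, h2⟩ i
      by_cases hi : i ∈ Set.range f
      · obtain ⟨k, rfl⟩ := hi
        exact h1 k (Set.mem_univ _)
      · rw [h i hi]
        exact h2 i
  have hYmap : Y.map ρ = P' := by
    apply le_antisymm
    · rintro _ ⟨m, hm, rfl⟩ k _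
      exact (hY m).1 hm (f k)
    · intro w hw
      obtain ⟨m, hm, rfl⟩ := hext w hw
      exact ⟨m, hm, rfl⟩
  have hPmap : (P.comap ρ).map ρ = P := Submodule.map_comap_eq_of_surjective hsurj P
  have hker : P.comap ρ ⊔ LinearMap.ker ρ = P.comap ρ := by
    rw [sup_eq_left]
    intro m hm
    rw [Submodule.mem_comap, LinearMap.mem_ker.mp hm]
    exact Submodule.zero_mem _
  rw [hXeq, rl_inf_left, ← hker, ← rl_map, hPmap, hYmap, hP, hP', rl_pi]

/-- uncurrying. -/
def CellLen_e (R : Type u) [CommRing R] (Q : Type u) [AddCommGroup Q] [Module R Q] (r : ℕ) :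
    KV r Q ≃ₗ[R] (Finset (Fin (r + 1)) × Finset (Fin r) × Gz r → Q) where
  toFun v c := v c.1 c.2.1 c.2.2
  map_add' _ _ := rfl
  map_smul' _ _ := rfl
  invFun w J I g := w (J, I, g)
  left_inv _ := rfl
  right_inv _ := rfl

variable (a : Fin r → ℤ) (B : ℤ)

theorem CellLen_sum (p j₀ j₁ : ℤ) (φ : ℤ → ℝ≥0∞) :
    ∑ c ∈ (cellset_finite a B p j₀ j₁).toFinset, φ c.2.2 =
      ∑ j ∈ Finset.Ico j₀ j₁, (ncell a B p j (j + 1) : ℝ≥0∞) * φ j := by
  classical
  rw [← Finset.sum_fiberwise_of_maps_to (t := Finset.Ico j₀ j₁) (g := fun c => c.2.2)]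
  · refine Finset.sum_congr rfl fun j hj => ?_
    rw [Finset.mem_Ico] at hj
    have h1 : (cellset_finite a B p j₀ j₁).toFinset.filter (fun c => c.2.2 = j) =
        (cellset_finite a B p j (j + 1)).toFinset := by
      ext c
      simp only [Finset.mem_filter, Set.Finite.mem_toFinset, cellset, Set.mem_ofPred_eq]
      constructor
      · rintro ⟨⟨h1, h2, h3, h4⟩, h5⟩
        exact ⟨h1, h2, by omega, by omega⟩
      · rintro ⟨h1, h2, h3, h4⟩
        exact ⟨⟨h1, h2, by omega, by omega⟩, by omega⟩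
    have h2 : ∀ c ∈ (cellset_finite a B p j₀ j₁).toFinset.filter (fun c => c.2.2 = j),
        φ c.2.2 = φ j := by
      intro c hc
      rw [(Finset.mem_filter.mp hc).2]
    rw [Finset.sum_congr rfl h2, Finset.sum_const, nsmul_eq_mul, h1, ncell,
      Set.ncard_eq_toFinset_card _ (cellset_finite a B p j (j + 1))]
  · intro c hc
    rw [Set.Finite.mem_toFinset] at hc
    exact Finset.mem_Ico.mpr ⟨hc.2.2.1, hc.2.2.2⟩

/-- relative length of cell families. -/
theorem rl_CF (c c' : ℤ → Gz r → Submodule R Q) (i p : ℕ) (hcc : ∀ g, c i g ≤ c' i g)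
    (φ : ℤ → ℝ≥0∞) (h : ∀ g, L.rl (c i g) (c' i g) = φ g.2) (j₀ j₁ : ℤ)
    (h0 : ∀ g : Gz r, (g.2 < j₀ ∨ j₁ ≤ g.2) → c i g = c' i g) :
    L.rl (CF a B c i p) (CF a B c' i p) =
      ((r + 1).choose i : ℝ≥0∞) * ∑ j ∈ Finset.Ico j₀ j₁, (ncell a B p j (j + 1) : ℝ≥0∞) * φ j := by
  classical
  set E : Finset (Finset (Fin (r + 1)) × Finset (Fin r) × Gz r) :=
    (Finset.univ.powersetCard i) ×ˢ (cellset_finite a B p j₀ j₁).toFinset with hE
  have hmemE : ∀ x, x ∈ E ↔ x.1.card = i ∧ valid a B x.2.1 x.2.2 ∧ (x.2.1.card : ℤ) = p ∧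
      j₀ ≤ x.2.2.2 ∧ x.2.2.2 < j₁ := by
    intro x
    rw [hE, Finset.mem_product, Finset.mem_powersetCard, Set.Finite.mem_toFinset]
    simp [cellset]
  have hval : ∀ x ∈ E, ∀ d : ℤ → Gz r → Submodule R Q,
      CV a B d i p x.1 x.2.1 x.2.2 = d i x.2.2 := by
    intro x hx d
    obtain ⟨h1, h2, h3, h4, h5⟩ := (hmemE x).mp hx
    rw [CV, if_pos ⟨by exact_mod_cast h1, h3, h2.1⟩, if_neg h2.2]
  rw [CellLen_restrict L (ι := Finset (Fin (r + 1)) × Finset (Fin r) × Gz r) (κ := ↥E)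
    (fun k => k.1) Subtype.coe_injective (fun x => CV a B c i p x.1 x.2.1 x.2.2)
    (fun x => CV a B c' i p x.1 x.2.1 x.2.2) ?_ ?_ (CellLen_e R Q r) (CF a B c i p)
    (CF a B c' i p) ?_ ?_]
  · rw [Finset.sum_coe_sort E (fun x => L.rl (CV a B c i p x.1 x.2.1 x.2.2)
      (CV a B c' i p x.1 x.2.1 x.2.2))]
    have h1 : ∀ x ∈ E, L.rl (CV a B c i p x.1 x.2.1 x.2.2)
      (CV a B c' i p x.1 x.2.1 x.2.2) = φ x.2.2.2 := by
      intro x hx
      rw [hval x hx, hval x hx, h]
    have h2 : ∀ x ∈ Finset.powersetCard i (Finset.univ : Finset (Fin (r + 1))),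
        ∑ y ∈ (cellset_finite a B p j₀ j₁).toFinset, φ (x, y).2.2.2 =
          ∑ j ∈ Finset.Ico j₀ j₁, (ncell a B p j (j + 1) : ℝ≥0∞) * φ j :=
      fun x _ => CellLen_sum a B p j₀ j₁ φ
    rw [Finset.sum_congr rfl h1, hE, Finset.sum_product, Finset.sum_congr rfl h2,
      Finset.sum_const, Finset.card_powersetCard, Finset.card_univ, Fintype.card_fin,
      nsmul_eq_mul]
  · intro x
    simp only [CV]
    split_ifs
    · exact le_rfl
    · exact hcc _
    · exact le_rfl
  · intro x hx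
    have hx' : x ∉ E := fun h => hx ⟨⟨x, h⟩, rfl⟩
    rw [hmemE] at hx'
    simp only [CV]
    split_ifs with h1 h2
    · rfl
    · apply h0
      by_contra h3
      rw [not_or, not_lt, not_le] at h3
      exact hx' ⟨by exact_mod_cast h1.1, ⟨h1.2.2, h2⟩, h1.2.1, h3.1, h3.2⟩
    · rfl
  · intro m
    exact ⟨fun hm x => hm x.1 x.2.1 x.2.2, fun hm J I g => hm (J, I, g)⟩
  · intro m
    exact ⟨fun hm x => hm x.1 x.2.1 x.2.2, fun hm J I g => hm (J, I, g)⟩

end

end Vale.Agent.P202.Mix
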