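import Vale.Agent.P202.Mix.GeoCell

/-!
P202-MIX, part GEO, task B1c: the cell operators commute.
-/

namespace Vale.Agent.P202.Mix

open Vale.Agent.P202.CharP
open scoped ENNReal

universe u

/-! ### signs -/

private theorem h723_ksg_insert {n : ℕ} {l k : Fin n} {J : Finset (Fin n)} (hl : l ∉ J) :
    ksg k (insert l J) = (if l < k then -1 else 1) * ksg k J := by
  unfold ksg
  rw [Finset.filter_insert]
  split_ifs with h
  · rw [Finset.card_insert_of_notMem (by simp [hl]), pow_succ, mul_comm]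
  · rw [one_mul]

private theorem h723_ksg_erase {n : ℕ} {i k : Fin n} {I : Finset (Fin n)} (hi : i ∈ I) :
    ksg k (I.erase i) = (if i < k then -1 else 1) * ksg k I := by
  have h := h723_ksg_insert (l := i) (k := k) (J := I.erase i) (Finset.notMem_erase i I)
  rw [Finset.insert_erase hi] at h
  rw [h, ← mul_assoc]
  split_ifs <;> simp

private theorem h723_sgn {n : ℕ} {i k : Fin n} (h : i ≠ k) :
    ((if i < k then -1 else 1) : ℤ) + (if k < i then -1 else 1) = 0 := by
  rcases lt_or_gt_of_ne h with h1 | h1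
  · rw [if_pos h1, if_neg (not_lt.2 h1.le)]; norm_num
  · rw [if_neg (not_lt.2 h1.le), if_pos h1]; norm_num

private theorem h723_sum_anti {M : Type*} [AddCommGroup M] {n : ℕ} (s : Finset (Fin n))
    (G : Fin n → Fin n → M) (h : ∀ i ∈ s, ∀ k ∈ s, i ≠ k → G i k + G k i = 0) :
    ∑ i ∈ s, ∑ k ∈ s.erase i, G i k = 0 := by
  rw [Finset.sum_sigma']
  refine Finset.sum_involution (fun a _ => ⟨a.2, a.1⟩) ?_ ?_ ?_ ?_
  · rintro ⟨i, k⟩ ha
    rw [Finset.mem_sigma, Finset.mem_erase] at ha
    exact h i ha.1 k ha.2.2 (Ne.symm ha.2.1)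
  · rintro ⟨i, k⟩ ha _ heq
    rw [Finset.mem_sigma, Finset.mem_erase] at ha
    rw [Sigma.mk.injEq] at heq
    exact ha.2.1 heq.1
  · rintro ⟨i, k⟩ ha
    rw [Finset.mem_sigma, Finset.mem_erase] at ha ⊢
    exact ⟨ha.2.2, Ne.symm ha.2.1, ha.1⟩
  · rintro ⟨i, k⟩ _
    rfl

section

variable {R : Type u} [CommRing R] {V : Type u} [AddCommGroup V] [Module R V] {n : ℕ}

private theorem h723_kz_sq (T : Fin n → V →ₗ[R] V) (hT : ∀ k l v, T k (T l v) = T l (T k v))
    (v : Finset (Fin n) → V) : kz T (kz T v) = 0 := by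
  funext J
  show ∑ l ∈ Jᶜ, ksg l J • T l (∑ k ∈ (insert l J)ᶜ, ksg k (insert l J) •
    T k (v (insert k (insert l J)))) = 0
  have h1 : ∀ l ∈ Jᶜ, ksg l J • T l (∑ k ∈ (insert l J)ᶜ, ksg k (insert l J) •
      T k (v (insert k (insert l J)))) = ∑ k ∈ Jᶜ.erase l,
      (ksg l J * ksg k (insert l J)) • T l (T k (v (insert k (insert l J)))) := by
    intro l _
    rw [map_sum, Finset.smul_sum, Finset.compl_insert]
    refine Finset.sum_congr rfl fun k _ => ?_
    rw [map_zsmul, mul_smul]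
  rw [Finset.sum_congr rfl h1]
  refine h723_sum_anti _ _ ?_
  intro i hi k hk hik
  rw [Finset.mem_compl] at hi hk
  rw [h723_ksg_insert hi, h723_ksg_insert hk, Finset.insert_comm i k J, hT k i, ← add_smul]
  have h2 : ksg i J * ((if i < k then -1 else 1) * ksg k J)
      + ksg k J * ((if k < i then -1 else 1) * ksg i J) = 0 := by
    have h3 := h723_sgn hik
    linear_combination (ksg i J * ksg k J) * h3
  rw [h2, zero_smul]

private theorem h723_kz_kmap (T : Fin n → V →ₗ[R] V) (f : V →ₗ[R] V)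
    (h : ∀ l v, f (T l v) = T l (f v)) (v : Finset (Fin n) → V) :
    kmap n f (kz T v) = kz T (kmap n f v) := by
  funext J
  show f (∑ l ∈ Jᶜ, ksg l J • T l (v (insert l J)))
    = ∑ l ∈ Jᶜ, ksg l J • T l (f (v (insert l J)))
  rw [map_sum]
  refine Finset.sum_congr rfl fun l _ => ?_
  rw [map_zsmul, h]

end

section Ops

variable {R : Type u} [CommRing R] {Q : Type u} [AddCommGroup Q] [Module R Q]
  {r : ℕ}

theorem dU_sq (f : UV r Q) : dU R Q r (dU R Q r f) = 0 := by
  funext I g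
  show ∑ i ∈ I, ksg i I • (∑ k ∈ I.erase i, ksg k (I.erase i) • f ((I.erase i).erase k) g) = 0
  have h1 : ∀ i ∈ I, ksg i I • (∑ k ∈ I.erase i, ksg k (I.erase i) • f ((I.erase i).erase k) g)
      = ∑ k ∈ I.erase i, (ksg i I * ksg k (I.erase i)) • f ((I.erase i).erase k) g := by
    intro i _
    rw [Finset.smul_sum]
    refine Finset.sum_congr rfl fun k _ => ?_
    rw [mul_smul]
  rw [Finset.sum_congr rfl h1]
  refine h723_sum_anti _ _ ?_
  intro i hi k hk hik
  rw [h723_ksg_erase hi, h723_ksg_erase hk, Finset.erase_right_comm, ← add_smul]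
  have h2 : ksg i I * ((if i < k then -1 else 1) * ksg k I)
      + ksg k I * ((if k < i then -1 else 1) * ksg i I) = 0 := by
    have h3 := h723_sgn hik
    linear_combination (ksg i I * ksg k I) * h3
  rw [h2, zero_smul]

theorem XU_comm (k l : Fin (r + 1)) (f : UV r Q) :
    XU R Q r k (XU R Q r l f) = XU R Q r l (XU R Q r k f) := by
  funext I g
  show ∑ L ∈ (Finset.univ : Finset (Fin r)).powersetCard k,
      ∑ L' ∈ (Finset.univ : Finset (Fin r)).powersetCard l, f I (g - exz L - exz L')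
    = ∑ L ∈ (Finset.univ : Finset (Fin r)).powersetCard l,
      ∑ L' ∈ (Finset.univ : Finset (Fin r)).powersetCard k, f I (g - exz L - exz L')
  rw [Finset.sum_comm]
  refine Finset.sum_congr rfl fun L _ => Finset.sum_congr rfl fun L' _ => ?_
  rw [sub_right_comm]

theorem dU_XU (l : Fin (r + 1)) (f : UV r Q) :
    dU R Q r (XU R Q r l f) = XU R Q r l (dU R Q r f) := by
  funext I g
  show ∑ i ∈ I, ksg i I • (∑ L ∈ (Finset.univ : Finset (Fin r)).powersetCard l,
      f (I.erase i) (g - exz L))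
    = ∑ L ∈ (Finset.univ : Finset (Fin r)).powersetCard l,
      ∑ i ∈ I, ksg i I • f (I.erase i) (g - exz L)
  rw [Finset.sum_comm]
  refine Finset.sum_congr rfl fun i _ => ?_
  rw [Finset.smul_sum]

theorem dK_sq (v : KV r Q) : dK R Q r (dK R Q r v) = 0 := by
  funext J
  exact dU_sq (R := R) (v J)

theorem eX_sq (v : KV r Q) : eX R Q r (eX R Q r v) = 0 :=
  h723_kz_sq _ (fun k l v => XU_comm k l v) v

theorem dK_eX (v : KV r Q) : dK R Q r (eX R Q r v) = eX R Q r (dK R Q r v) :=
  h723_kz_kmap _ _ (fun l v => dU_XU l v) v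

theorem eK_sq (x : Fin (r + 1) → R) (v : KV r Q) : eK Q x (eK Q x v) = 0 := by
  refine h723_kz_sq _ (fun k l v => ?_) v
  simp only [LinearMap.sub_apply, LinearMap.smul_apply, LinearMap.id_apply, map_sub, map_smul,
    smul_sub]
  rw [XU_comm k l v, smul_comm (x k) (x l) v]
  abel

theorem dK_eK (x : Fin (r + 1) → R) (v : KV r Q) :
    dK R Q r (eK Q x v) = eK Q x (dK R Q r v) := by
  refine h723_kz_kmap _ _ (fun l v => ?_) v
  simp only [LinearMap.sub_apply, LinearMap.smul_apply, LinearMap.id_apply, map_sub, map_smul]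
  rw [dU_XU]

end Ops

end Vale.Agent.P202.Mix
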