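import Vale.Agent.P202.Mix.GeoCell

/-!
P202-MIX, task GEO-B3: exactness of the rows of a family of cells (toggle homotopy).
-/

namespace Vale.Agent.P202.Mix

open Vale.Agent.P202.CharP
open scoped ENNReal

universe u

namespace CellRow

open Finset

section Sign

variable {n : ℕ}

theorem ksg_mul_self (i : Fin n) (J : Finset (Fin n)) : ksg i J * ksg i J = 1 := by
  unfold ksg
  rw [← pow_add, ← two_mul, pow_mul]
  simp

theorem ksg_erase_self (i : Fin n) (J : Finset (Fin n)) : ksg i (J.erase i) = ksg i J := by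
  unfold ksg
  congr 2
  ext x
  simp only [mem_filter, mem_erase]
  constructor
  · rintro ⟨⟨_, h⟩, h'⟩; exact ⟨h, h'⟩
  · rintro ⟨h, h'⟩; exact ⟨⟨h'.ne, h⟩, h'⟩

theorem ksg_insert_self (i : Fin n) (J : Finset (Fin n)) : ksg i (insert i J) = ksg i J := by
  unfold ksg
  congr 2
  ext x
  simp only [mem_filter, mem_insert]
  constructor
  · rintro ⟨h | h, h'⟩
    · exact absurd h h'.ne
    · exact ⟨h, h'⟩
  · rintro ⟨h, h'⟩; exact ⟨Or.inr h, h'⟩

theorem ksg_erase_of_le {i j : Fin n} (J : Finset (Fin n)) (h : i ≤ j) :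
    ksg i (J.erase j) = ksg i J := by
  unfold ksg
  congr 2
  ext x
  simp only [mem_filter, mem_erase]
  constructor
  · rintro ⟨⟨_, h1⟩, h'⟩; exact ⟨h1, h'⟩
  · rintro ⟨h1, h'⟩; exact ⟨⟨(h'.trans_le h).ne, h1⟩, h'⟩

theorem ksg_erase_of_lt {i j : Fin n} {J : Finset (Fin n)} (hj : j ∈ J) (h : j < i) :
    ksg i (J.erase j) = - ksg i J := by
  unfold ksg
  have e : ((J.erase j).filter (· < i)) = (J.filter (· < i)).erase j := by
    ext x; simp only [mem_filter, mem_erase]; tauto
  have hm : j ∈ (J.filter (· < i)) := by simp [hj, h]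
  have hc := card_erase_add_one hm
  rw [e, ← hc, pow_succ]
  ring

theorem ksg_insert_of_le {i j : Fin n} (J : Finset (Fin n)) (h : i ≤ j) :
    ksg i (insert j J) = ksg i J := by
  unfold ksg
  congr 2
  ext x
  simp only [mem_filter, mem_insert]
  constructor
  · rintro ⟨h1 | h1, h'⟩
    · exact absurd (h1 ▸ h') (not_lt.2 h)
    · exact ⟨h1, h'⟩
  · rintro ⟨h1, h'⟩; exact ⟨Or.inr h1, h'⟩

theorem ksg_insert_of_lt {i j : Fin n} {J : Finset (Fin n)} (hj : j ∉ J) (h : j < i) :
    ksg i (insert j J) = - ksg i J := by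
  have := ksg_erase_of_lt (i := i) (mem_insert_self j J) h
  rw [erase_insert hj] at this
  rw [this]; ring

variable {V : Type*} [AddCommGroup V]

/-- wedge with the sum of all basis vectors. -/
def wd (f : Finset (Fin n) → V) (J : Finset (Fin n)) : V :=
  ∑ i ∈ J, ksg i J • f (J.erase i)

/-- contraction with the `i`-th dual basis vector. -/
def wc (i : Fin n) (f : Finset (Fin n) → V) (J : Finset (Fin n)) : V :=
  if i ∈ J then 0 else ksg i J • f (insert i J)

theorem wd_wc (i : Fin n) (f : Finset (Fin n) → V) (J : Finset (Fin n)) :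
    wd (wc i f) J + wc i (wd f) J = f J := by
  by_cases hi : i ∈ J
  · have h2 : wc i (wd f) J = 0 := by simp [wc, hi]
    rw [h2, add_zero]
    unfold wd
    rw [sum_eq_single i]
    · simp only [wc, mem_erase, ne_eq, not_true_eq_false, false_and, if_false]
      rw [insert_erase hi, ksg_erase_self, smul_smul, ksg_mul_self, one_smul]
    · intro j hj hji
      have : i ∈ J.erase j := mem_erase.2 ⟨Ne.symm hji, hi⟩
      simp [wc, this]
    · intro h; exact absurd hi h
  · have h2 : wc i (wd f) J =
        f J + ∑ j ∈ J, (ksg i J * ksg j (insert i J)) • f (insert i (J.erase j)) := by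
      simp only [wc, hi, if_false, wd]
      rw [sum_insert hi, smul_add, smul_smul, erase_insert hi, ksg_insert_self, ksg_mul_self,
        one_smul, smul_sum]
      congr 1
      refine sum_congr rfl ?_
      intro j hj
      have : j ≠ i := fun e => hi (e ▸ hj)
      rw [smul_smul, erase_insert_of_ne this.symm]
    have h1 : wd (wc i f) J =
        ∑ j ∈ J, (ksg j J * ksg i (J.erase j)) • f (insert i (J.erase j)) := by
      unfold wd
      refine sum_congr rfl ?_
      intro j hj
      have : i ∉ J.erase j := fun h => hi (mem_of_mem_erase h)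
      simp only [wc, this, if_false]
      rw [smul_smul]
    rw [h1, h2, add_comm, add_assoc, ← sum_add_distrib]
    rw [sum_eq_zero, add_zero]
    intro j hj
    have hne : j ≠ i := fun e => hi (e ▸ hj)
    rw [← add_smul]
    rcases lt_or_gt_of_ne hne with h | h
    · rw [ksg_erase_of_lt hj h, ksg_insert_of_le J h.le]
      have : ksg i J * ksg j J + ksg j J * -ksg i J = 0 := by ring
      rw [this, zero_smul]
    · rw [ksg_insert_of_lt hi h, ksg_erase_of_le J h.le]
      have : ksg i J * -ksg j J + ksg j J * ksg i J = 0 := by ring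
      rw [this, zero_smul]

end Sign

section Hom

variable {R : Type u} [CommRing R] {Q : Type u} [AddCommGroup Q] [Module R Q] {r : ℕ}

open Classical in
/-- the chosen index. -/
noncomputable def l0 (a : Fin r → ℤ) (g : Gz r) : Option (Fin r) :=
  if h : ∃ i, 0 ≤ g.1 i ∧ a i + g.2 < g.1 i then some h.choose else none

lemma l0_some {a : Fin r → ℤ} {g : Gz r} {i : Fin r} (h : l0 a g = some i) :
    0 ≤ g.1 i ∧ a i + g.2 < g.1 i := by
  unfold l0 at h
  split_ifs at h with h'
  have := h'.choose_spec
  rw [Option.some.inj h] at this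
  exact this

lemma l0_none {a : Fin r → ℤ} {g : Gz r} (h : l0 a g = none) (i : Fin r) :
    g.1 i < 0 ∨ g.1 i ≤ a i + g.2 := by
  unfold l0 at h
  split_ifs at h with h'
  by_contra hc
  rw [not_or, not_lt, not_le] at hc
  exact h' ⟨i, hc⟩

/-- the homotopy. -/
noncomputable def hK (a : Fin r → ℤ) (v : KV r Q) : KV r Q := fun J I g =>
  match l0 a g with
  | none => 0
  | some l => wc l (fun I' => v J I' g) I

/-- the projection. -/
noncomputable def pK (a : Fin r → ℤ) (v : KV r Q) : KV r Q := fun J I g =>
  match l0 a g with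
  | none => v J I g
  | some _ => 0

lemma hK_some {a : Fin r → ℤ} (v : KV r Q) (J : Finset (Fin (r + 1))) (I : Finset (Fin r))
    {g : Gz r} {l : Fin r} (h : l0 a g = some l) :
    hK a v J I g = wc l (fun I' => v J I' g) I := by
  unfold hK; rw [h]

lemma hK_none {a : Fin r → ℤ} (v : KV r Q) (J : Finset (Fin (r + 1))) (I : Finset (Fin r))
    {g : Gz r} (h : l0 a g = none) : hK a v J I g = 0 := by
  unfold hK; rw [h]

lemma pK_some {a : Fin r → ℤ} (v : KV r Q) (J : Finset (Fin (r + 1))) (I : Finset (Fin r))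
    {g : Gz r} {l : Fin r} (h : l0 a g = some l) : pK a v J I g = 0 := by
  unfold pK; rw [h]

lemma pK_none {a : Fin r → ℤ} (v : KV r Q) (J : Finset (Fin (r + 1))) (I : Finset (Fin r))
    {g : Gz r} (h : l0 a g = none) : pK a v J I g = v J I g := by
  unfold pK; rw [h]

lemma dK_apply (v : KV r Q) (J : Finset (Fin (r + 1))) (I : Finset (Fin r)) (g : Gz r) :
    dK R Q r v J I g = wd (fun I' => v J I' g) I := rfl

theorem homotopy (a : Fin r → ℤ) (v : KV r Q) :
    dK R Q r (hK a v) + (hK a (dK R Q r v) + pK a v) = v := by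
  funext J I g
  show dK R Q r (hK a v) J I g + (hK a (dK R Q r v) J I g + pK a v J I g) = v J I g
  rw [dK_apply]
  rcases h : l0 a g with _ | l
  · rw [hK_none _ J I h, pK_none _ J I h]
    have : (fun I' => hK a v J I' g) = fun _ => 0 := by
      funext I'
      exact hK_none v J I' h
    rw [this]
    simp [wd]
  · rw [hK_some _ J I h, pK_some _ J I h, add_zero]
    have h1 : (fun I' => hK a v J I' g) = wc l (fun I' => v J I' g) := by
      funext I'
      exact hK_some v J I' h
    have h2 : (fun I' => dK R Q r v J I' g) = wd (fun I' => v J I' g) := by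
      funext I'
      exact dK_apply v J I' g
    rw [h1, h2, wd_wc]

theorem hK_mem (a : Fin r → ℤ) (B : ℤ) (c : ℤ → Gz r → Submodule R Q) (i p : ℤ) (v : KV r Q)
    (hv : v ∈ CF a B c i (p + 1)) : hK a v ∈ CF a B c i p := by
  classical
  intro J I g
  rcases h : l0 a g with _ | l
  · rw [hK_none _ J I h]; exact Submodule.zero_mem _
  · rw [hK_some _ J I h]
    unfold wc
    split_ifs with hl
    · exact Submodule.zero_mem _
    · have hm := hv J (insert l I) g
      refine zsmul_mem ?_ _
      obtain ⟨h0, h1⟩ := l0_some h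
      unfold CV at hm ⊢
      split_ifs at hm with h2 h3
      · obtain ⟨e1, e2, e3, e4⟩ := h2
        rw [card_insert_of_notMem hl] at e2
        push_cast at e2
        have h5 : inF B I g := ⟨fun m hmI => by
          by_cases hml : m = l
          · rw [hml]; exact h0
          · exact e3 m (by simp [hml, hmI]), e4⟩
        have h6 : inG a I g := by
          obtain ⟨m, hm1, hm2⟩ := h3
          rcases mem_insert.1 hm1 with rfl | h7
          · exact absurd hm2 (not_le.2 h1)
          · exact ⟨m, h7, hm2⟩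
        rw [if_pos ⟨e1, by linarith, h5⟩, if_pos h6]
        exact Submodule.mem_top
      · obtain ⟨e1, e2, e3, e4⟩ := h2
        rw [card_insert_of_notMem hl] at e2
        push_cast at e2
        have h5 : inF B I g := ⟨fun m hmI => by
          by_cases hml : m = l
          · rw [hml]; exact h0
          · exact e3 m (by simp [hml, hmI]), e4⟩
        have h6 : ¬ inG a I g := by
          rintro ⟨m, hm1, hm2⟩
          exact h3 ⟨m, mem_insert_of_mem hm1, hm2⟩
        rw [if_pos ⟨e1, by linarith, h5⟩, if_neg h6]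
        exact hm
      · rw [Submodule.mem_bot] at hm
        show v J (insert l I) g ∈ _
        rw [hm]; exact Submodule.zero_mem _

theorem pK_mem (a : Fin r → ℤ) (B : ℤ) (c c' : ℤ → Gz r → Submodule R Q) (i p : ℤ)
    (h : ∀ g : Gz r, c i g = c' i g ∨ (∃ l, a l + g.2 = -1) ∨ (pj a g.2 : ℤ) ≠ p)
    (v : KV r Q) (hv : v ∈ CF a B c' i p) : pK a v ∈ CF a B c i p := by
  classical
  intro J I g
  rcases h' : l0 a g with _ | l
  · rw [pK_none _ J I h']
    have hm := hv J I g
    unfold CV at hm ⊢
    split_ifs at hm ⊢ with h2 h3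
    · exact Submodule.mem_top
    · have key : ∀ l, (l ∈ I ↔ a l + g.2 < 0) ∧ a l + g.2 ≠ -1 := by
        intro l
        by_cases hl : l ∈ I
        · have h4 : a l + g.2 < g.1 l := by
            by_contra hc
            exact h3 ⟨l, hl, not_lt.1 hc⟩
          have h5 := l0_none h' l
          have : a l + g.2 < -1 := by omega
          exact ⟨⟨fun _ => by omega, fun _ => hl⟩, by omega⟩
        · have h4 : 0 ≤ g.1 l := h2.2.2.1 l hl
          have h5 := l0_none h' l
          have : 0 ≤ a l + g.2 := by omega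
          exact ⟨⟨fun hc => absurd hc hl, fun hc => by omega⟩, by omega⟩
      have hI : I = univ.filter fun l => a l + g.2 < 0 := by
        ext l; simp [(key l).1]
      rcases h g with h6 | ⟨l, h6⟩ | h6
      · rw [h6]; exact hm
      · exact absurd h6 (key l).2
      · exact absurd (by rw [← h2.2.1]; unfold pj; rw [← hI]) h6
    · exact hm
  · rw [pK_some _ J I h']; exact Submodule.zero_mem _

end Hom

end CellRow

section

variable {R : Type u} [CommRing R] {Q : Type u} [AddCommGroup Q] [Module R Q] {r : ℕ}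
variable (a : Fin r → ℤ) (B : ℤ)

/-- TASK GEO-B3: exactness of the rows. -/
theorem row_exact (c c' : ℤ → Gz r → Submodule R Q) (i p : ℤ) (hcc : ∀ g, c i g ≤ c' i g)
    (h : ∀ g : Gz r, c i g = c' i g ∨ (∃ l, a l + g.2 = -1) ∨ (pj a g.2 : ℤ) ≠ p) :
    Ex (dK R Q r) (CF a B c' i) (CF a B c i) p := by
  rintro v ⟨hv, hdv⟩
  have hdv : dK R Q r v ∈ CF a B c i (p + 1) := hdv
  have hv' : v ∈ CF a B c' i (p - 1 + 1) := by rw [sub_add_cancel]; exact hv
  rw [← CellRow.homotopy (R := R) a v]
  exact Submodule.add_mem_sup (Submodule.mem_map_of_mem (CellRow.hK_mem a B c' i (p - 1) v hv'))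
    (Submodule.add_mem _ (CellRow.hK_mem a B c i p _ hdv) (CellRow.pK_mem a B c c' i p h v hv))

end

end Vale.Agent.P202.Mix
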