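import Vale.Agent.P202.Mix.GeoDefs

/-!
P202-MIX, part GEO: the cell model (definitions).

Cells are pairs `(I, (s, j))` with `I ⊆ Fin r`, `s : Fin r → ℤ`, `j : ℤ`.
The ambient module is `KV r Q`: functions `(J, I, g) ↦ Q` with `J ⊆ Fin (r + 1)` (Koszul index).
-/

namespace Vale.Agent.P202.Mix

open Vale.Agent.P202.CharP
open scoped ENNReal

universe u

/-- exponents `(s, j)`. -/
abbrev Gz (r : ℕ) : Type := (Fin r → ℤ) × ℤ

/-- the exponent of the shift `L`. -/
def exz {r : ℕ} (L : Finset (Fin r)) : Gz r := (fun i => if i ∈ L then 1 else 0, 1)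

/-- functions on all cells. -/
abbrev UV (r : ℕ) (Q : Type u) : Type u := Finset (Fin r) → Gz r → Q

/-- the ambient module. -/
abbrev KV (r : ℕ) (Q : Type u) : Type u := Finset (Fin (r + 1)) → UV r Q

section

variable {R : Type u} [CommRing R] {Q : Type u} [AddCommGroup Q] [Module R Q] {r : ℕ}

/-- the Čech differential on `UV`. -/
def dU (R : Type u) [CommRing R] (Q : Type u) [AddCommGroup Q] [Module R Q] (r : ℕ) :
    UV r Q →ₗ[R] UV r Q where
  toFun f I g := ∑ i ∈ I, ksg i I • f (I.erase i) g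
  map_add' f f' := by
    ext I g
    simp [Finset.sum_add_distrib]
  map_smul' c f := by
    ext I g
    simp only [Pi.smul_apply, RingHom.id_apply, Finset.smul_sum]
    exact Finset.sum_congr rfl fun i _ => smul_comm _ _ _

/-- the operator `X_l`: sum of the shifts by the subsets of size `l`. -/
def XU (R : Type u) [CommRing R] (Q : Type u) [AddCommGroup Q] [Module R Q] (r : ℕ)
    (l : Fin (r + 1)) : UV r Q →ₗ[R] UV r Q where
  toFun f I g := ∑ L ∈ (Finset.univ : Finset (Fin r)).powersetCard l, f I (g - exz L)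
  map_add' f f' := by
    ext I g
    simp [Finset.sum_add_distrib]
  map_smul' c f := by
    ext I g
    simp only [Pi.smul_apply, RingHom.id_apply, Finset.smul_sum]

/-- the Čech differential on `KV`. -/
def dK (R : Type u) [CommRing R] (Q : Type u) [AddCommGroup Q] [Module R Q] (r : ℕ) :
    KV r Q →ₗ[R] KV r Q := kmap (r + 1) (dU R Q r)

/-- the Koszul differential of the operators `X_l`. -/
def eX (R : Type u) [CommRing R] (Q : Type u) [AddCommGroup Q] [Module R Q] (r : ℕ) :
    KV r Q →ₗ[R] KV r Q := kz (XU R Q r)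

/-- the Koszul differential of the operators `X_l - x_l`. -/
def eK (Q : Type u) [AddCommGroup Q] [Module R Q] (x : Fin (r + 1) → R) :
    KV r Q →ₗ[R] KV r Q := kz fun l => XU R Q r l - x l • LinearMap.id

/-- the box containing all the cells. -/
def inF (B : ℤ) (I : Finset (Fin r)) (g : Gz r) : Prop :=
  (∀ l, l ∉ I → 0 ≤ g.1 l) ∧ ∀ l, g.1 l ≤ B + g.2

/-- the cells divided out. -/
def inG (a : Fin r → ℤ) (I : Finset (Fin r)) (g : Gz r) : Prop := ∃ l ∈ I, g.1 l ≤ a l + g.2

open Classical in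
/-- the submodule of allowed values at the cell `(I, g)`, Koszul index `J`: everything is allowed
on the cells of `G`, the value on the other cells of the box lies in `c i g`. -/
noncomputable def CV (a : Fin r → ℤ) (B : ℤ) (c : ℤ → Gz r → Submodule R Q) (i p : ℤ)
    (J : Finset (Fin (r + 1))) (I : Finset (Fin r)) (g : Gz r) : Submodule R Q :=
  if (J.card : ℤ) = i ∧ (I.card : ℤ) = p ∧ inF B I g then
    (if inG a I g then ⊤ else c i g) else ⊥

/-- families of submodules of `KV` given cell by cell. -/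
noncomputable def CF (a : Fin r → ℤ) (B : ℤ) (c : ℤ → Gz r → Submodule R Q) (i p : ℤ) :
    Submodule R (KV r Q) where
  carrier := {v | ∀ (J : Finset (Fin (r + 1))) (I : Finset (Fin r)) (g : Gz r),
    v J I g ∈ CV a B c i p J I g}
  add_mem' := fun hv hw J I g => Submodule.add_mem _ (hv J I g) (hw J I g)
  zero_mem' := fun _ _ _ => Submodule.zero_mem _
  smul_mem' := fun c _ hv J I g => Submodule.smul_mem _ c (hv J I g)

/-- the bottom family. -/
noncomputable def GF (R : Type u) [CommRing R] (Q : Type u) [AddCommGroup Q] [Module R Q]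
    (a : Fin r → ℤ) (B : ℤ) : ℤ → ℤ → Submodule R (KV r Q) := CF a B fun _ _ => ⊥

open Classical in
/-- the part `j₀ ≤ j`. -/
noncomputable def KG (R : Type u) [CommRing R] (Q : Type u) [AddCommGroup Q] [Module R Q]
    (a : Fin r → ℤ) (B j₀ : ℤ) : ℤ → ℤ → Submodule R (KV r Q) :=
  CF a B fun _ g => if j₀ ≤ g.2 then ⊤ else ⊥

open Classical in
/-- the strand `i + j = t`. -/
noncomputable def SF (R : Type u) [CommRing R] (Q : Type u) [AddCommGroup Q] [Module R Q]
    (a : Fin r → ℤ) (B t : ℤ) : ℤ → ℤ → Submodule R (KV r Q) :=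
  CF a B fun i g => if i + g.2 = t then ⊤ else ⊥

/-- powers of the ideal generated by `x`, acting on `Q`; negative exponents give everything. -/
def xpw (Q : Type u) [AddCommGroup Q] [Module R Q] (x : Fin (r + 1) → R) (m : ℤ) :
    Submodule R Q := Ideal.span (Set.range x) ^ m.toNat • (⊤ : Submodule R Q)

/-- the family `Y_w`. -/
noncomputable def YF (Q : Type u) [AddCommGroup Q] [Module R Q] (x : Fin (r + 1) → R)
    (a : Fin r → ℤ) (B w : ℤ) : ℤ → ℤ → Submodule R (KV r Q) :=
  CF a B fun i g => xpw Q x (w - i - g.2)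

/-- the family `Z`. -/
noncomputable def ZF (Q : Type u) [AddCommGroup Q] [Module R Q] (x : Fin (r + 1) → R)
    (a : Fin r → ℤ) (B : ℤ) (q : ℕ) (i p : ℤ) : Submodule R (KV r Q) :=
  KG R Q a B ((1 - i) * q) i p ⊓ (KG R Q a B ((2 - i) * q) (i - 1) p).comap (eK Q x)

/-- the family `Z''`. -/
noncomputable def ZZF (Q : Type u) [AddCommGroup Q] [Module R Q] (x : Fin (r + 1) → R)
    (a : Fin r → ℤ) (B : ℤ) (q : ℕ) (i p : ℤ) : Submodule R (KV r Q) :=
  (KG R Q a B (-i * q) (i + 1) p).map (eK Q x) ⊔ KG R Q a B ((1 - i) * q) i p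

/-- number of negative twists in degree `j`. -/
def pj (a : Fin r → ℤ) (j : ℤ) : ℕ := (Finset.univ.filter fun l => a l + j < 0).card

/-- the twists. -/
def tw (r q : ℕ) (m : Fin (r + 1)) (l : Fin r) : ℤ :=
  if (l : ℕ) < m then (l : ℤ) * q else ((l : ℤ) + 1) * q - 1

/-- the valid cells. -/
def valid (a : Fin r → ℤ) (B : ℤ) (I : Finset (Fin r)) (g : Gz r) : Prop :=
  inF B I g ∧ ¬ inG a I g

/-- the valid cells of Čech degree `p` with `j₀ ≤ j < j₁`. -/
def cellset (a : Fin r → ℤ) (B p j₀ j₁ : ℤ) : Set (Finset (Fin r) × Gz r) :=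
  {c | valid a B c.1 c.2 ∧ (c.1.card : ℤ) = p ∧ j₀ ≤ c.2.2 ∧ c.2.2 < j₁}

/-- the number of valid cells. -/
noncomputable def ncell (a : Fin r → ℤ) (B p j₀ j₁ : ℤ) : ℕ := (cellset a B p j₀ j₁).ncard

lemma cellset_finite (a : Fin r → ℤ) (B p j₀ j₁ : ℤ) : (cellset a B p j₀ j₁).Finite := by
  classical
  let E : Finset (Finset (Fin r) × ((Fin r → ℤ) × ℤ)) :=
    Finset.univ ×ˢ ((Fintype.piFinset fun l => Finset.Icc (min 0 (a l + j₀ + 1)) (B + j₁)) ×ˢ
      Finset.Ico j₀ j₁)
  refine E.finite_toSet.subset ?_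
  rintro ⟨I, s, j⟩ ⟨⟨⟨h1, h2⟩, h3⟩, -, h4, h5⟩
  simp only [inG, not_exists, not_and, not_le] at h3
  simp only [E, Finset.coe_product, Set.mem_prod, Finset.mem_coe, Finset.mem_univ, true_and,
    Fintype.mem_piFinset, Finset.mem_Icc, Finset.mem_Ico]
  refine ⟨fun l => ⟨?_, ?_⟩, h4, h5⟩
  · by_cases hl : l ∈ I
    · have := h3 l hl
      simp only at this h4
      have := min_le_right 0 (a l + j₀ + 1)
      omega
    · exact (min_le_left _ _).trans (h1 l hl)
  · have := h2 l
    simp only at this h5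
    omega

noncomputable instance (a : Fin r → ℤ) (B p j₀ j₁ : ℤ) : Fintype ↥(cellset a B p j₀ j₁) :=
  (cellset_finite a B p j₀ j₁).fintype

open Classical in
/-- the representation on the valid cells of Čech degree `p` with `j₀ ≤ j < j₁`. -/
noncomputable def winRep (a : Fin r → ℤ) (B p j₀ j₁ : ℤ) : MRep (r + 1) where
  ι := ↥(cellset a B p j₀ j₁)
  fin := inferInstance
  dec := inferInstance
  X l := Matrix.of fun x y => ∑ L ∈ (Finset.univ : Finset (Fin r)).powersetCard l,
    if x.1.1 = y.1.1 ∧ x.1.2 = y.1.2 + exz L then 1 else 0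

open Classical in
/-- the Čech complex of a window. -/
noncomputable def winCx (a : Fin r → ℤ) (B j₀ j₁ : ℤ) : MCx (r + 1) where
  W p := winRep a B p j₀ j₁
  D p := Matrix.of fun x y => ∑ i ∈ x.1.1,
    if y.1.1 = x.1.1.erase i ∧ y.1.2 = x.1.2 then ksg i x.1.1 else 0

end

end Vale.Agent.P202.Mix
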