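import Vale.Agent.P202.Mix.KzBasic
import Vale.Agent.P202.Mix.GeoCell

/-!
P202-MIX, part GEO, task B2: stability of the cell families.
-/

namespace Vale.Agent.P202.Mix

open Vale.Agent.P202.CharP
open scoped ENNReal

universe u

section Cells

variable {r : ℕ}

private lemma inF_of_erase {B : ℤ} {I : Finset (Fin r)} {l : Fin r} {g : Gz r}
    (h : inF B (I.erase l) g) : inF B I g :=
  ⟨fun k hk => h.1 k fun hk' => hk (Finset.mem_of_mem_erase hk'), h.2⟩

private lemma inG_of_erase {a : Fin r → ℤ} {I : Finset (Fin r)} {l : Fin r} {g : Gz r}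
    (h : inG a (I.erase l) g) : inG a I g := by
  obtain ⟨k, hk, hk'⟩ := h
  exact ⟨k, Finset.mem_of_mem_erase hk, hk'⟩

private lemma sub_exz_fst (g : Gz r) (L : Finset (Fin r)) (l : Fin r) :
    (g - exz L).1 l = g.1 l - if l ∈ L then 1 else 0 := rfl

private lemma sub_exz_snd (g : Gz r) (L : Finset (Fin r)) : (g - exz L).2 = g.2 - 1 := rfl

private lemma inF_of_sub {B : ℤ} {I : Finset (Fin r)} {g : Gz r} {L : Finset (Fin r)}
    (h : inF B I (g - exz L)) : inF B I g := by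
  refine ⟨fun k hk => ?_, fun k => ?_⟩
  · have h1 := h.1 k hk
    rw [sub_exz_fst] at h1
    split_ifs at h1 <;> omega
  · have h1 := h.2 k
    rw [sub_exz_fst, sub_exz_snd] at h1
    split_ifs at h1 <;> omega

private lemma inG_of_sub {a : Fin r → ℤ} {I : Finset (Fin r)} {g : Gz r} {L : Finset (Fin r)}
    (h : inG a I (g - exz L)) : inG a I g := by
  obtain ⟨k, hk, h1⟩ := h
  refine ⟨k, hk, ?_⟩
  rw [sub_exz_fst, sub_exz_snd] at h1
  split_ifs at h1 <;> omega

end Cells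

section Ops

variable {R : Type u} [CommRing R] {Q : Type u} [AddCommGroup Q] [Module R Q] {r : ℕ}
  (a : Fin r → ℤ) (B : ℤ)

private lemma CV_mono' (c c' : ℤ → Gz r → Submodule R Q) {i p i' p' : ℤ}
    {J J' : Finset (Fin (r + 1))} {I I' : Finset (Fin r)} {g g' : Gz r}
    (h1 : (J.card : ℤ) = i → (I.card : ℤ) = p → inF B I g →
      (J'.card : ℤ) = i' ∧ (I'.card : ℤ) = p' ∧ inF B I' g')
    (h2 : inG a I g → inG a I' g') (h3 : (J.card : ℤ) = i → c i g ≤ c' i' g') :
    CV a B c i p J I g ≤ CV a B c' i' p' J' I' g' := by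
  classical
  unfold CV
  by_cases h : (J.card : ℤ) = i ∧ (I.card : ℤ) = p ∧ inF B I g
  · rw [if_pos h, if_pos (h1 h.1 h.2.1 h.2.2)]
    by_cases hG : inG a I g
    · rw [if_pos (h2 hG)]
      exact le_top
    · rw [if_neg hG]
      split_ifs
      · exact le_top
      · exact h3 h.1
  · rw [if_neg h]
    exact bot_le

theorem CF_mono (c c' : ℤ → Gz r → Submodule R Q) (i p : ℤ) (h : ∀ g, c i g ≤ c' i g) :
    CF a B c i p ≤ CF a B c' i p := fun _ hv J I g =>
  CV_mono' a B c c' (fun h1 h2 h3 => ⟨h1, h2, h3⟩) (fun h => h) (fun _ => h g) (hv J I g)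

private lemma CF_bot (c : ℤ → Gz r → Submodule R Q) (i p : ℤ)
    (h : ∀ (J : Finset (Fin (r + 1))) (I : Finset (Fin r)), (J.card : ℤ) = i →
      (I.card : ℤ) = p → False) : CF a B c i p = ⊥ := by
  classical
  rw [eq_bot_iff]
  intro v hv
  rw [Submodule.mem_bot]
  funext J I g
  have h1 := hv J I g
  unfold CV at h1
  rw [if_neg (fun h2 => h J I h2.1 h2.2.1), Submodule.mem_bot] at h1
  exact h1

private lemma card_le_r (I : Finset (Fin r)) : (I.card : ℤ) ≤ r := by
  have := Finset.card_le_univ I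
  rw [Fintype.card_fin] at this
  exact_mod_cast this

theorem CF_box (c : ℤ → Gz r → Submodule R Q) : BBox (r + 1) (CF a B c) := by
  intro i p hi
  refine CF_bot a B c i p fun J I h1 _ => ?_
  have := card_le_r J
  have h0 : (0 : ℤ) ≤ J.card := Int.natCast_nonneg _
  omega

theorem CF_out (c : ℤ → Gz r → Submodule R Q) (i p : ℤ) (hp : p < 0 ∨ (r : ℤ) < p) :
    CF a B c i p = ⊥ := by
  refine CF_bot a B c i p fun J I _ h1 => ?_
  have := card_le_r I
  have h0 : (0 : ℤ) ≤ I.card := Int.natCast_nonneg _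
  omega

theorem CF_dK (c : ℤ → Gz r → Submodule R Q) (i p : ℤ) (v : KV r Q) (hv : v ∈ CF a B c i p) :
    dK R Q r v ∈ CF a B c i (p + 1) := by
  intro J I g
  change ∑ l ∈ I, ksg l I • v J (I.erase l) g ∈ _
  refine Submodule.sum_mem _ fun l hl => ?_
  refine zsmul_mem ?_ _
  refine CV_mono' a B c c (fun h1 h2 h3 => ⟨h1, ?_, inF_of_erase h3⟩) inG_of_erase
    (fun _ => le_rfl) (hv J (I.erase l) g)
  rw [← h2, Finset.card_erase_of_mem hl]
  have : 0 < I.card := Finset.card_pos.2 ⟨l, hl⟩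
  omega

private lemma card_ins {n : ℕ} {J : Finset (Fin n)} {l : Fin n} (hl : l ∈ Jᶜ) {i : ℤ}
    (h : ((insert l J).card : ℤ) = i) : (J.card : ℤ) = i - 1 := by
  rw [Finset.card_insert_of_notMem (Finset.mem_compl.1 hl)] at h
  push_cast at h
  omega

private lemma XU_mem (c c' : ℤ → Gz r → Submodule R Q) (i p : ℤ)
    (h : ∀ g L, c i (g - exz L) ≤ c' (i - 1) g)
    (v : KV r Q) (hv : v ∈ CF a B c i p) (J : Finset (Fin (r + 1))) (l : Fin (r + 1))
    (hl : l ∈ Jᶜ) (k : Fin (r + 1)) (I : Finset (Fin r)) (g : Gz r) :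
    XU R Q r k (v (insert l J)) I g ∈ CV a B c' (i - 1) p J I g := by
  change ∑ L ∈ (Finset.univ : Finset (Fin r)).powersetCard k, v (insert l J) I (g - exz L) ∈ _
  refine Submodule.sum_mem _ fun L _ => ?_
  exact CV_mono' a B c c' (fun h1 h2 h3 => ⟨card_ins hl h1, h2, inF_of_sub h3⟩) inG_of_sub
    (fun _ => h g L) (hv (insert l J) I (g - exz L))

theorem CF_eX (c c' : ℤ → Gz r → Submodule R Q) (i p : ℤ)
    (h : ∀ g L, c i (g - exz L) ≤ c' (i - 1) g)
    (v : KV r Q) (hv : v ∈ CF a B c i p) : eX R Q r v ∈ CF a B c' (i - 1) p := by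
  intro J I g
  have e : eX R Q r v J I g =
      ∑ l ∈ Jᶜ, ksg l J • XU R Q r l (v (insert l J)) I g := by
    change (∑ l ∈ Jᶜ, ksg l J • XU R Q r l (v (insert l J))) I g = _
    rw [Finset.sum_apply, Finset.sum_apply]
    rfl
  rw [e]
  refine Submodule.sum_mem _ fun l hl => ?_
  exact zsmul_mem (XU_mem a B c c' i p h v hv J l hl l I g) _

theorem CF_eK (x : Fin (r + 1) → R) (c c' : ℤ → Gz r → Submodule R Q) (i p : ℤ)
    (h : ∀ g L, c i (g - exz L) ≤ c' (i - 1) g)
    (h' : ∀ g l, (c i g).map (x l • (LinearMap.id : Q →ₗ[R] Q)) ≤ c' (i - 1) g)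
    (v : KV r Q) (hv : v ∈ CF a B c i p) : eK Q x v ∈ CF a B c' (i - 1) p := by
  classical
  intro J I g
  have e : eK Q x v J I g =
      ∑ l ∈ Jᶜ, ksg l J • (XU R Q r l (v (insert l J)) I g - x l • v (insert l J) I g) := by
    change (∑ l ∈ Jᶜ, ksg l J • (XU R Q r l - x l • LinearMap.id : UV r Q →ₗ[R] UV r Q)
      (v (insert l J))) I g = _
    rw [Finset.sum_apply, Finset.sum_apply]
    rfl
  rw [e]
  refine Submodule.sum_mem _ fun l hl => ?_
  refine zsmul_mem (Submodule.sub_mem _ (XU_mem a B c c' i p h v hv J l hl l I g)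
    ?_) _
  have h1 := hv (insert l J) I g
  unfold CV at h1 ⊢
  by_cases h2 : (((insert l J).card : ℤ) = i ∧ (I.card : ℤ) = p ∧ inF B I g)
  · rw [if_pos h2] at h1
    rw [if_pos ⟨card_ins hl h2.1, h2.2⟩]
    by_cases hG : inG a I g
    · rw [if_pos hG]
      exact Submodule.mem_top
    · rw [if_neg hG] at h1 ⊢
      exact h' g l (Submodule.mem_map_of_mem h1)
  · rw [if_neg h2, Submodule.mem_bot] at h1
    rw [h1, smul_zero]
    exact Submodule.zero_mem _

private lemma bstab_CF (x : Fin (r + 1) → R) (c : ℤ → Gz r → Submodule R Q)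
    (h : ∀ i g L, c i (g - exz L) ≤ c (i - 1) g)
    (h' : ∀ i g l, (c i g).map (x l • (LinearMap.id : Q →ₗ[R] Q)) ≤ c (i - 1) g) :
    BStab (dK R Q r) (eK Q x) (CF a B c) where
  hd i p v hv := CF_dK a B c i p v hv
  he i p v hv := CF_eK a B x c c i p (h i) (h' i) v hv

private lemma bstab_CFX (c : ℤ → Gz r → Submodule R Q)
    (h : ∀ i g L, c i (g - exz L) ≤ c (i - 1) g) :
    BStab (dK R Q r) (eX R Q r) (CF a B c) where
  hd i p v hv := CF_dK a B c i p v hv
  he i p v hv := CF_eX a B c c i p (h i) v hv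

theorem bstab_GF (x : Fin (r + 1) → R) : BStab (dK R Q r) (eK Q x) (GF R Q a B) :=
  bstab_CF a B x _ (fun _ _ _ => le_rfl) fun _ _ _ => by rw [Submodule.map_bot]

theorem bstab_KG (x : Fin (r + 1) → R) (j₀ : ℤ) :
    BStab (dK R Q r) (eK Q x) (KG R Q a B j₀) := by
  refine bstab_CF a B x _ (fun _ g L => ?_) fun _ g l => ?_
  · rw [sub_exz_snd]
    split_ifs
    · exact le_rfl
    · omega
    · exact bot_le
    · exact le_rfl
  · split_ifs
    · exact le_top
    · rw [Submodule.map_bot]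

private lemma xp_anti (x : Fin (r + 1) → R) {m m' : ℤ} (h : m ≤ m') : xpw Q x m' ≤ xpw Q x m :=
  Submodule.smul_mono_left (Ideal.pow_le_pow_right (Int.toNat_le_toNat h))

private lemma xp_smul (x : Fin (r + 1) → R) (l : Fin (r + 1)) (m : ℤ) :
    (xpw Q x m).map (x l • (LinearMap.id : Q →ₗ[R] Q)) ≤ xpw Q x (m + 1) := by
  rw [Submodule.map_le_iff_le_comap]
  intro y hy
  change x l • y ∈ xpw Q x (m + 1)
  have h1 : x l • y ∈ Ideal.span (Set.range x) ^ (m.toNat + 1) • (⊤ : Submodule R Q) := by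
    rw [pow_succ', Submodule.mul_smul]
    exact Submodule.smul_mem_smul (Ideal.subset_span ⟨l, rfl⟩) hy
  exact Submodule.smul_mono_left (Ideal.pow_le_pow_right (by omega)) h1

theorem bstab_YF (x : Fin (r + 1) → R) (w : ℤ) :
    BStab (dK R Q r) (eK Q x) (YF Q x a B w) := by
  refine bstab_CF a B x _ (fun i g L => ?_) fun i g l => ?_
  · rw [sub_exz_snd]
    exact xp_anti x (by omega)
  · refine (xp_smul x l _).trans (xp_anti x (by omega))

private lemma cst_XU_comm (k l : Fin (r + 1)) (f : UV r Q) :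
    XU R Q r k (XU R Q r l f) = XU R Q r l (XU R Q r k f) := by
  funext I g
  change ∑ L ∈ (Finset.univ : Finset (Fin r)).powersetCard k,
      ∑ L' ∈ (Finset.univ : Finset (Fin r)).powersetCard l, f I (g - exz L - exz L') =
    ∑ L' ∈ (Finset.univ : Finset (Fin r)).powersetCard l,
      ∑ L ∈ (Finset.univ : Finset (Fin r)).powersetCard k, f I (g - exz L' - exz L)
  rw [Finset.sum_comm]
  exact Finset.sum_congr rfl fun L' _ => Finset.sum_congr rfl fun L _ => by
    rw [sub_right_comm]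

private lemma cst_dU_XU (l : Fin (r + 1)) (f : UV r Q) :
    dU R Q r (XU R Q r l f) = XU R Q r l (dU R Q r f) := by
  funext I g
  change ∑ i ∈ I, ksg i I • ∑ L ∈ (Finset.univ : Finset (Fin r)).powersetCard l,
      f (I.erase i) (g - exz L) =
    ∑ L ∈ (Finset.univ : Finset (Fin r)).powersetCard l,
      ∑ i ∈ I, ksg i I • f (I.erase i) (g - exz L)
  simp_rw [Finset.smul_sum]
  rw [Finset.sum_comm]

private lemma cst_eK_sq (x : Fin (r + 1) → R) (v : KV r Q) : eK Q x (eK Q x v) = 0 := by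
  refine kz_sq _ (fun k l v => ?_) v
  change XU R Q r k (XU R Q r l v - x l • v) - x k • (XU R Q r l v - x l • v) =
    XU R Q r l (XU R Q r k v - x k • v) - x l • (XU R Q r k v - x k • v)
  rw [map_sub, map_sub, map_smul, map_smul, cst_XU_comm, smul_sub, smul_sub,
    smul_comm (x l) (x k)]
  abel

private lemma cst_dK_eK (x : Fin (r + 1) → R) (v : KV r Q) :
    dK R Q r (eK Q x v) = eK Q x (dK R Q r v) := by
  refine kz_kmap _ _ _ (fun l v => ?_) v
  change dU R Q r (XU R Q r l v - x l • v) = XU R Q r l (dU R Q r v) - x l • dU R Q r v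
  rw [map_sub, map_smul, cst_dU_XU]

theorem bstab_ZF (x : Fin (r + 1) → R) (q : ℕ) :
    BStab (dK R Q r) (eK Q x) (ZF Q x a B q) where
  hd i p v hv := by
    obtain ⟨h1, h2⟩ := hv
    refine ⟨(bstab_KG a B x _).hd i p v h1, ?_⟩
    change eK Q x (dK R Q r v) ∈ KG R Q a B ((2 - i) * q) (i - 1) (p + 1)
    rw [← cst_dK_eK]
    exact (bstab_KG a B x _).hd (i - 1) p _ h2
  he i p v hv := by
    obtain ⟨h1, h2⟩ := hv
    refine ⟨?_, ?_⟩
    · have e : (1 - (i - 1)) * (q : ℤ) = (2 - i) * q := by ring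
      rw [e]
      exact h2
    · change eK Q x (eK Q x v) ∈ KG R Q a B ((2 - (i - 1)) * q) (i - 1 - 1) p
      rw [cst_eK_sq]
      exact Submodule.zero_mem _

theorem bstab_ZZF (x : Fin (r + 1) → R) (q : ℕ) :
    BStab (dK R Q r) (eK Q x) (ZZF Q x a B q) where
  hd i p v hv := by
    obtain ⟨y, hy, z, hz, rfl⟩ := Submodule.mem_sup.1 hv
    obtain ⟨u, hu, rfl⟩ := hy
    rw [map_add, cst_dK_eK]
    exact Submodule.add_mem_sup (Submodule.mem_map_of_mem ((bstab_KG a B x _).hd (i + 1) p u hu))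
      ((bstab_KG a B x _).hd i p z hz)
  he i p v hv := by
    obtain ⟨y, hy, z, hz, rfl⟩ := Submodule.mem_sup.1 hv
    obtain ⟨u, hu, rfl⟩ := hy
    rw [map_add, cst_eK_sq, zero_add]
    refine Submodule.mem_sup_left (Submodule.mem_map_of_mem ?_)
    have e : -(i - 1) * (q : ℤ) = (1 - i) * q := by ring
    rw [e, sub_add_cancel]
    exact hz

theorem bstab_eX_GF : BStab (dK R Q r) (eX R Q r) (GF R Q a B) :=
  bstab_CFX a B _ fun _ _ _ => le_rfl

theorem bstab_SF (t : ℤ) : BStab (dK R Q r) (eX R Q r) (SF R Q a B t) := by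
  refine bstab_CFX a B _ fun i g L => ?_
  rw [sub_exz_snd]
  split_ifs
  · exact le_rfl
  · omega
  · exact bot_le
  · exact le_rfl

theorem YF_anti (x : Fin (r + 1) → R) {w w' : ℤ} (h : w ≤ w') (i p : ℤ) :
    YF Q x a B w' i p ≤ YF Q x a B w i p :=
  CF_mono a B _ _ i p fun g => xp_anti x (by omega)

theorem ZF_le_ZZF (x : Fin (r + 1) → R) (q : ℕ) (i p : ℤ) :
    ZF Q x a B q i p ≤ ZZF Q x a B q i p :=
  inf_le_left.trans le_sup_right

private lemma KG_anti {j j' : ℤ} (h : j ≤ j') (i p : ℤ) :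
    KG R Q a B j' i p ≤ KG R Q a B j i p := by
  refine CF_mono a B _ _ i p fun g => ?_
  split_ifs
  · exact le_rfl
  · omega
  · exact bot_le
  · exact le_rfl

private lemma xp_neg (x : Fin (r + 1) → R) {m : ℤ} (h : m ≤ 0) : xpw Q x m = ⊤ := by
  unfold xpw
  rw [Int.toNat_of_nonpos h, pow_zero, Ideal.one_eq_top, Submodule.top_smul]

/-- comparison `K ≤ Y`. -/
private lemma KG_le_YF (x : Fin (r + 1) → R) (i p j w : ℤ)
    (h : 0 ≤ i → i ≤ r + 1 → w ≤ i + j) : KG R Q a B j i p ≤ YF Q x a B w i p := by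
  by_cases hi : i < 0 ∨ ((r + 1 : ℕ) : ℤ) < i
  · have := CF_box (R := R) (Q := Q) a B (fun _ g => if j ≤ g.2 then ⊤ else ⊥) i p hi
    exact (le_of_eq this).trans bot_le
  · push_cast at hi
    have h1 := h (by omega) (by omega)
    refine CF_mono a B _ _ i p fun g => ?_
    split_ifs with hg
    · rw [xp_neg x (by omega)]
    · exact bot_le

private lemma YF_le_KG (x : Fin (r + 1) → R) (i p j w : ℤ) (N : ℕ) (hN : xpw Q x N = ⊥)
    (h : 0 ≤ i → i ≤ r + 1 → N + i + j ≤ w + 1) : YF Q x a B w i p ≤ KG R Q a B j i p := by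
  by_cases hi : i < 0 ∨ ((r + 1 : ℕ) : ℤ) < i
  · have := CF_box (R := R) (Q := Q) a B (fun i g => xpw Q x (w - i - g.2)) i p hi
    exact (le_of_eq this).trans bot_le
  · push_cast at hi
    have h1 := h (by omega) (by omega)
    refine CF_mono a B _ _ i p fun g => ?_
    split_ifs with hg
    · exact le_top
    · rw [← hN]
      exact xp_anti x (by omega)

theorem ZZF_le_YF (x : Fin (r + 1) → R) (q : ℕ) (hq : 1 ≤ q) (i p : ℤ) :
    ZZF Q x a B q i p ≤ YF Q x a B (-((r : ℤ) + 1) * q) i p := by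
  have hq' : (1 : ℤ) ≤ q := by exact_mod_cast hq
  refine sup_le ?_ ?_
  · rw [Submodule.map_le_iff_le_comap]
    intro v hv
    have h1 : v ∈ YF Q x a B (-((r : ℤ) + 1) * q) (i + 1) p :=
      KG_le_YF a B x (i + 1) p _ _ (fun h0 h1 => by nlinarith) hv
    have h2 := (bstab_YF a B x (-((r : ℤ) + 1) * q)).he (i + 1) p v h1
    rw [add_sub_cancel_right] at h2
    exact h2
  · exact KG_le_YF a B x i p _ _ fun h0 h1 => by nlinarith

/-- `x` is nilpotent on `Q` of order `N`; `w` large. -/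
theorem YF_le_ZF (x : Fin (r + 1) → R) (q : ℕ) (N : ℕ) (hN : xpw Q x N = ⊥) (w : ℤ)
    (hw : 2 * (q : ℤ) + r + 1 + N ≤ w) (i p : ℤ) : YF Q x a B w i p ≤ ZF Q x a B q i p := by
  have hq' : (0 : ℤ) ≤ q := Int.natCast_nonneg _
  refine le_inf ?_ ?_
  · exact YF_le_KG a B x i p _ _ N hN fun h0 h1 => by nlinarith
  · intro v hv
    have h2 := (bstab_YF a B x w).he i p v hv
    exact YF_le_KG a B x (i - 1) p _ _ N hN (fun h0 h1 => by nlinarith) h2

end Ops

end Vale.Agent.P202.Mix
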