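import Vale.Agent.P202.Mix.GeoCell
import Vale.Agent.P202.Mix.KzBasic
import Vale.Agent.P202.Mix.CellOps

set_option linter.all false

/-!
P202-MIX, part GEO: exactness of the strands.
-/

namespace Vale.Agent.P202.Mix

open Vale.Agent.P202.CharP
open scoped ENNReal

universe u

section CsTot

variable {R : Type u} [CommRing R] {V : Type u} [AddCommGroup V] [Module R V]

lemma cs_tot_apply (d e : V →ₗ[R] V) (z : ℤ → V) (i : ℤ) :
    totD d e z i = (i.negOnePow : ℤ) • d (z i) + e (z (i + 1)) := rfl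

lemma cs_mem_TT (X : ℤ → ℤ → Submodule R V) (δ : ℤ) (z : ℤ → V) :
    z ∈ TT X δ ↔ ∀ i, z i ∈ X i (i - δ) := by
  simp [TT, Submodule.mem_pi]

lemma cs_neg_sq (i : ℤ) (v : V) : (i.negOnePow : ℤ) • ((i.negOnePow : ℤ) • v) = v := by
  rw [smul_smul]
  have : (i.negOnePow : ℤ) * (i.negOnePow : ℤ) = 1 := by
    rcases Int.even_or_odd i with h | h
    · rw [Int.negOnePow_even i h]; norm_num
    · rw [Int.negOnePow_odd i h]; norm_num
  rw [this, one_smul]

lemma cs_neg_mem (i : ℤ) (X : Submodule R V) (v : V) (h : (i.negOnePow : ℤ) • v ∈ X) : v ∈ X := by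
  rw [← cs_neg_sq i v]
  exact zsmul_mem h _

lemma cs_tot_sq (d e : V →ₗ[R] V) (hdd : ∀ v, d (d v) = 0) (hee : ∀ v, e (e v) = 0)
    (hde : ∀ v, d (e v) = e (d v)) (z : ℤ → V) : totD d e (totD d e z) = 0 := by
  funext i
  rw [cs_tot_apply, cs_tot_apply, cs_tot_apply]
  rw [map_add, map_add, map_zsmul, map_zsmul, hdd, hee, hde, Int.negOnePow_succ]
  simp

lemma cs_stab (d e : V →ₗ[R] V) (X : ℤ → ℤ → Submodule R V) (hX : BStab d e X) (δ : ℤ)
    (z : ℤ → V) (hz : z ∈ TT X δ) : totD d e z ∈ TT X (δ - 1) := by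
  rw [cs_mem_TT] at hz ⊢
  intro i
  rw [cs_tot_apply]
  refine Submodule.add_mem _ (zsmul_mem ?_ _) ?_
  · have := hX.hd _ _ _ (hz i)
    rwa [show i - (δ - 1) = i - δ + 1 by ring]
  · have := hX.he _ _ _ (hz (i + 1))
    rwa [show i + 1 - 1 = i by ring, show i + 1 - δ = i - (δ - 1) by ring] at this

lemma cs_tot_single_ne (d e : V →ₗ[R] V) (m i : ℤ) (y : V) (h1 : i ≠ m) (h2 : i + 1 ≠ m) :
    totD d e (Pi.single m y) i = 0 := by
  rw [cs_tot_apply, Pi.single_eq_of_ne h1, Pi.single_eq_of_ne h2]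
  simp

lemma cs_single_mem (X : ℤ → ℤ → Submodule R V) (δ m : ℤ) (y : V) (hy : y ∈ X m (m - δ)) :
    (Pi.single m y : ℤ → V) ∈ TT X δ := by
  rw [cs_mem_TT]
  intro i
  by_cases h : i = m
  · subst h
    rwa [Pi.single_eq_same]
  · rw [Pi.single_eq_of_ne h]
    exact Submodule.zero_mem _

/-- exact columns: the total complex is exact. -/
theorem cs_col (n : ℕ) (d e : V →ₗ[R] V) (hdd : ∀ v, d (d v) = 0) (hee : ∀ v, e (e v) = 0)
    (hde : ∀ v, d (e v) = e (d v)) (X Y : ℤ → ℤ → Submodule R V) (hX : BStab d e X)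
    (hY : BStab d e Y) (hout : BBox n Y)
    (h : ∀ i p v, v ∈ Y i p → e v ∈ X (i - 1) p → ∃ y ∈ Y (i + 1) p, v - e y ∈ X i p)
    (δ : ℤ) (z : ℤ → V) (hz : z ∈ TT Y δ) (hz' : totD d e z ∈ TT X (δ - 1)) :
    ∃ y ∈ TT Y (δ + 1), z - totD d e y ∈ TT X δ := by
  have main : ∀ k : ℕ, ∀ z : ℤ → V, (∀ i : ℤ, i < (n : ℤ) + 1 - k → z i ∈ X i (i - δ)) →
      z ∈ TT Y δ → totD d e z ∈ TT X (δ - 1) →
      ∃ y ∈ TT Y (δ + 1), z - totD d e y ∈ TT X δ := by
    intro k
    induction k with
    | zero =>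
      intro z h1 h2 h3
      refine ⟨0, Submodule.zero_mem _, ?_⟩
      rw [map_zero, sub_zero, cs_mem_TT]
      intro i
      by_cases hi : i < (n : ℤ) + 1
      · exact h1 i (by simpa using hi)
      · have h4 := (cs_mem_TT _ _ _).1 h2 i
        rw [hout i _ (Or.inr (by omega))] at h4
        rw [(Submodule.mem_bot R).1 h4]
        exact Submodule.zero_mem _
    | succ k ih =>
      intro z h1 h2 h3
      obtain ⟨m, hm⟩ : ∃ m : ℤ, m = (n : ℤ) - k := ⟨_, rfl⟩
      have h1' : ∀ i : ℤ, i < m → z i ∈ X i (i - δ) := by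
        intro i hi
        apply h1 i
        push_cast
        omega
      have h5 := (cs_mem_TT _ _ _).1 h3 (m - 1)
      rw [cs_tot_apply] at h5
      have h6 : d (z (m - 1)) ∈ X (m - 1) (m - 1 - (δ - 1)) := by
        have := hX.hd _ _ _ (h1' (m - 1) (by omega))
        rwa [show m - 1 - (δ - 1) = m - 1 - δ + 1 by ring]
      have h7 : e (z (m - 1 + 1)) ∈ X (m - 1) (m - 1 - (δ - 1)) :=
        (Submodule.add_mem_iff_right _ (zsmul_mem h6 _)).1 h5
      rw [show m - 1 + 1 = m by ring, show m - 1 - (δ - 1) = m - δ by ring] at h7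
      obtain ⟨y0, hy0, hy1⟩ := h m (m - δ) (z m) ((cs_mem_TT _ _ _).1 h2 m) h7
      have hy2 : (Pi.single (m + 1) y0 : ℤ → V) ∈ TT Y (δ + 1) := by
        apply cs_single_mem
        rwa [show m + 1 - (δ + 1) = m - δ by ring]
      have hy3 : totD d e (Pi.single (m + 1) y0) ∈ TT Y δ := by
        have := cs_stab d e Y hY _ _ hy2
        rwa [show δ + 1 - 1 = δ by ring] at this
      have hA : ∀ i : ℤ, i < (n : ℤ) + 1 - k →
          (z - totD d e (Pi.single (m + 1) y0)) i ∈ X i (i - δ) := by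
        intro i hi
        rcases lt_or_eq_of_le (show i ≤ m by omega) with h8 | h8
        · rw [Pi.sub_apply, cs_tot_single_ne _ _ _ _ _ (by omega) (by omega), sub_zero]
          exact h1' i h8
        · subst h8
          rw [Pi.sub_apply, cs_tot_apply, Pi.single_eq_of_ne (by omega), Pi.single_eq_same]
          simpa using hy1
      have hB : totD d e (z - totD d e (Pi.single (m + 1) y0)) ∈ TT X (δ - 1) := by
        rw [map_sub, cs_tot_sq d e hdd hee hde, sub_zero]
        exact h3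
      obtain ⟨y2, hy4, hy5⟩ := ih (z - totD d e (Pi.single (m + 1) y0)) hA
        (Submodule.sub_mem _ h2 hy3) hB
      refine ⟨Pi.single (m + 1) y0 + y2, Submodule.add_mem _ hy2 hy4, ?_⟩
      rwa [map_add, ← sub_sub]
  refine main (n + 1) z ?_ hz hz'
  intro i hi
  have h4 := (cs_mem_TT _ _ _).1 hz i
  rw [hout i _ (Or.inl (by push_cast at hi; omega))] at h4
  rw [(Submodule.mem_bot R).1 h4]
  exact Submodule.zero_mem _

/-- exact rows: the total complex is exact. -/
theorem cs_row (n : ℕ) (d e : V →ₗ[R] V) (hdd : ∀ v, d (d v) = 0) (hee : ∀ v, e (e v) = 0)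
    (hde : ∀ v, d (e v) = e (d v)) (X Y : ℤ → ℤ → Submodule R V) (hX : BStab d e X)
    (hY : BStab d e Y) (hout : BBox n Y)
    (h : ∀ i p v, v ∈ Y i p → d v ∈ X i (p + 1) → ∃ y ∈ Y i (p - 1), v - d y ∈ X i p)
    (δ : ℤ) (z : ℤ → V) (hz : z ∈ TT Y δ) (hz' : totD d e z ∈ TT X (δ - 1)) :
    ∃ y ∈ TT Y (δ + 1), z - totD d e y ∈ TT X δ := by
  have main : ∀ k : ℕ, ∀ z : ℤ → V, (∀ i : ℤ, (k : ℤ) ≤ i → z i ∈ X i (i - δ)) →
      z ∈ TT Y δ → totD d e z ∈ TT X (δ - 1) →
      ∃ y ∈ TT Y (δ + 1), z - totD d e y ∈ TT X δ := by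
    intro k
    induction k with
    | zero =>
      intro z h1 h2 h3
      refine ⟨0, Submodule.zero_mem _, ?_⟩
      rw [map_zero, sub_zero, cs_mem_TT]
      intro i
      by_cases hi : 0 ≤ i
      · exact h1 i (by simpa using hi)
      · have h4 := (cs_mem_TT _ _ _).1 h2 i
        rw [hout i _ (Or.inl (by omega))] at h4
        rw [(Submodule.mem_bot R).1 h4]
        exact Submodule.zero_mem _
    | succ k ih =>
      intro z h1 h2 h3
      obtain ⟨m, hm⟩ : ∃ m : ℤ, m = (k : ℤ) := ⟨_, rfl⟩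
      have h1' : ∀ i : ℤ, m < i → z i ∈ X i (i - δ) := by
        intro i hi
        apply h1 i
        push_cast
        omega
      have h5 := (cs_mem_TT _ _ _).1 h3 m
      rw [cs_tot_apply] at h5
      have h6 : e (z (m + 1)) ∈ X m (m - (δ - 1)) := by
        have := hX.he _ _ _ (h1' (m + 1) (by omega))
        rwa [show m + 1 - 1 = m by ring, show m + 1 - δ = m - (δ - 1) by ring] at this
      have h7 : d (z m) ∈ X m (m - (δ - 1)) :=
        cs_neg_mem m _ _ ((Submodule.add_mem_iff_left _ h6).1 h5)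
      rw [show m - (δ - 1) = m - δ + 1 by ring] at h7
      obtain ⟨y0, hy0, hy1⟩ := h m (m - δ) (z m) ((cs_mem_TT _ _ _).1 h2 m) h7
      obtain ⟨y0', hy0'⟩ : ∃ y : V, y = (m.negOnePow : ℤ) • y0 := ⟨_, rfl⟩
      have hy2 : (Pi.single m y0' : ℤ → V) ∈ TT Y (δ + 1) := by
        apply cs_single_mem
        rw [show m - (δ + 1) = m - δ - 1 by ring, hy0']
        exact zsmul_mem hy0 _
      have hy3 : totD d e (Pi.single m y0') ∈ TT Y δ := by
        have := cs_stab d e Y hY _ _ hy2
        rwa [show δ + 1 - 1 = δ by ring] at this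
      have hA : ∀ i : ℤ, (k : ℤ) ≤ i →
          (z - totD d e (Pi.single m y0')) i ∈ X i (i - δ) := by
        intro i hi
        rcases lt_or_eq_of_le (show m ≤ i by omega) with h8 | h8
        · rw [Pi.sub_apply, cs_tot_single_ne _ _ _ _ _ (by omega) (by omega), sub_zero]
          exact h1' i h8
        · subst h8
          rw [Pi.sub_apply, cs_tot_apply, Pi.single_eq_of_ne (i' := m + 1) (by omega),
            Pi.single_eq_same, hy0', map_zsmul, cs_neg_sq, map_zero, add_zero]
          exact hy1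
      have hB : totD d e (z - totD d e (Pi.single m y0')) ∈ TT X (δ - 1) := by
        rw [map_sub, cs_tot_sq d e hdd hee hde, sub_zero]
        exact h3
      obtain ⟨y2, hy4, hy5⟩ := ih (z - totD d e (Pi.single m y0')) hA
        (Submodule.sub_mem _ h2 hy3) hB
      refine ⟨Pi.single m y0' + y2, Submodule.add_mem _ hy2 hy4, ?_⟩
      rwa [map_add, ← sub_sub]
  refine main (n + 1) z ?_ hz hz'
  intro i hi
  have h4 := (cs_mem_TT _ _ _).1 hz i
  rw [hout i _ (Or.inr (by push_cast at hi; omega))] at h4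
  rw [(Submodule.mem_bot R).1 h4]
  exact Submodule.zero_mem _

end CsTot


section Cs

variable {R : Type u} [CommRing R] {Q : Type u} [AddCommGroup Q] [Module R Q] {r : ℕ}

lemma cs_dK_apply (v : KV r Q) (J : Finset (Fin (r + 1))) (I : Finset (Fin r)) (g : Gz r) :
    dK R Q r v J I g = ∑ k ∈ I, ksg k I • v J (I.erase k) g := rfl

lemma cs_XU_apply (l : Fin (r + 1)) (f : UV r Q) (I : Finset (Fin r)) (g : Gz r) :
    XU R Q r l f I g =
      ∑ L ∈ (Finset.univ : Finset (Fin r)).powersetCard l, f I (g - exz L) := rfl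

lemma cs_eX_apply (v : KV r Q) (J : Finset (Fin (r + 1))) (I : Finset (Fin r)) (g : Gz r) :
    eX R Q r v J I g = ∑ l ∈ Jᶜ, ksg l J •
      ∑ L ∈ (Finset.univ : Finset (Fin r)).powersetCard l, v (insert l J) I (g - exz L) := by
  rw [eX, kzb_apply, Finset.sum_apply, Finset.sum_apply]
  rfl

/-- families given by a support condition. -/
def csP (R : Type u) [CommRing R] (Q : Type u) [AddCommGroup Q] [Module R Q]
    (S : ℤ → Finset (Fin r) → Gz r → Prop) (i p : ℤ) : Submodule R (KV r Q) where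
  carrier := {v | ∀ J I g, v J I g ≠ 0 → (J.card : ℤ) = i ∧ (I.card : ℤ) = p ∧ S i I g}
  add_mem' := by
    intro v w hv hw J I g h
    by_cases h1 : v J I g = 0
    · refine hw J I g fun h2 => h ?_
      simp [h1, h2]
    · exact hv J I g h1
  zero_mem' := fun J I g h => absurd rfl h
  smul_mem' := by
    intro c v hv J I g h
    refine hv J I g fun h1 => h ?_
    simp [h1]

lemma csP_bstab (S : ℤ → Finset (Fin r) → Gz r → Prop)
    (hd : ∀ i I g k, k ∈ I → S i (I.erase k) g → S i I g)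
    (he : ∀ i I g L, S i I (g - exz L) → S (i - 1) I g) :
    BStab (dK R Q r) (eX R Q r) (csP R Q S) := by
  constructor
  · intro i p v hv J I g h
    rw [cs_dK_apply] at h
    obtain ⟨k, hk, h1⟩ := Finset.exists_ne_zero_of_sum_ne_zero h
    have h2 : v J (I.erase k) g ≠ 0 := fun h3 => h1 (by rw [h3, smul_zero])
    obtain ⟨h3, h4, h5⟩ := hv J _ g h2
    refine ⟨h3, ?_, hd i I g k hk h5⟩
    rw [Finset.card_erase_of_mem hk] at h4
    have : 0 < I.card := Finset.card_pos.2 ⟨k, hk⟩
    omega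
  · intro i p v hv J I g h
    rw [cs_eX_apply] at h
    obtain ⟨l, hl, h1⟩ := Finset.exists_ne_zero_of_sum_ne_zero h
    have h2 : (∑ L ∈ (Finset.univ : Finset (Fin r)).powersetCard l,
        v (insert l J) I (g - exz L)) ≠ 0 := fun h3 => h1 (by rw [h3, smul_zero])
    obtain ⟨L, hL, h3⟩ := Finset.exists_ne_zero_of_sum_ne_zero h2
    obtain ⟨h4, h5, h6⟩ := hv _ _ _ h3
    refine ⟨?_, h5, he i I g L h6⟩
    rw [Finset.card_insert_of_notMem (by simpa using hl)] at h4
    push_cast at h4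
    omega

lemma csP_box (S : ℤ → Finset (Fin r) → Gz r → Prop) : BBox (r + 1) (csP R Q S) := by
  intro i p h
  rw [eq_bot_iff]
  intro v hv
  rw [Submodule.mem_bot]
  funext J I g
  by_contra h1
  obtain ⟨h2, -, -⟩ := hv J I g h1
  have h3 : J.card ≤ r + 1 := by simpa using Finset.card_le_univ J
  rcases h with h | h
  · omega
  · push_cast at h
    omega

/-- lower bounds. -/
def csLow (I : Finset (Fin r)) (g : Gz r) : Prop := ∀ l, l ∉ I → 0 ≤ g.1 l

/-- upper bounds. -/
def csUp (B : ℤ) (g : Gz r) : Prop := ∀ l, g.1 l ≤ B + g.2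

lemma cs_sub1 (g : Gz r) (L : Finset (Fin r)) (l : Fin r) :
    (g - exz L).1 l = g.1 l - if l ∈ L then 1 else 0 := rfl

lemma cs_sub2 (g : Gz r) (L : Finset (Fin r)) : (g - exz L).2 = g.2 - 1 := rfl

lemma cs_ite (L : Finset (Fin r)) (l : Fin r) :
    (0 : ℤ) ≤ (if l ∈ L then (1 : ℤ) else 0) ∧ (if l ∈ L then (1 : ℤ) else 0) ≤ 1 := by
  split_ifs <;> omega

lemma csLow_erase {I : Finset (Fin r)} {g : Gz r} {k : Fin r} (h : csLow (I.erase k) g) :
    csLow I g := fun l hl => h l fun h1 => hl (Finset.mem_of_mem_erase h1)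

lemma csLow_up {I : Finset (Fin r)} {g : Gz r} {L : Finset (Fin r)} (h : csLow I (g - exz L)) :
    csLow I g := by
  intro l hl
  have h1 := h l hl
  rw [cs_sub1] at h1
  have := cs_ite L l
  omega

lemma cs_inG_erase {a : Fin r → ℤ} {I : Finset (Fin r)} {g : Gz r} {k : Fin r}
    (h : inG a (I.erase k) g) : inG a I g := by
  obtain ⟨l, hl, h1⟩ := h
  exact ⟨l, Finset.mem_of_mem_erase hl, h1⟩

lemma cs_inG_up {a : Fin r → ℤ} {I : Finset (Fin r)} {g : Gz r} {L : Finset (Fin r)}
    (h : inG a I (g - exz L)) : inG a I g := by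
  obtain ⟨l, hl, h1⟩ := h
  refine ⟨l, hl, ?_⟩
  rw [cs_sub1, cs_sub2] at h1
  have := cs_ite L l
  omega

lemma csUp_up {B : ℤ} {g : Gz r} {L : Finset (Fin r)} (h : csUp B (g - exz L)) : csUp B g := by
  intro l
  have h1 := h l
  rw [cs_sub1, cs_sub2] at h1
  have := cs_ite L l
  omega

variable (a : Fin r → ℤ) (B t : ℤ)

/-- support of `SF`. -/
def csS1 (i : ℤ) (I : Finset (Fin r)) (g : Gz r) : Prop :=
  (csLow I g ∧ csUp B g) ∧ (inG a I g ∨ i + g.2 = t)

/-- support of `GF`. -/
def csS2 (i : ℤ) (I : Finset (Fin r)) (g : Gz r) : Prop :=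
  (csLow I g ∧ csUp B g) ∧ inG a I g

/-- no upper bound. -/
def csS3 (i : ℤ) (I : Finset (Fin r)) (g : Gz r) : Prop :=
  csLow I g ∧ (inG a I g ∨ i + g.2 = t)

/-- no upper bound. -/
def csS4 (i : ℤ) (I : Finset (Fin r)) (g : Gz r) : Prop := csLow I g ∧ inG a I g

/-- intermediate. -/
def csS5 (i : ℤ) (I : Finset (Fin r)) (g : Gz r) : Prop :=
  csLow I g ∧ (inG a I g ∨ (i + g.2 = t ∧ csUp B g))

lemma csSt1 : BStab (dK R Q r) (eX R Q r) (csP R Q (csS1 a B t)) := by
  apply csP_bstab
  · rintro i I g k hk ⟨⟨h1, h2⟩, h3⟩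
    exact ⟨⟨csLow_erase h1, h2⟩, h3.imp cs_inG_erase id⟩
  · rintro i I g L ⟨⟨h1, h2⟩, h3⟩
    refine ⟨⟨csLow_up h1, csUp_up h2⟩, h3.imp cs_inG_up ?_⟩
    intro h
    rw [cs_sub2] at h
    omega

lemma csSt3 : BStab (dK R Q r) (eX R Q r) (csP R Q (csS3 a t)) := by
  apply csP_bstab
  · rintro i I g k hk ⟨h1, h3⟩
    exact ⟨csLow_erase h1, h3.imp cs_inG_erase id⟩
  · rintro i I g L ⟨h1, h3⟩
    refine ⟨csLow_up h1, h3.imp cs_inG_up ?_⟩
    intro h
    rw [cs_sub2] at h
    omega

lemma csSt4 : BStab (dK R Q r) (eX R Q r) (csP R Q (csS4 a)) := by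
  apply csP_bstab
  · rintro i I g k hk ⟨h1, h3⟩
    exact ⟨csLow_erase h1, cs_inG_erase h3⟩
  · rintro i I g L ⟨h1, h3⟩
    exact ⟨csLow_up h1, cs_inG_up h3⟩

lemma csSt5 : BStab (dK R Q r) (eX R Q r) (csP R Q (csS5 a B t)) := by
  apply csP_bstab
  · rintro i I g k hk ⟨h1, h3⟩
    exact ⟨csLow_erase h1, h3.imp cs_inG_erase id⟩
  · rintro i I g L ⟨h1, h3⟩
    refine ⟨csLow_up h1, h3.imp cs_inG_up ?_⟩
    rintro ⟨h, h4⟩
    rw [cs_sub2] at h
    exact ⟨by omega, csUp_up h4⟩

lemma cs_SF : SF R Q a B t = csP R Q (csS1 a B t) := by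
  funext i p
  ext v
  constructor
  · intro h J I g hne
    have h1 := h J I g
    unfold CV at h1
    by_cases h2 : (J.card : ℤ) = i ∧ (I.card : ℤ) = p ∧ inF B I g
    · rw [if_pos h2] at h1
      by_cases h3 : inG a I g
      · exact ⟨h2.1, h2.2.1, h2.2.2, Or.inl h3⟩
      · rw [if_neg h3] at h1
        by_cases h4 : i + g.2 = t
        · exact ⟨h2.1, h2.2.1, h2.2.2, Or.inr h4⟩
        · simp only [if_neg h4] at h1
          exact absurd ((Submodule.mem_bot R).1 h1) hne
    · rw [if_neg h2] at h1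
      exact absurd ((Submodule.mem_bot R).1 h1) hne
  · intro h J I g
    by_cases hne : v J I g = 0
    · rw [hne]
      exact Submodule.zero_mem _
    · obtain ⟨h1, h2, h3, h4⟩ := h J I g hne
      unfold CV
      rw [if_pos ⟨h1, h2, h3⟩]
      by_cases h5 : inG a I g
      · rw [if_pos h5]
        trivial
      · rw [if_neg h5]
        simp only [if_pos (h4.resolve_left h5)]
        trivial

lemma cs_GF : GF R Q a B = csP R Q (csS2 a B) := by
  funext i p
  ext v
  constructor
  · intro h J I g hne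
    have h1 := h J I g
    unfold CV at h1
    split_ifs at h1 with h2 h3
    · exact ⟨h2.1, h2.2.1, h2.2.2, h3⟩
    · exact absurd ((Submodule.mem_bot R).1 h1) hne
    · exact absurd ((Submodule.mem_bot R).1 h1) hne
  · intro h J I g
    by_cases hne : v J I g = 0
    · rw [hne]
      exact Submodule.zero_mem _
    · obtain ⟨h1, h2, h3, h4⟩ := h J I g hne
      unfold CV
      rw [if_pos ⟨h1, h2, h3⟩, if_pos h4]
      trivial

/-! #### toggling -/

lemma cs_ksg_erase (l : Fin r) (I : Finset (Fin r)) : ksg l (I.erase l) = ksg l I := by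
  unfold ksg
  congr 2
  ext k
  simp only [Finset.mem_filter, Finset.mem_erase]
  constructor
  · rintro ⟨⟨-, h1⟩, h2⟩
    exact ⟨h1, h2⟩
  · rintro ⟨h1, h2⟩
    exact ⟨⟨h2.ne, h1⟩, h2⟩

lemma cs_ksg_insert (l : Fin r) (I : Finset (Fin r)) : ksg l (insert l I) = ksg l I := by
  rw [← cs_ksg_erase l (insert l I)]
  by_cases h : l ∈ I
  · rw [Finset.insert_eq_of_mem h, cs_ksg_erase]
  · rw [Finset.erase_insert h]

lemma cs_toggle (l : Fin r) (φ : Finset (Fin r) → Q) (I : Finset (Fin r)) :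
    (∑ k ∈ I, ksg k I • (if l ∈ I.erase k then (0 : Q)
        else ksg l (I.erase k) • φ (insert l (I.erase k)))) +
      (if l ∈ I then (0 : Q) else ksg l I •
        ∑ k ∈ insert l I, ksg k (insert l I) • φ ((insert l I).erase k)) = φ I := by
  by_cases hl : l ∈ I
  · rw [if_pos hl, add_zero, Finset.sum_eq_single l]
    · rw [if_neg (by simp), cs_ksg_erase, smul_smul, kzb_ksg_mul_self, one_smul,
        Finset.insert_erase hl]
    · intro k hk hkl
      rw [if_pos (Finset.mem_erase.2 ⟨Ne.symm hkl, hl⟩), smul_zero]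
    · intro h
      exact absurd hl h
  · rw [if_neg hl, Finset.sum_insert hl, smul_add, smul_smul, cs_ksg_insert, kzb_ksg_mul_self,
      one_smul, Finset.erase_insert hl, Finset.smul_sum, add_left_comm, ← Finset.sum_add_distrib]
    rw [add_eq_left]
    apply Finset.sum_eq_zero
    intro k hk
    have hkl : l ≠ k := by
      rintro rfl
      exact hl hk
    have h1 : l ∉ I.erase k := fun h => hl (Finset.mem_of_mem_erase h)
    have h2 : (insert l I).erase k = insert l (I.erase k) := Finset.erase_insert_of_ne hkl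
    rw [if_neg h1, h2, smul_smul, smul_smul, ← add_smul]
    have h3 := kzb_ksg_anti' h1 (Finset.notMem_erase k I) hkl
    rw [Finset.insert_erase hk, ← h2, ← cs_ksg_insert k ((insert l I).erase k),
      Finset.insert_erase (Finset.mem_insert_of_mem hk), cs_ksg_erase] at h3
    rw [show ksg k I * ksg l (I.erase k) + ksg l I * ksg k (insert l I) = 0 by
      linear_combination h3, zero_smul]

end Cs

section Cs2

variable {R : Type u} [CommRing R] {Q : Type u} [AddCommGroup Q] [Module R Q] {r : ℕ}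
variable (a : Fin r → ℤ) (B t : ℤ)

open Classical in
/-- the contraction of the rows. -/
noncomputable def csh (B t i : ℤ) (v : KV r Q) : KV r Q := fun J I g =>
  if h : i + g.2 = t ∧ ∃ l, B + g.2 < g.1 l then
    (if h.2.choose ∈ I then 0 else ksg h.2.choose I • v J (insert h.2.choose I) g)
  else 0

theorem cs_rowex (h1 : ∀ l, a l ≤ B) (h2 : (r : ℤ) ≤ B + t) (i p : ℤ) (v : KV r Q)
    (hv : v ∈ csP R Q (csS3 a t) i p) (hdv : dK R Q r v ∈ csP R Q (csS5 a B t) i (p + 1)) :
    ∃ y ∈ csP R Q (csS3 a t) i (p - 1), v - dK R Q r y ∈ csP R Q (csS5 a B t) i p := by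
  classical
  have hB : ∀ J I (g : Gz r), v J I g ≠ 0 → i + g.2 = t → -1 ≤ B + g.2 := by
    intro J I g hne hg
    have := (hv J I g hne).1
    have h3 : J.card ≤ r + 1 := by simpa using Finset.card_le_univ J
    omega
  have hy : csh B t i v ∈ csP R Q (csS3 a t) i (p - 1) := by
    intro J I g hne
    unfold csh at hne
    split_ifs at hne with h h'
    · exact absurd rfl hne
    · have hl := h.2.choose_spec
      have hne' : v J (insert h.2.choose I) g ≠ 0 := fun h3 => hne (by rw [h3, smul_zero])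
      obtain ⟨h3, h4, h5, -⟩ := hv _ _ _ hne'
      refine ⟨h3, ?_, ?_, Or.inr h.1⟩
      · rw [Finset.card_insert_of_notMem h'] at h4
        push_cast at h4
        omega
      · intro k hk
        by_cases hkl : k = h.2.choose
        · have h6 := hB _ _ _ hne' h.1
          rw [hkl]
          omega
        · exact h5 k (by simp [hkl, hk])
    · exact absurd rfl hne
  refine ⟨_, hy, ?_⟩
  intro J I g hne
  have hx : v - dK R Q r (csh B t i v) ∈ csP R Q (csS3 a t) i p := by
    refine Submodule.sub_mem _ hv ?_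
    have := (csSt3 (R := R) (Q := Q) a t).hd _ _ _ hy
    rwa [sub_add_cancel] at this
  obtain ⟨h3, h4, h5, h6⟩ := hx J I g hne
  refine ⟨h3, h4, h5, ?_⟩
  by_cases hG : inG a I g
  · exact Or.inl hG
  · refine Or.inr ⟨h6.resolve_left hG, ?_⟩
    by_contra hup
    apply hne
    have hup' : ∃ l, B + g.2 < g.1 l := by
      simpa [csUp] using hup
    have hc : i + g.2 = t ∧ ∃ l, B + g.2 < g.1 l := ⟨h6.resolve_left hG, hup'⟩
    have htog := cs_toggle hc.2.choose (fun I' => v J I' g) I
    have e1 : dK R Q r (csh B t i v) J I g = ∑ k ∈ I, ksg k I •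
        (if hc.2.choose ∈ I.erase k then (0 : Q)
        else ksg hc.2.choose (I.erase k) • v J (insert hc.2.choose (I.erase k)) g) := by
      rw [cs_dK_apply]
      refine Finset.sum_congr rfl fun k _ => ?_
      unfold csh
      rw [dif_pos hc]
    have e2 : (if hc.2.choose ∈ I then (0 : Q) else ksg hc.2.choose I •
        ∑ k ∈ insert hc.2.choose I, ksg k (insert hc.2.choose I) •
          v J ((insert hc.2.choose I).erase k) g) = 0 := by
      split_ifs with h7
      · rfl
      · have h8 : dK R Q r v J (insert hc.2.choose I) g = 0 := by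
          by_contra h9
          obtain ⟨-, -, -, h10⟩ := hdv _ _ _ h9
          rcases h10 with ⟨k, hk, h11⟩ | ⟨-, h10⟩
          · rcases Finset.mem_insert.1 hk with h12 | h12
            · have := hc.2.choose_spec
              have := h1 k
              rw [h12] at h11 this
              omega
            · exact hG ⟨k, h12, h11⟩
          · obtain ⟨l, hl⟩ := hup'
            have := h10 l
            omega
        rw [cs_dK_apply] at h8
        rw [h8, smul_zero]
    rw [e2, add_zero, ← e1] at htog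
    rw [Pi.sub_apply, Pi.sub_apply, Pi.sub_apply, htog, sub_self]

/-! #### columns -/

/-- the valid cells of degree `p` (no upper bound) -/
def csV (a : Fin r → ℤ) (p : ℕ) (I : Finset (Fin r)) (g : Gz r) : Prop :=
  I.card = p ∧ csLow I g ∧ ¬ inG a I g

open Classical in
/-- cut off -/
noncomputable def csCut (R : Type u) [CommRing R] (Q : Type u) [AddCommGroup Q] [Module R Q]
    (a : Fin r → ℤ) (p : ℕ) : UV r Q →ₗ[R] UV r Q where
  toFun f I g := if csV a p I g then f I g else 0
  map_add' f f' := by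
    funext I g
    simp only [Pi.add_apply]
    split_ifs <;> simp
  map_smul' c f := by
    funext I g
    simp only [Pi.smul_apply, RingHom.id_apply]
    split_ifs <;> simp

lemma csCut_pos (p : ℕ) (f : UV r Q) {I : Finset (Fin r)} {g : Gz r} (h : csV a p I g) :
    csCut R Q a p f I g = f I g := by
  classical
  show (if _ then _ else _) = _
  rw [if_pos h]

lemma csCut_neg (p : ℕ) (f : UV r Q) {I : Finset (Fin r)} {g : Gz r} (h : ¬ csV a p I g) :
    csCut R Q a p f I g = 0 := by
  classical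
  show (if _ then _ else _) = _
  rw [if_neg h]

/-- functions on the valid cells. -/
noncomputable abbrev csM (R : Type u) [CommRing R] (Q : Type u) [AddCommGroup Q] [Module R Q]
    (a : Fin r → ℤ) (p : ℕ) : Submodule R (UV r Q) := LinearMap.range (csCut R Q a p)

lemma csM_iff (p : ℕ) (f : UV r Q) : f ∈ csM R Q a p ↔ ∀ I g, f I g ≠ 0 → csV a p I g := by
  constructor
  · rintro ⟨f', rfl⟩ I g h
    by_contra h1
    exact h (csCut_neg a p f' h1)
  · intro h
    refine ⟨f, ?_⟩
    funext I g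
    by_cases h1 : csV a p I g
    · exact csCut_pos a p f h1
    · rw [csCut_neg a p f h1]
      by_contra h2
      exact h1 (h I g (Ne.symm h2))

/-- the operators on the functions on the valid cells. -/
noncomputable def csT (R : Type u) [CommRing R] (Q : Type u) [AddCommGroup Q] [Module R Q]
    (a : Fin r → ℤ) (p : ℕ) (l : Fin (r + 1)) : ↥(csM R Q a p) →ₗ[R] ↥(csM R Q a p) :=
  (csCut R Q a p).rangeRestrict ∘ₗ XU R Q r l ∘ₗ (csM R Q a p).subtype

lemma csT_coe (p : ℕ) (l : Fin (r + 1)) (f : ↥(csM R Q a p)) :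
    (csT R Q a p l f : UV r Q) = csCut R Q a p (XU R Q r l f) := rfl

lemma csV_conv {p : ℕ} {I : Finset (Fin r)} {g : Gz r} (L : Finset (Fin r)) (h : csV a p I g)
    (h' : csLow I (g - exz L)) : csV a p I (g - exz L) :=
  ⟨h.1, h', fun h3 => h.2.2 (cs_inG_up h3)⟩

/-- cutting off before applying `X` does not matter. -/
lemma cs_cutX (p : ℕ) (l : Fin (r + 1)) (f : UV r Q)
    (hf : ∀ I g, f I g ≠ 0 → csLow I g) :
    csCut R Q a p (XU R Q r l (csCut R Q a p f)) = csCut R Q a p (XU R Q r l f) := by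
  funext I g
  by_cases h : csV a p I g
  · rw [csCut_pos a p _ h, csCut_pos a p _ h, cs_XU_apply, cs_XU_apply]
    refine Finset.sum_congr rfl fun L _ => ?_
    by_cases h1 : f I (g - exz L) = 0
    · by_cases h2 : csV a p I (g - exz L)
      · rw [csCut_pos a p _ h2]
      · rw [csCut_neg a p _ h2, h1]
    · rw [csCut_pos a p _ (csV_conv a L h (hf _ _ h1))]
  · rw [csCut_neg a p _ h, csCut_neg a p _ h]

lemma csT_comm (p : ℕ) (k l : Fin (r + 1)) (f : ↥(csM R Q a p)) :
    csT R Q a p k (csT R Q a p l f) = csT R Q a p l (csT R Q a p k f) := by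
  have hf : ∀ l : Fin (r + 1), ∀ I g, XU R Q r l (f : UV r Q) I g ≠ 0 → csLow I g := by
    intro l I g h
    rw [cs_XU_apply] at h
    obtain ⟨L, -, h1⟩ := Finset.exists_ne_zero_of_sum_ne_zero h
    exact csLow_up ((csM_iff a p _).1 f.2 _ _ h1).2.1
  apply Subtype.ext
  rw [csT_coe, csT_coe, csT_coe, csT_coe, cs_cutX a p k _ (hf l), cs_cutX a p l _ (hf k),
    XU_comm]

/-- the size outside `I`. -/
def csK (I : Finset (Fin r)) (g : Gz r) : ℕ := (∑ l ∈ Iᶜ, g.1 l).toNat

lemma csV_shift {p : ℕ} {I : Finset (Fin r)} {g : Gz r} :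
    csV a p I (g + exz I) ↔ csV a p I g := by
  have e1 : ∀ l, (g + exz I).1 l = g.1 l + if l ∈ I then 1 else 0 := fun l => rfl
  have e2 : (g + exz I).2 = g.2 + 1 := rfl
  have h1 : csLow I (g + exz I) ↔ csLow I g := by
    constructor
    · intro h l hl
      have := h l hl
      rwa [e1, if_neg hl, add_zero] at this
    · intro h l hl
      rw [e1, if_neg hl, add_zero]
      exact h l hl
  have h2 : inG a I (g + exz I) ↔ inG a I g := by
    constructor
    · rintro ⟨l, hl, h⟩
      refine ⟨l, hl, ?_⟩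
      rw [e1, if_pos hl, e2] at h
      omega
    · rintro ⟨l, hl, h⟩
      refine ⟨l, hl, ?_⟩
      rw [e1, if_pos hl, e2]
      omega
  unfold csV
  rw [h1, h2]

lemma csK_lt {p : ℕ} {I : Finset (Fin r)} {g : Gz r} (hI : I.card = p) {L : Finset (Fin r)}
    (hL : L.card = p) (hLI : L ≠ I) (hlow : csLow I (g + exz I - exz L)) :
    csK I (g + exz I - exz L) < csK I g := by
  obtain ⟨l, hl, hl'⟩ : ∃ l ∈ L, l ∉ I := by
    by_contra h
    push Not at h
    exact hLI (Finset.eq_of_subset_of_card_le h (by omega))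
  have e1 : ∀ k ∈ Iᶜ, (g + exz I - exz L).1 k = g.1 k - if k ∈ L then 1 else 0 := by
    intro k hk
    show g.1 k + (if k ∈ I then 1 else 0) - (if k ∈ L then 1 else 0) = _
    rw [if_neg (by simpa using hk), add_zero]
  have h1 : ∑ k ∈ Iᶜ, (g + exz I - exz L).1 k < ∑ k ∈ Iᶜ, g.1 k := by
    apply Finset.sum_lt_sum
    · intro k hk
      rw [e1 k hk]
      have := cs_ite L k
      omega
    · refine ⟨l, by simpa using hl', ?_⟩
      rw [e1 l (by simpa using hl'), if_pos hl]
      omega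
  have h2 : 0 ≤ ∑ k ∈ Iᶜ, (g + exz I - exz L).1 k :=
    Finset.sum_nonneg fun k hk => hlow k (by simpa using hk)
  unfold csK
  omega

lemma cs_XU_split (p : ℕ) (hp : p < r + 1) (f : UV r Q) {I : Finset (Fin r)} (hI : I.card = p)
    (g : Gz r) :
    XU R Q r ⟨p, hp⟩ f I (g + exz I) = f I g +
      ∑ L ∈ ((Finset.univ : Finset (Fin r)).powersetCard p).erase I, f I (g + exz I - exz L) := by
  rw [cs_XU_apply]
  show ∑ L ∈ (Finset.univ : Finset (Fin r)).powersetCard p, _ = _
  rw [← Finset.add_sum_erase _ _ (Finset.mem_powersetCard.2 ⟨Finset.subset_univ I, hI⟩),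
    add_sub_cancel_right]

lemma cs_mem_erase {p : ℕ} {I L : Finset (Fin r)}
    (hL : L ∈ ((Finset.univ : Finset (Fin r)).powersetCard p).erase I) : L ≠ I ∧ L.card = p := by
  rw [Finset.mem_erase, Finset.mem_powersetCard] at hL
  exact ⟨hL.1, hL.2.2⟩

lemma csT_inj (p : ℕ) (hp : p < r + 1) : Function.Injective (csT R Q a p ⟨p, hp⟩) := by
  rw [injective_iff_map_eq_zero]
  intro f hf
  have key : ∀ n : ℕ, ∀ I g, csK I g < n → (f : UV r Q) I g = 0 := by
    intro n
    induction n with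
    | zero => intro I g h; omega
    | succ n ih =>
      intro I g h
      by_contra hne
      have hV := (csM_iff a p _).1 f.2 I g hne
      have h1 : csCut R Q a p (XU R Q r ⟨p, hp⟩ f) I (g + exz I) = 0 := by
        rw [← csT_coe, hf]
        rfl
      rw [csCut_pos a p _ ((csV_shift a).2 hV), cs_XU_split p hp _ hV.1, Finset.sum_eq_zero,
        add_zero] at h1
      · exact hne h1
      · intro L hL
        obtain ⟨h2, h3⟩ := cs_mem_erase hL
        by_contra h4
        have h5 := (csM_iff a p _).1 f.2 I _ h4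
        exact h4 (ih _ _ (lt_of_lt_of_le (csK_lt hV.1 h3 h2 h5.2.1) (by omega)))
  apply Subtype.ext
  funext I g
  exact key _ I g (Nat.lt_succ_self _)

open Classical in
/-- approximations of the inverse. -/
noncomputable def csS (a : Fin r → ℤ) (p : ℕ) (f : UV r Q) : ℕ → UV r Q
  | 0 => 0
  | n + 1 => fun I g => if csV a p I g then
      f I (g + exz I) - ∑ L ∈ ((Finset.univ : Finset (Fin r)).powersetCard p).erase I,
        csS a p f n I (g + exz I - exz L) else 0

lemma csS_supp (p : ℕ) (f : UV r Q) (n : ℕ) (I : Finset (Fin r)) (g : Gz r)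
    (h : csS a p f n I g ≠ 0) : csV a p I g := by
  classical
  cases n with
  | zero => exact absurd rfl h
  | succ n =>
    by_contra h1
    apply h
    show (if _ then _ else _) = _
    rw [if_neg h1]

lemma csS_stab (p : ℕ) (f : UV r Q) : ∀ (n m : ℕ) (I : Finset (Fin r)) (g : Gz r),
    csK I g < n → csK I g < m → csS a p f n I g = csS a p f m I g := by
  classical
  intro n
  induction n with
  | zero => intro m I g h; omega
  | succ n ih =>
    intro m I g h1 h2
    cases m with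
    | zero => omega
    | succ m =>
      show (if _ then _ else _) = (if _ then _ else _)
      by_cases hV : csV a p I g
      · rw [if_pos hV, if_pos hV]
        congr 1
        refine Finset.sum_congr rfl fun L hL => ?_
        obtain ⟨h3, h4⟩ := cs_mem_erase hL
        by_cases h5 : csLow I (g + exz I - exz L)
        · have h6 := csK_lt hV.1 h4 h3 h5
          exact ih m _ _ (by omega) (by omega)
        · have h7 : ∀ k, csS a p f k I (g + exz I - exz L) = 0 := by
            intro k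
            by_contra h8
            exact h5 (csS_supp a p f k _ _ h8).2.1
          rw [h7, h7]
      · rw [if_neg hV, if_neg hV]

lemma csT_surj (p : ℕ) (hp : p < r + 1) : Function.Surjective (csT R Q a p ⟨p, hp⟩) := by
  classical
  intro f
  obtain ⟨y, hy⟩ : ∃ y : UV r Q, y = fun I g => csS a p (f : UV r Q) (csK I g + 1) I g :=
    ⟨_, rfl⟩
  have hyM : y ∈ csM R Q a p := by
    rw [csM_iff]
    intro I g h
    rw [hy] at h
    exact csS_supp a p _ _ _ _ h
  refine ⟨⟨y, hyM⟩, ?_⟩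
  apply Subtype.ext
  rw [csT_coe]
  funext I g'
  obtain ⟨g, rfl⟩ : ∃ g, g' = g + exz I := ⟨g' - exz I, by rw [sub_add_cancel]⟩
  by_cases hV : csV a p I (g + exz I)
  · rw [csCut_pos a p _ hV]
    have hV' := (csV_shift a).1 hV
    show XU R Q r ⟨p, hp⟩ y I (g + exz I) = _
    rw [cs_XU_split p hp _ hV.1]
    have e1 : y I g = (f : UV r Q) I (g + exz I) -
        ∑ L ∈ ((Finset.univ : Finset (Fin r)).powersetCard p).erase I,
          csS a p f (csK I g) I (g + exz I - exz L) := by
      rw [hy]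
      show (if _ then _ else _) = _
      rw [if_pos hV']
    have e2 : ∀ L ∈ ((Finset.univ : Finset (Fin r)).powersetCard p).erase I,
        csS a p (f : UV r Q) (csK I g) I (g + exz I - exz L) = y I (g + exz I - exz L) := by
      intro L hL
      obtain ⟨h3, h4⟩ := cs_mem_erase hL
      by_cases h5 : csLow I (g + exz I - exz L)
      · have h6 := csK_lt hV.1 h4 h3 h5
        rw [hy]
        exact csS_stab a p _ _ _ _ _ h6 (Nat.lt_succ_self _)
      · have h7 : ∀ k, csS a p (f : UV r Q) k I (g + exz I - exz L) = 0 := by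
          intro k
          by_contra h8
          exact h5 (csS_supp a p _ k _ _ h8).2.1
        rw [hy, h7]
        exact (h7 _).symm
    rw [e1, Finset.sum_congr rfl e2]
    abel
  · rw [csCut_neg a p _ hV]
    by_contra h
    exact hV ((csM_iff a p _).1 f.2 _ _ (Ne.symm h))

theorem cs_colex (i p : ℤ) (v : KV r Q) (hv : v ∈ csP R Q (csS3 a t) i p)
    (hev : eX R Q r v ∈ csP R Q (csS4 a) (i - 1) p) :
    ∃ y ∈ csP R Q (csS3 a t) (i + 1) p, v - eX R Q r y ∈ csP R Q (csS4 a) i p := by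
  classical
  by_cases hp : 0 ≤ p ∧ p ≤ r
  · obtain ⟨q, rfl⟩ := Int.eq_ofNat_of_zero_le hp.1
    have hq : q < r + 1 := by omega
    obtain ⟨ρ, hρ⟩ : ∃ ρ : UV r Q →ₗ[R] ↥(csM R Q a q), ρ = (csCut R Q a q).rangeRestrict :=
      ⟨_, rfl⟩
    have hρc : ∀ f, (ρ f : UV r Q) = csCut R Q a q f := by
      intro f
      rw [hρ]
      rfl
    have hw : (fun J => ρ (v J)) ∈ kcyc (csT R Q a q) i := by
      constructor
      · intro J hJ
        have h1 : v J ≠ 0 := fun h => hJ (by simp only [h, map_zero])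
        obtain ⟨I, hI⟩ := Function.ne_iff.1 h1
        obtain ⟨g, hg⟩ := Function.ne_iff.1 hI
        exact (hv J I g hg).1
      · rw [SetLike.mem_coe, LinearMap.mem_ker]
        funext J
        rw [kzb_apply]
        have e1 : ∀ l ∈ Jᶜ, ksg l J • csT R Q a q l (ρ (v (insert l J))) =
            ρ (ksg l J • XU R Q r l (v (insert l J))) := by
          intro l _
          rw [map_zsmul]
          congr 1
          apply Subtype.ext
          rw [csT_coe, hρc, hρc]
          exact cs_cutX a q l _ fun I g h => (hv _ I g h).2.2.1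
        rw [Finset.sum_congr rfl e1, ← map_sum]
        show ρ (eX R Q r v J) = 0
        apply Subtype.ext
        rw [hρc]
        funext I g
        by_cases hV : csV a q I g
        · rw [csCut_pos a q _ hV]
          by_contra h
          exact hV.2.2 (hev J I g h).2.2.2
        · rw [csCut_neg a q _ hV]
          rfl
    obtain ⟨y', hy', hy''⟩ := kz_exact (csT R Q a q) (fun k l f => csT_comm a q k l f) ⟨q, hq⟩
      ⟨csT_inj a q hq, csT_surj a q hq⟩ i hw
    obtain ⟨y, hy⟩ : ∃ y : KV r Q, y = fun J I g =>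
        if i + 1 + g.2 = t then (y' J : UV r Q) I g else 0 := ⟨_, rfl⟩
    have hyY : y ∈ csP R Q (csS3 a t) (i + 1) q := by
      intro J I g h
      rw [hy] at h
      simp only at h
      split_ifs at h with h1
      · have h2 : y' J ≠ 0 := by
          intro h3
          rw [h3] at h
          exact h rfl
        have h3 := (csM_iff a q _).1 (y' J).2 I g h
        exact ⟨hy' J h2, by exact_mod_cast h3.1, h3.2.1, Or.inr h1⟩
      · exact absurd rfl h
    refine ⟨y, hyY, ?_⟩
    have hx : v - eX R Q r y ∈ csP R Q (csS3 a t) i q := by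
      refine Submodule.sub_mem _ hv ?_
      have := (csSt3 (R := R) (Q := Q) a t).he _ _ _ hyY
      rwa [add_sub_cancel_right] at this
    intro J I g hne
    obtain ⟨h3, h4, h5, h6⟩ := hx J I g hne
    refine ⟨h3, h4, h5, ?_⟩
    by_contra hG
    apply hne
    have hV : csV a q I g := ⟨by exact_mod_cast h4, h5, hG⟩
    have ht := h6.resolve_left hG
    have e1 : eX R Q r y J I g = v J I g := by
      have e2 : kz (csT R Q a q) y' J = ρ (v J) := congrFun hy'' J
      have e3 : (kz (csT R Q a q) y' J : UV r Q) I g = v J I g := by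
        rw [e2, hρc, csCut_pos a q _ hV]
      rw [← e3, kzb_apply, cs_eX_apply, Submodule.coe_sum, Finset.sum_apply, Finset.sum_apply]
      refine Finset.sum_congr rfl fun l _ => ?_
      rw [Submodule.coe_smul_of_tower, Pi.smul_apply, Pi.smul_apply, csT_coe,
        csCut_pos a q _ hV, cs_XU_apply]
      congr 1
      refine Finset.sum_congr rfl fun L _ => ?_
      rw [hy]
      simp only
      rw [if_pos (by rw [cs_sub2]; omega)]
    rw [Pi.sub_apply, Pi.sub_apply, Pi.sub_apply, e1, sub_self]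
  · have hv0 : v = 0 := by
      funext J I g
      by_contra h
      have h1 := (hv J I g h).2.1
      have h2 : I.card ≤ r := by simpa using Finset.card_le_univ I
      exact hp ⟨by omega, by omega⟩
    refine ⟨0, Submodule.zero_mem _, ?_⟩
    rw [hv0, map_zero, sub_zero]
    exact Submodule.zero_mem _

/-- `X_p` is bijective on the cells of Čech degree `p` when the `s_l` are not bounded above; the
columns are contractible; then cut off at `s_l ≤ B + j` by exactness of the rows. -/
theorem strand_exact (t : ℤ) (h1 : ∀ l, a l ≤ B) (h2 : (r : ℤ) ≤ B + t) (δ : ℤ) :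
    zz (totD (dK R Q r) (eX R Q r)) (TT (SF R Q a B t)) (TT (GF R Q a B)) δ ≤
      bb (totD (dK R Q r) (eX R Q r)) (TT (SF R Q a B t)) (TT (GF R Q a B)) δ := by
  classical
  rw [cs_SF, cs_GF]
  rintro z ⟨hz, hz'⟩
  rw [SetLike.mem_coe, Submodule.mem_comap] at hz'
  have hDD := cs_tot_sq (dK R Q r) (eX R Q r) dK_sq eX_sq dK_eX
  have m1 : ∀ i p, csP R Q (csS1 a B t) i p ≤ csP R Q (csS3 a t) i p := by
    intro i p v hv J I g h
    obtain ⟨h3, h4, h5, h6⟩ := hv J I g h
    exact ⟨h3, h4, h5.1, h6⟩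
  have m2 : ∀ i p, csP R Q (csS2 a B) i p ≤ csP R Q (csS4 a) i p := by
    intro i p v hv J I g h
    obtain ⟨h3, h4, h5, h6⟩ := hv J I g h
    exact ⟨h3, h4, h5.1, h6⟩
  have m3 : ∀ i p, csP R Q (csS4 a) i p ≤ csP R Q (csS5 a B t) i p := by
    intro i p v hv J I g h
    obtain ⟨h3, h4, h5, h6⟩ := hv J I g h
    exact ⟨h3, h4, h5, Or.inl h6⟩
  have m4 : ∀ i p, csP R Q (csS1 a B t) i p ≤ csP R Q (csS5 a B t) i p := by
    intro i p v hv J I g h
    obtain ⟨h3, h4, h5, h6⟩ := hv J I g h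
    exact ⟨h3, h4, h5.1, h6.imp id fun h7 => ⟨h7, h5.2⟩⟩
  have mono : ∀ (X Y : ℤ → ℤ → Submodule R (KV r Q)), (∀ i p, X i p ≤ Y i p) → ∀ δ z,
      z ∈ TT X δ → z ∈ TT Y δ := by
    intro X Y h δ z hz
    rw [cs_mem_TT] at hz ⊢
    exact fun i => h _ _ (hz i)
  obtain ⟨y', hy1, hy2⟩ := cs_col (r + 1) (dK R Q r) (eX R Q r) dK_sq eX_sq dK_eX
    (csP R Q (csS4 a)) (csP R Q (csS3 a t)) (csSt4 a) (csSt3 a t) (csP_box _)
    (fun i p v h h' => cs_colex a t i p v h h') δ z (mono _ _ m1 _ _ hz) (mono _ _ m2 _ _ hz')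
  have hy3 : totD (dK R Q r) (eX R Q r) y' ∈ TT (csP R Q (csS5 a B t)) (δ + 1 - 1) := by
    rw [add_sub_cancel_right]
    have : totD (dK R Q r) (eX R Q r) y' = z - (z - totD (dK R Q r) (eX R Q r) y') := by abel
    rw [this]
    exact Submodule.sub_mem _ (mono _ _ m4 _ _ hz) (mono _ _ m3 _ _ hy2)
  obtain ⟨y'', hy4, hy5⟩ := cs_row (r + 1) (dK R Q r) (eX R Q r) dK_sq eX_sq dK_eX
    (csP R Q (csS5 a B t)) (csP R Q (csS3 a t)) (csSt5 a B t) (csSt3 a t) (csP_box _)
    (fun i p v h h' => cs_rowex a B t h1 h2 i p v h h') (δ + 1) y' hy1 hy3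
  obtain ⟨w, hw⟩ : ∃ w, w = y' - totD (dK R Q r) (eX R Q r) y'' := ⟨_, rfl⟩
  rw [← hw] at hy5
  obtain ⟨y, hy⟩ : ∃ y : ℤ → KV r Q, y = fun i J I g => if csUp B g then w i J I g else 0 :=
    ⟨_, rfl⟩
  have hyY : y ∈ TT (csP R Q (csS1 a B t)) (δ + 1) := by
    rw [cs_mem_TT] at hy5 ⊢
    intro i J I g h
    rw [hy] at h
    simp only at h
    split_ifs at h with h7
    · obtain ⟨h3, h4, h5, h6⟩ := hy5 i J I g h
      exact ⟨h3, h4, ⟨h5, h7⟩, h6.imp id And.left⟩
    · exact absurd rfl h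
  have hx2 : w - y ∈ TT (csP R Q (csS4 a)) (δ + 1) := by
    rw [cs_mem_TT] at hy5 ⊢
    intro i J I g h
    have h' : w i J I g - y i J I g ≠ 0 := h
    rw [hy] at h'
    simp only at h'
    split_ifs at h' with h7
    · exact absurd (sub_self _) h'
    · rw [sub_zero] at h'
      obtain ⟨h3, h4, h5, h6⟩ := hy5 i J I g h'
      exact ⟨h3, h4, h5, h6.resolve_right fun h8 => h7 h8.2⟩
  refine Submodule.mem_sup.2 ⟨totD (dK R Q r) (eX R Q r) y, ⟨y, hyY, rfl⟩,
    z - totD (dK R Q r) (eX R Q r) y, ?_, by abel⟩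
  have hA : z - totD (dK R Q r) (eX R Q r) y ∈ TT (csP R Q (csS1 a B t)) δ := by
    refine Submodule.sub_mem _ hz ?_
    have := cs_stab _ _ _ (csSt1 (R := R) (Q := Q) a B t) _ _ hyY
    rwa [add_sub_cancel_right] at this
  have hC : z - totD (dK R Q r) (eX R Q r) y ∈ TT (csP R Q (csS4 a)) δ := by
    have e1 : z - totD (dK R Q r) (eX R Q r) y = (z - totD (dK R Q r) (eX R Q r) y') +
        totD (dK R Q r) (eX R Q r) (w - y) := by
      rw [hw, map_sub, map_sub, hDD]
      abel
    rw [e1]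
    refine Submodule.add_mem _ hy2 ?_
    have := cs_stab _ _ _ (csSt4 (R := R) (Q := Q) a) _ _ hx2
    rwa [add_sub_cancel_right] at this
  rw [cs_mem_TT] at hA hC ⊢
  intro i J I g h
  obtain ⟨h3, h4, h5, h6⟩ := hA i J I g h
  exact ⟨h3, h4, h5, (hC i J I g h).2.2.2⟩

end Cs2

end Vale.Agent.P202.Mix
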