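import Vale.Agent.P202.Mix.GeoDefs
import Vale.Agent.P202.CharP.Les

/-!
P202-MIX, GEO-A2: inequalities from the long exact sequence of a triple, for additive lengths.
-/

namespace Vale.Agent.P202.Mix

open Vale.Agent.P202.CharP
open scoped ENNReal

universe u

section A

variable {R : Type u} [CommRing R] (L : AddLen R) {M N : Type u} [AddCommGroup M] [Module R M]
  [AddCommGroup N] [Module R N]

theorem lenLes_congr (e : M ≃ₗ[R] N) : L.len M = L.len N := by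
  have h := L.add (e : M →ₗ[R] N) (0 : N →ₗ[R] PUnit.{u + 1}) e.injective
    (fun _ => ⟨0, Subsingleton.elim _ _⟩) (by
      intro y
      constructor
      · intro _
        exact ⟨e.symm y, by simp⟩
      · intro _
        rfl)
  rw [h, L.zero, add_zero]

theorem lenLes_rl_of_surjective {K X : Submodule R M} (f : X →ₗ[R] N)
    (hf : Function.Surjective f) (hk : LinearMap.ker f = K.submoduleOf X) :
    L.rl K X = L.len N := by
  rw [AddLen.rl, ← hk]
  exact lenLes_congr L (f.quotKerEquivOfSurjective hf)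

theorem lenLes_rl_inf_left (K X : Submodule R M) : L.rl (K ⊓ X) X = L.rl K X := by
  have : (K ⊓ X).submoduleOf X = K.submoduleOf X := by
    ext x; simp [Submodule.submoduleOf]
  rw [AddLen.rl, AddLen.rl, this]

theorem lenLes_rl_sup_right (K X : Submodule R M) : L.rl K (K ⊔ X) = L.rl K X := by
  have h := LinearMap.quotientInfEquivSupQuotient X K
  have e1 : (Submodule.comap X.subtype X ⊓ Submodule.comap X.subtype K) = K.submoduleOf X := by
    ext x; simp [Submodule.submoduleOf]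
  rw [sup_comm, AddLen.rl, AddLen.rl]
  have := lenLes_congr L h
  rw [e1] at this
  exact this.symm

theorem lenLes_rl_add {K Y X : Submodule R M} (h1 : K ≤ Y) (h2 : Y ≤ X) :
    L.rl K X = L.rl K Y + L.rl Y X := by
  let f : (↥Y ⧸ K.submoduleOf Y) →ₗ[R] (↥X ⧸ K.submoduleOf X) :=
    Submodule.mapQ _ _ (Submodule.inclusion h2) (by intro x hx; exact hx)
  let g : (↥X ⧸ K.submoduleOf X) →ₗ[R] (↥X ⧸ Y.submoduleOf X) :=
    Submodule.factor (by intro x hx; exact h1 hx)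
  refine L.add f g ?_ (Submodule.factor_surjective _) ?_
  · rw [injective_iff_map_eq_zero]
    intro z
    obtain ⟨z, rfl⟩ := Submodule.Quotient.mk_surjective _ z
    intro hz
    have hz' : (Submodule.Quotient.mk (Submodule.inclusion h2 z) : ↥X ⧸ K.submoduleOf X) = 0 := hz
    rw [Submodule.Quotient.mk_eq_zero] at hz' ⊢
    exact hz'
  · rw [LinearMap.exact_iff]
    ext z
    obtain ⟨z, rfl⟩ := Submodule.Quotient.mk_surjective _ z
    constructor
    · intro hz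
      have hz' : z ∈ Y.submoduleOf X := by
        have : (Submodule.Quotient.mk z : ↥X ⧸ Y.submoduleOf X) = 0 := hz
        exact (Submodule.Quotient.mk_eq_zero _).mp this
      exact ⟨Submodule.Quotient.mk ⟨z.1, hz'⟩, rfl⟩
    · rintro ⟨c, hc⟩
      obtain ⟨c, rfl⟩ := Submodule.Quotient.mk_surjective _ c
      rw [← hc]
      change (Submodule.Quotient.mk (Submodule.inclusion h2 c) : ↥X ⧸ Y.submoduleOf X) = 0
      rw [Submodule.Quotient.mk_eq_zero]
      exact c.2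

theorem lenLes_rl_map (f : M →ₗ[R] N) (K X : Submodule R M) :
    L.rl (K.map f) (X.map f) = L.rl (K ⊔ LinearMap.ker f) X := by
  symm
  let g : X →ₗ[R] (↥(X.map f) ⧸ (K.map f).submoduleOf (X.map f)) :=
    (Submodule.mkQ _).comp (f.submoduleMap X)
  refine lenLes_rl_of_surjective L g ?_ ?_
  · exact (Submodule.mkQ_surjective _).comp (f.submoduleMap_surjective X)
  · ext x
    have h1 : x ∈ LinearMap.ker g ↔ f x ∈ K.map f := by
      rw [LinearMap.mem_ker]
      change Submodule.Quotient.mk (f.submoduleMap X x) = _ ↔ _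
      rw [Submodule.Quotient.mk_eq_zero]
      exact Iff.rfl
    have h2 : x ∈ (K ⊔ LinearMap.ker f).submoduleOf X ↔ x.1 ∈ K ⊔ LinearMap.ker f := Iff.rfl
    rw [h1, h2, ← Submodule.comap_map_eq, Submodule.mem_comap]

theorem lenLes_rl_map_right (f : M →ₗ[R] N) (K : Submodule R N) (X : Submodule R M) :
    L.rl K (X.map f) = L.rl (K.comap f) X := by
  have h1 := lenLes_rl_map L f (K.comap f) X
  have hk : LinearMap.ker f ≤ K.comap f := fun x hx => by
    rw [Submodule.mem_comap, LinearMap.mem_ker.mp hx]; exact K.zero_mem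
  rw [sup_of_le_left hk, Submodule.map_comap_eq] at h1
  rw [← h1, ← lenLes_rl_inf_left L K, ← lenLes_rl_inf_left L (LinearMap.range f ⊓ K)]
  congr 1
  have h2 : X.map f ≤ LinearMap.range f := LinearMap.map_le_range
  rw [inf_comm (LinearMap.range f) K, inf_assoc, inf_of_le_right h2]

theorem lenLes_rl_sup (K X : Submodule R M) : L.rl K (X ⊔ K) = L.rl (K ⊓ X) X := by
  rw [sup_comm, lenLes_rl_sup_right, lenLes_rl_inf_left]

theorem lenLes_hh_les (D : M →ₗ[R] M) (hD : ∀ x, D (D x) = 0) (X Y Z : ℤ → Submodule R M)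
    (hX : Stab D X) (hY : Stab D Y) (hZ : Stab D Z) (hXY : ∀ δ, X δ ≤ Y δ)
    (hYZ : ∀ δ, Y δ ≤ Z δ) (δ : ℤ) :
    L.hh D Z X δ = L.rl (bb D Z X δ) (zz D Y X δ ⊔ bb D Z X δ) +
        L.rl (bb D Z Y δ) (zz D Z X δ ⊔ bb D Z Y δ) ∧
      L.hh D Z Y δ = L.rl (bb D Z Y δ) (zz D Z X δ ⊔ bb D Z Y δ) +
        L.rl (bb D Y X (δ - 1)) ((zz D Z Y δ).map D ⊔ bb D Y X (δ - 1)) ∧
      L.hh D Y X δ = L.rl (bb D Y X δ) ((zz D Z Y (δ + 1)).map D ⊔ bb D Y X δ) +
        L.rl (bb D Z X δ) (zz D Y X δ ⊔ bb D Z X δ) := by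
  have hXZ : ∀ δ, X δ ≤ Z δ := fun δ => (hXY δ).trans (hYZ δ)
  have b1 := les_bb_le_zz D hD hX hZ hXZ δ
  have b2 := les_bb_le_zz D hD hY hZ hYZ δ
  have b3 := les_bb_le_zz D hD hX hY hXY δ
  have z1 : zz D Y X δ ≤ zz D Z X δ := inf_le_inf_right _ (hYZ δ)
  have z2 : zz D Z X δ ≤ zz D Z Y δ := inf_le_inf_left _ (Submodule.comap_mono (hXY _))
  have c1 : bb D Z X δ ≤ bb D Z Y δ := sup_le_sup_left (hXY δ) _
  have c2 : bb D Y X δ ≤ bb D Z X δ := sup_le_sup_right (Submodule.map_mono (hYZ _)) _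
  refine ⟨?_, ?_, ?_⟩
  · rw [AddLen.hh, lenLes_rl_add L (le_sup_right : bb D Z X δ ≤ zz D Y X δ ⊔ bb D Z X δ)
      (sup_le z1 b1), lenLes_rl_sup L (bb D Z Y δ)]
    congr 2
    apply le_antisymm
    · refine sup_le (le_inf ?_ z1) (le_inf c1 b1)
      exact inf_le_left.trans le_sup_right
    · rintro x ⟨hx1, hx2⟩
      obtain ⟨_, ⟨z, hz, rfl⟩, y, hy, rfl⟩ := Submodule.mem_sup.mp hx1
      have hy' : y ∈ zz D Y X δ := by
        refine ⟨hy, ?_⟩
        have h1 : D (D z + y) ∈ X (δ - 1) := hx2.2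
        rw [map_add, hD, zero_add] at h1
        exact h1
      rw [add_comm]
      exact Submodule.add_mem_sup hy' (Submodule.mem_sup_left ⟨z, hz, rfl⟩)
  · rw [AddLen.hh, lenLes_rl_add L (le_sup_right : bb D Z Y δ ≤ zz D Z X δ ⊔ bb D Z Y δ)
      (sup_le z2 b2)]
    congr 1
    rw [sup_comm ((zz D Z Y δ).map D), lenLes_rl_sup_right, lenLes_rl_map_right,
      ← lenLes_rl_inf_left L ((bb D Y X (δ - 1)).comap D)]
    congr 1
    apply le_antisymm
    · refine sup_le (le_inf ?_ z2) (le_inf ?_ b2)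
      · intro z hz
        exact Submodule.mem_sup_right hz.2
      · refine sup_le ?_ ?_
        · rintro _ ⟨z, hz, rfl⟩
          rw [Submodule.mem_comap, hD]; exact Submodule.zero_mem _
        · intro y hy
          refine Submodule.mem_sup_left ⟨y, ?_, rfl⟩
          rw [sub_add_cancel]
          exact hy
    · rintro z ⟨hz1, hz2⟩
      obtain ⟨_, ⟨y, hy, rfl⟩, x, hx, he⟩ := Submodule.mem_sup.mp hz1
      rw [sub_add_cancel] at hy
      have h1 : z - y ∈ zz D Z X δ := by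
        refine ⟨Submodule.sub_mem _ hz2.1 (hYZ δ hy), ?_⟩
        change D (z - y) ∈ X (δ - 1)
        rw [map_sub, ← he, add_sub_cancel_left]
        exact hx
      have h2 : z = (z - y) + y := by abel
      rw [h2]
      exact Submodule.add_mem_sup h1 (Submodule.mem_sup_right hy)
  · have d1 : (zz D Z Y (δ + 1)).map D ≤ zz D Y X δ := by
      rintro _ ⟨z, hz, rfl⟩
      refine ⟨?_, ?_⟩
      · have : D z ∈ Y (δ + 1 - 1) := hz.2
        rwa [add_sub_cancel_right] at this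
      · change D (D z) ∈ X (δ - 1)
        rw [hD]; exact Submodule.zero_mem _
    rw [AddLen.hh, lenLes_rl_add L (le_sup_right : bb D Y X δ ≤ (zz D Z Y (δ + 1)).map D ⊔ bb D Y X δ)
      (sup_le d1 b3), lenLes_rl_sup L (bb D Z X δ)]
    congr 2
    apply le_antisymm
    · refine sup_le (le_inf ?_ d1) (le_inf c2 b3)
      rintro _ ⟨z, hz, rfl⟩
      exact Submodule.mem_sup_left ⟨z, hz.1, rfl⟩
    · rintro v ⟨hv1, hv2⟩
      obtain ⟨_, ⟨z, hz, rfl⟩, x, hx, rfl⟩ := Submodule.mem_sup.mp hv1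
      have h1 : D z ∈ Y δ := by
        have := Submodule.sub_mem _ hv2.1 (hXY δ hx)
        rwa [add_sub_cancel_right] at this
      refine Submodule.add_mem_sup ⟨z, ⟨hz, ?_⟩, rfl⟩ (Submodule.mem_sup_right hx)
      change D z ∈ Y (δ + 1 - 1)
      rwa [add_sub_cancel_right]

theorem hh_le_add (D : M →ₗ[R] M) (hD : ∀ x, D (D x) = 0) (X Y Z : ℤ → Submodule R M)
    (hX : Stab D X) (hY : Stab D Y) (hZ : Stab D Z) (hXY : ∀ δ, X δ ≤ Y δ)
    (hYZ : ∀ δ, Y δ ≤ Z δ) (δ : ℤ) : L.hh D Z X δ ≤ L.hh D Z Y δ + L.hh D Y X δ := by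
  obtain ⟨h1, h2, h3⟩ := lenLes_hh_les L D hD X Y Z hX hY hZ hXY hYZ δ
  rw [h1, add_comm]
  refine add_le_add ?_ ?_
  · rw [h2]; exact le_self_add
  · rw [h3]; exact le_add_self

theorem hh_sub_le (D : M →ₗ[R] M) (hD : ∀ x, D (D x) = 0) (X Y Z : ℤ → Submodule R M)
    (hX : Stab D X) (hY : Stab D Y) (hZ : Stab D Z) (hXY : ∀ δ, X δ ≤ Y δ)
    (hYZ : ∀ δ, Y δ ≤ Z δ) (δ : ℤ) : L.hh D Y X δ ≤ L.hh D Z X δ + L.hh D Z Y (δ + 1) := by
  obtain ⟨h1, h2, h3⟩ := lenLes_hh_les L D hD X Y Z hX hY hZ hXY hYZ δ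
  obtain ⟨k1, k2, k3⟩ := lenLes_hh_les L D hD X Y Z hX hY hZ hXY hYZ (δ + 1)
  rw [h3, add_comm]
  refine add_le_add ?_ ?_
  · rw [h1]; exact le_self_add
  · rw [k2, add_sub_cancel_right]; exact le_add_self

theorem hh_quot_le (D : M →ₗ[R] M) (hD : ∀ x, D (D x) = 0) (X Y Z : ℤ → Submodule R M)
    (hX : Stab D X) (hY : Stab D Y) (hZ : Stab D Z) (hXY : ∀ δ, X δ ≤ Y δ)
    (hYZ : ∀ δ, Y δ ≤ Z δ) (δ : ℤ) : L.hh D Z Y δ ≤ L.hh D Z X δ + L.hh D Y X (δ - 1) := by
  obtain ⟨h1, h2, h3⟩ := lenLes_hh_les L D hD X Y Z hX hY hZ hXY hYZ δ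
  obtain ⟨k1, k2, k3⟩ := lenLes_hh_les L D hD X Y Z hX hY hZ hXY hYZ (δ - 1)
  rw [h2]
  refine add_le_add ?_ ?_
  · rw [h1]; exact le_add_self
  · rw [k3, sub_add_cancel]; exact le_self_add

theorem lenLes_hc_eq (d : M →ₗ[R] M) (Y X : ℤ → Submodule R M) (p : ℤ) :
    L.hc d Y X p = L.hh d (fun δ => Y (-δ)) (fun δ => X (-δ)) (-p) := by
  have e1 : - -p = p := neg_neg p
  have e2 : -(-p - 1) = p + 1 := by ring
  have e3 : -(-p + 1) = p - 1 := by ring
  rw [AddLen.hc, AddLen.hh]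
  unfold cb cz bb zz
  dsimp only
  rw [e1, e2, e3]

theorem lenLes_stab {d : M →ₗ[R] M} {X : ℤ → Submodule R M} (hX : CStab d X) :
    Stab d fun δ => X (-δ) := by
  intro δ x hx
  have h := hX (-δ) x hx
  have e : -δ + 1 = -(δ - 1) := by ring
  rw [e] at h
  exact h

theorem hc_le_add (d : M →ₗ[R] M) (hd : ∀ x, d (d x) = 0) (X Y Z : ℤ → Submodule R M)
    (hX : CStab d X) (hY : CStab d Y) (hZ : CStab d Z) (hXY : ∀ p, X p ≤ Y p)
    (hYZ : ∀ p, Y p ≤ Z p) (p : ℤ) : L.hc d Z X p ≤ L.hc d Z Y p + L.hc d Y X p := by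
  rw [lenLes_hc_eq, lenLes_hc_eq, lenLes_hc_eq]
  exact hh_le_add L d hd _ _ _ (lenLes_stab hX) (lenLes_stab hY) (lenLes_stab hZ)
    (fun δ => hXY _) (fun δ => hYZ _) (-p)

end A

end Vale.Agent.P202.Mix
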