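import Vale.Agent.P202.Mix.LenBasic
import Vale.Agent.P202.Mix.LenLes

/-!
P202-MIX, TASK GEO-A3: rows or columns exact up to null modules imply the same for the total
complex of a bigraded family.
-/

namespace Vale.Agent.P202.Mix

open Vale.Agent.P202.CharP
open scoped ENNReal

universe u

section Aux

variable {R : Type u} [CommRing R] (L : AddLen R) {M N : Type u} [AddCommGroup M] [Module R M]
  [AddCommGroup N] [Module R N]

/-- comparison of relative lengths along a linear map. -/
theorem lenTot_rl_le (f : M →ₗ[R] N) {B Z : Submodule R M} {B' Z' : Submodule R N}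
    (hZ : ∀ z ∈ Z, f z ∈ Z') (hB : ∀ z ∈ Z, f z ∈ B' → z ∈ B) : L.rl B Z ≤ L.rl B' Z' := by
  calc L.rl B Z ≤ L.rl (B'.comap f ⊓ Z) Z := rl_anti_left L fun z hz => hB z hz.2 hz.1
    _ = L.rl (B'.comap f) Z := rl_inf_left L _ _
    _ = L.rl B' (Z.map f) := (lenLes_rl_map_right L f B' Z).symm
    _ ≤ L.rl B' Z' := rl_mono_right L (by rintro _ ⟨z, hz, rfl⟩; exact hZ z hz)

theorem lenTot_hh_self (D : M →ₗ[R] M) (X : ℤ → Submodule R M) (δ : ℤ) : L.hh D X X δ = 0 :=
  rl_eq_zero_of_le L (inf_le_left.trans le_sup_right)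

variable {V : Type u} [AddCommGroup V] [Module R V]

theorem lenTot_mem {X : ℤ → ℤ → Submodule R V} {δ : ℤ} {z : ℤ → V} :
    z ∈ TT X δ ↔ ∀ i, z i ∈ X i (i - δ) :=
  ⟨fun h i => h i trivial, fun h i _ => h i⟩

theorem lenTot_apply (d e : V →ₗ[R] V) (z : ℤ → V) (i : ℤ) :
    totD d e z i = (i.negOnePow : ℤ) • d (z i) + e (z (i + 1)) := rfl

theorem lenTot_mono {X Y : ℤ → ℤ → Submodule R V} (h : ∀ i p, X i p ≤ Y i p) (δ : ℤ) :
    TT X δ ≤ TT Y δ := fun _ hz => lenTot_mem.2 fun i => h _ _ (lenTot_mem.1 hz i)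

end Aux

section Tot

variable {R : Type u} [CommRing R] (L : AddLen R) {V : Type u} [AddCommGroup V] [Module R V]
  (n : ℕ) (d e : V →ₗ[R] V) (hdd : ∀ v, d (d v) = 0) (hee : ∀ v, e (e v) = 0)
  (hde : ∀ v, d (e v) = e (d v))

include hdd hee hde

/-! #### TASK GEO-A3: bigraded families -/

theorem totD_sq (z : ℤ → V) : totD d e (totD d e z) = 0 := by
  funext i
  simp only [lenTot_apply, map_add, map_zsmul, map_neg, hdd, hee, hde, smul_zero, zero_add,
    add_zero, Pi.zero_apply, Int.negOnePow_succ, Units.val_neg, neg_smul]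
  abel

theorem stab_TT (X : ℤ → ℤ → Submodule R V) (hX : BStab d e X) : Stab (totD d e) (TT X) := by
  intro δ z hz
  rw [lenTot_mem] at hz ⊢
  intro i
  rw [lenTot_apply]
  refine Submodule.add_mem _ ?_ ?_
  · have h := hX.hd _ _ _ (hz i)
    rw [show i - δ + 1 = i - (δ - 1) by ring] at h
    exact zsmul_mem h _
  · have h := hX.he _ _ _ (hz (i + 1))
    rw [show i + 1 - 1 = i by ring, show i + 1 - δ = i - (δ - 1) by ring] at h
    exact h

end Tot

section Filt

variable {R : Type u} [CommRing R] (L : AddLen R) {V : Type u} [AddCommGroup V] [Module R V]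
  {d e : V →ₗ[R] V}

/-- the filtration by rows. -/
def lenTotF (X Y : ℤ → ℤ → Submodule R V) (m i p : ℤ) : Submodule R V :=
  if i ≤ m then Y i p else X i p

theorem lenTotF_of_le {X Y : ℤ → ℤ → Submodule R V} {m i : ℤ} (h : i ≤ m) (p : ℤ) :
    lenTotF X Y m i p = Y i p := if_pos h

theorem lenTotF_of_lt {X Y : ℤ → ℤ → Submodule R V} {m i : ℤ} (h : m < i) (p : ℤ) :
    lenTotF X Y m i p = X i p := if_neg (not_le.2 h)

theorem lenTotF_ge {X Y : ℤ → ℤ → Submodule R V} (hXY : ∀ i p, X i p ≤ Y i p) (m i p : ℤ) :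
    X i p ≤ lenTotF X Y m i p := by
  unfold lenTotF
  split_ifs
  exacts [hXY i p, le_rfl]

theorem lenTotF_mono {X Y : ℤ → ℤ → Submodule R V} (hXY : ∀ i p, X i p ≤ Y i p) {m m' : ℤ}
    (h : m ≤ m') (i p : ℤ) : lenTotF X Y m i p ≤ lenTotF X Y m' i p := by
  rcases le_or_gt i m with hi | hi
  · rw [lenTotF_of_le hi, lenTotF_of_le (hi.trans h)]
  · rw [lenTotF_of_lt hi]
    exact lenTotF_ge hXY m' i p

theorem lenTotF_bstab {X Y : ℤ → ℤ → Submodule R V} (hX : BStab d e X) (hY : BStab d e Y)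
    (hXY : ∀ i p, X i p ≤ Y i p) (m : ℤ) : BStab d e (lenTotF X Y m) := by
  constructor
  · intro i p x hx
    rcases le_or_gt i m with hi | hi
    · rw [lenTotF_of_le hi] at hx ⊢
      exact hY.hd i p x hx
    · rw [lenTotF_of_lt hi] at hx ⊢
      exact hX.hd i p x hx
  · intro i p x hx
    rcases le_or_gt i m with hi | hi
    · rw [lenTotF_of_le hi] at hx
      rw [lenTotF_of_le (by omega : i - 1 ≤ m)]
      exact hY.he i p x hx
    · rw [lenTotF_of_lt hi] at hx
      exact lenTotF_ge hXY m _ _ (hX.he i p x hx)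

theorem lenTot_row_step {X Y : ℤ → ℤ → Submodule R V} (hX : BStab d e X) (hY : BStab d e Y)
    (m δ : ℤ) :
    L.hh (totD d e) (TT (lenTotF X Y m)) (TT (lenTotF X Y (m - 1))) δ ≤
      L.hc d (Y m) (X m) (m - δ) := by
  refine lenTot_rl_le L (LinearMap.proj m) ?_ ?_
  · rintro z ⟨hz1, hz2⟩
    have hz2' : totD d e z ∈ TT (lenTotF X Y (m - 1)) (δ - 1) := hz2
    rw [SetLike.mem_coe, lenTot_mem] at hz1
    rw [lenTot_mem] at hz2'
    have h1 := hz1 m
    rw [lenTotF_of_le le_rfl] at h1
    have h2 := hz2' m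
    rw [lenTotF_of_lt (by omega), lenTot_apply, show m - (δ - 1) = m - δ + 1 by ring] at h2
    have h3 := hz1 (m + 1)
    rw [lenTotF_of_lt (by omega)] at h3
    have h4 := hX.he _ _ _ h3
    rw [show m + 1 - 1 = m by ring, show m + 1 - δ = m - δ + 1 by ring] at h4
    have h5 := Submodule.sub_mem _ h2 h4
    rw [add_sub_cancel_right] at h5
    refine ⟨h1, ?_⟩
    change d (z m) ∈ X m (m - δ + 1)
    rcases Int.units_eq_one_or m.negOnePow with hs | hs
    · rw [hs, Units.val_one, one_smul] at h5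
      exact h5
    · rw [hs, Units.val_neg, Units.val_one, neg_smul, one_smul] at h5
      exact neg_mem_iff.1 h5
  · rintro z ⟨hz1, hz2⟩ hz
    rw [SetLike.mem_coe, lenTot_mem] at hz1
    have hz' : z m ∈ cb d (Y m) (X m) (m - δ) := hz
    obtain ⟨_, ⟨y, hy, rfl⟩, x, hx, he⟩ := Submodule.mem_sup.1 hz'
    have hy' : y ∈ Y m (m - δ - 1) := hy
    have hD : ∀ i, totD d e (Pi.single m ((m.negOnePow : ℤ) • y)) i =
        (if i = m then d y else 0) + (if i + 1 = m then (m.negOnePow : ℤ) • e y else 0) := by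
      intro i
      rw [lenTot_apply]
      congr 1
      · by_cases hi : i = m
        · subst hi
          rw [Pi.single_eq_same, if_pos rfl, map_zsmul, smul_smul]
          rcases Int.units_eq_one_or i.negOnePow with hs | hs <;> rw [hs] <;> simp
        · rw [Pi.single_eq_of_ne hi, if_neg hi, map_zero, smul_zero]
      · by_cases hi : i + 1 = m
        · subst hi
          rw [Pi.single_eq_same, if_pos rfl, map_zsmul]
        · rw [Pi.single_eq_of_ne hi, if_neg hi, map_zero]
    have h1 : z = totD d e (Pi.single m ((m.negOnePow : ℤ) • y)) +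
        (z - totD d e (Pi.single m ((m.negOnePow : ℤ) • y))) := by abel
    rw [h1]
    refine Submodule.add_mem_sup ⟨_, ?_, rfl⟩ ?_
    · rw [SetLike.mem_coe, lenTot_mem]
      intro i
      by_cases hi : i = m
      · subst hi
        rw [Pi.single_eq_same, lenTotF_of_le le_rfl, show i - (δ + 1) = i - δ - 1 by ring]
        exact zsmul_mem hy' _
      · rw [Pi.single_eq_of_ne hi]
        exact Submodule.zero_mem _
    · rw [lenTot_mem]
      intro i
      rw [Pi.sub_apply, hD]
      by_cases hi : i = m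
      · subst hi
        rw [if_pos rfl, if_neg (by omega), add_zero, ← he, add_sub_cancel_left,
          lenTotF_of_lt (by omega)]
        exact hx
      · rw [if_neg hi, zero_add]
        have h2 : z i ∈ lenTotF X Y (m - 1) i (i - δ) := by
          have h3 := hz1 i
          rcases lt_or_gt_of_ne hi with h4 | h4
          · rw [lenTotF_of_le (by omega)] at h3 ⊢
            exact h3
          · rw [lenTotF_of_lt (by omega)] at h3 ⊢
            exact h3
        by_cases hj : i + 1 = m
        · rw [if_pos hj]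
          refine Submodule.sub_mem _ h2 (zsmul_mem ?_ _)
          rw [lenTotF_of_le (by omega)]
          have h5 := hY.he _ _ _ hy'
          rw [show m - 1 = i by omega, show m - δ - 1 = i - δ by omega] at h5
          exact h5
        · rw [if_neg hj, sub_zero]
          exact h2

/-- the filtration by columns. -/
def lenTotG (X Y : ℤ → ℤ → Submodule R V) (m i p : ℤ) : Submodule R V :=
  if m ≤ p then Y i p else X i p

theorem lenTotG_of_le {X Y : ℤ → ℤ → Submodule R V} {m p : ℤ} (h : m ≤ p) (i : ℤ) :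
    lenTotG X Y m i p = Y i p := if_pos h

theorem lenTotG_of_lt {X Y : ℤ → ℤ → Submodule R V} {m p : ℤ} (h : p < m) (i : ℤ) :
    lenTotG X Y m i p = X i p := if_neg (not_le.2 h)

theorem lenTotG_ge {X Y : ℤ → ℤ → Submodule R V} (hXY : ∀ i p, X i p ≤ Y i p) (m i p : ℤ) :
    X i p ≤ lenTotG X Y m i p := by
  unfold lenTotG
  split_ifs
  exacts [hXY i p, le_rfl]

theorem lenTotG_anti {X Y : ℤ → ℤ → Submodule R V} (hXY : ∀ i p, X i p ≤ Y i p) {m m' : ℤ}
    (h : m' ≤ m) (i p : ℤ) : lenTotG X Y m i p ≤ lenTotG X Y m' i p := by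
  rcases le_or_gt m p with hi | hi
  · rw [lenTotG_of_le hi, lenTotG_of_le (h.trans hi)]
  · rw [lenTotG_of_lt hi]
    exact lenTotG_ge hXY m' i p

theorem lenTotG_bstab {X Y : ℤ → ℤ → Submodule R V} (hX : BStab d e X) (hY : BStab d e Y)
    (hXY : ∀ i p, X i p ≤ Y i p) (m : ℤ) : BStab d e (lenTotG X Y m) := by
  constructor
  · intro i p x hx
    rcases le_or_gt m p with hi | hi
    · rw [lenTotG_of_le hi] at hx
      rw [lenTotG_of_le (by omega : m ≤ p + 1)]
      exact hY.hd i p x hx
    · rw [lenTotG_of_lt hi] at hx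
      exact lenTotG_ge hXY m _ _ (hX.hd i p x hx)
  · intro i p x hx
    rcases le_or_gt m p with hi | hi
    · rw [lenTotG_of_le hi] at hx ⊢
      exact hY.he i p x hx
    · rw [lenTotG_of_lt hi] at hx ⊢
      exact hX.he i p x hx

theorem lenTot_col_step {X Y : ℤ → ℤ → Submodule R V} (hX : BStab d e X) (hY : BStab d e Y)
    (m δ : ℤ) :
    L.hh (totD d e) (TT (lenTotG X Y m)) (TT (lenTotG X Y (m + 1))) δ ≤
      L.hh e (fun i' => Y i' m) (fun i' => X i' m) (δ + m) := by
  refine lenTot_rl_le L (LinearMap.proj (δ + m)) ?_ ?_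
  · rintro z ⟨hz1, hz2⟩
    have hz2' : totD d e z ∈ TT (lenTotG X Y (m + 1)) (δ - 1) := hz2
    rw [SetLike.mem_coe, lenTot_mem] at hz1
    rw [lenTot_mem] at hz2'
    have h1 := hz1 (δ + m)
    rw [show δ + m - δ = m by ring, lenTotG_of_le le_rfl] at h1
    have h2 := hz2' (δ + m - 1)
    rw [show δ + m - 1 - (δ - 1) = m by ring, lenTotG_of_lt (by omega), lenTot_apply,
      show δ + m - 1 + 1 = δ + m by ring] at h2
    have h3 := hz1 (δ + m - 1)
    rw [show δ + m - 1 - δ = m - 1 by ring, lenTotG_of_lt (by omega)] at h3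
    have h4 := hX.hd _ _ _ h3
    rw [show m - 1 + 1 = m by ring] at h4
    have h5 := Submodule.sub_mem _ h2 (zsmul_mem h4 ((δ + m - 1).negOnePow : ℤ))
    rw [add_sub_cancel_left] at h5
    exact ⟨h1, h5⟩
  · rintro z ⟨hz1, hz2⟩ hz
    rw [SetLike.mem_coe, lenTot_mem] at hz1
    have hz' : z (δ + m) ∈ bb e (fun i' => Y i' m) (fun i' => X i' m) (δ + m) := hz
    obtain ⟨_, ⟨y, hy, rfl⟩, x, hx, he⟩ := Submodule.mem_sup.1 hz'
    have hy' : y ∈ Y (δ + m + 1) m := hy
    have hx' : x ∈ X (δ + m) m := hx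
    have hD : ∀ i, totD d e (Pi.single (δ + m + 1) y) i =
        (if i = δ + m + 1 then (i.negOnePow : ℤ) • d y else 0) +
          (if i = δ + m then e y else 0) := by
      intro i
      rw [lenTot_apply]
      congr 1
      · by_cases hi : i = δ + m + 1
        · subst hi
          rw [Pi.single_eq_same, if_pos rfl]
        · rw [Pi.single_eq_of_ne hi, if_neg hi, map_zero, smul_zero]
      · by_cases hi : i = δ + m
        · subst hi
          rw [Pi.single_eq_same, if_pos rfl]
        · rw [Pi.single_eq_of_ne (by omega : i + 1 ≠ δ + m + 1), if_neg hi, map_zero]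
    have h1 : z = totD d e (Pi.single (δ + m + 1) y) +
        (z - totD d e (Pi.single (δ + m + 1) y)) := by abel
    rw [h1]
    refine Submodule.add_mem_sup ⟨_, ?_, rfl⟩ ?_
    · rw [SetLike.mem_coe, lenTot_mem]
      intro i
      by_cases hi : i = δ + m + 1
      · subst hi
        rw [Pi.single_eq_same, show δ + m + 1 - (δ + 1) = m by ring, lenTotG_of_le le_rfl]
        exact hy'
      · rw [Pi.single_eq_of_ne hi]
        exact Submodule.zero_mem _
    · rw [lenTot_mem]
      intro i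
      rw [Pi.sub_apply, hD]
      by_cases hi : i = δ + m
      · subst hi
        rw [if_neg (by omega), if_pos rfl, zero_add, ← he, show δ + m - δ = m by ring,
          lenTotG_of_lt (by omega), add_sub_cancel_left]
        exact hx'
      · rw [if_neg hi, add_zero]
        have h2 : z i ∈ lenTotG X Y (m + 1) i (i - δ) := by
          have h3 := hz1 i
          rcases lt_or_gt_of_ne hi with h4 | h4
          · rw [lenTotG_of_lt (by omega)] at h3 ⊢
            exact h3
          · rw [lenTotG_of_le (by omega)] at h3 ⊢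
            exact h3
        by_cases hj : i = δ + m + 1
        · rw [if_pos hj]
          refine Submodule.sub_mem _ h2 (zsmul_mem ?_ _)
          rw [lenTotG_of_le (by omega)]
          have h5 := hY.hd _ _ _ hy'
          rw [show δ + m + 1 = i by omega, show m + 1 = i - δ by omega] at h5
          exact h5
        · rw [if_neg hj, sub_zero]
          exact h2

/-- the homology in degree `δ` only depends on the degrees `δ - 1`, `δ`, `δ + 1`. -/
theorem lenTot_hh_congr {M : Type u} [AddCommGroup M] [Module R M] (D : M →ₗ[R] M)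
    {X X' Y Y' : ℤ → Submodule R M} {δ : ℤ} (h1 : X (δ - 1) = X' (δ - 1)) (h2 : X δ = X' δ)
    (h3 : Y δ = Y' δ) (h4 : Y (δ + 1) = Y' (δ + 1)) : L.hh D Y X δ = L.hh D Y' X' δ := by
  unfold AddLen.hh bb zz
  rw [h1, h2, h3, h4]

end Filt

section Tot

variable {R : Type u} [CommRing R] (L : AddLen R) {V : Type u} [AddCommGroup V] [Module R V]
  (n : ℕ) (d e : V →ₗ[R] V) (hdd : ∀ v, d (d v) = 0) (hee : ∀ v, e (e v) = 0)
  (hde : ∀ v, d (e v) = e (d v))

include hdd hee hde

/-- rows exact up to null modules ⟹ total complex exact up to null modules. -/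
theorem row_null (X Y : ℤ → ℤ → Submodule R V) (hX : BStab d e X) (hY : BStab d e Y)
    (hXY : ∀ i p, X i p ≤ Y i p) (hout : BBox n Y) (δ : ℤ)
    (h : ∀ i, 0 ≤ i → i ≤ n → L.hc d (Y i) (X i) (i - δ) = 0) :
    L.hh (totD d e) (TT Y) (TT X) δ = 0 := by
  have hXo : ∀ i p, (i < 0 ∨ (n : ℤ) < i) → X i p = ⊥ := fun i p hi =>
    le_bot_iff.1 ((hXY i p).trans (hout i p hi).le)
  have key : ∀ k : ℕ, k ≤ n + 1 →
      L.hh (totD d e) (TT (lenTotF X Y ((k : ℤ) - 1))) (TT X) δ = 0 := by
    intro k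
    induction k with
    | zero =>
      intro _
      have : lenTotF X Y (((0 : ℕ) : ℤ) - 1) = X := by
        funext i p
        rcases le_or_gt i (((0 : ℕ) : ℤ) - 1) with hi | hi
        · rw [lenTotF_of_le hi, hout i p (Or.inl (by push_cast at hi; omega)),
            hXo i p (Or.inl (by push_cast at hi; omega))]
        · rw [lenTotF_of_lt hi]
      rw [this]
      exact lenTot_hh_self L _ _ _
    | succ k ih =>
      intro hk
      have h1 := hh_le_add L (totD d e) (totD_sq d e hdd hee hde) (TT X)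
        (TT (lenTotF X Y ((k : ℤ) - 1))) (TT (lenTotF X Y (((k + 1 : ℕ) : ℤ) - 1)))
        (stab_TT d e hdd hee hde X hX)
        (stab_TT d e hdd hee hde _ (lenTotF_bstab hX hY hXY _))
        (stab_TT d e hdd hee hde _ (lenTotF_bstab hX hY hXY _))
        (lenTot_mono (lenTotF_ge hXY _)) (lenTot_mono (lenTotF_mono hXY (by push_cast; omega))) δ
      rw [ih (by omega), add_zero] at h1
      refine le_antisymm (h1.trans ?_) zero_le
      have h2 := lenTot_row_step L hX hY (k : ℤ) δ
      rw [h k (by omega) (by omega)] at h2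
      rw [show ((k + 1 : ℕ) : ℤ) - 1 = (k : ℤ) by push_cast; ring]
      exact h2
  have h1 := key (n + 1) le_rfl
  have h2 : lenTotF X Y (((n + 1 : ℕ) : ℤ) - 1) = Y := by
    funext i p
    rcases le_or_gt i (((n + 1 : ℕ) : ℤ) - 1) with hi | hi
    · rw [lenTotF_of_le hi]
    · rw [lenTotF_of_lt hi, hout i p (Or.inr (by push_cast at hi; omega)),
        hXo i p (Or.inr (by push_cast at hi; omega))]
  rw [h2] at h1
  exact h1

/-- columns exact up to null modules ⟹ total complex exact up to null modules. -/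
theorem col_null (X Y : ℤ → ℤ → Submodule R V) (hX : BStab d e X) (hY : BStab d e Y)
    (hXY : ∀ i p, X i p ≤ Y i p) (hout : BBox n Y) (δ : ℤ)
    (h : ∀ i, 0 ≤ i → i ≤ n →
      L.hh e (fun i' => Y i' (i - δ)) (fun i' => X i' (i - δ)) i = 0) :
    L.hh (totD d e) (TT Y) (TT X) δ = 0 := by
  have hXo : ∀ i p, (i < 0 ∨ (n : ℤ) < i) → X i p = ⊥ := fun i p hi =>
    le_bot_iff.1 ((hXY i p).trans (hout i p hi).le)
  -- the columns `p = m`, in all degrees
  have hcol : ∀ m : ℤ, L.hh e (fun i' => Y i' m) (fun i' => X i' m) (δ + m) = 0 := by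
    intro m
    by_cases hm : 0 ≤ δ + m ∧ δ + m ≤ n
    · obtain ⟨i, hi⟩ := Int.eq_ofNat_of_zero_le hm.1
      have h1 := h i (Nat.zero_le i) (by have := hm.2; omega)
      rw [← hi, show δ + m - δ = m by ring] at h1
      exact h1
    · refine rl_eq_zero_of_le L ?_
      refine inf_le_left.trans ?_
      change Y (δ + m) m ≤ _
      rw [hout _ _ (by omega)]
      exact bot_le
  have key : ∀ k : ℕ,
      L.hh (totD d e) (TT (lenTotG X Y ((n : ℤ) - δ + 2 - k))) (TT X) δ = 0 := by
    intro k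
    induction k with
    | zero =>
      have h1 : ∀ δ', δ - 1 ≤ δ' → TT (lenTotG X Y ((n : ℤ) - δ + 2 - (0 : ℕ))) δ' = TT X δ' := by
        intro δ' hδ'
        unfold TT
        congr 1
        funext i
        rcases le_or_gt ((n : ℤ) - δ + 2 - (0 : ℕ)) (i - δ') with hi | hi
        · rw [lenTotG_of_le hi, hout _ _ (Or.inr (by push_cast at hi; omega)),
            hXo _ _ (Or.inr (by push_cast at hi; omega))]
        · rw [lenTotG_of_lt hi]
      rw [lenTot_hh_congr L (totD d e) (X' := TT X) (Y' := TT X) rfl rfl (h1 _ (by omega))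
        (h1 _ (by omega))]
      exact lenTot_hh_self L _ _ _
    | succ k ih =>
      have h1 := hh_le_add L (totD d e) (totD_sq d e hdd hee hde) (TT X)
        (TT (lenTotG X Y ((n : ℤ) - δ + 2 - k)))
        (TT (lenTotG X Y ((n : ℤ) - δ + 2 - ((k + 1 : ℕ) : ℤ))))
        (stab_TT d e hdd hee hde X hX)
        (stab_TT d e hdd hee hde _ (lenTotG_bstab hX hY hXY _))
        (stab_TT d e hdd hee hde _ (lenTotG_bstab hX hY hXY _))
        (lenTot_mono (lenTotG_ge hXY _)) (lenTot_mono (lenTotG_anti hXY (by push_cast; omega))) δ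
      rw [ih, add_zero] at h1
      refine le_antisymm (h1.trans ?_) zero_le
      have h2 := lenTot_col_step L hX hY ((n : ℤ) - δ + 2 - ((k + 1 : ℕ) : ℤ)) δ
      rw [hcol, show (n : ℤ) - δ + 2 - ((k + 1 : ℕ) : ℤ) + 1 = (n : ℤ) - δ + 2 - k by
        push_cast; ring] at h2
      exact h2
  have h1 : ∀ δ', δ' ≤ δ + 1 →
      TT (lenTotG X Y ((n : ℤ) - δ + 2 - ((n + 3 : ℕ) : ℤ))) δ' = TT Y δ' := by
    intro δ' hδ'
    unfold TT
    congr 1
    funext i
    rcases le_or_gt ((n : ℤ) - δ + 2 - ((n + 3 : ℕ) : ℤ)) (i - δ') with hi | hi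
    · rw [lenTotG_of_le hi]
    · rw [lenTotG_of_lt hi, hout _ _ (Or.inl (by push_cast at hi; omega)),
        hXo _ _ (Or.inl (by push_cast at hi; omega))]
  rw [← lenTot_hh_congr L (totD d e) (X := TT X) (X' := TT X) rfl rfl (h1 _ (by omega))
    (h1 _ (by omega))]
  exact key (n + 3)

end Tot

end Vale.Agent.P202.Mix
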