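import Vale.Agent.P202.Mix.LenBasic
import Vale.Agent.P202.Mix.CellOps
import Vale.Agent.P202.Mix.CellStab
import Vale.Agent.P202.Mix.LenTot
import Vale.Agent.P202.Mix.CellStrand

/-!
P202-MIX, part GEO, task B6: `Y_{w₀} / Y_w` is acyclic.
-/

namespace Vale.Agent.P202.Mix

open Vale.Agent.P202.CharP
open scoped ENNReal

universe u

section

variable {R : Type u} [CommRing R]

/-- exactness of `Z / Y` and of `Y / X` gives exactness of `Z / X`. -/
theorem zz_bb_trans {M : Type u} [AddCommGroup M] [Module R M] (D : M →ₗ[R] M)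
    (hD : ∀ x, D (D x) = 0) (X Y Z : ℤ → Submodule R M) (hXY : ∀ δ, X δ ≤ Y δ)
    (hYZ : ∀ δ, Y δ ≤ Z δ) (δ : ℤ) (h1 : zz D Y X δ ≤ bb D Y X δ)
    (h2 : zz D Z Y δ ≤ bb D Z Y δ) : zz D Z X δ ≤ bb D Z X δ := by
  intro z hz
  obtain ⟨hz1, hz2⟩ := Submodule.mem_inf.1 hz
  rw [Submodule.mem_comap] at hz2
  have h3 := h2 (Submodule.mem_inf.2 ⟨hz1, hXY _ hz2⟩)
  obtain ⟨_, ⟨z', hz', rfl⟩, y, hy, rfl⟩ := Submodule.mem_sup.1 h3
  have h4 : D y ∈ X (δ - 1) := by
    rw [map_add, hD, zero_add] at hz2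
    exact hz2
  have h5 := h1 (Submodule.mem_inf.2 ⟨hy, h4⟩)
  obtain ⟨_, ⟨y', hy', rfl⟩, x, hx, rfl⟩ := Submodule.mem_sup.1 h5
  refine Submodule.mem_sup.2 ⟨D (z' + y'), ⟨z' + y', ?_, rfl⟩, x, hx, ?_⟩
  · exact Submodule.add_mem _ hz' (hYZ _ hy')
  · rw [map_add, add_assoc]

variable {Q : Type u} [AddCommGroup Q] [Module R Q] {V W : Type u} [AddCommGroup V] [Module R V]
  [AddCommGroup W] [Module R W] {r : ℕ}

theorem mem_TT {M : Type u} [AddCommGroup M] [Module R M] (X : ℤ → ℤ → Submodule R M) (δ : ℤ)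
    (z : ℤ → M) : z ∈ TT X δ ↔ ∀ i, z i ∈ X i (i - δ) := by
  simp [TT, Submodule.mem_pi]

theorem mem_CF (a : Fin r → ℤ) (B : ℤ) (c : ℤ → Gz r → Submodule R Q) (i p : ℤ) (v : KV r Q) :
    v ∈ CF a B c i p ↔ ∀ J I g, v J I g ∈ CV a B c i p J I g := Iff.rfl

theorem mem_CV (a : Fin r → ℤ) (B : ℤ) (c : ℤ → Gz r → Submodule R Q) (i p : ℤ)
    (J : Finset (Fin (r + 1))) (I : Finset (Fin r)) (g : Gz r) (y : Q) :
    y ∈ CV a B c i p J I g ↔
      (¬ ((J.card : ℤ) = i ∧ (I.card : ℤ) = p ∧ inF B I g) → y = 0) ∧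
      ((J.card : ℤ) = i ∧ (I.card : ℤ) = p ∧ inF B I g → ¬ inG a I g → y ∈ c i g) := by
  unfold CV
  split_ifs with h1 h2
  · simp [h1, h2]
  · simp [h1, h2]
  · simp [h1]

theorem totX_apply (z : ℤ → KV r V) (i : ℤ) (J : Finset (Fin (r + 1))) (I : Finset (Fin r))
    (g : Gz r) : totD (dK R V r) (eX R V r) z i J I g =
      (i.negOnePow : ℤ) • (∑ k ∈ I, ksg k I • z i J (I.erase k) g) +
        ∑ l ∈ Jᶜ, ksg l J • ∑ L ∈ (Finset.univ : Finset (Fin r)).powersetCard l,
          z (i + 1) (insert l J) I (g - exz L) := by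
  simp [totD, dK, kmap, dU, eX, kz, XU, Finset.sum_apply]

theorem totK_apply (x : Fin (r + 1) → R) (z : ℤ → KV r V) (i : ℤ) (J : Finset (Fin (r + 1)))
    (I : Finset (Fin r)) (g : Gz r) : totD (dK R V r) (eK V x) z i J I g =
      totD (dK R V r) (eX R V r) z i J I g -
        ∑ l ∈ Jᶜ, ksg l J • x l • z (i + 1) (insert l J) I g := by
  rw [totX_apply]
  simp [totD, dK, kmap, dU, eK, kz, XU, Finset.sum_apply, smul_sub, Finset.sum_sub_distrib]
  abel

/-- post-composition with a linear map. -/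
def fm (r : ℕ) (f : V →ₗ[R] W) (z : ℤ → KV r V) : ℤ → KV r W := fun i J I g => f (z i J I g)

theorem totX_fm (f : V →ₗ[R] W) (z : ℤ → KV r V) :
    totD (dK R W r) (eX R W r) (fm r f z) = fm r f (totD (dK R V r) (eX R V r) z) := by
  ext i J I g
  rw [fm, totX_apply, totX_apply]
  simp only [fm, map_add, map_zsmul, map_sum]

/-! ### powers of `x` -/

theorem xpw_anti (x : Fin (r + 1) → R) {m m' : ℤ} (h : m ≤ m') : xpw Q x m' ≤ xpw Q x m :=
  Submodule.smul_mono_left (Ideal.pow_le_pow_right (Int.toNat_le_toNat h))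

theorem xpw_nonpos (x : Fin (r + 1) → R) {m : ℤ} (h : m ≤ 0) : xpw Q x m = ⊤ := by
  rw [xpw, Int.toNat_eq_zero.2 h, pow_zero, Ideal.one_eq_top, Submodule.top_smul]

theorem smul_mem_xpw (x : Fin (r + 1) → R) {m : ℤ} {y : Q} (hy : y ∈ xpw Q x m)
    (l : Fin (r + 1)) : x l • y ∈ xpw Q x (m + 1) := by
  rcases lt_or_ge m 0 with hm | hm
  · rw [xpw_nonpos x (by omega)]
    trivial
  · have h1 : (m + 1).toNat = m.toNat + 1 := by omega
    rw [xpw, h1, pow_succ', Submodule.mul_smul]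
    exact Submodule.smul_mem_smul (Ideal.subset_span ⟨l, rfl⟩) hy

/-- intermediate coefficients between `Y_w` and `Y_{w+1}`. -/
def mc (Q : Type u) [AddCommGroup Q] [Module R Q] (x : Fin (r + 1) → R) (w ν i : ℤ) (g : Gz r) :
    Submodule R Q :=
  if ν ≤ w - i - g.2 then xpw Q x (w - i - g.2) else xpw Q x (w - i - g.2 + 1)

theorem mc_zero (x : Fin (r + 1) → R) (w i : ℤ) (g : Gz r) :
    mc Q x w 0 i g = xpw Q x (w - i - g.2) := by
  unfold mc
  split_ifs with h
  · rfl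
  · rw [xpw_nonpos x (by omega), xpw_nonpos x (by omega)]

theorem mc_top (x : Fin (r + 1) → R) (N : ℕ) (hN : xpw Q x N = ⊥) (w i : ℤ) (g : Gz r) :
    mc Q x w N i g = xpw Q x (w + 1 - i - g.2) := by
  unfold mc
  split_ifs with h
  · have h1 : xpw Q x (w - i - g.2) ≤ ⊥ := hN ▸ xpw_anti x h
    have h2 : xpw Q x (w + 1 - i - g.2) ≤ ⊥ := hN ▸ xpw_anti x (by omega)
    rw [le_bot_iff.1 h1, le_bot_iff.1 h2]
  · congr 1
    ring

theorem mc_anti (x : Fin (r + 1) → R) (w ν i : ℤ) (g : Gz r) :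
    mc Q x w (ν + 1) i g ≤ mc Q x w ν i g := by
  unfold mc
  split_ifs with h1 h2 h2
  · exact le_rfl
  · omega
  · exact xpw_anti x (by omega)
  · exact le_rfl

theorem bstab_mc (a : Fin r → ℤ) (B : ℤ) (x : Fin (r + 1) → R) (w ν : ℤ) :
    BStab (dK R Q r) (eK Q x) (CF a B (mc Q x w ν)) where
  hd i p v hv := CF_dK a B _ i p v hv
  he i p v hv := by
    refine CF_eK a B x _ _ i p ?_ ?_ v hv
    · intro g L
      unfold mc
      have h1 : (g - exz L).2 = g.2 - 1 := rfl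
      rw [h1]
      have h2 : w - i - (g.2 - 1) = w - (i - 1) - g.2 := by ring
      rw [h2]
    · rintro g l _ ⟨y, hy, rfl⟩
      show x l • y ∈ _
      have hy' : y ∈ mc Q x w ν i g := hy
      unfold mc at hy' ⊢
      have h2 : w - (i - 1) - g.2 = w - i - g.2 + 1 := by ring
      rw [h2]
      by_cases h3 : ν ≤ w - i - g.2
      · rw [if_pos h3] at hy'
        rw [if_pos (by omega)]
        exact smul_mem_xpw x hy' l
      · rw [if_neg h3] at hy'
        have h5 := smul_mem_xpw x hy' l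
        by_cases h4 : ν ≤ w - i - g.2 + 1
        · rw [if_pos h4]
          exact xpw_anti x (by omega) h5
        · rw [if_neg h4]
          exact h5

theorem inG_erase (a : Fin r → ℤ) {I : Finset (Fin r)} {g : Gz r} (h : ¬ inG a I g) (k : Fin r) :
    ¬ inG a (I.erase k) g := by
  rintro ⟨l, hl, h'⟩
  exact h ⟨l, Finset.mem_of_mem_erase hl, h'⟩

theorem inG_sub (a : Fin r → ℤ) {I : Finset (Fin r)} {g : Gz r} (h : ¬ inG a I g)
    (L : Finset (Fin r)) : ¬ inG a I (g - exz L) := by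
  rintro ⟨l, hl, h'⟩
  refine h ⟨l, hl, ?_⟩
  have h1 : (g - exz L).2 = g.2 - 1 := rfl
  have h2 : (g - exz L).1 l = g.1 l - if l ∈ L then 1 else 0 := rfl
  rw [h1, h2] at h'
  split_ifs at h' <;> omega

open Classical in
/-- restriction to the cells outside of `G` on the strand `t`. -/
noncomputable def tr (a : Fin r → ℤ) (t : ℤ) (z : ℤ → KV r V) : ℤ → KV r V := fun i J I g =>
  if ¬ inG a I g ∧ i + g.2 = t then z i J I g else 0

theorem tr_of (a : Fin r → ℤ) (t : ℤ) (z : ℤ → KV r V) {i : ℤ} (J : Finset (Fin (r + 1)))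
    {I : Finset (Fin r)} {g : Gz r} (h : ¬ inG a I g) (ht : i + g.2 = t) :
    tr a t z i J I g = z i J I g := if_pos ⟨h, ht⟩

theorem totX_tr (a : Fin r → ℤ) (t : ℤ) (z : ℤ → KV r V) {i : ℤ} (J : Finset (Fin (r + 1)))
    {I : Finset (Fin r)} {g : Gz r} (h : ¬ inG a I g) (ht : i + g.2 = t) :
    totD (dK R V r) (eX R V r) (tr a t z) i J I g = totD (dK R V r) (eX R V r) z i J I g := by
  rw [totX_apply, totX_apply]
  congr 1
  · congr 1
    refine Finset.sum_congr rfl fun k _ => ?_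
    rw [tr_of a t z _ (inG_erase a h k) ht]
  · refine Finset.sum_congr rfl fun l _ => ?_
    congr 1
    refine Finset.sum_congr rfl fun L _ => ?_
    rw [tr_of a t z _ (inG_sub a h L)]
    have h1 : (g - exz L).2 = g.2 - 1 := rfl
    rw [h1]
    omega

/-- one step of the filtration. -/
theorem mc_exact (a : Fin r → ℤ) (B : ℤ) (x : Fin (r + 1) → R) (w ν : ℤ) (h1 : ∀ l, a l ≤ B)
    (h2 : (r : ℤ) + ν ≤ B + w) (δ : ℤ) :
    zz (totD (dK R Q r) (eK Q x)) (TT (CF a B (mc Q x w ν))) (TT (CF a B (mc Q x w (ν + 1)))) δ ≤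
      bb (totD (dK R Q r) (eK Q x)) (TT (CF a B (mc Q x w ν)))
        (TT (CF a B (mc Q x w (ν + 1)))) δ := by
  classical
  set t := w - ν with ht
  -- the coefficients on the strand
  have c0 : ∀ (i : ℤ) (g : Gz r), i + g.2 = t → mc Q x w ν i g = xpw Q x ν := by
    intro i g h
    have h3 : w - i - g.2 = ν := by omega
    rw [mc, h3, if_pos le_rfl]
  have c1 : ∀ (i : ℤ) (g : Gz r), i + g.2 = t → mc Q x w (ν + 1) i g = xpw Q x (ν + 1) := by
    intro i g h
    have h3 : w - i - g.2 = ν := by omega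
    rw [mc, h3, if_neg (by omega)]
  have c2 : ∀ (i : ℤ) (g : Gz r), i + g.2 ≠ t → mc Q x w (ν + 1) i g = mc Q x w ν i g := by
    intro i g h
    unfold mc
    by_cases h3 : ν ≤ w - i - g.2
    · rw [if_pos h3, if_pos (by omega)]
    · rw [if_neg h3, if_neg (by omega)]
  have c3 : ∀ (i : ℤ) (g : Gz r), i + g.2 = t + 1 → mc Q x w ν i g = xpw Q x ν := by
    intro i g h
    have h3 : w - i - g.2 = ν - 1 := by omega
    rw [mc, h3, if_neg (by omega), sub_add_cancel]
  let P : Submodule R Q := xpw Q x ν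
  let P' : Submodule R P := (xpw Q x (ν + 1)).submoduleOf P
  intro z hz
  obtain ⟨hz1, hz2⟩ := Submodule.mem_inf.1 hz
  rw [Submodule.mem_comap] at hz2
  rw [mem_TT] at hz1 hz2
  -- the values on the strand lie in `P`
  have hP : ∀ (i : ℤ) (J : Finset (Fin (r + 1))) (I : Finset (Fin r)) (g : Gz r), ¬ inG a I g →
      (i + g.2 = t ∨ i + g.2 = t + 1) → z i J I g ∈ P := by
    intro i J I g hg hi
    have h3 := (mem_CV a B _ i (i - δ) J I g _).1 (hz1 i J I g)
    by_cases h4 : (J.card : ℤ) = i ∧ (I.card : ℤ) = i - δ ∧ inF B I g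
    · have h5 := h3.2 h4 hg
      rcases hi with hi | hi
      · rwa [c0 i g hi] at h5
      · rwa [c3 i g hi] at h5
    · rw [h3.1 h4]
      exact P.zero_mem
  let zP : ℤ → KV r P := fun i J I g =>
    if h : ¬ inG a I g ∧ i + g.2 = t then ⟨z i J I g, hP i J I g h.1 (Or.inl h.2)⟩ else 0
  have hzP : fm r P.subtype zP = tr a t z := by
    ext i J I g
    by_cases h : ¬ inG a I g ∧ i + g.2 = t
    · simp only [fm, zP, tr, dif_pos h, if_pos h, Submodule.subtype_apply]
    · simp only [fm, zP, tr, dif_neg h, if_neg h, map_zero]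
  let z' : ℤ → KV r (P ⧸ P') := fm r P'.mkQ zP
  have hz'0 : ∀ (i : ℤ) (J : Finset (Fin (r + 1))) (I : Finset (Fin r)) (g : Gz r),
      (z i J I g = 0 ∨ i + g.2 ≠ t) → z' i J I g = 0 := by
    intro i J I g h
    by_cases h3 : ¬ inG a I g ∧ i + g.2 = t
    · have h4 : z i J I g = 0 := h.resolve_right (fun h5 => h5 h3.2)
      have h5 : zP i J I g = 0 := by
        simp only [zP, dif_pos h3]
        exact Subtype.ext h4
      show P'.mkQ (zP i J I g) = 0
      rw [h5, map_zero]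
    · have h5 : zP i J I g = 0 := dif_neg h3
      show P'.mkQ (zP i J I g) = 0
      rw [h5, map_zero]
  have hz'SF : z' ∈ TT (SF R (P ⧸ P') a B t) δ := by
    rw [mem_TT]
    intro i J I g
    rw [mem_CV]
    refine ⟨fun h => ?_, fun h hg => ?_⟩
    · exact hz'0 i J I g (Or.inl (((mem_CV a B _ i (i - δ) J I g _).1 (hz1 i J I g)).1 h))
    · by_cases h3 : i + g.2 = t
      · rw [if_pos h3]
        trivial
      · rw [if_neg h3, hz'0 i J I g (Or.inr h3)]
        exact Submodule.zero_mem _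
  -- the key computation
  have hkey : ∀ (v : ℤ → KV r P) (i : ℤ) (J : Finset (Fin (r + 1))) (I : Finset (Fin r))
      (g : Gz r), ¬ inG a I g → i + g.2 = t →
      ((totD (dK R P r) (eX R P r) v i J I g : P) : Q) =
        totD (dK R Q r) (eX R Q r) (tr a t (fm r P.subtype v)) i J I g := by
    intro v i J I g hg hi
    rw [totX_tr a t _ J hg hi, totX_fm]
    rfl
  have hz'D : totD (dK R (P ⧸ P') r) (eX R (P ⧸ P') r) z' ∈ TT (GF R (P ⧸ P') a B) (δ - 1) := by
    have h3 : totD (dK R (P ⧸ P') r) (eX R (P ⧸ P') r) z' ∈ TT (SF R (P ⧸ P') a B t) (δ - 1) :=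
      stab_TT (dK R (P ⧸ P') r) (eX R (P ⧸ P') r) dK_sq eX_sq dK_eX _ (bstab_SF a B t) δ _ hz'SF
    rw [mem_TT] at h3 ⊢
    intro i J I g
    have h4 := (mem_CV a B _ i (i - (δ - 1)) J I g _).1 (h3 i J I g)
    rw [mem_CV]
    refine ⟨h4.1, fun h hg => ?_⟩
    rw [Submodule.mem_bot]
    by_cases hi : i + g.2 = t
    · rw [totX_fm]
      show P'.mkQ _ = 0
      rw [Submodule.mkQ_apply, Submodule.Quotient.mk_eq_zero]
      show ((totD (dK R P r) (eX R P r) zP i J I g : P) : Q) ∈ xpw Q x (ν + 1)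
      rw [hkey zP i J I g hg hi, hzP, totX_tr a t _ J hg hi, totX_tr a t _ J hg hi]
      have h5 := totK_apply x z i J I g
      have h6 : totD (dK R Q r) (eX R Q r) z i J I g =
          totD (dK R Q r) (eK Q x) z i J I g +
            ∑ l ∈ Jᶜ, ksg l J • x l • z (i + 1) (insert l J) I g := by
        rw [h5, sub_add_cancel]
      rw [h6]
      refine Submodule.add_mem _ ?_ (Submodule.sum_mem _ fun l _ => ?_)
      · have h7 := ((mem_CV a B _ i (i - (δ - 1)) J I g _).1 (hz2 i J I g)).2 h hg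
        rwa [c1 i g hi] at h7
      · exact zsmul_mem (smul_mem_xpw x (hP (i + 1) _ I g hg (Or.inr (by omega))) l) _
    · have h5 := h4.2 h hg
      rw [if_neg hi] at h5
      exact (Submodule.mem_bot _).1 h5
  -- exactness of the strand
  have hex := strand_exact (R := R) (Q := P ⧸ P') a B t h1 (by omega) δ
    (Submodule.mem_inf.2 ⟨hz'SF, hz'D⟩)
  obtain ⟨_, ⟨y', hy', rfl⟩, u', hu', hsum⟩ := Submodule.mem_sup.1 hex
  have hy'T := (mem_TT _ _ _).1 hy'
  have hu'T := (mem_TT _ _ _).1 hu'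
  let yP : ℤ → KV r P := fun i J I g =>
    if y' i J I g = 0 then 0 else Function.surjInv (Submodule.mkQ_surjective P') (y' i J I g)
  have hyP : fm r P'.mkQ yP = y' := by
    ext i J I g
    by_cases h : y' i J I g = 0
    · simp only [fm, yP, if_pos h, map_zero, h]
    · simp only [fm, yP, if_neg h, Function.surjInv_eq]
  let y : ℤ → KV r Q := tr a t (fm r P.subtype yP)
  have hyTT : y ∈ TT (CF a B (mc Q x w ν)) (δ + 1) := by
    rw [mem_TT]
    intro i J I g
    rw [mem_CV]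
    have h3 := (mem_CV a B _ i (i - (δ + 1)) J I g _).1 (hy'T i J I g)
    refine ⟨fun h => ?_, fun h hg => ?_⟩
    · have h4 : yP i J I g = 0 := if_pos (h3.1 h)
      show (if ¬ inG a I g ∧ i + g.2 = t then ((yP i J I g : P) : Q) else 0) = 0
      rw [h4]
      simp
    · show (if ¬ inG a I g ∧ i + g.2 = t then ((yP i J I g : P) : Q) else 0) ∈ _
      split_ifs with h5
      · rw [c0 i g h5.2]
        exact (yP i J I g).2
      · exact Submodule.zero_mem _
  refine Submodule.mem_sup.2 ⟨totD (dK R Q r) (eK Q x) y, ⟨y, hyTT, rfl⟩,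
    z - totD (dK R Q r) (eK Q x) y, ?_, by abel⟩
  have h3 : totD (dK R Q r) (eK Q x) y ∈ TT (CF a B (mc Q x w ν)) δ := by
    have h4 := stab_TT (dK R Q r) (eK Q x) dK_sq (eK_sq x) (dK_eK x) _ (bstab_mc a B x w ν)
      (δ + 1) _ hyTT
    rwa [add_sub_cancel_right] at h4
  rw [mem_TT] at h3 ⊢
  intro i J I g
  have h4 := (mem_CV a B _ i (i - δ) J I g _).1 (Submodule.sub_mem _ (hz1 i J I g) (h3 i J I g))
  rw [mem_CV]
  refine ⟨h4.1, fun h hg => ?_⟩
  by_cases hi : i + g.2 = t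
  · rw [c1 i g hi]
    have h5 : totD (dK R Q r) (eK Q x) y i J I g =
        ((totD (dK R P r) (eX R P r) yP i J I g : P) : Q) := by
      rw [totK_apply, hkey yP i J I g hg hi]
      have h6 : ∑ l ∈ Jᶜ, ksg l J • x l • y (i + 1) (insert l J) I g = 0 := by
        refine Finset.sum_eq_zero fun l _ => ?_
        have h7 : y (i + 1) (insert l J) I g = 0 := if_neg fun h8 => by omega
        rw [h7, smul_zero, smul_zero]
      rw [h6, sub_zero]
    have h6 : z i J I g = ((zP i J I g : P) : Q) := by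
      simp only [zP, dif_pos (show ¬ inG a I g ∧ i + g.2 = t from ⟨hg, hi⟩)]
    have h7 : P'.mkQ (zP i J I g - totD (dK R P r) (eX R P r) yP i J I g) = 0 := by
      have h8 : u' i J I g = 0 := by
        have h9 := ((mem_CV a B _ i (i - δ) J I g _).1 (hu'T i J I g)).2 h hg
        exact (Submodule.mem_bot _).1 h9
      have h9 : totD (dK R (P ⧸ P') r) (eX R (P ⧸ P') r) y' i J I g + u' i J I g =
          z' i J I g := congrFun (congrFun (congrFun (congrFun hsum i) J) I) g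
      rw [h8, add_zero, ← hyP, totX_fm] at h9
      rw [map_sub]
      have h10 : P'.mkQ (zP i J I g) = z' i J I g := rfl
      rw [h10, ← h9]
      exact sub_self _
    rw [Submodule.mkQ_apply, Submodule.Quotient.mk_eq_zero] at h7
    show z i J I g - totD (dK R Q r) (eK Q x) y i J I g ∈ _
    rw [h5, h6]
    exact h7
  · rw [c2 i g hi]
    exact h4.2 h hg

theorem YF_exact (a : Fin r → ℤ) (B : ℤ) (x : Fin (r + 1) → R) (N : ℕ) (hN : xpw Q x N = ⊥)
    (w₀ w : ℤ) (hw : w₀ ≤ w) (h1 : ∀ l, a l ≤ B) (h2 : (r : ℤ) + N ≤ B + w₀) (δ : ℤ) :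
    zz (totD (dK R Q r) (eK Q x)) (TT (YF Q x a B w₀)) (TT (YF Q x a B w)) δ ≤
      bb (totD (dK R Q r) (eK Q x)) (TT (YF Q x a B w₀)) (TT (YF Q x a B w)) δ := by
  have hD : ∀ v, totD (dK R Q r) (eK Q x) (totD (dK R Q r) (eK Q x) v) = 0 :=
    totD_sq _ _ dK_sq (eK_sq x) (dK_eK x)
  have hTT : ∀ X Y : ℤ → ℤ → Submodule R (KV r Q), (∀ i p, X i p ≤ Y i p) →
      ∀ δ, TT X δ ≤ TT Y δ := by
    intro X Y h δ z hz
    rw [mem_TT] at hz ⊢
    exact fun i => h _ _ (hz i)
  -- one step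
  have hstep : ∀ w : ℤ, w₀ ≤ w →
      zz (totD (dK R Q r) (eK Q x)) (TT (YF Q x a B w)) (TT (YF Q x a B (w + 1))) δ ≤
        bb (totD (dK R Q r) (eK Q x)) (TT (YF Q x a B w)) (TT (YF Q x a B (w + 1))) δ := by
    intro w hw
    have e0 : YF Q x a B w = CF a B (mc Q x w 0) := by
      have : (fun (i : ℤ) (g : Gz r) => xpw Q x (w - i - g.2)) = mc Q x w 0 := by
        ext1 i
        ext1 g
        exact (mc_zero x w i g).symm
      rw [YF, this]
    have e1 : YF Q x a B (w + 1) = CF a B (mc Q x w N) := by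
      have : (fun (i : ℤ) (g : Gz r) => xpw Q x (w + 1 - i - g.2)) = mc Q x w N := by
        ext1 i
        ext1 g
        exact (mc_top x N hN w i g).symm
      rw [YF, this]
    rw [e0, e1]
    have hm : ∀ k : ℕ, ∀ i p, CF a B (mc Q x w (k + 1)) i p ≤ CF a B (mc Q x w k) i p :=
      fun k i p => CF_mono a B _ _ i p fun g => mc_anti x w k i g
    have hm0 : ∀ k : ℕ, ∀ i p, CF a B (mc Q x w k) i p ≤ CF a B (mc Q x w 0) i p := by
      intro k
      induction k with
      | zero => exact fun i p => le_of_eq (by norm_num)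
      | succ k ih =>
        intro i p
        push_cast
        exact (hm k i p).trans (ih i p)
    have : ∀ k : ℕ, k ≤ N →
        zz (totD (dK R Q r) (eK Q x)) (TT (CF a B (mc Q x w 0))) (TT (CF a B (mc Q x w k))) δ ≤
          bb (totD (dK R Q r) (eK Q x)) (TT (CF a B (mc Q x w 0)))
            (TT (CF a B (mc Q x w k))) δ := by
      intro k
      induction k with
      | zero =>
        intro _
        refine (inf_le_left).trans ?_
        push_cast
        exact le_sup_right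
      | succ k ih =>
        intro hk
        have h3 := mc_exact (Q := Q) a B x w k h1 (by omega) δ
        push_cast
        exact zz_bb_trans _ hD _ _ _ (hTT _ _ (hm k)) (hTT _ _ (hm0 k)) δ h3 (ih (by omega))
    exact this N le_rfl
  obtain ⟨k, rfl⟩ : ∃ k : ℕ, w = w₀ + k := ⟨(w - w₀).toNat, by omega⟩
  induction k with
  | zero =>
    refine (inf_le_left).trans ?_
    have : w₀ + ((0 : ℕ) : ℤ) = w₀ := by simp
    rw [this]
    exact le_sup_right
  | succ k ih =>
    have h3 := hstep (w₀ + k) (by omega)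
    have e : w₀ + ((k + 1 : ℕ) : ℤ) = w₀ + k + 1 := by push_cast; ring
    rw [e]
    exact zz_bb_trans _ hD _ _ _
      (hTT (YF Q x a B (w₀ + k + 1)) (YF Q x a B (w₀ + k)) (YF_anti a B x (by omega)))
      (hTT (YF Q x a B (w₀ + k)) (YF Q x a B w₀) (YF_anti a B x (by omega))) δ h3 (ih (by omega))

variable (L : AddLen R) (a : Fin r → ℤ) (B : ℤ)

theorem YF_acyclic (x : Fin (r + 1) → R) (N : ℕ) (hN : xpw Q x N = ⊥) (w₀ w : ℤ) (hw : w₀ ≤ w)
    (h1 : ∀ l, a l ≤ B) (h2 : (r : ℤ) + N ≤ B + w₀) (δ : ℤ) :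
    L.hh (totD (dK R Q r) (eK Q x)) (TT (YF Q x a B w₀)) (TT (YF Q x a B w)) δ = 0 :=
  rl_eq_zero_of_le L (YF_exact a B x N hN w₀ w hw h1 h2 δ)

end

end Vale.Agent.P202.Mix
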