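import Vale.Agent.P202.Mix.CohenC

/-!
P202, mixed characteristic: the Cohen ring of a complete local ring, with its embedding into the
Witt vectors of the perfect closure of the residue field, compatible with a `p`-basis.
-/

namespace Vale.Agent.P202.Mix

open IsLocalRing

universe u

/-- Cohen rings of complete local rings. -/
theorem exists_cohen (p : ℕ) [hp : Fact p.Prime] {A : Type u} [CommRing A] [IsLocalRing A]
    [IsAdicComplete (maximalIdeal A) A] [CharP (ResidueField A) p] {ι : Type*}
    {b : ι → ResidueField A} (hb : IsPBasis p b) :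
    ∃ (Cr : Type u) (_ : CommRing Cr) (_ : IsDomain Cr) (_ : IsDiscreteValuationRing Cr)
      (_ : IsAdicComplete (maximalIdeal Cr) Cr) (χ : Cr →+* A)
      (κ : Cr →+* WittVector p (PerfectClosure (ResidueField A) p)) (π : Cr →+* ResidueField A)
      (β : ι → Cr),
      maximalIdeal Cr = Ideal.span {(p : Cr)} ∧ Function.Surjective π ∧
      (∀ c, π c = 0 → ∃ d, c = p * d) ∧ (∀ c, residue A (χ c) = π c) ∧
      (∀ x : A, ∃ c : Cr, x - χ c ∈ maximalIdeal A) ∧
      (∀ c, (κ c).coeff 0 = PerfectClosure.of (ResidueField A) p (π c)) ∧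
      (∀ i, κ (β i) = WittVector.teichmuller p (PerfectClosure.of (ResidueField A) p (b i))) ∧
      (∀ i, residue A (χ (β i)) = b i) := by
  obtain ⟨Cr, _, _, _, _, _, π, w, β, h1, h2, h3, h4, h5, h6⟩ := exists_cohenRing p
    (PerfectClosure.of (ResidueField A) p) (isQBasis_of_isPBasis p hb)
  have hp0 : (p : Cr) ≠ 0 := Nat.cast_ne_zero.mpr hp.out.ne_zero
  have htf : ∀ x : Cr, (p : Cr) * x = 0 → x = 0 := fun x hx =>
    (mul_eq_zero.mp hx).resolve_left hp0
  have hpA : (p : A) ∈ maximalIdeal A := by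
    rw [← residue_eq_zero_iff, map_natCast, CharP.cast_eq_zero]
  obtain ⟨χ, hχ⟩ := exists_cohen_lift p π h2 h3 htf (maximalIdeal A) hpA
    (A := A) (π : Cr →+* A ⧸ maximalIdeal A)
  have hχ' : ∀ c, residue A (χ c) = π c := fun c => DFunLike.congr_fun hχ c
  refine ⟨Cr, inferInstance, inferInstance, inferInstance, inferInstance, χ, w, π, β, h1, h2, h3,
    hχ', fun x => ?_, h5, h6, fun i => ?_⟩
  · obtain ⟨c, hc⟩ := h2 (residue A x)
    refine ⟨c, ?_⟩
    rw [← residue_eq_zero_iff, map_sub, hχ', hc, sub_self]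
  · rw [hχ']
    apply (PerfectClosure.of (ResidueField A) p).injective
    rw [← h5, h6, WittVector.teichmuller_coeff_zero]

end Vale.Agent.P202.Mix
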