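import Vale.Agent.P202.Mix.QBasis

/-!
P202, mixed characteristic: Cohen rings as subrings of a `p`-adically complete ring.
-/

namespace Vale.Agent.P202.Mix

section cohen

variable (p : ℕ) [hp : Fact p.Prime] {W K k : Type*} [CommRing W] [Field K] [Field k] [CharP k p]
  (j : k →+* K) (π : W →+* K) {ι : Type*} (B : ι → W)

/-- one step of the construction. -/
structure CRel (G G' : Subring W) : Prop where
  le : G' ≤ G
  pmul : ∀ x ∈ G, (p : W) * x ∈ G'
  range : ∀ x ∈ G', π x ∈ j.range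
  surj : ∀ a : k, ∃ x ∈ G', π x = j a
  ker : ∀ x ∈ G', π x = 0 → ∃ y ∈ G, x = p * y
  basis : ∀ i, B i ∈ G'

variable {p j π B}

theorem CRel.step {b : ι → k} (hb : IsQBasis p b) (hB : ∀ i, π (B i) = j (b i))
    {G G' : Subring W} (h : CRel p j π B G G') : ∃ G'', CRel p j π B G' G'' := by
  classical
  -- the residue map of `G'`
  have hbij : Function.Bijective j.rangeRestrict :=
    ⟨fun x y hxy => j.injective (congrArg Subtype.val hxy), j.rangeRestrict_surjective⟩
  let e : k ≃+* j.range := RingEquiv.ofBijective _ hbij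
  let f : G' →+* k := (e.symm : j.range →+* k).comp
    ((π.comp G'.subtype).codRestrict j.range fun x => h.range x x.2)
  have hf : ∀ x : G', j (f x) = π x := by
    intro x
    have h1 : (e (f x) : K) = π x := by
      change ((e (e.symm _) : j.range) : K) = π x
      rw [RingEquiv.apply_symm_apply]
      rfl
    exact h1
  let I : Ideal G' := Ideal.span {(p : G')}
  have hfI : ∀ x ∈ I, f x = 0 := by
    intro x hx
    obtain ⟨y, rfl⟩ := Ideal.mem_span_singleton'.mp hx
    rw [map_mul, map_natCast, CharP.cast_eq_zero, mul_zero]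
  let g : G' ⧸ I →+* k := Ideal.Quotient.lift I f hfI
  have hg : ∀ x : G', g (Ideal.Quotient.mk I x) = f x := fun x => Ideal.Quotient.lift_mk I f hfI
  have hnt : Nontrivial (G' ⧸ I) := g.domain_nontrivial
  have hch : CharP (G' ⧸ I) p := by
    rw [CharP.charP_iff_prime_eq_zero hp.out, ← map_natCast (Ideal.Quotient.mk I),
      Ideal.Quotient.eq_zero_iff_mem]
    exact Ideal.mem_span_singleton_self _
  have hgs : Function.Surjective g := by
    intro a
    obtain ⟨x, hx, hxa⟩ := h.surj a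
    refine ⟨Ideal.Quotient.mk I ⟨x, hx⟩, ?_⟩
    rw [hg]
    apply j.injective
    rw [hf, ← hxa]
  have hkf : ∀ x : G', f x = 0 → ∃ y ∈ G, (x : W) = p * y := by
    intro x hx
    refine h.ker x x.2 ?_
    rw [← hf, hx, map_zero]
  have hgn : ∀ a b, g a = 0 → g b = 0 → a * b = 0 := by
    intro a b ha hb'
    obtain ⟨x, rfl⟩ := Ideal.Quotient.mk_surjective a
    obtain ⟨y, rfl⟩ := Ideal.Quotient.mk_surjective b
    rw [hg] at ha hb'
    obtain ⟨x', hx', hxx⟩ := hkf x ha
    obtain ⟨y', hy', hyy⟩ := hkf y hb'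
    rw [← map_mul, Ideal.Quotient.eq_zero_iff_mem]
    refine Ideal.mem_span_singleton'.mpr ⟨⟨p * (x' * y'), h.pmul _ (mul_mem hx' hy')⟩, ?_⟩
    refine Subtype.ext ?_
    change (p : W) * (x' * y') * p = (x : W) * y
    rw [hxx, hyy]
    ring
  obtain ⟨s, hs, hsB⟩ := exists_section_qbasis p g hgs hgn hb
    (fun i => Ideal.Quotient.mk I ⟨B i, h.basis i⟩) (by
      intro i
      rw [hg]
      apply j.injective
      rw [hf]
      exact hB i)
  have hs' : ∀ a, g (s a) = a := fun a => DFunLike.congr_fun hs a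
  refine ⟨(s.range.comap (Ideal.Quotient.mk I)).map G'.subtype, ?_, ?_, ?_, ?_, ?_, ?_⟩
  · rintro _ ⟨x, -, rfl⟩
    exact x.2
  · intro x hx
    refine ⟨⟨p * x, h.le (h.pmul x (h.le hx)) |> fun _ => h.pmul x (h.le hx)⟩, ?_, rfl⟩
    change Ideal.Quotient.mk I _ ∈ s.range
    have h1 : Ideal.Quotient.mk I ⟨(p : W) * x, h.pmul x (h.le hx)⟩ = 0 := by
      rw [Ideal.Quotient.eq_zero_iff_mem]
      refine Ideal.mem_span_singleton'.mpr ⟨⟨x, hx⟩, ?_⟩
      refine Subtype.ext ?_
      exact mul_comm _ _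
    rw [h1]
    exact zero_mem _
  · rintro _ ⟨x, -, rfl⟩
    exact h.range x x.2
  · intro a
    obtain ⟨x, hx⟩ := Ideal.Quotient.mk_surjective (s a)
    refine ⟨x, ⟨x, ?_, rfl⟩, ?_⟩
    · change Ideal.Quotient.mk I x ∈ s.range
      rw [hx]
      exact ⟨a, rfl⟩
    · rw [← hf, ← hg, hx, hs']
  · rintro _ ⟨x, hx, rfl⟩ h0
    obtain ⟨a, ha⟩ := (hx : Ideal.Quotient.mk I x ∈ s.range)
    have h1 : f x = 0 := by
      apply j.injective
      rw [hf, map_zero]
      exact h0
    have h2 : a = 0 := by rw [← hs' a, ha, hg, h1]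
    rw [h2, map_zero] at ha
    have h3 : x ∈ I := Ideal.Quotient.eq_zero_iff_mem.mp ha.symm
    obtain ⟨y, hy⟩ := Ideal.mem_span_singleton'.mp h3
    refine ⟨y, y.2, ?_⟩
    rw [← hy]
    exact mul_comm _ _
  · intro i
    exact ⟨⟨B i, h.basis i⟩, ⟨b i, hsB i⟩, rfl⟩

omit hp in
theorem CRel.base (hπs : Function.Surjective π) (hπ : ∀ x, π x = 0 → ∃ y, x = p * y)
    {b : ι → k} (hB : ∀ i, π (B i) = j (b i)) :
    CRel p j π B ⊤ (j.range.comap π) where
  le := le_top
  pmul x _ := by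
    change π (p * x) ∈ j.range
    have h0 : (p : K) = 0 := by rw [← map_natCast j, CharP.cast_eq_zero, map_zero]
    rw [map_mul, map_natCast, h0, zero_mul]
    exact zero_mem _
  range x hx := hx
  surj a := by
    obtain ⟨x, hx⟩ := hπs (j a)
    exact ⟨x, ⟨a, hx.symm⟩, hx⟩
  ker x _ hx := by
    obtain ⟨y, hy⟩ := hπ x hx
    exact ⟨y, trivial, hy⟩
  basis i := ⟨b i, (hB i).symm⟩

/-- Cohen subrings of a `p`-adically complete ring. -/
theorem exists_cohen_subring (hπs : Function.Surjective π)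
    (hπ : ∀ x, π x = 0 → ∃ y, x = p * y) (htf : ∀ x : W, (p : W) * x = 0 → x = 0)
    [IsAdicComplete (Ideal.span {(p : W)}) W]
    {b : ι → k} (hb : IsQBasis p b) (hB : ∀ i, π (B i) = j (b i)) :
    ∃ Λ : Subring W, (∀ x ∈ Λ, π x ∈ j.range) ∧ (∀ a : k, ∃ x ∈ Λ, π x = j a) ∧
      (∀ x ∈ Λ, π x = 0 → ∃ y ∈ Λ, x = p * y) ∧ (∀ i, B i ∈ Λ) ∧
      (∀ x, (∀ n : ℕ, ∃ y ∈ Λ, ∃ z, x = y + (p : W) ^ n * z) → x ∈ Λ) := by
  -- the sequence
  choose nxt hnxt using fun P : {P : Subring W × Subring W // CRel p j π B P.1 P.2} =>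
    P.2.step hb hB
  let seq : ℕ → {P : Subring W × Subring W // CRel p j π B P.1 P.2} := fun n =>
    Nat.rec ⟨(⊤, j.range.comap π), CRel.base hπs hπ hB⟩
      (fun _ P => ⟨(P.1.2, nxt P), hnxt P⟩) n
  let G : ℕ → Subring W := fun n => (seq n).1.1
  have hG0 : G 0 = ⊤ := rfl
  have hG : ∀ n, CRel p j π B (G n) (G (n + 1)) := fun n => (seq n).2
  have hanti : Antitone G := antitone_nat_of_succ_le fun n => (hG n).le
  have hpn : ∀ n x, (p : W) ^ n * x ∈ G n := by
    intro n
    induction n with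
    | zero => intro x; rw [hG0]; trivial
    | succ n ih =>
      intro x
      rw [pow_succ', mul_assoc]
      exact (hG n).pmul _ (ih x)
  have happ : ∀ n, ∀ x ∈ G n, ∃ y ∈ G (n + 1), ∃ z, x = y + (p : W) ^ n * z := by
    intro n
    induction n with
    | zero =>
      intro x _
      exact ⟨0, zero_mem _, x, by rw [pow_zero, one_mul, zero_add]⟩
    | succ n ih =>
      intro x hx
      obtain ⟨a, ha⟩ := (hG n).range x hx
      obtain ⟨y0, hy0, hy0a⟩ := (hG (n + 1)).surj a
      obtain ⟨w, hw, hxw⟩ := (hG n).ker (x - y0) (sub_mem hx ((hG (n + 1)).le hy0)) (by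
        rw [map_sub, hy0a, ha, sub_self])
      obtain ⟨y', hy', z, hz⟩ := ih w hw
      refine ⟨y0 + p * y', add_mem hy0 ((hG (n + 1)).pmul _ hy'), z, ?_⟩
      have h1 : x = y0 + p * w := by rw [← hxw]; ring
      rw [h1, hz]
      ring
  let Λ : Subring W := ⨅ n, G n
  have hmem : ∀ x, x ∈ Λ ↔ ∀ n, x ∈ G n := fun x => Subring.mem_iInf
  -- approximation by elements of `Λ`
  have hlim : ∀ n, ∀ x ∈ G n, ∃ y ∈ Λ, ∃ z, x = y + (p : W) ^ n * z := by
    intro n x hx
    -- the sequence of approximations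
    choose! φ hφ1 ψ hφ2 using happ
    let u : ℕ → W := fun m => Nat.rec x (fun i y => φ (n + i) y) m
    have hu0 : u 0 = x := rfl
    have hus : ∀ m, u (m + 1) = φ (n + m) (u m) := fun m => rfl
    have hu : ∀ m, u m ∈ G (n + m) := by
      intro m
      induction m with
      | zero => exact hx
      | succ m ih => rw [hus]; exact hφ1 (n + m) (u m) ih
    have hud : ∀ m, u m = u (m + 1) + (p : W) ^ (n + m) * ψ (n + m) (u m) := fun m =>
      hφ2 (n + m) (u m) (hu m)
    have hcauchy : ∀ m m', m ≤ m' → ∃ z, u m = u m' + (p : W) ^ (n + m) * z := by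
      intro m m' hmm
      induction m', hmm using Nat.le_induction with
      | base => exact ⟨0, by rw [mul_zero, add_zero]⟩
      | succ m' hmm ih =>
        obtain ⟨z, hz⟩ := ih
        refine ⟨(p : W) ^ (m' - m) * ψ (n + m') (u m') + z, ?_⟩
        have h1 : (p : W) ^ (n + m') = p ^ (n + m) * p ^ (m' - m) := by
          rw [← pow_add]; congr 1; omega
        calc u m = u m' + (p : W) ^ (n + m) * z := hz
          _ = (u (m' + 1) + (p : W) ^ (n + m') * ψ (n + m') (u m')) + (p : W) ^ (n + m) * z := by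
              rw [← hud m']
          _ = _ := by rw [h1]; ring
    obtain ⟨y, hy⟩ := IsPrecomplete.prec (I := Ideal.span {(p : W)}) (M := W) inferInstance
      (f := u) (fun {m m'} hmm => by
        rw [SModEq.sub_mem, smul_eq_mul, Ideal.mul_top, Ideal.span_singleton_pow,
          Ideal.mem_span_singleton]
        obtain ⟨z, hz⟩ := hcauchy m m' hmm
        exact ⟨p ^ n * z, by rw [hz, pow_add]; ring⟩)
    have hy' : ∀ m, ∃ z, u m = y + (p : W) ^ m * z := by
      intro m
      have h1 := hy m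
      rw [SModEq.sub_mem, smul_eq_mul, Ideal.mul_top, Ideal.span_singleton_pow,
        Ideal.mem_span_singleton] at h1
      obtain ⟨z, hz⟩ := h1
      exact ⟨z, by rw [← hz]; ring⟩
    have hyG : ∀ m, y ∈ G m := by
      intro m
      obtain ⟨z, hz⟩ := hy' m
      have h1 : y = u m - p ^ m * z := by rw [hz]; ring
      rw [h1]
      exact sub_mem (hanti (Nat.le_add_left m n) (hu m)) (hpn m z)
    refine ⟨y, (hmem y).mpr hyG, ?_⟩
    obtain ⟨z, hz⟩ := hy' n
    obtain ⟨z', hz'⟩ := hcauchy 0 n (Nat.zero_le n)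
    refine ⟨z + z', ?_⟩
    rw [← hu0, hz', hz, add_zero]
    ring
  refine ⟨Λ, fun x hx => (hG 0).range x ((hmem x).mp hx 1), fun a => ?_, fun x hx h0 => ?_,
    fun i => (hmem _).mpr fun n => ?_, fun x hx => (hmem x).mpr fun n => ?_⟩
  · obtain ⟨x, hx, hxa⟩ := (hG 0).surj a
    obtain ⟨y, hy, z, hz⟩ := hlim 1 x hx
    refine ⟨y, hy, ?_⟩
    have h0 : (p : K) = 0 := by rw [← map_natCast j, CharP.cast_eq_zero, map_zero]
    rw [← hxa, hz, map_add, map_mul, map_pow, map_natCast, h0, pow_one, zero_mul, add_zero]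
  · have h1 : ∀ n, ∃ y ∈ G n, x = p * y := fun n => (hG n).ker x ((hmem x).mp hx (n + 1)) h0
    choose y hy hxy using h1
    have h2 : ∀ n, y n = y 0 := by
      intro n
      have h3 : (p : W) * (y n - y 0) = 0 := by
        rw [mul_sub, ← hxy, ← hxy, sub_self]
      exact sub_eq_zero.mp (htf _ h3)
    exact ⟨y 0, (hmem _).mpr fun n => by rw [← h2 n]; exact hy n, hxy 0⟩
  · cases n with
    | zero => rw [hG0]; trivial
    | succ n => exact (hG n).basis i
  · obtain ⟨y, hy, z, hz⟩ := hx n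
    rw [hz]
    exact add_mem ((hmem y).mp hy n) (hpn n z)

end cohen

end Vale.Agent.P202.Mix
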