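import Vale.Agent.P202.Mix.CohenA

/-!
P202, mixed characteristic: Cohen rings inside Witt vectors.
-/

namespace Vale.Agent.P202.Mix

open IsLocalRing

universe u

/-- abstract properties: a complete discrete valuation ring with uniformizer `p`. -/
theorem dvr_of_p_complete (p : ℕ) [hp : Fact p.Prime] {Λ k : Type*} [CommRing Λ] [IsDomain Λ]
    [Field k] [CharP k p] [IsAdicComplete (Ideal.span {(p : Λ)}) Λ] (hp0 : (p : Λ) ≠ 0)
    (π : Λ →+* k) (hπs : Function.Surjective π) (hπ : ∀ x, π x = 0 → ∃ y, x = p * y) :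
    ∃ (_ : IsDiscreteValuationRing Λ), maximalIdeal Λ = Ideal.span {(p : Λ)} ∧ CharZero Λ := by
  have hker : ∀ x, π x = 0 ↔ x ∈ Ideal.span {(p : Λ)} := by
    intro x
    rw [Ideal.mem_span_singleton]
    constructor
    · exact hπ x
    · rintro ⟨y, rfl⟩
      rw [map_mul, map_natCast, CharP.cast_eq_zero, zero_mul]
  have hu : ∀ x, π x ≠ 0 → IsUnit x := by
    intro x hx
    obtain ⟨y, hy⟩ := hπs (π x)⁻¹
    have h1 : x * y - 1 ∈ Ideal.span {(p : Λ)} := by
      rw [← hker, map_sub, map_mul, hy, mul_inv_cancel₀ hx, map_one, sub_self]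
    have h2 := IsAdicComplete.le_jacobson_bot (Ideal.span {(p : Λ)}) h1
    rw [Ideal.mem_jacobson_bot] at h2
    have h3 := h2 1
    rw [mul_one, sub_add_cancel] at h3
    exact isUnit_of_mul_isUnit_left h3
  have hnu : ∀ x, π x = 0 → ¬ IsUnit x := by
    intro x hx h
    have := h.map π
    rw [hx] at this
    exact not_isUnit_zero this
  have hloc : IsLocalRing Λ := by
    refine IsLocalRing.of_nonunits_add fun a b ha hb => ?_
    have h1 : π a = 0 := by by_contra h; exact ha (hu a h)
    have h2 : π b = 0 := by by_contra h; exact hb (hu b h)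
    exact hnu _ (by rw [map_add, h1, h2, add_zero])
  have hmax : maximalIdeal Λ = Ideal.span {(p : Λ)} := by
    ext x
    rw [IsLocalRing.mem_maximalIdeal, mem_nonunits_iff, ← hker]
    constructor
    · intro h
      by_contra h1
      exact h (hu x h1)
    · exact hnu x
  have hprime : Prime (p : Λ) := by
    rw [← Ideal.span_singleton_prime hp0, ← hmax]
    exact (maximalIdeal.isMaximal Λ).isPrime
  have hfac : IsDiscreteValuationRing.HasUnitMulPowIrreducibleFactorization Λ := by
    refine ⟨p, hprime.irreducible, fun {x} hx => ?_⟩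
    have h1 : ∃ n, x ∉ Ideal.span {(p : Λ)} ^ n := by
      by_contra h
      push Not at h
      refine hx (IsHausdorff.haus (I := Ideal.span {(p : Λ)}) inferInstance x fun n => ?_)
      rw [SModEq.zero, smul_eq_mul, Ideal.mul_top]
      exact h n
    classical
    have h2 := Nat.find_spec h1
    have h3 : Nat.find h1 ≠ 0 := by
      intro h0
      rw [h0, pow_zero, Ideal.one_eq_top] at h2
      exact h2 trivial
    obtain ⟨n, hn⟩ := Nat.exists_eq_succ_of_ne_zero h3
    have h4 : x ∈ Ideal.span {(p : Λ)} ^ n := by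
      by_contra h
      exact Nat.find_min h1 (by omega) h
    rw [Ideal.span_singleton_pow, Ideal.mem_span_singleton] at h4
    obtain ⟨y, hy⟩ := h4
    refine ⟨n, ?_⟩
    have h5 : IsUnit y := by
      refine hu y fun h0 => h2 ?_
      obtain ⟨z, hz⟩ := hπ y h0
      rw [hn, Ideal.span_singleton_pow, Ideal.mem_span_singleton]
      exact ⟨z, by rw [hy, hz, pow_succ, mul_assoc]⟩
    exact ⟨h5.unit, by rw [hy]; rfl⟩
  refine ⟨IsDiscreteValuationRing.ofHasUnitMulPowIrreducibleFactorization hfac, hmax, ?_⟩
  -- characteristic zero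
  obtain ⟨q, hq⟩ := CharP.exists Λ
  rcases CharP.char_is_prime_or_zero Λ q with hqp | rfl
  · exfalso
    have h1 : (q : k) = 0 := by rw [← map_natCast π, CharP.cast_eq_zero, map_zero]
    have h2 : p ∣ q := (CharP.cast_eq_zero_iff k p q).mp h1
    have h3 : p = q := (Nat.prime_dvd_prime_iff_eq hp.out hqp).mp h2
    rw [h3] at hp0
    exact hp0 (CharP.cast_eq_zero Λ q)
  · exact CharP.charP_to_charZero Λ

/-- Cohen rings inside the Witt vectors of a perfect field. -/
theorem exists_cohenRing (p : ℕ) [hp : Fact p.Prime] {k K : Type u} [Field k] [CharP k p]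
    [Field K] [CharP K p] [PerfectRing K p] (j : k →+* K) {ι : Type*} {b : ι → k}
    (hb : IsQBasis p b) :
    ∃ (Λ : Type u) (_ : CommRing Λ) (_ : IsDomain Λ) (_ : IsDiscreteValuationRing Λ)
      (_ : CharZero Λ) (_ : IsAdicComplete (maximalIdeal Λ) Λ) (π : Λ →+* k)
      (w : Λ →+* WittVector p K) (β : ι → Λ),
      maximalIdeal Λ = Ideal.span {(p : Λ)} ∧ Function.Surjective π ∧
      (∀ x, π x = 0 → ∃ y, x = p * y) ∧ Function.Injective w ∧
      (∀ x, (w x).coeff 0 = j (π x)) ∧ (∀ i, w (β i) = WittVector.teichmuller p (j (b i))) := by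
  have htf : ∀ x : WittVector p K, (p : WittVector p K) * x = 0 → x = 0 := fun x hx =>
    WittVector.eq_zero_of_p_mul_eq_zero x (by rwa [mul_comm] at hx)
  obtain ⟨Λ, h1, h2, h3, h4, h5⟩ := exists_cohen_subring (p := p) (W := WittVector p K) (j := j)
    (π := WittVector.constantCoeff) (B := fun i => WittVector.teichmuller p (j (b i)))
    (WittVector.constantCoeff_surjective p) (fun x hx => by
      have h : x ∈ Ideal.span {(p : WittVector p K)} :=
        (WittVector.mem_span_p_iff_coeff_zero_eq_zero x).mpr hx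
      exact Ideal.mem_span_singleton.mp h) htf hb (fun i => WittVector.teichmuller_coeff_zero p _)
  -- divisibility by powers of `p`
  have h6 : ∀ n : ℕ, ∀ z : WittVector p K, (p : WittVector p K) ^ n * z ∈ Λ → z ∈ Λ := by
    intro n
    induction n with
    | zero => intro z hz; rwa [pow_zero, one_mul] at hz
    | succ n ih =>
      intro z hz
      rw [pow_succ', mul_assoc] at hz
      obtain ⟨y, hy, hyz⟩ := h3 _ hz (by
        change WittVector.constantCoeff _ = 0
        rw [map_mul, map_natCast, CharP.cast_eq_zero, zero_mul])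
      have h7 : (p : WittVector p K) ^ n * z = y := by
        refine sub_eq_zero.mp (htf _ ?_)
        rw [mul_sub, hyz, sub_self]
      rw [← h7] at hy
      exact ih z hy
  have hspan : ∀ n : ℕ, ∀ x : Λ, x ∈ Ideal.span {(p : Λ)} ^ n ↔
      (x : WittVector p K) ∈ Ideal.span {(p : WittVector p K)} ^ n := by
    intro n x
    rw [Ideal.span_singleton_pow, Ideal.mem_span_singleton, Ideal.span_singleton_pow,
      Ideal.mem_span_singleton]
    constructor
    · rintro ⟨y, rfl⟩
      exact ⟨y, rfl⟩
    · rintro ⟨y, hy⟩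
      refine ⟨⟨y, h6 n y (by rw [← hy]; exact x.2)⟩, Subtype.ext hy⟩
  have hcomp : IsAdicComplete (Ideal.span {(p : Λ)}) Λ :=
    { haus' := by
        intro x hx
        refine Subtype.ext (IsHausdorff.haus (I := Ideal.span {(p : WittVector p K)})
          inferInstance (x : WittVector p K) fun n => ?_)
        have h7 := hx n
        rw [SModEq.zero, smul_eq_mul, Ideal.mul_top] at h7 ⊢
        exact (hspan n x).mp h7
      prec' := by
        intro f hf
        obtain ⟨y, hy⟩ := IsPrecomplete.prec (I := Ideal.span {(p : WittVector p K)})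
          (M := WittVector p K) inferInstance (f := fun n => (f n : WittVector p K))
          (fun {m n} hmn => by
            have h7 := hf hmn
            rw [SModEq.sub_mem, smul_eq_mul, Ideal.mul_top] at h7 ⊢
            exact (hspan m _).mp h7)
        have hy' : y ∈ Λ := by
          refine h5 y fun n => ?_
          have h7 := hy n
          rw [SModEq.sub_mem, smul_eq_mul, Ideal.mul_top, Ideal.span_singleton_pow,
            Ideal.mem_span_singleton] at h7
          obtain ⟨z, hz⟩ := h7
          exact ⟨f n, (f n).2, -z, by rw [mul_neg, ← hz]; ring⟩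
        refine ⟨⟨y, hy'⟩, fun n => ?_⟩
        have h7 := hy n
        rw [SModEq.sub_mem, smul_eq_mul, Ideal.mul_top] at h7 ⊢
        exact (hspan n _).mpr h7 }
  -- the residue map
  have hbij : Function.Bijective j.rangeRestrict :=
    ⟨fun x y hxy => j.injective (congrArg Subtype.val hxy), j.rangeRestrict_surjective⟩
  let e : k ≃+* j.range := RingEquiv.ofBijective _ hbij
  let f : Λ →+* k := (e.symm : j.range →+* k).comp
    ((WittVector.constantCoeff.comp Λ.subtype).codRestrict j.range fun x => h1 x x.2)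
  have hf : ∀ x : Λ, j (f x) = WittVector.constantCoeff (x : WittVector p K) := by
    intro x
    have h1 : (e (f x) : K) = WittVector.constantCoeff (x : WittVector p K) := by
      change ((e (e.symm _) : j.range) : K) = _
      rw [RingEquiv.apply_symm_apply]
      rfl
    exact h1
  have hfs : Function.Surjective f := by
    intro a
    obtain ⟨x, hx, hxa⟩ := h2 a
    exact ⟨⟨x, hx⟩, j.injective (by rw [hf]; exact hxa)⟩
  have hfk : ∀ x, f x = 0 → ∃ y, x = p * y := by
    intro x hx
    obtain ⟨y, hy, hxy⟩ := h3 x x.2 (by rw [← hf, hx, map_zero])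
    exact ⟨⟨y, hy⟩, Subtype.ext hxy⟩
  have hp0 : (p : Λ) ≠ 0 := by
    intro h
    have h7 : (p : WittVector p K) = 0 := congrArg Subtype.val h
    exact one_ne_zero (htf 1 (by rw [h7, zero_mul]))
  obtain ⟨i1, i2, i3⟩ := dvr_of_p_complete p hp0 f hfs hfk
  have hcomp' : IsAdicComplete (maximalIdeal Λ) Λ := by rw [i2]; exact hcomp
  refine ⟨Λ, inferInstance, inferInstance, i1, i3, hcomp', f, Λ.subtype,
    fun i => ⟨_, h4 i⟩, i2, hfs, hfk, Subtype.val_injective, fun x => (hf x).symm, fun i => rfl⟩

end Vale.Agent.P202.Mix
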