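import Vale.Agent.P202.Mix.CohenB
import Vale.Agent.P202.CharP.ArbK.FSmooth

/-!
P202, mixed characteristic: lifting of homomorphisms from Cohen rings to complete rings.
-/

namespace Vale.Agent.P202.Mix

open Vale.Agent.P202.CharP.ArbK

section lift

variable (p : ℕ) [hp : Fact p.Prime] {Λ k : Type*} [CommRing Λ] [Field k] [CharP k p]
  (π : Λ →+* k) (hπs : Function.Surjective π) (hπ : ∀ x, π x = 0 → ∃ y, x = p * y)
  (htf : ∀ x : Λ, (p : Λ) * x = 0 → x = 0)

include hπs hπ htf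

/-- lifting along a square-zero surjection with kernel killed by `p`. -/
theorem exists_cohen_lift_step {T T' : Type*} [CommRing T] [CommRing T'] (q : T →+* T')
    (hq : Function.Surjective q) (hN : ∀ a b, q a = 0 → q b = 0 → a * b = 0)
    (hpN : ∀ a, q a = 0 → (p : T) * a = 0) (f : Λ →+* T') : ∃ f' : Λ →+* T, q.comp f' = f := by
  let E : Subring (T × Λ) :=
    RingHom.eqLocus (q.comp (RingHom.fst T Λ)) (f.comp (RingHom.snd T Λ))
  have hE : ∀ e : E, q e.1.1 = f e.1.2 := fun e => e.2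
  let J : Ideal E := Ideal.span {(p : E)}
  let g0 : E →+* k := π.comp ((RingHom.snd T Λ).comp E.subtype)
  have hg0 : ∀ x ∈ J, g0 x = 0 := by
    intro x hx
    obtain ⟨y, rfl⟩ := Ideal.mem_span_singleton'.mp hx
    rw [map_mul, map_natCast, CharP.cast_eq_zero, mul_zero]
  let g : E ⧸ J →+* k := Ideal.Quotient.lift J g0 hg0
  have hg : ∀ x : E, g (Ideal.Quotient.mk J x) = π x.1.2 := fun x =>
    Ideal.Quotient.lift_mk J g0 hg0
  have hnt : Nontrivial (E ⧸ J) := g.domain_nontrivial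
  have hch : CharP (E ⧸ J) p := by
    rw [CharP.charP_iff_prime_eq_zero hp.out, ← map_natCast (Ideal.Quotient.mk J),
      Ideal.Quotient.eq_zero_iff_mem]
    exact Ideal.mem_span_singleton_self _
  have hlift : ∀ l : Λ, ∃ t : T, q t = f l := fun l => hq (f l)
  have hgs : Function.Surjective g := by
    intro a
    obtain ⟨l, rfl⟩ := hπs a
    obtain ⟨t, ht⟩ := hlift l
    exact ⟨Ideal.Quotient.mk J ⟨(t, l), ht⟩, hg _⟩
  -- the kernel of `g`
  have hker : ∀ e : E, π e.1.2 = 0 → ∃ t : T, q t = 0 ∧ ∃ e' : E,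
      (e : T × Λ) = (t, 0) + (p : T × Λ) * (e' : T × Λ) := by
    intro e he
    obtain ⟨m, hm⟩ := hπ _ he
    obtain ⟨t', ht'⟩ := hlift m
    refine ⟨e.1.1 - p * t', ?_, ⟨(t', m), ht'⟩, ?_⟩
    · rw [map_sub, map_mul, map_natCast, hE e, ht', hm, map_mul, map_natCast, sub_self]
    · refine Prod.ext ?_ ?_
      · change e.1.1 = (e.1.1 - p * t') + p * t'
        ring
      · change e.1.2 = 0 + p * m
        rw [zero_add, hm]
  have hmk : ∀ e : E, (∃ e' : E, (e : T × Λ) = (p : T × Λ) * (e' : T × Λ)) →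
      Ideal.Quotient.mk J e = 0 := by
    rintro e ⟨e', he⟩
    rw [Ideal.Quotient.eq_zero_iff_mem]
    refine Ideal.mem_span_singleton'.mpr ⟨e', Subtype.ext ?_⟩
    rw [he]
    exact mul_comm _ _
  have hgn : ∀ a b, g a = 0 → g b = 0 → a * b = 0 := by
    intro a b ha hb
    obtain ⟨x, rfl⟩ := Ideal.Quotient.mk_surjective a
    obtain ⟨y, rfl⟩ := Ideal.Quotient.mk_surjective b
    rw [hg] at ha hb
    obtain ⟨t, ht, x', hx⟩ := hker x ha
    obtain ⟨u, hu, y', hy⟩ := hker y hb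
    rw [← map_mul]
    refine hmk _ ⟨⟨((t, 0) : T × Λ), by
      change q t = f 0
      rw [ht, map_zero]⟩ * y' + x' * ⟨((u, 0) : T × Λ), by
      change q u = f 0
      rw [hu, map_zero]⟩ + p * (x' * y'), ?_⟩
    change (x : T × Λ) * (y : T × Λ) = (p : T × Λ) * (((t, 0) : T × Λ) * (y' : T × Λ) +
      (x' : T × Λ) * ((u, 0) : T × Λ) + (p : T × Λ) * ((x' : T × Λ) * (y' : T × Λ)))
    have h0 : ((t, 0) : T × Λ) * ((u, 0) : T × Λ) = 0 := Prod.ext (hN t u ht hu) (mul_zero _)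
    rw [hx, hy]
    calc ((t, 0) + (p : T × Λ) * (x' : T × Λ)) * ((u, 0) + (p : T × Λ) * (y' : T × Λ)) =
        ((t, 0) : T × Λ) * ((u, 0) : T × Λ) + ((p : T × Λ) * (((t, 0) : T × Λ) * (y' : T × Λ) +
          (x' : T × Λ) * ((u, 0) : T × Λ) +
          (p : T × Λ) * ((x' : T × Λ) * (y' : T × Λ)))) := by ring
      _ = _ := by rw [h0, zero_add]
  obtain ⟨s, hs⟩ := exists_section_of_sq_zero p g hgs hgn
  have hs' : ∀ a, g (s a) = a := fun a => DFunLike.congr_fun hs a
  let E1 : Subring E := s.range.comap (Ideal.Quotient.mk J)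
  let h : E1 →+* Λ := (RingHom.snd T Λ).comp (E.subtype.comp E1.subtype)
  have hinj : Function.Injective h := by
    rw [injective_iff_map_eq_zero]
    rintro ⟨e, he⟩ h0
    have h1 : e.1.2 = 0 := h0
    obtain ⟨a, ha⟩ := (he : Ideal.Quotient.mk J e ∈ s.range)
    have h2 : a = 0 := by rw [← hs' a, ha, hg, h1, map_zero]
    rw [h2, map_zero] at ha
    have h3 : e ∈ J := Ideal.Quotient.eq_zero_iff_mem.mp ha.symm
    obtain ⟨y, hy⟩ := Ideal.mem_span_singleton'.mp h3
    have h4 : (e : T × Λ) = (p : T × Λ) * (y : T × Λ) := by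
      rw [← hy]
      exact mul_comm _ _
    have h5 : (p : Λ) * y.1.2 = 0 := by
      have : e.1.2 = p * y.1.2 := by rw [h4]; rfl
      rw [← this, h1]
    have h6 : y.1.2 = 0 := htf _ h5
    have h7 : q y.1.1 = 0 := by rw [hE, h6, map_zero]
    refine Subtype.ext (Subtype.ext ?_)
    rw [h4]
    refine Prod.ext ?_ ?_
    · exact hpN _ h7
    · exact h5
  have hsurj : Function.Surjective h := by
    intro l
    obtain ⟨t, ht⟩ := hlift l
    let e : E := ⟨(t, l), ht⟩
    obtain ⟨e0, he0⟩ := Ideal.Quotient.mk_surjective (s (π l))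
    have h1 : π (e - e0 : E).1.2 = 0 := by
      rw [← hg, map_sub, map_sub, he0, hs', hg]
      exact sub_self _
    obtain ⟨u, hu, e', he'⟩ := hker _ h1
    let n : E := ⟨(u, 0), by
      change q u = f 0
      rw [hu, map_zero]⟩
    refine ⟨⟨e - n, ?_⟩, ?_⟩
    · change Ideal.Quotient.mk J (e - n) ∈ s.range
      refine ⟨π l, ?_⟩
      rw [← he0, eq_comm, ← sub_eq_zero, ← map_sub]
      refine hmk _ ⟨e', ?_⟩
      change ((e : T × Λ) - ((u, 0) : T × Λ)) - (e0 : T × Λ) = (p : T × Λ) * (e' : T × Λ)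
      have h3 : (e : T × Λ) - (e0 : T × Λ) = (u, 0) + (p : T × Λ) * (e' : T × Λ) := he'
      calc ((e : T × Λ) - ((u, 0) : T × Λ)) - (e0 : T × Λ) =
          ((e : T × Λ) - (e0 : T × Λ)) - ((u, 0) : T × Λ) := by ring
        _ = _ := by rw [h3]; ring
    · change l - 0 = l
      rw [sub_zero]
  let eq : E1 ≃+* Λ := RingEquiv.ofBijective h ⟨hinj, hsurj⟩
  refine ⟨((RingHom.fst T Λ).comp (E.subtype.comp E1.subtype)).comp (eq.symm : Λ →+* E1), ?_⟩
  ext l
  obtain ⟨x, rfl⟩ := eq.surjective l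
  change q ((eq.symm (eq x)).1.1.1) = f (eq x)
  rw [RingEquiv.symm_apply_apply]
  exact hE x.1

/-- Homomorphisms from a Cohen ring to `A / I` lift to `A`, for `A` complete. -/
theorem exists_cohen_lift {A : Type*} [CommRing A] (I : Ideal A) [IsAdicComplete I A]
    (hpI : (p : A) ∈ I) (φ : Λ →+* A ⧸ I) :
    ∃ F : Λ →+* A, (Ideal.Quotient.mk I).comp F = φ := by
  have step : ∀ (n : ℕ) (f : Λ →+* A ⧸ I ^ (n + 1)), ∃ f' : Λ →+* A ⧸ I ^ (n + 2),
      (Ideal.Quotient.factorPow I (Nat.le_succ (n + 1))).comp f' = f := by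
    intro n f
    refine exists_cohen_lift_step p π hπs hπ htf _ ?_ ?_ ?_ f
    · intro x
      obtain ⟨a, rfl⟩ := Ideal.Quotient.mk_surjective x
      exact ⟨Ideal.Quotient.mk _ a, rfl⟩
    · intro x y hx hy
      obtain ⟨a, rfl⟩ := Ideal.Quotient.mk_surjective x
      obtain ⟨b, rfl⟩ := Ideal.Quotient.mk_surjective y
      have ha : a ∈ I ^ (n + 1) := Ideal.Quotient.eq_zero_iff_mem.mp hx
      have hb : b ∈ I ^ (n + 1) := Ideal.Quotient.eq_zero_iff_mem.mp hy
      rw [← map_mul, Ideal.Quotient.eq_zero_iff_mem]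
      have h1 := Ideal.mul_mem_mul ha hb
      rw [← pow_add] at h1
      exact Ideal.pow_le_pow_right (by omega) h1
    · intro x hx
      obtain ⟨a, rfl⟩ := Ideal.Quotient.mk_surjective x
      have ha : a ∈ I ^ (n + 1) := Ideal.Quotient.eq_zero_iff_mem.mp hx
      rw [← map_natCast (Ideal.Quotient.mk (I ^ (n + 2))), ← map_mul,
        Ideal.Quotient.eq_zero_iff_mem, pow_succ' I (n + 1)]
      exact Ideal.mul_mem_mul hpI ha
  choose nxt hnxt using step
  have e0 : I = I ^ (0 + 1) := by rw [zero_add, pow_one]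
  let f0 : Λ →+* A ⧸ I ^ (0 + 1) := (Ideal.quotEquivOfEq e0 : A ⧸ I →+* A ⧸ I ^ (0 + 1)).comp φ
  let f : (n : ℕ) → Λ →+* A ⧸ I ^ (n + 1) := fun n =>
    Nat.rec (motive := fun n => Λ →+* A ⧸ I ^ (n + 1)) f0 (fun n g => nxt n g) n
  have hf : ∀ n, (Ideal.Quotient.factorPow I (Nat.le_succ (n + 1))).comp (f (n + 1)) = f n :=
    fun n => hnxt n (f n)
  have ha : StrictMono (fun n : ℕ => n + 1) := fun a b h => Nat.add_lt_add_right h 1
  refine ⟨IsAdicComplete.StrictMono.liftRingHom I ha f (fun {m} => hf m), ?_⟩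
  ext l
  have h1 : Ideal.Quotient.mk (I ^ (0 + 1))
      (IsAdicComplete.StrictMono.liftRingHom I ha f (fun {m} => hf m) l) = f 0 l :=
    IsAdicComplete.StrictMono.mk_liftRingHom I ha f (fun {m} => hf m) l
  apply (Ideal.quotEquivOfEq e0).injective
  exact h1

end lift

end Vale.Agent.P202.Mix
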