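import Vale.Agent.P202.Mix.Defs
import Vale.Agent.P202.Mix.CohenC
import Vale.Agent.P202.CharZero.CoeffField
import Vale.Agent.P202.CharZero.MM

/-!
P202 MIX, task M7: structure of complete local domains of mixed characteristic as finite
extensions of power series rings over Cohen rings.
-/

namespace Vale.Agent.P202.Mix

open IsLocalRing MvPowerSeries

universe u

section Hom

variable {K S : Type*} [CommRing K] [CommRing S]

theorem mc_eval_mem_pow (I : Ideal S) (τ : K →+* S) {d : ℕ} (x : Fin d → S) (hx : ∀ i, x i ∈ I)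
    (n : ℕ) {p : MvPolynomial (Fin d) K} (hp : p ∈ MvPolynomial.idealOfVars (Fin d) K ^ n) :
    MvPolynomial.eval₂Hom τ x p ∈ I ^ n := by
  have h1 : (MvPolynomial.idealOfVars (Fin d) K).map (MvPolynomial.eval₂Hom τ x) ≤ I := by
    rw [MvPolynomial.idealOfVars, Ideal.map_span, Ideal.span_le]
    rintro _ ⟨_, ⟨i, rfl⟩, rfl⟩
    simpa using hx i
  have h2 := Ideal.mem_map_of_mem (MvPolynomial.eval₂Hom τ x) hp
  rw [Ideal.map_pow] at h2
  exact Ideal.pow_right_mono h1 n h2

/-- the truncated evaluation. -/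
noncomputable def mcTrunc (I : Ideal S) (τ : K →+* S) {d : ℕ} (x : Fin d → S)
    (hx : ∀ i, x i ∈ I) (n : ℕ) : MvPowerSeries (Fin d) K →+* S ⧸ I ^ n :=
  (Ideal.Quotient.lift (MvPolynomial.idealOfVars (Fin d) K ^ n)
    ((Ideal.Quotient.mk (I ^ n)).comp (MvPolynomial.eval₂Hom τ x))
    (fun p hp => by
      rw [RingHom.comp_apply, Ideal.Quotient.eq_zero_iff_mem]
      exact mc_eval_mem_pow I τ x hx n hp)).comp (truncTotalAlgHom (Fin d) K n).toRingHom

theorem mcTrunc_apply (I : Ideal S) (τ : K →+* S) {d : ℕ} (x : Fin d → S)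
    (hx : ∀ i, x i ∈ I) (n : ℕ) (p : MvPowerSeries (Fin d) K) :
    mcTrunc I τ x hx n p =
      Ideal.Quotient.mk (I ^ n) (MvPolynomial.eval₂Hom τ x (p.truncTotal n)) := by
  rfl

theorem mcTrunc_coe (I : Ideal S) (τ : K →+* S) {d : ℕ} (x : Fin d → S)
    (hx : ∀ i, x i ∈ I) (n : ℕ) (p : MvPolynomial (Fin d) K) :
    mcTrunc I τ x hx n (p : MvPowerSeries (Fin d) K) =
      Ideal.Quotient.mk (I ^ n) (MvPolynomial.eval₂Hom τ x p) := by
  have h := (truncTotalAlgHom (Fin d) K n).commutes p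
  have h2 : mcTrunc I τ x hx n (p : MvPowerSeries (Fin d) K) =
      (Ideal.Quotient.lift (MvPolynomial.idealOfVars (Fin d) K ^ n)
    ((Ideal.Quotient.mk (I ^ n)).comp (MvPolynomial.eval₂Hom τ x))
    (fun p hp => by
      rw [RingHom.comp_apply, Ideal.Quotient.eq_zero_iff_mem]
      exact mc_eval_mem_pow I τ x hx n hp))
      (truncTotalAlgHom (Fin d) K n (algebraMap (MvPolynomial (Fin d) K)
        (MvPowerSeries (Fin d) K) p)) := rfl
  rw [h2, h]
  rfl

/-- power series with coefficients in a commutative ring act on complete rings. -/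
theorem mc_exists_hom (I : Ideal S)
    [IsAdicComplete I S] (τ : K →+* S) {d : ℕ} (x : Fin d → S) (hx : ∀ i, x i ∈ I) :
    ∃ φ : MvPowerSeries (Fin d) K →+* S, (∀ a, φ (C a) = τ a) ∧ ∀ i, φ (X i) = x i := by
  have hf : ∀ {m n : ℕ} (hle : m ≤ n),
      (Ideal.Quotient.factorPow I hle).comp (mcTrunc I τ x hx n) = mcTrunc I τ x hx m := by
    intro m n hle
    ext p
    rw [RingHom.comp_apply, mcTrunc_apply, mcTrunc_apply]
    change Ideal.Quotient.mk (I ^ m) _ = _
    rw [Ideal.Quotient.eq, ← map_sub]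
    exact mc_eval_mem_pow I τ x hx m
      (truncTotal_sub_truncTotal_mem_pow_idealOfVars hle (le_refl _) _)
  refine ⟨IsAdicComplete.liftRingHom I (mcTrunc I τ x hx) hf, ?_, ?_⟩
  · intro a
    have hC : (C a : MvPowerSeries (Fin d) K) = ((MvPolynomial.C a : MvPolynomial (Fin d) K) :
        MvPowerSeries (Fin d) K) := (MvPolynomial.coe_C a).symm
    have : ∀ n : ℕ, Ideal.Quotient.mk (I ^ n)
        (IsAdicComplete.liftRingHom I (mcTrunc I τ x hx) hf (C a)) =
        Ideal.Quotient.mk (I ^ n) (τ a) := by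
      intro n
      rw [IsAdicComplete.mk_liftRingHom, hC, mcTrunc_coe]
      simp
    apply (IsHausdorff.eq_iff_smodEq (I := I)).2
    intro n
    rw [SModEq.sub_mem, smul_eq_mul, Ideal.mul_top, ← Ideal.Quotient.eq]
    exact this n
  · intro i
    have hC : (X i : MvPowerSeries (Fin d) K) = ((MvPolynomial.X i : MvPolynomial (Fin d) K) :
        MvPowerSeries (Fin d) K) := (MvPolynomial.coe_X i).symm
    have : ∀ n : ℕ, Ideal.Quotient.mk (I ^ n)
        (IsAdicComplete.liftRingHom I (mcTrunc I τ x hx) hf (X i)) =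
        Ideal.Quotient.mk (I ^ n) (x i) := by
      intro n
      rw [IsAdicComplete.mk_liftRingHom, hC, mcTrunc_coe]
      simp
    apply (IsHausdorff.eq_iff_smodEq (I := I)).2
    intro n
    rw [SModEq.sub_mem, smul_eq_mul, Ideal.mul_top, ← Ideal.Quotient.eq]
    exact this n

end Hom

section Fin

/-- approximation by combinations with coefficients in `K`. -/
theorem mc_approx {K S : Type*} [CommRing K] [CommRing S] [IsLocalRing S] [IsNoetherianRing S]
    (τ : K →+* S) (hK : ∀ z : S, ∃ a : K, z - τ a ∈ maximalIdeal S) (m : ℕ) :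
    ∃ (n : ℕ) (g : Fin n → S), ∀ z : S, ∃ c : Fin n → K,
      z - ∑ i, τ (c i) * g i ∈ maximalIdeal S ^ m := by
  induction m with
  | zero => exact ⟨0, Fin.elim0, fun z => ⟨Fin.elim0, by simp⟩⟩
  | succ m ih =>
    obtain ⟨n, g, h⟩ := ih
    obtain ⟨t, e, he⟩ := Submodule.fg_iff_exists_fin_generating_family.1
      (IsNoetherian.noetherian (maximalIdeal S ^ m) : (maximalIdeal S ^ m).FG)
    choose a ha using hK
    refine ⟨n + t, Fin.append g e, fun z => ?_⟩
    obtain ⟨c, hc⟩ := h z
    rw [← he, Submodule.mem_span_range_iff_exists_fun] at hc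
    obtain ⟨b, hb⟩ := hc
    refine ⟨Fin.append c fun i => a (b i), ?_⟩
    rw [Fin.sum_univ_add]
    simp only [Fin.append_left, Fin.append_right]
    have h2 : z - (∑ i, τ (c i) * g i + ∑ i, τ (a (b i)) * e i) =
        ∑ i, (b i - τ (a (b i))) * e i := by
      rw [← sub_sub, ← hb, ← Finset.sum_sub_distrib]
      refine Finset.sum_congr rfl fun i _ => ?_
      rw [smul_eq_mul, sub_mul]
    rw [h2, pow_succ']
    refine Ideal.sum_mem _ fun i _ => Ideal.mul_mem_mul (ha _) ?_
    rw [← he]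
    exact Submodule.subset_span ⟨i, rfl⟩

/-- finiteness over the power series ring over a complete coefficient ring. -/
theorem mc_finite {K S : Type*} [CommRing K] [CommRing S] [IsLocalRing S] [IsNoetherianRing S]
    (ϖ : K) [IsPrecomplete (Ideal.span {ϖ}) K] {r : ℕ} (φ : MvPowerSeries (Fin r) K →+* S)
    (hK : ∀ z : S, ∃ a : K, z - φ (C a) ∈ maximalIdeal S)
    (hϖ : φ (C ϖ) ∈ maximalIdeal S) (hx : ∀ i, φ (X i) ∈ maximalIdeal S)
    {M : ℕ} (hM : maximalIdeal S ^ M ≤
      Ideal.span ({φ (C ϖ)} ∪ Set.range fun i => φ (X i))) : φ.Finite := by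
  set τ : K →+* S := φ.comp C with hτ
  set J : Ideal S := Ideal.span (Set.range fun i => φ (X i)) with hJ
  obtain ⟨n, g, hg⟩ := mc_approx τ hK M
  -- step 1: modulo the variables
  have step1 : ∀ z : S, ∃ c : Fin n → K, z - ∑ i, τ (c i) * g i ∈ J := by
    let _ : Algebra K S := τ.toAlgebra
    have hτa : ∀ c, algebraMap K S c = τ c := fun c => rfl
    have h1 : (Ideal.span {ϖ}).map (algebraMap K S) ≤ maximalIdeal S := by
      rw [Ideal.map_span, Set.image_singleton, Ideal.span_singleton_le_iff_mem]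
      exact hϖ
    have h2 : IsHausdorff (Ideal.span {ϖ}) (S ⧸ J) := IsHausdorff.of_map h1
    have h3 := CZ.isPrecomplete_pi (Ideal.span {ϖ}) n
    let f : (Fin n → K) →ₗ[K] (S ⧸ J) :=
      Fintype.linearCombination K fun i => Ideal.Quotient.mk J (g i)
    have hf : ∀ c : Fin n → K, f c = Ideal.Quotient.mk J (∑ i, τ (c i) * g i) := by
      intro c
      rw [Fintype.linearCombination_apply, map_sum]
      refine Finset.sum_congr rfl fun i _ => ?_
      rw [Algebra.smul_def, map_mul]
      rfl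
    have hsurj : Function.Surjective f := by
      apply surjective_of_mkQ_comp_surjective (I := Ideal.span {ϖ})
      intro z
      obtain ⟨z, rfl⟩ := Submodule.mkQ_surjective _ z
      obtain ⟨z, rfl⟩ := Ideal.Quotient.mk_surjective z
      obtain ⟨c, hc⟩ := hg z
      refine ⟨c, ?_⟩
      rw [LinearMap.comp_apply, hf, ← sub_eq_zero, ← map_sub, Submodule.mkQ_apply,
        Submodule.Quotient.mk_eq_zero, ← neg_mem_iff, neg_sub, ← map_sub]
      have h4 := hM hc
      rw [Ideal.span_union, Submodule.mem_sup] at h4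
      obtain ⟨y, hy, w, hw, hyw⟩ := h4
      obtain ⟨y', rfl⟩ := Ideal.mem_span_singleton'.1 hy
      have h5 : Ideal.Quotient.mk J (z - ∑ i, τ (c i) * g i) =
          ϖ • Ideal.Quotient.mk J y' := by
        rw [← hyw, map_add, Ideal.Quotient.eq_zero_iff_mem.2 hw, add_zero, Algebra.smul_def,
          mul_comm, map_mul]
        rfl
      rw [h5]
      exact Submodule.smul_mem_smul (Ideal.mem_span_singleton_self _) trivial
    intro z
    obtain ⟨c, hc⟩ := hsurj (Ideal.Quotient.mk J z)
    refine ⟨c, ?_⟩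
    rw [← Ideal.Quotient.eq, ← hc, hf]
  -- step 2
  let _ : Algebra (MvPowerSeries (Fin r) K) S := φ.toAlgebra
  have hφa : ∀ c, algebraMap (MvPowerSeries (Fin r) K) S c = φ c := fun c => rfl
  set I : Ideal (MvPowerSeries (Fin r) K) := Ideal.span (Set.range X) with hI
  have hIS : I.map (algebraMap (MvPowerSeries (Fin r) K) S) = J := by
    rw [hI, Ideal.map_span, ← Set.range_comp]
    rfl
  have hJm : J ≤ maximalIdeal S := by
    rw [hJ, Ideal.span_le]
    rintro _ ⟨i, rfl⟩
    exact hx i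
  have hH : IsHausdorff I S := IsHausdorff.of_map (hIS.trans_le hJm)
  have hP := CZ.isPrecomplete_pi I n
  have hsurj : Function.Surjective (Fintype.linearCombination (MvPowerSeries (Fin r) K) g) := by
    apply surjective_of_mkQ_comp_surjective (I := I)
    intro z
    obtain ⟨z, rfl⟩ := Submodule.mkQ_surjective _ z
    obtain ⟨c, hc⟩ := step1 z
    refine ⟨fun i => C (c i), ?_⟩
    rw [LinearMap.comp_apply, ← sub_eq_zero, ← map_sub, Submodule.mkQ_apply,
      Submodule.Quotient.mk_eq_zero, Ideal.smul_top_eq_map, Submodule.restrictScalars_mem, hIS,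
      ← neg_mem_iff, neg_sub, Fintype.linearCombination_apply]
    exact hc
  exact Module.Finite.of_surjective _ hsurj

end Fin

section Dim

theorem mc_height_le_iff {R : Type*} [CommRing R] [IsLocalRing R] {d : ℕ} :
    (maximalIdeal R).height ≤ (d : ℕ∞) ↔ ringKrullDim R ≤ (d : ℕ) := by
  rw [← IsLocalRing.maximalIdeal_height_eq_ringKrullDim]
  exact (WithBot.coe_le_coe (a := (maximalIdeal R).height) (b := (d : ℕ∞))).symm

/-- Krull's height theorem. -/
theorem mc_dim_le {R : Type*} [CommRing R] [IsLocalRing R] [IsNoetherianRing R] {d M : ℕ}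
    (x : Fin d → R) (hx : ∀ i, x i ∈ maximalIdeal R)
    (hM : maximalIdeal R ^ M ≤ Ideal.span (Set.range x)) : ringKrullDim R ≤ (d : ℕ) := by
  rw [← mc_height_le_iff]
  have hmin : maximalIdeal R ∈ (Ideal.span (Set.range x)).minimalPrimes := by
    refine ⟨⟨inferInstance, ?_⟩, ?_⟩
    · rw [Ideal.span_le]
      rintro _ ⟨i, rfl⟩
      exact hx i
    · rintro P ⟨hP, hIP⟩ _
      exact hP.le_of_pow_le (hM.trans hIP)
  have h1 := Ideal.height_le_card_of_mem_minimalPrimes_span (Set.finite_range x) hmin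
  have h2 : (Set.range x).ncard ≤ d := by
    rw [← Set.image_univ]
    refine (Set.ncard_image_le (Set.toFinite _)).trans ?_
    simp
  exact h1.trans (by exact_mod_cast h2)

/-- parameters of a Noetherian local ring. -/
theorem mc_params {R : Type*} [CommRing R] [IsLocalRing R] [IsNoetherianRing R] {d : ℕ}
    (hd : ringKrullDim R ≤ (d : ℕ)) : ∃ x : Fin d → R, (∀ i, x i ∈ maximalIdeal R) ∧
      ∃ M : ℕ, maximalIdeal R ^ M ≤ Ideal.span (Set.range x) := by
  classical
  obtain ⟨s, hs, hcard⟩ := (maximalIdeal R).exists_finset_card_eq_height_of_isNoetherianRing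
  rw [← mc_height_le_iff, ← hcard] at hd
  have hd' : s.card ≤ d := by exact_mod_cast hd
  have hsm : ∀ a ∈ s, a ∈ maximalIdeal R := fun a ha => hs.1.2 (Ideal.subset_span ha)
  refine ⟨fun i => if h : (i : ℕ) < s.card then (s.equivFin.symm ⟨i, h⟩ : R) else 0, ?_, ?_⟩
  · intro i
    by_cases h : (i : ℕ) < s.card
    · simp only [h, dif_pos]
      exact hsm _ (s.equivFin.symm ⟨i, h⟩).2
    · simp only [h, dif_neg, not_false_eq_true]
      exact zero_mem _
  · have hrad : maximalIdeal R ≤ (Ideal.span (s : Set R)).radical := by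
      rw [Ideal.radical_eq_sInf]
      refine le_sInf ?_
      rintro P ⟨hP, hPp⟩
      exact hs.2 ⟨hPp, hP⟩ (le_maximalIdeal hPp.ne_top)
    obtain ⟨M, hM⟩ := Ideal.exists_pow_le_of_le_radical_of_fg hrad
      (IsNoetherian.noetherian (maximalIdeal R))
    refine ⟨M, hM.trans (Ideal.span_mono ?_)⟩
    intro a ha
    refine ⟨⟨s.equivFin ⟨a, ha⟩, (s.equivFin ⟨a, ha⟩).2.trans_le hd'⟩, ?_⟩
    simp

variable {K : Type*} [CommRing K] [IsDomain K] [IsLocalRing K] [IsNoetherianRing K]

omit [IsDomain K] [IsNoetherianRing K] in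
theorem mc_max_le (ϖ : K) (hK : maximalIdeal K = Ideal.span {ϖ}) {r : ℕ} :
    maximalIdeal (MvPowerSeries (Fin r) K) ≤
      Ideal.span ({C ϖ} ∪ Set.range (X : Fin r → MvPowerSeries (Fin r) K)) := by
  intro f hf
  have h1 : constantCoeff f ∈ maximalIdeal K := by
    rw [mem_maximalIdeal, mem_nonunits_iff] at hf ⊢
    exact fun h => hf (isUnit_iff_constantCoeff.2 h)
  rw [hK] at h1
  obtain ⟨c, hc⟩ := Ideal.mem_span_singleton'.1 h1
  have h2 : f - C (constantCoeff f) ∈
      Ideal.span (Set.range (X : Fin r → MvPowerSeries (Fin r) K)) := by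
    rw [← pow_one (Ideal.span _)]
    refine CZ.mem_pow_of_coeff_eq_zero fun d hd => ?_
    have hd0 : d = 0 := (Finsupp.degree_eq_zero_iff d).1 (by omega)
    rw [hd0, map_sub, coeff_zero_eq_constantCoeff_apply, coeff_zero_C, sub_self]
  have h3 : f = C c * C ϖ + (f - C (constantCoeff f)) := by
    rw [← map_mul, hc]
    ring
  rw [h3]
  refine add_mem (Ideal.mul_mem_left _ _ (Ideal.subset_span (Or.inl rfl))) ?_
  exact Ideal.span_mono Set.subset_union_right h2

/-- injectivity by dimension. -/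
theorem mc_injective_aux {Λ A : Type*} [CommRing Λ] [IsDomain Λ] [IsLocalRing Λ]
    [IsNoetherianRing Λ] [CommRing A] [IsLocalRing A] [IsNoetherianRing A] {r : ℕ}
    (hdimΛ : ringKrullDim Λ ≤ (r + 1 : ℕ)) (hdim : ringKrullDim A = (r + 1 : ℕ)) (φ : Λ →+* A)
    (hφm : ∀ g ∈ maximalIdeal Λ, φ g ∈ maximalIdeal A)
    {M : ℕ} (hM : maximalIdeal A ^ M ≤ (maximalIdeal Λ).map φ) : Function.Injective φ := by
  rw [injective_iff_map_eq_zero]
  intro f hf
  by_contra hf0
  have hfm : f ∈ maximalIdeal Λ := by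
    rw [mem_maximalIdeal, mem_nonunits_iff]
    intro h
    have h2 := h.map φ
    rw [hf] at h2
    exact not_isUnit_zero h2
  have hne : Ideal.span {f} ≠ ⊤ := by
    intro h
    have h1 : Ideal.span {f} ≤ maximalIdeal Λ := by
      rw [Ideal.span_singleton_le_iff_mem]
      exact hfm
    rw [h, top_le_iff] at h1
    exact (maximalIdeal.isMaximal Λ).ne_top h1
  have : Nontrivial (Λ ⧸ Ideal.span {f}) := Ideal.Quotient.nontrivial_iff.2 hne
  have : IsLocalRing (Λ ⧸ Ideal.span {f}) :=
    IsLocalRing.of_surjective' (Ideal.Quotient.mk _) Ideal.Quotient.mk_surjective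
  have h1 := ringKrullDim_quotient_succ_le_of_nonZeroDivisor (mem_nonZeroDivisors_of_ne_zero hf0)
  have h2 : ringKrullDim (Λ ⧸ Ideal.span {f}) ≤ (r : ℕ) := by
    have h3 := h1.trans hdimΛ
    rw [← IsLocalRing.maximalIdeal_height_eq_ringKrullDim] at h3 ⊢
    have h4 : (maximalIdeal (Λ ⧸ Ideal.span {f})).height + 1 ≤ (r : ℕ∞) + 1 := by
      exact_mod_cast h3
    have h5 := (ENat.add_le_add_iff_right (by simp)).1 h4
    exact_mod_cast h5
  obtain ⟨x, hxm, N, hN⟩ := mc_params h2
  let φ' : Λ ⧸ Ideal.span {f} →+* A := Ideal.Quotient.lift _ φ (by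
    intro z hz
    obtain ⟨c, rfl⟩ := Ideal.mem_span_singleton'.1 hz
    rw [map_mul, hf, mul_zero])
  have hφ' : ∀ z, φ' (Ideal.Quotient.mk _ z) = φ z := fun z => Ideal.Quotient.lift_mk _ _ _
  have hφ'm : ∀ z ∈ maximalIdeal (Λ ⧸ Ideal.span {f}), φ' z ∈ maximalIdeal A := by
    intro z hz
    obtain ⟨z, rfl⟩ := Ideal.Quotient.mk_surjective z
    rw [hφ']
    refine hφm z ?_
    rw [mem_maximalIdeal, mem_nonunits_iff] at hz ⊢
    exact fun h => hz (h.map _)
  have hmap : (maximalIdeal Λ).map φ ≤ (maximalIdeal (Λ ⧸ Ideal.span {f})).map φ' := by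
    rw [Ideal.map_le_iff_le_comap]
    intro g hg
    rw [Ideal.mem_comap, ← hφ']
    refine Ideal.mem_map_of_mem _ ?_
    have hl : IsLocalHom (Ideal.Quotient.mk (Ideal.span {f})) :=
      IsLocalHom.of_surjective _ Ideal.Quotient.mk_surjective
    rw [mem_maximalIdeal, mem_nonunits_iff] at hg ⊢
    exact fun h => hg (isUnit_of_map_unit (Ideal.Quotient.mk (Ideal.span {f})) g h)
  have hfin : maximalIdeal A ^ (M * N) ≤ Ideal.span (Set.range fun i => φ' (x i)) := by
    rw [pow_mul]
    refine (Ideal.pow_right_mono (hM.trans hmap) N).trans ?_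
    rw [← Ideal.map_pow]
    refine (Ideal.map_mono hN).trans ?_
    rw [Ideal.map_span, ← Set.range_comp]
    exact le_rfl
  have h6 := mc_dim_le (fun i => φ' (x i)) (fun i => hφ'm _ (hxm i)) hfin
  rw [hdim] at h6
  have h7 : r + 1 ≤ r := by exact_mod_cast h6
  omega

theorem mc_injective {A : Type*} [CommRing A] [IsLocalRing A] [IsNoetherianRing A]
    (ϖ : K) (hK : maximalIdeal K = Ideal.span {ϖ}) {r : ℕ}
    (hdim : ringKrullDim A = (r + 1 : ℕ)) (φ : MvPowerSeries (Fin r) K →+* A)
    (hϖ : φ (C ϖ) ∈ maximalIdeal A) (hx : ∀ i, φ (X i) ∈ maximalIdeal A)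
    {M : ℕ} (hM : maximalIdeal A ^ M ≤
      Ideal.span ({φ (C ϖ)} ∪ Set.range fun i => φ (X i))) : Function.Injective φ := by
  have hΛN : IsNoetherianRing (MvPowerSeries (Fin r) K) :=
    inferInstanceAs (IsNoetherianRing (MvPowerSeries (Fin r) K))
  have hΛd : IsDomain (MvPowerSeries (Fin r) K) := NoZeroDivisors.to_isDomain _
  have hCm : (C ϖ : MvPowerSeries (Fin r) K) ∈ maximalIdeal (MvPowerSeries (Fin r) K) := by
    rw [mem_maximalIdeal, mem_nonunits_iff]
    intro h
    have h2 := h.map φ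
    exact (mem_maximalIdeal _).1 hϖ h2
  have hXm : ∀ i, (X i : MvPowerSeries (Fin r) K) ∈
      maximalIdeal (MvPowerSeries (Fin r) K) := by
    intro i
    rw [mem_maximalIdeal, mem_nonunits_iff]
    intro h
    have h2 := h.map φ
    exact (mem_maximalIdeal _).1 (hx i) h2
  refine mc_injective_aux (M := M) ?_ hdim φ ?_ ?_
  · refine mc_dim_le (M := 1) (Fin.cons (C ϖ) X : Fin (r + 1) → MvPowerSeries (Fin r) K) ?_ ?_
    · intro i
      refine Fin.cases ?_ (fun i => ?_) i
      · rw [Fin.cons_zero]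
        exact hCm
      · rw [Fin.cons_succ]
        exact hXm i
    · rw [pow_one]
      refine (mc_max_le ϖ hK).trans (Ideal.span_mono ?_)
      rw [Fin.range_cons]
      exact (Set.singleton_union).le
  · intro g hg
    have h1 := Ideal.mem_map_of_mem φ (mc_max_le ϖ hK hg)
    rw [Ideal.map_span] at h1
    refine (Ideal.span_le.2 ?_) h1
    rintro _ ⟨a, (rfl | ⟨i, rfl⟩), rfl⟩
    · exact hϖ
    · exact hx i
  · refine hM.trans ?_
    rw [Ideal.span_le]
    rintro _ (rfl | ⟨i, rfl⟩)
    · exact Ideal.mem_map_of_mem _ hCm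
    · exact Ideal.mem_map_of_mem _ (hXm i)

end Dim

section Main

/-- structure of complete local domains over a Cohen ring. -/
theorem exists_cohen_general (p : ℕ) {Cr A : Type*} [CommRing Cr] [IsDomain Cr] [IsLocalRing Cr]
    [IsNoetherianRing Cr] (hCr : maximalIdeal Cr = Ideal.span {(p : Cr)})
    [IsPrecomplete (Ideal.span {(p : Cr)}) Cr] [CommRing A] [IsDomain A]
    [IsLocalRing A] [IsNoetherianRing A] [IsAdicComplete (maximalIdeal A) A]
    (hp0 : (p : A) ≠ 0) (hp : (p : A) ∈ maximalIdeal A) {r : ℕ}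
    (hdim : ringKrullDim A = (r + 1 : ℕ)) (τ : Cr →+* A)
    (hτ : ∀ z : A, ∃ a : Cr, z - τ a ∈ maximalIdeal A) :
    ∃ φ : MvPowerSeries (Fin r) Cr →+* A, φ.Finite ∧ Function.Injective φ ∧
      (∀ i, φ (MvPowerSeries.X i) ∈ maximalIdeal A) ∧
      (∀ c, φ (MvPowerSeries.C c) = τ c) ∧
      (∃ M : ℕ, maximalIdeal A ^ M ≤
        Ideal.span ({(p : A)} ∪ Set.range fun i => φ (MvPowerSeries.X i))) ∧
      ∃ (s : ℕ) (a : Fin s → A), Ideal.span (Set.range a) = maximalIdeal A ∧
        ∀ x : A, ∃ (l : MvPowerSeries (Fin r) Cr) (c : Fin s → MvPowerSeries (Fin r) Cr),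
          x = φ l + ∑ j, φ (c j) * a j := by
  -- parameters modulo `p`
  have hne : Ideal.span {(p : A)} ≠ ⊤ := by
    intro h
    have h1 : Ideal.span {(p : A)} ≤ maximalIdeal A := by
      rw [Ideal.span_singleton_le_iff_mem]
      exact hp
    rw [h, top_le_iff] at h1
    exact (maximalIdeal.isMaximal A).ne_top h1
  have : Nontrivial (A ⧸ Ideal.span {(p : A)}) := Ideal.Quotient.nontrivial_iff.2 hne
  have : IsLocalRing (A ⧸ Ideal.span {(p : A)}) :=
    IsLocalRing.of_surjective' (Ideal.Quotient.mk _) Ideal.Quotient.mk_surjective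
  have h2 : ringKrullDim (A ⧸ Ideal.span {(p : A)}) ≤ (r : ℕ) := by
    have h3 := ringKrullDim_quotient_succ_le_of_nonZeroDivisor
      (mem_nonZeroDivisors_of_ne_zero hp0)
    rw [hdim, ← IsLocalRing.maximalIdeal_height_eq_ringKrullDim] at h3
    rw [← IsLocalRing.maximalIdeal_height_eq_ringKrullDim]
    have h4 : (maximalIdeal (A ⧸ Ideal.span {(p : A)})).height + 1 ≤ (r : ℕ∞) + 1 := by
      exact_mod_cast h3
    have h5 := (ENat.add_le_add_iff_right (by simp)).1 h4
    exact_mod_cast h5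
  obtain ⟨x, hxm, M, hM⟩ := mc_params h2
  choose u hu using fun i => Ideal.Quotient.mk_surjective (x i)
  have hum : ∀ i, u i ∈ maximalIdeal A := by
    intro i
    have h3 := hxm i
    rw [← hu, mem_maximalIdeal, mem_nonunits_iff] at h3
    rw [mem_maximalIdeal, mem_nonunits_iff]
    exact fun h => h3 (h.map _)
  obtain ⟨φ, hφC, hφX⟩ := mc_exists_hom (maximalIdeal A) τ u hum
  have hφp : φ (C (p : Cr)) = p := by rw [hφC, map_natCast]
  have hφx : ∀ i, φ (X i) ∈ maximalIdeal A := fun i => by rw [hφX]; exact hum i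
  have hMA : maximalIdeal A ^ M ≤ Ideal.span ({(p : A)} ∪ Set.range fun i => φ (X i)) := by
    intro z hz
    have h3 : Ideal.Quotient.mk (Ideal.span {(p : A)}) z ∈
        maximalIdeal (A ⧸ Ideal.span {(p : A)}) ^ M := by
      have h4 : (maximalIdeal A).map (Ideal.Quotient.mk (Ideal.span {(p : A)})) ≤
          maximalIdeal (A ⧸ Ideal.span {(p : A)}) := by
        rw [Ideal.map_le_iff_le_comap]
        intro y hy
        rw [Ideal.mem_comap, mem_maximalIdeal, mem_nonunits_iff]
        intro h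
        have hl : IsLocalHom (Ideal.Quotient.mk (Ideal.span {(p : A)})) :=
          IsLocalHom.of_surjective _ Ideal.Quotient.mk_surjective
        exact (mem_maximalIdeal _).1 hy
          (isUnit_of_map_unit (Ideal.Quotient.mk (Ideal.span {(p : A)})) y h)
      have h5 := Ideal.mem_map_of_mem (Ideal.Quotient.mk (Ideal.span {(p : A)})) hz
      rw [Ideal.map_pow] at h5
      exact Ideal.pow_right_mono h4 M h5
    have h6 := hM h3
    have h7 : Ideal.span (Set.range x) =
        (Ideal.span (Set.range u)).map (Ideal.Quotient.mk (Ideal.span {(p : A)})) := by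
      rw [Ideal.map_span, ← Set.range_comp]
      congr 2
      funext i
      exact (hu i).symm
    rw [h7, Ideal.mem_map_iff_of_surjective _ Ideal.Quotient.mk_surjective] at h6
    obtain ⟨y, hy, hyz⟩ := h6
    rw [Ideal.Quotient.eq] at hyz
    have h8 : z = y - (y - z) := by ring
    rw [h8, Ideal.span_union]
    refine sub_mem ((le_sup_right : _ ≤ Ideal.span {(p : A)} ⊔ _) ?_)
      ((le_sup_left : _ ≤ _ ⊔ Ideal.span (Set.range fun i => φ (X i))) hyz)
    have h9 : (fun i => φ (X i)) = u := funext hφX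
    rw [h9]
    exact hy
  have hres : ∀ z : A, ∃ a : Cr, z - φ (C a) ∈ maximalIdeal A := fun z => by
    simp only [hφC]
    exact hτ z
  have hfin : φ.Finite := mc_finite (p : Cr) φ hres (by rw [hφp]; exact hp) hφx
    (by rw [hφp]; exact hMA)
  refine ⟨φ, hfin, ?_, hφx, hφC, ⟨M, hMA⟩, ?_⟩
  · exact mc_injective (p : Cr) hCr hdim φ (by rw [hφp]; exact hp) hφx (by rw [hφp]; exact hMA)
  · let _ : Algebra (MvPowerSeries (Fin r) Cr) A := φ.toAlgebra
    have hΛN : IsNoetherianRing (MvPowerSeries (Fin r) Cr) :=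
      inferInstanceAs (IsNoetherianRing (MvPowerSeries (Fin r) Cr))
    have hf : Module.Finite (MvPowerSeries (Fin r) Cr) A := hfin
    have hN : IsNoetherian (MvPowerSeries (Fin r) Cr) A := isNoetherian_of_isNoetherianRing_of_finite _ _
    obtain ⟨s, a, ha⟩ := Submodule.fg_iff_exists_fin_generating_family.1
      (IsNoetherian.noetherian ((maximalIdeal A).restrictScalars (MvPowerSeries (Fin r) Cr)))
    have ham : ∀ j, a j ∈ maximalIdeal A := by
      intro j
      have h3 : a j ∈ Submodule.span (MvPowerSeries (Fin r) Cr) (Set.range a) :=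
        Submodule.subset_span ⟨j, rfl⟩
      rw [ha] at h3
      exact h3
    have hcomb : ∀ z ∈ maximalIdeal A, ∃ c : Fin s → MvPowerSeries (Fin r) Cr,
        z = ∑ j, φ (c j) * a j := by
      intro z hz
      have h3 : z ∈ Submodule.span (MvPowerSeries (Fin r) Cr) (Set.range a) := by
        rw [ha]
        exact hz
      rw [Submodule.mem_span_range_iff_exists_fun] at h3
      obtain ⟨c, hc⟩ := h3
      exact ⟨c, hc.symm⟩
    refine ⟨s, a, le_antisymm ?_ ?_, ?_⟩
    · rw [Ideal.span_le]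
      rintro _ ⟨j, rfl⟩
      exact ham j
    · intro z hz
      obtain ⟨c, rfl⟩ := hcomb z hz
      exact Ideal.sum_mem _ fun j _ => Ideal.mul_mem_left _ _ (Ideal.subset_span ⟨j, rfl⟩)
    · intro z
      obtain ⟨b, hb⟩ := hres z
      obtain ⟨c, hc⟩ := hcomb _ hb
      exact ⟨C b, c, by rw [← hc]; ring⟩

/-- TASK M7: structure of complete local domains of mixed characteristic with perfect residue
field. -/
theorem exists_cohen_mixed (p : ℕ) [Fact p.Prime] {A : Type u} [CommRing A] [IsDomain A]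
    [IsLocalRing A] [IsNoetherianRing A] [IsAdicComplete (maximalIdeal A) A] [CharZero A]
    (hp : (p : A) ∈ maximalIdeal A) [CharP (ResidueField A) p] [PerfectRing (ResidueField A) p]
    {r : ℕ} (hdim : ringKrullDim A = (r + 1 : ℕ)) :
    ∃ φ : La p (ResidueField A) r →+* A, φ.Finite ∧ Function.Injective φ ∧
      (∀ i, φ (MvPowerSeries.X i) ∈ maximalIdeal A) ∧
      (∀ c, residue A (φ (MvPowerSeries.C c)) = c.coeff 0) ∧
      (∃ M : ℕ, maximalIdeal A ^ M ≤
        Ideal.span ({(p : A)} ∪ Set.range fun i => φ (MvPowerSeries.X i))) ∧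
      ∃ (s : ℕ) (a : Fin s → A), Ideal.span (Set.range a) = maximalIdeal A ∧
        ∀ x : A, ∃ (l : La p (ResidueField A) r) (c : Fin s → La p (ResidueField A) r),
          x = φ l + ∑ j, φ (c j) * a j := by
  have hp1 : (p : A) ≠ 0 := Nat.cast_ne_zero.2 (Fact.out : p.Prime).ne_zero
  obtain ⟨τ, hτ⟩ := exists_cohen_lift p (Λ := WittVector p (ResidueField A))
    (k := ResidueField A) WittVector.constantCoeff (WittVector.constantCoeff_surjective p)
    (fun x hx => by
      have h : x ∈ Ideal.span {(p : WittVector p (ResidueField A))} :=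
        (WittVector.mem_span_p_iff_coeff_zero_eq_zero x).mpr hx
      exact Ideal.mem_span_singleton.mp h)
    (fun x hx => WittVector.eq_zero_of_p_mul_eq_zero x (by rwa [mul_comm] at hx))
    (maximalIdeal A) hp
    (WittVector.constantCoeff : WittVector p (ResidueField A) →+* ResidueField A)
  have hτ' : ∀ c, residue A (τ c) = c.coeff 0 := fun c => DFunLike.congr_fun hτ c
  have hmax : maximalIdeal (WittVector p (ResidueField A)) =
      Ideal.span {(p : WittVector p (ResidueField A))} :=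
    (WittVector.irreducible p).maximalIdeal_eq
  obtain ⟨φ, h1, h2, h3, h4, h5, h6⟩ := exists_cohen_general p hmax hp1 hp hdim τ (fun z => by
    refine ⟨WittVector.teichmuller p (residue A z), ?_⟩
    rw [← residue_eq_zero_iff, map_sub, hτ', WittVector.teichmuller_coeff_zero, sub_self])
  exact ⟨φ, h1, h2, h3, fun c => by rw [h4, hτ'], h5, h6⟩

end Main

end Vale.Agent.P202.Mix
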