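import Vale.Agent.P202.Mix.LamApi
import Vale.Agent.P202.Mix.LenBasic
import Vale.Agent.P202.Mix.HonDefs

/-!
P202 MIX, M17-D: lengths of quotients of a ring, comparison of quotients of quotients.
-/

namespace Vale.Agent.P202.Mix

open scoped ENNReal

universe u

section

variable {R' : Type u} [CommRing R'] (L : AddLen R')

theorem conv_quot (Y Z : Ideal R') (Zq : Submodule R' (R' ⧸ Y)) (hZ : Zq = Submodule.map Y.mkQ Z) :
    L.len ((R' ⧸ Y) ⧸ Zq) = L.len (R' ⧸ (Y ⊔ Z)) := by
  subst hZ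
  exact len_congr L (Submodule.quotientQuotientEquivQuotientSup Y Z)

theorem conv_ys {n : ℕ} (Y : Ideal R') (z : Fin n → R') :
    ys (R' ⧸ Y) z = Submodule.map (Submodule.mkQ Y) (Ideal.span (Set.range z)) := by
  have h1 : (Ideal.span (Set.range z) : Submodule R' R') =
      Ideal.span (Set.range z) • (⊤ : Submodule R' R') := by
    rw [smul_eq_mul, Ideal.mul_top]
  rw [h1, Submodule.map_smul'', Submodule.map_top, Submodule.range_mkQ, ys]

theorem conv_range (Y : Ideal R') (h : R') :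
    LinearMap.range (h • (LinearMap.id : (R' ⧸ Y) →ₗ[R'] R' ⧸ Y)) =
      Submodule.map (Submodule.mkQ Y) (Ideal.span {h}) := by
  ext x
  simp only [LinearMap.mem_range, LinearMap.smul_apply, LinearMap.id_coe, id_eq, Submodule.mem_map]
  constructor
  · rintro ⟨y, rfl⟩
    obtain ⟨y, rfl⟩ := Submodule.mkQ_surjective Y y
    exact ⟨h * y, Ideal.mul_mem_right _ _ (Ideal.mem_span_singleton_self h), rfl⟩
  · rintro ⟨y, hy, rfl⟩
    obtain ⟨c, rfl⟩ := Ideal.mem_span_singleton'.mp hy
    refine ⟨Submodule.mkQ Y c, ?_⟩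
    rw [← map_smul, smul_eq_mul, mul_comm]

theorem conv_ys_self {n : ℕ} (z : Fin n → R') :
    ys R' z = Ideal.span (Set.range z) := by
  rw [ys, smul_eq_mul, Ideal.mul_top]

end

end Vale.Agent.P202.Mix
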