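import Vale.Agent.P202.Mix.Devissage
import Vale.Agent.P202.Mix.LamApi

/-!
P202 MIX, M17-H: right exactness and restriction of additive lengths.
-/

namespace Vale.Agent.P202.Mix

open Polynomial TensorProduct IsLocalRing
open scoped ENNReal

universe u

section aux

theorem AddLen.lr_congr {R : Type u} [CommRing R] (L : AddLen R) {M N : Type u} [AddCommGroup M]
    [Module R M] [AddCommGroup N] [Module R N] (e : M ≃ₗ[R] N) : L.len M = L.len N := by
  have := L.add (e : M →ₗ[R] N) (0 : N →ₗ[R] PUnit.{u + 1}) e.injective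
    (fun x => ⟨0, Subsingleton.elim _ _⟩) (fun x => ⟨fun _ => ⟨e.symm x, by simp⟩,
      fun _ => Subsingleton.elim _ _⟩)
  rw [L.zero, add_zero] at this
  exact this.symm

theorem AddLen.lr_le {R : Type u} [CommRing R] (L : AddLen R) {M N : Type u} [AddCommGroup M]
    [Module R M] [AddCommGroup N] [Module R N] (g : M →ₗ[R] N) (hg : Function.Surjective g) :
    L.len N ≤ L.len M := by
  have := L.add (LinearMap.ker g).subtype g (Submodule.subtype_injective _) hg
    (LinearMap.exact_subtype_ker_map g)
  rw [this]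
  exact le_add_self

/-- subadditivity on right exact sequences. -/
theorem AddLen.lr_right {R : Type u} [CommRing R] (L : AddLen R) {M N K : Type u} [AddCommGroup M]
    [Module R M] [AddCommGroup N] [Module R N] [AddCommGroup K] [Module R K] (f : M →ₗ[R] N)
    (g : N →ₗ[R] K) (hg : Function.Surjective g) (hfg : Function.Exact f g) :
    L.len N ≤ L.len M + L.len K := by
  have h1 := L.add (LinearMap.ker g).subtype g (Submodule.subtype_injective _) hg
    (LinearMap.exact_subtype_ker_map g)
  rw [h1]
  refine add_le_add ?_ le_rfl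
  have hk : ∀ x, f x ∈ LinearMap.ker g := fun x => (hfg (f x)).2 ⟨x, rfl⟩
  refine L.lr_le (f.codRestrict (LinearMap.ker g) hk) ?_
  rintro ⟨y, hy⟩
  obtain ⟨x, hx⟩ := (hfg y).1 hy
  exact ⟨x, Subtype.ext hx⟩

end aux

/-- right exactness: `L(E/(K + 𝔟E + J)) ≤ l(S/𝔟) L(E/(n_S E + J))`. -/
theorem len_quot_le_mul {S E : Type u} [CommRing S] [IsLocalRing S] [IsNoetherianRing S]
    [CommRing E] [Algebra S E] (L : AddLen E) (K J : Ideal E) (𝔟 : Ideal S)
    (hfin : Module.length S (S ⧸ 𝔟) ≠ ⊤) :
    L.len (E ⧸ (K ⊔ 𝔟.map (algebraMap S E) ⊔ J)) ≤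
      ENat.toENNReal (Module.length S (S ⧸ 𝔟)) *
        L.len (E ⧸ ((maximalIdeal S).map (algebraMap S E) ⊔ J)) := by
  have key := devissage_le (S := S)
    (fun Y _ _ => L.len ((E ⧸ (K ⊔ J)) ⊗[S] Y)) ?_ ?_ (S ⧸ 𝔟) hfin
  · refine le_trans ?_ (key.trans (mul_le_mul_right ?_ _))
    · -- surjection `(E/(K+J)) ⊗ (S/𝔟) → E/(K+𝔟E+J)`
      let W := E ⧸ (K ⊔ 𝔟.map (algebraMap S E) ⊔ J)
      have hW : ∀ a ∈ 𝔟, ∀ w : W, a • w = 0 := by
        intro a ha w
        obtain ⟨e, rfl⟩ := Ideal.Quotient.mk_surjective w
        rw [← algebraMap_smul E a]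
        change Ideal.Quotient.mk _ (algebraMap S E a * e) = 0
        rw [Ideal.Quotient.eq_zero_iff_mem]
        refine Ideal.mul_mem_right _ _ ?_
        exact (le_sup_right.trans le_sup_left : 𝔟.map (algebraMap S E) ≤ _)
          (Ideal.mem_map_of_mem _ ha)
      let c : W →ₗ[E] (S ⧸ 𝔟) →ₗ[S] W :=
        { toFun := fun w => Submodule.liftQ 𝔟 (LinearMap.toSpanSingleton S W w)
            (fun a ha => by
              rw [LinearMap.mem_ker, LinearMap.toSpanSingleton_apply]
              exact hW a ha w)
          map_add' := fun w w' => by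
            ext
            change (1 : S) • (w + w') = (1 : S) • w + (1 : S) • w'
            rw [smul_add]
          map_smul' := fun a w => by
            ext
            change (1 : S) • (a • w) = a • ((1 : S) • w)
            rw [one_smul, one_smul] }
      let q : (E ⧸ (K ⊔ J)) →ₗ[E] W := Submodule.mapQ _ _ LinearMap.id (by
        rw [Submodule.comap_id]
        exact sup_le (le_sup_left.trans le_sup_left) le_sup_right)
      refine L.lr_le (TensorProduct.AlgebraTensorModule.lift (c ∘ₗ q)) ?_
      intro w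
      obtain ⟨e, rfl⟩ := Ideal.Quotient.mk_surjective w
      refine ⟨(Ideal.Quotient.mk _ e) ⊗ₜ (Ideal.Quotient.mk _ 1), ?_⟩
      rw [TensorProduct.AlgebraTensorModule.lift_tmul]
      change (1 : S) • (Ideal.Quotient.mk _ e : W) = _
      rw [one_smul]
    · -- surjection `E/(n_S E + J) → (E/(K+J)) ⊗ (S/n_S)`
      let one : (E ⧸ (K ⊔ J)) ⊗[S] (S ⧸ maximalIdeal S) :=
        (Ideal.Quotient.mk _ 1) ⊗ₜ (Ideal.Quotient.mk _ 1)
      have h1 : (maximalIdeal S).map (algebraMap S E) ⊔ J ≤
          LinearMap.ker (LinearMap.toSpanSingleton E _ one) := by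
        refine sup_le (Ideal.map_le_iff_le_comap.2 fun a ha => ?_) fun j hj => ?_
        · change (algebraMap S E a) • one = 0
          rw [algebraMap_smul]
          change a • ((Ideal.Quotient.mk _ 1) ⊗ₜ (Ideal.Quotient.mk _ 1)) = _
          rw [← TensorProduct.tmul_smul]
          have : a • (Ideal.Quotient.mk (maximalIdeal S) 1) = 0 := by
            rw [Algebra.smul_def, mul_comm, map_one, one_mul]
            exact Ideal.Quotient.eq_zero_iff_mem.2 ha
          rw [this, TensorProduct.tmul_zero]
        · change j • one = 0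
          change j • ((Ideal.Quotient.mk _ 1) ⊗ₜ (Ideal.Quotient.mk _ 1)) = _
          rw [TensorProduct.smul_tmul']
          have : j • (Ideal.Quotient.mk (K ⊔ J) 1) = 0 := by
            rw [Algebra.smul_def, map_one, mul_one]
            exact Ideal.Quotient.eq_zero_iff_mem.2 (Ideal.mem_sup_right hj)
          rw [this, TensorProduct.zero_tmul]
      refine L.lr_le (Submodule.liftQ _ (LinearMap.toSpanSingleton E _ one) h1) ?_
      intro z
      induction z using TensorProduct.induction_on with
      | zero => exact ⟨0, map_zero _⟩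
      | add x y hx hy =>
        obtain ⟨x', rfl⟩ := hx
        obtain ⟨y', rfl⟩ := hy
        exact ⟨x' + y', map_add _ _ _⟩
      | tmul x y =>
        obtain ⟨e, rfl⟩ := Ideal.Quotient.mk_surjective x
        obtain ⟨s, rfl⟩ := Ideal.Quotient.mk_surjective y
        refine ⟨Ideal.Quotient.mk _ (algebraMap S E s * e), ?_⟩
        change (algebraMap S E s * e) • one = _
        rw [mul_smul, algebraMap_smul]
        change s • e • ((Ideal.Quotient.mk _ 1) ⊗ₜ (Ideal.Quotient.mk _ 1)) = _
        rw [TensorProduct.smul_tmul', ← TensorProduct.tmul_smul]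
        congr 1
        · rw [Algebra.smul_def, map_one, mul_one]
          rfl
        · rw [Algebra.smul_def, map_one, mul_one]
          rfl
  · have : Subsingleton ((E ⧸ (K ⊔ J)) ⊗[S] PUnit.{u + 1}) := by
      refine ⟨fun a b => ?_⟩
      have h : ∀ z : (E ⧸ (K ⊔ J)) ⊗[S] PUnit.{u + 1}, z = 0 := by
        intro z
        induction z using TensorProduct.induction_on with
        | zero => rfl
        | add x y hx hy => rw [hx, hy, add_zero]
        | tmul x y =>
          rw [Subsingleton.elim y 0, TensorProduct.tmul_zero]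
      rw [h a, h b]
    rw [← L.zero]
    exact L.lr_congr
      { toFun := fun _ => PUnit.unit
        map_add' := fun _ _ => rfl
        map_smul' := fun _ _ => rfl
        invFun := fun _ => 0
        left_inv := fun _ => Subsingleton.elim _ _
        right_inv := fun _ => rfl }
  · intro M N P _ _ _ _ _ _ f g _ hg hfg
    refine L.lr_right (TensorProduct.AlgebraTensorModule.lTensor E (E ⧸ (K ⊔ J)) f)
      (TensorProduct.AlgebraTensorModule.lTensor E (E ⧸ (K ⊔ J)) g) ?_ ?_
    · exact LinearMap.lTensor_surjective (E ⧸ (K ⊔ J)) hg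
    · exact lTensor_exact (E ⧸ (K ⊔ J)) hfg hg

/-- semilinear isomorphisms. -/
theorem restrict_len_congr {R R' : Type u} [CommRing R] [CommRing R'] (L : AddLen R)
    (φ : R →+* R') {M N : Type u} [AddCommGroup M] [Module R' M] [AddCommGroup N] [Module R N]
    (f : M ≃+ N) (hf : ∀ (a : R) (x : M), f (φ a • x) = a • f x) :
    (L.restrict φ).len M = L.len N := by
  let _ : Module R M := Module.compHom M φ
  exact L.lr_congr { f with map_smul' := hf }

/-- restriction of a length along a quotient map. -/
theorem restrict_len_quot {R : Type u} [CommRing R] (L : AddLen R) (K : Ideal R)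
    (J : Ideal (R ⧸ K)) :
    (L.restrict (Ideal.Quotient.mk K)).len ((R ⧸ K) ⧸ J) =
      L.len (R ⧸ J.comap (Ideal.Quotient.mk K)) := by
  have hs : Function.Surjective ((Ideal.Quotient.mk J).comp (Ideal.Quotient.mk K)) :=
    Ideal.Quotient.mk_surjective.comp Ideal.Quotient.mk_surjective
  have hk : J.comap (Ideal.Quotient.mk K) =
      RingHom.ker ((Ideal.Quotient.mk J).comp (Ideal.Quotient.mk K)) := by
    ext x
    rw [Ideal.mem_comap, RingHom.mem_ker, RingHom.comp_apply, Ideal.Quotient.eq_zero_iff_mem]
  let e := (Ideal.quotEquivOfEq hk).trans (RingHom.quotientKerEquivOfSurjective hs)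
  refine restrict_len_congr L (Ideal.Quotient.mk K) e.symm.toAddEquiv fun a x => ?_
  change e.symm _ = a • e.symm x
  obtain ⟨y, rfl⟩ := e.surjective x
  rw [e.symm_apply_apply, RingEquiv.symm_apply_eq]
  obtain ⟨r, rfl⟩ := Ideal.Quotient.mk_surjective y
  rfl

end Vale.Agent.P202.Mix
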