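import Vale.Agent.P202.Mix.ConvLen
import Vale.Agent.P202.Mix.LenRestr

/-!
P202 MIX, M17-D: lengths of quotients of `R/K`.
-/

namespace Vale.Agent.P202.Mix

open scoped ENNReal

universe u

section

variable {R : Type u} [CommRing R] (L : AddLen R) (K : Ideal R)

theorem comap_map_mk (J : Ideal R) :
    (J.map (Ideal.Quotient.mk K)).comap (Ideal.Quotient.mk K) = K ⊔ J := by
  rw [Ideal.comap_map_of_surjective' _ Ideal.Quotient.mk_surjective, Ideal.mk_ker, sup_comm]

theorem restrict_len_map (J : Ideal R) :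
    (L.restrict (Ideal.Quotient.mk K)).len ((R ⧸ K) ⧸ J.map (Ideal.Quotient.mk K)) =
      L.len (R ⧸ (K ⊔ J)) := by
  rw [restrict_len_quot, comap_map_mk]

theorem span_range_mk {n : ℕ} (y : Fin n → R) :
    Ideal.span (Set.range fun l => Ideal.Quotient.mk K (y l)) =
      (Ideal.span (Set.range y)).map (Ideal.Quotient.mk K) := by
  rw [Ideal.map_span, ← Set.range_comp]
  rfl

theorem conv_Q {n : ℕ} (y : Fin n → R) :
    (L.restrict (Ideal.Quotient.mk K)).len ((R ⧸ K) ⧸ ys (R ⧸ K) fun l => Ideal.Quotient.mk K (y l)) =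
      L.len (R ⧸ (K ⊔ Ideal.span (Set.range y))) := by
  rw [conv_ys_self, span_range_mk]
  exact restrict_len_map L K _

theorem conv_Qz {n : ℕ} (y z : Fin n → R) :
    (L.restrict (Ideal.Quotient.mk K)).len
      (((R ⧸ K) ⧸ ys (R ⧸ K) fun l => Ideal.Quotient.mk K (y l)) ⧸
        ys ((R ⧸ K) ⧸ ys (R ⧸ K) fun l => Ideal.Quotient.mk K (y l))
          fun l => Ideal.Quotient.mk K (z l)) =
      L.len (R ⧸ (K ⊔ (Ideal.span (Set.range y) ⊔ Ideal.span (Set.range z)))) := by
  rw [conv_quot _ _ (Ideal.span (Set.range fun l => Ideal.Quotient.mk K (z l))) _ (conv_ys _ _),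
    conv_ys_self, span_range_mk, span_range_mk, ← Ideal.map_sup]
  exact restrict_len_map L K _

theorem conv_Qh {n : ℕ} (y : Fin n → R) (h : R) :
    (L.restrict (Ideal.Quotient.mk K)).len
      (((R ⧸ K) ⧸ ys (R ⧸ K) fun l => Ideal.Quotient.mk K (y l)) ⧸
        LinearMap.range ((Ideal.Quotient.mk K h) • (LinearMap.id :
          ((R ⧸ K) ⧸ ys (R ⧸ K) fun l => Ideal.Quotient.mk K (y l)) →ₗ[R ⧸ K] _))) =
      L.len (R ⧸ (K ⊔ (Ideal.span (Set.range y) ⊔ Ideal.span {h}))) := by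
  rw [conv_quot _ _ (Ideal.span {Ideal.Quotient.mk K h}) _ (conv_range _ _),
    conv_ys_self, span_range_mk]
  have h1 : Ideal.span {Ideal.Quotient.mk K h} = (Ideal.span {h}).map (Ideal.Quotient.mk K) := by
    rw [Ideal.map_span, Set.image_singleton]
  rw [h1, ← Ideal.map_sup]
  exact restrict_len_map L K _

theorem conv_P {n : ℕ} (y : Fin n → R) (j : ℕ) :
    (L.restrict (Ideal.Quotient.mk K)).len
      ((R ⧸ K) ⧸ (Ideal.span (Set.range fun l => Ideal.Quotient.mk K (y l)) ^ j •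
        (⊤ : Submodule (R ⧸ K) (R ⧸ K)))) =
      L.len (R ⧸ (K ⊔ Ideal.span (Set.range y) ^ j)) := by
  rw [smul_eq_mul, Ideal.mul_top, span_range_mk, ← Ideal.map_pow]
  exact restrict_len_map L K _

end

end Vale.Agent.P202.Mix
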