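import Vale.Agent.P202.Mix.Defs

/-!
P202, mixed characteristic: the base ring `Λ → W(Rp)`, the rings `B_N = W(C)/(p - [t], p^N)`, the
data `CData` (cover of `Λ` on which the `F_j` split into Teichmueller representatives).
-/

namespace Vale.Agent.P202.Mix

open Polynomial

universe u

section

variable (p : ℕ) [Fact p.Prime] (k : Type u) [Field k] [CharP k p] (r : ℕ)

/-- A base: `Λ` with elements `u_i` and a homomorphism `ψ : Λ → W(Rp)`, `u_i ↦ [u_i]`, whose
reduction modulo `p` comes from a flat injective homomorphism `Λ/p → k[[t, u]]/t`. -/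
structure IsBase (Λ : Type u) [CommRing Λ] (u : Fin r → Λ)
    (ψ : Λ →+* WittVector p (Rp p k r))
    (red : Λ →+* R0 k r ⧸ Ideal.span {(MvPowerSeries.X 0 : R0 k r)}) : Prop where
  psi_u : ∀ i, ψ (u i) = WittVector.teichmuller p (xp p k r i.succ)
  red_coeff : ∀ l, ∃ (g : R0 k r) (y : Rp p k r), red l = Ideal.Quotient.mk _ g ∧
    (ψ l).coeff 0 = PerfectClosure.of (R0 k r) p g + xp p k r 0 * y
  red_p : ∀ l ∈ Ideal.span {(p : Λ)}, red l = 0
  red_ker : ∀ l, red l = 0 → l ∈ Ideal.span {(p : Λ)}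
  red_flat : (Ideal.Quotient.lift (Ideal.span {(p : Λ)}) red red_p).Flat

/-- the element `t` of an `Rp`-algebra. -/
noncomputable abbrev tC (C : Type u) [CommRing C] [Algebra (Rp p k r) C] : C :=
  algebraMap (Rp p k r) C (xp p k r 0)

variable {p k r} {Λ : Type u} [CommRing Λ] (ψ : Λ →+* WittVector p (Rp p k r))
variable (C : Type u) [CommRing C] [Algebra (Rp p k r) C]

/-- `Λ → B = W(C)/(p - [t])`. -/
noncomputable def laB : Λ →+* Bt p C (tC p k r C) :=
  (toB p C (tC p k r C)).comp ((WittVector.map (algebraMap (Rp p k r) C)).comp ψ)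

/-- the ring `B/p^N`. -/
def BN (N : ℕ) : Type u :=
  (fun _ : Λ →+* WittVector p (Rp p k r) =>
    Bt p C (tC p k r C) ⧸ Ideal.span {(p : Bt p C (tC p k r C)) ^ N}) ψ

noncomputable instance (N : ℕ) : CommRing (BN ψ C N) :=
  inferInstanceAs (CommRing (Bt p C (tC p k r C) ⧸ Ideal.span {(p : Bt p C (tC p k r C)) ^ N}))

/-- the projection `B → B/p^N`. -/
noncomputable def mkN (N : ℕ) : Bt p C (tC p k r C) →+* BN ψ C N :=
  Ideal.Quotient.mk (Ideal.span {(p : Bt p C (tC p k r C)) ^ N})

noncomputable instance (N : ℕ) : Algebra Λ (BN ψ C N) :=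
  ((mkN ψ C N).comp (laB ψ C)).toAlgebra

/-- the class of a Teichmueller representative in `B/p^N`. -/
noncomputable def teN (N : ℕ) (c : C) : BN ψ C N := mkN ψ C N (te p C (tC p k r C) c)

end

section

variable {p : ℕ} [Fact p.Prime] {k : Type u} [Field k] [CharP k p] {r : ℕ}

/-- a flat integral perfect `Rp`-algebra of finite rank. -/
structure PExt (p : ℕ) [Fact p.Prime] (k : Type u) [Field k] [CharP k p] (r r0 : ℕ) where
  C : Type u
  [commRing : CommRing C]
  [charP : CharP C p]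
  [perfect : PerfectRing C p]
  [nontriv : Nontrivial C]
  [algebra : Algebra (Rp p k r) C]
  flat : Module.Flat (Rp p k r) C
  integral : Algebra.IsIntegral (Rp p k r) C
  inj : Function.Injective (algebraMap (Rp p k r) C)
  fin : ∀ t : Finset C, ∃ v : Fin r0 → C, (t : Set C) ⊆ Submodule.span (Rp p k r) (Set.range v)

attribute [instance] PExt.commRing PExt.charP PExt.perfect PExt.nontriv PExt.algebra

/-- The covers: the polynomials `F_j` split into Teichmueller representatives modulo `p^(I+1)`,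
`[δ_π] = π(E)`, `[δ'_π] = π(g - E)` modulo `p^(I+1)` for every choice `π` of roots. -/
structure CData {Λ : Type u} [CommRing Λ] (ψ : Λ →+* WittVector p (Rp p k r)) {s D : ℕ}
    (F : Fin s → Λ[X]) (E : MvPolynomial (Fin s) Λ) (g : Λ) (I r0 : ℕ) extends
    PExt p k r r0 where
  c : Fin s → Fin D → C
  δ : (Fin s → Fin D) → C
  δ' : (Fin s → Fin D) → C
  split : ∀ j n, ((F j).map (laB ψ C) -
    ∏ i, (X - Polynomial.C (te p C (tC p k r C) (c j i)))).coeff n ∈
      Ideal.span {(p : Bt p C (tC p k r C)) ^ (I + 1)}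
  hδ : ∀ π, te p C (tC p k r C) (δ π) -
    MvPolynomial.eval₂ (laB ψ C) (fun j => te p C (tC p k r C) (c j (π j))) E ∈
      Ideal.span {(p : Bt p C (tC p k r C)) ^ (I + 1)}
  hδ' : ∀ π, te p C (tC p k r C) (δ' π) - (laB ψ C g -
    MvPolynomial.eval₂ (laB ψ C) (fun j => te p C (tC p k r C) (c j (π j))) E) ∈
      Ideal.span {(p : Bt p C (tC p k r C)) ^ (I + 1)}

end

end Vale.Agent.P202.Mix
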