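import Mathlib

set_option linter.all false

/-!
P202 MIX, M13a: devissage.
-/

namespace Vale.Agent.P202.Mix

open Polynomial TensorProduct IsLocalRing
open scoped ENNReal

universe u

section M13a

/-- devissage. `Φ` additive on the `S`-modules killed by `𝔠`. Then
`Φ Y = l(Y) Φ(k_S)` for `Y` of finite length killed by `𝔠`. -/
theorem devissage {S : Type u} [CommRing S] [IsLocalRing S] [IsNoetherianRing S] (𝔠 : Ideal S)
    (Φ : ∀ (Y : Type u) [AddCommGroup Y] [Module S Y], ℝ≥0∞) (h0 : Φ PUnit.{u + 1} = 0)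
    (hadd : ∀ {M N K : Type u} [AddCommGroup M] [Module S M] [AddCommGroup N] [Module S N]
      [AddCommGroup K] [Module S K] (f : M →ₗ[S] N) (g : N →ₗ[S] K),
      (∀ a ∈ 𝔠, ∀ x : N, a • x = 0) →
      Function.Injective f → Function.Surjective g → Function.Exact f g → Φ N = Φ M + Φ K)
    (Y : Type u) [AddCommGroup Y] [Module S Y] (hY : ∀ a ∈ 𝔠, ∀ x : Y, a • x = 0)
    (hfin : Module.length S Y ≠ ⊤) :
    Φ Y = ENat.toENNReal (Module.length S Y) * Φ (S ⧸ maximalIdeal S) := by
  have hiso : ∀ (M N : Type u) [AddCommGroup M] [Module S M] [AddCommGroup N] [Module S N]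
      (e : M ≃ₗ[S] N), (∀ a ∈ 𝔠, ∀ x : N, a • x = 0) → Φ N = Φ M := by
    intro M N _ _ _ _ e hN
    have := hadd (e : M →ₗ[S] N) (0 : N →ₗ[S] PUnit.{u + 1}) hN e.injective
      (fun x => ⟨0, Subsingleton.elim _ _⟩) (fun x => ⟨fun _ => ⟨e.symm x, by simp⟩,
        fun _ => Subsingleton.elim _ _⟩)
    rw [this, h0, add_zero]
  have hF : IsFiniteLength S Y := Module.length_ne_top_iff.1 hfin
  clear hfin
  induction hF with
  | @of_subsingleton M _ _ _ =>
    rw [Module.length_eq_zero, ENat.toENNReal_zero, zero_mul]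
    rw [hiso PUnit.{u + 1} M ⟨⟨⟨fun _ => 0, fun _ _ => Subsingleton.elim _ _⟩,
      fun _ _ => Subsingleton.elim _ _⟩, fun _ => PUnit.unit, fun _ => Subsingleton.elim _ _,
      fun _ => Subsingleton.elim _ _⟩ hY, h0]
  | @of_simple_quotient M _ _ N _ hN ih =>
    have h1 := ih (by
      intro a ha x
      apply Subtype.ext
      exact hY a ha x)
    obtain ⟨I, hI, ⟨e⟩⟩ := isSimpleModule_iff_quot_maximal.1 (inferInstance : IsSimpleModule S (M ⧸ N))
    have hIm : I = maximalIdeal S := IsLocalRing.eq_maximalIdeal hI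
    subst hIm
    have hk : ∀ a ∈ 𝔠, ∀ x : M ⧸ N, a • x = 0 := by
      intro a ha x
      obtain ⟨y, rfl⟩ := Submodule.Quotient.mk_surjective N x
      rw [← Submodule.Quotient.mk_smul, hY a ha, Submodule.Quotient.mk_zero]
    have h2 : Φ (M ⧸ N) = Φ (S ⧸ maximalIdeal S) := hiso _ _ e.symm hk
    have h3 := hadd N.subtype N.mkQ hY N.subtype_injective N.mkQ_surjective
      (LinearMap.exact_subtype_mkQ N)
    have h4 := Module.length_eq_add_of_exact N.subtype N.mkQ N.subtype_injective
      N.mkQ_surjective (LinearMap.exact_subtype_mkQ N)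
    have h5 : Module.length S (M ⧸ N) = 1 := Module.length_eq_one S (M ⧸ N)
    rw [h3, h4, h5, h1, h2, ENat.toENNReal_add, ENat.toENNReal_one, add_mul, one_mul]

/-- the inequality version, for `Φ` only subadditive (right exact functors). -/
theorem devissage_le {S : Type u} [CommRing S] [IsLocalRing S] [IsNoetherianRing S]
    (Φ : ∀ (Y : Type u) [AddCommGroup Y] [Module S Y], ℝ≥0∞) (h0 : Φ PUnit.{u + 1} = 0)
    (hadd : ∀ {M N K : Type u} [AddCommGroup M] [Module S M] [AddCommGroup N] [Module S N]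
      [AddCommGroup K] [Module S K] (f : M →ₗ[S] N) (g : N →ₗ[S] K),
      Function.Injective f → Function.Surjective g → Function.Exact f g → Φ N ≤ Φ M + Φ K)
    (Y : Type u) [AddCommGroup Y] [Module S Y] (hfin : Module.length S Y ≠ ⊤) :
    Φ Y ≤ ENat.toENNReal (Module.length S Y) * Φ (S ⧸ maximalIdeal S) := by
  have hiso : ∀ (M N : Type u) [AddCommGroup M] [Module S M] [AddCommGroup N] [Module S N]
      (e : M ≃ₗ[S] N), Φ N ≤ Φ M := by
    intro M N _ _ _ _ e
    have := hadd (e : M →ₗ[S] N) (0 : N →ₗ[S] PUnit.{u + 1}) e.injective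
      (fun x => ⟨0, Subsingleton.elim _ _⟩) (fun x => ⟨fun _ => ⟨e.symm x, by simp⟩,
        fun _ => Subsingleton.elim _ _⟩)
    rwa [h0, add_zero] at this
  have hF : IsFiniteLength S Y := Module.length_ne_top_iff.1 hfin
  clear hfin
  induction hF with
  | @of_subsingleton M _ _ _ =>
    rw [Module.length_eq_zero, ENat.toENNReal_zero, zero_mul]
    refine (hiso PUnit.{u + 1} M ⟨⟨⟨fun _ => 0, fun _ _ => Subsingleton.elim _ _⟩,
      fun _ _ => Subsingleton.elim _ _⟩, fun _ => PUnit.unit, fun _ => Subsingleton.elim _ _,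
      fun _ => Subsingleton.elim _ _⟩).trans ?_
    rw [h0]
  | @of_simple_quotient M _ _ N _ hN ih =>
    obtain ⟨I, hI, ⟨e⟩⟩ := isSimpleModule_iff_quot_maximal.1 (inferInstance : IsSimpleModule S (M ⧸ N))
    have hIm : I = maximalIdeal S := IsLocalRing.eq_maximalIdeal hI
    subst hIm
    have h2 : Φ (M ⧸ N) ≤ Φ (S ⧸ maximalIdeal S) := hiso _ _ e.symm
    have h3 := hadd N.subtype N.mkQ N.subtype_injective N.mkQ_surjective
      (LinearMap.exact_subtype_mkQ N)
    have h4 := Module.length_eq_add_of_exact N.subtype N.mkQ N.subtype_injective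
      N.mkQ_surjective (LinearMap.exact_subtype_mkQ N)
    have h5 : Module.length S (M ⧸ N) = 1 := Module.length_eq_one S (M ⧸ N)
    rw [h4, h5, ENat.toENNReal_add, ENat.toENNReal_one, add_mul, one_mul]
    exact h3.trans (add_le_add ih h2)

end M13a

end Vale.Agent.P202.Mix
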