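import Mathlib.RingTheory.Flat.EquationalCriterion
import Mathlib.RingTheory.Ideal.Quotient.Operations
import Mathlib.Algebra.Module.Torsion.Basic

/-!
P202 MIX, M4a (helper768): a flatness criterion for a nilpotent element.
-/

namespace Vale.Agent.P202.Mix

universe u

/-- The equational criterion modulo `a ^ k`. -/
def FlatMod {R M : Type u} [CommRing R] [AddCommGroup M] [Module R M] (a : R) (k : ℕ)
    (_ : M) : Prop :=
  ∀ (ι : Type) [Fintype ι] (b : ι → R) (m : ι → M), (∃ e : M, ∑ i, b i • m i = a ^ k • e) →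
    ∃ (κ : Type) (_ : Fintype κ) (r : ι → κ → R) (n : κ → M) (m' : ι → M) (s : κ → R),
      (∀ i, m i = ∑ j, r i j • n j + a ^ k • m' i) ∧ ∀ j, ∑ i, b i * r i j = a ^ k * s j

theorem flatMod_one {R M : Type u} [CommRing R] [AddCommGroup M] [Module R M] (a : R)
    (hflat : Module.Flat (R ⧸ Ideal.span {a}) (M ⧸ (Ideal.span {a} • (⊤ : Submodule R M))))
    (x : M) : FlatMod a 1 x := by
  intro ι _ b m he
  obtain ⟨e, he⟩ := he
  have hmem : ∀ y : M, y ∈ (Ideal.span {a} • (⊤ : Submodule R M)) ↔ ∃ z, y = a • z := by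
    intro y
    rw [Submodule.ideal_span_singleton_smul, Submodule.mem_smul_pointwise_iff_exists]
    constructor
    · rintro ⟨z, _, hz⟩
      exact ⟨z, hz.symm⟩
    · rintro ⟨z, hz⟩
      exact ⟨z, trivial, hz.symm⟩
  have h0 : ∑ i, (Ideal.Quotient.mk (Ideal.span {a}) (b i)) •
      (Submodule.Quotient.mk (m i) : M ⧸ (Ideal.span {a} • (⊤ : Submodule R M))) = 0 := by
    have h1 : ∀ i, (Ideal.Quotient.mk (Ideal.span {a}) (b i)) •
        (Submodule.Quotient.mk (m i) : M ⧸ (Ideal.span {a} • (⊤ : Submodule R M))) =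
        (Ideal.span {a} • (⊤ : Submodule R M)).mkQ (b i • m i) := fun i => rfl
    rw [Finset.sum_congr rfl fun i _ => h1 i, ← map_sum, he, Submodule.mkQ_apply,
      Submodule.Quotient.mk_eq_zero, hmem]
    exact ⟨e, by rw [pow_one]⟩
  obtain ⟨k, A, y, h1, h2⟩ := Module.Flat.isTrivialRelation_of_sum_smul_eq_zero h0
  simp only at h1 h2
  choose r hr using fun i j => Ideal.Quotient.mk_surjective (A i j)
  choose n hn using fun j => Submodule.Quotient.mk_surjective _ (y j)
  have h3 : ∀ i, ∃ z, m i - ∑ j, r i j • n j = a • z := by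
    intro i
    rw [← hmem, ← Submodule.Quotient.mk_eq_zero, Submodule.Quotient.mk_sub, h1 i, sub_eq_zero]
    have h4 : ∀ j, A i j • y j =
        (Ideal.span {a} • (⊤ : Submodule R M)).mkQ (r i j • n j) := by
      intro j
      rw [← hr, ← hn]
      rfl
    rw [Finset.sum_congr rfl fun j _ => h4 j, ← map_sum]
    rfl
  choose m' hm' using h3
  have h5 : ∀ j, ∃ s, ∑ i, b i * r i j = a * s := by
    intro j
    have h6 : ∑ i, b i * r i j ∈ Ideal.span {a} := by
      rw [← Ideal.Quotient.eq_zero_iff_mem, map_sum, ← h2 j]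
      refine Finset.sum_congr rfl fun i _ => ?_
      rw [map_mul, hr]
    rw [Ideal.mem_span_singleton'] at h6
    obtain ⟨s, hs⟩ := h6
    exact ⟨s, by rw [← hs, mul_comm]⟩
  choose s hs using h5
  refine ⟨Fin k, inferInstance, r, n, m', s, fun i => ?_, fun j => ?_⟩
  · rw [pow_one, ← hm' i]
    abel
  · rw [pow_one]
    exact hs j

theorem flatMod_succ {R M : Type u} [CommRing R] [AddCommGroup M] [Module R M] (a : R) (N : ℕ)
    (htor : ∀ m : M, a • m = 0 → ∃ m' : M, m = a ^ (N - 1) • m') (x : M)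
    (h1 : FlatMod a 1 x) (k : ℕ) (hk : k + 1 ≤ N) (ih : FlatMod a k x) :
    FlatMod a (k + 1) x := by
  intro ι _ b m he
  obtain ⟨e, he⟩ := he
  obtain ⟨κ, _, r, n, m', s, hm, hs⟩ := h1 ι b m ⟨a ^ k • e, by rw [he, smul_smul]; ring_nf⟩
  simp only [pow_one] at hm hs
  -- the new relation
  have hX : ∃ e' : M, ∑ j, s j • n j + ∑ i, b i • m' i = a ^ k • e' := by
    have h2 : a • (∑ j, s j • n j + ∑ i, b i • m' i) = a ^ (k + 1) • e := by
      rw [← he, smul_add, Finset.smul_sum, Finset.smul_sum]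
      have h3 : ∑ i, b i • m i = ∑ i, ∑ j, (b i * r i j) • n j + ∑ i, a • b i • m' i := by
        rw [← Finset.sum_add_distrib]
        refine Finset.sum_congr rfl fun i _ => ?_
        conv_lhs => rw [hm i]
        rw [smul_add, Finset.smul_sum, smul_comm a (b i)]
        congr 1
        exact Finset.sum_congr rfl fun j _ => smul_smul _ _ _
      rw [h3, Finset.sum_comm]
      congr 1
      refine Finset.sum_congr rfl fun j _ => ?_
      rw [← Finset.sum_smul, hs j, smul_smul]
    have h4 : a • (∑ j, s j • n j + ∑ i, b i • m' i - a ^ k • e) = 0 := by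
      rw [smul_sub, h2, smul_smul, ← pow_succ', sub_self]
    obtain ⟨z, hz⟩ := htor _ h4
    refine ⟨e + a ^ (N - 1 - k) • z, ?_⟩
    rw [smul_add, smul_smul, ← pow_add, show k + (N - 1 - k) = N - 1 by omega, ← hz]
    abel
  obtain ⟨e', he'⟩ := hX
  obtain ⟨Λ, _, r', n', m'', s', hm2, hs2⟩ := ih (κ ⊕ ι) (Sum.elim s b) (Sum.elim n m')
    ⟨e', by rw [Fintype.sum_sum_type]; exact he'⟩
  have hn2 : ∀ j, n j = ∑ l, r' (Sum.inl j) l • n' l + a ^ k • m'' (Sum.inl j) :=
    fun j => hm2 (Sum.inl j)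
  have hm3 : ∀ i, m' i = ∑ l, r' (Sum.inr i) l • n' l + a ^ k • m'' (Sum.inr i) :=
    fun i => hm2 (Sum.inr i)
  have hs3 : ∀ l, ∑ j, s j * r' (Sum.inl j) l + ∑ i, b i * r' (Sum.inr i) l = a ^ k * s' l := by
    intro l
    rw [← hs2 l, Fintype.sum_sum_type]
    rfl
  refine ⟨Λ ⊕ κ, inferInstance,
    fun i => Sum.elim (fun l => ∑ j, r i j * r' (Sum.inl j) l + a * r' (Sum.inr i) l)
      (fun j => a ^ k * r i j),
    Sum.elim n' (fun j => m'' (Sum.inl j)), fun i => m'' (Sum.inr i),
    Sum.elim s' s, fun i => ?_, fun q => ?_⟩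
  · rw [Fintype.sum_sum_type]
    simp only [Sum.elim_inl, Sum.elim_inr]
    have e1 : ∑ l, (∑ j, r i j * r' (Sum.inl j) l + a * r' (Sum.inr i) l) • n' l =
        ∑ j, r i j • ∑ l, r' (Sum.inl j) l • n' l + a • ∑ l, r' (Sum.inr i) l • n' l := by
      rw [Finset.smul_sum]
      simp_rw [Finset.smul_sum, add_smul, Finset.sum_smul, smul_smul]
      rw [Finset.sum_add_distrib, Finset.sum_comm]
    have e2 : ∑ j, (a ^ k * r i j) • m'' (Sum.inl j) =
        ∑ j, r i j • a ^ k • m'' (Sum.inl j) :=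
      Finset.sum_congr rfl fun j _ => by rw [smul_smul, mul_comm]
    have e3 : a ^ (k + 1) • m'' (Sum.inr i) = a • a ^ k • m'' (Sum.inr i) := by
      rw [smul_smul, pow_succ']
    have e4 : ∑ j, r i j • n j = ∑ j, r i j • ∑ l, r' (Sum.inl j) l • n' l +
        ∑ j, r i j • a ^ k • m'' (Sum.inl j) := by
      rw [← Finset.sum_add_distrib]
      refine Finset.sum_congr rfl fun j _ => ?_
      rw [← smul_add, ← hn2 j]
    have e5 : a • m' i = a • ∑ l, r' (Sum.inr i) l • n' l + a • a ^ k • m'' (Sum.inr i) := by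
      rw [← smul_add, ← hm3 i]
    rw [e1, e2, e3, hm i, e4, e5]
    abel
  · rcases q with l | j
    · simp only [Sum.elim_inl]
      have e1 : ∑ i, b i * (∑ j, r i j * r' (Sum.inl j) l + a * r' (Sum.inr i) l) =
          ∑ j, (∑ i, b i * r i j) * r' (Sum.inl j) l + a * ∑ i, b i * r' (Sum.inr i) l := by
        simp_rw [mul_add, Finset.mul_sum, Finset.sum_mul]
        rw [Finset.sum_add_distrib, Finset.sum_comm]
        congr 1
        · exact Finset.sum_congr rfl fun j _ => Finset.sum_congr rfl fun i _ => by ring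
        · exact Finset.sum_congr rfl fun i _ => by ring
      rw [e1, pow_succ', mul_assoc, ← hs3 l, mul_add]
      congr 1
      rw [Finset.mul_sum]
      exact Finset.sum_congr rfl fun j _ => by rw [hs j, mul_assoc]
    · simp only [Sum.elim_inr]
      have e1 : ∑ i, b i * (a ^ k * r i j) = a ^ k * ∑ i, b i * r i j := by
        rw [Finset.mul_sum]
        exact Finset.sum_congr rfl fun i _ => by ring
      rw [e1, hs j, pow_succ, mul_assoc]

/-- TASK M4a: a flatness criterion. Proof: `Module.Flat.iff_forall_isTrivialRelation` and induction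
on `N`: given `∑ b_i m_i = 0`; modulo `a` there are `r_ij`, `n_j` with `m_i = ∑ r_ij n_j + a m'_i`,
`∑_i b_i r_ij = a s_j`; so `a (∑ s_j n_j + ∑ b_i m'_i) = 0`, i.e. `∑ s_j n_j + ∑ b_i m'_i` is zero in
`M/a^(N-1)M`, flat over `R/a^(N-1)` by induction; substitute the new relation. -/
theorem flat_of_nilpotent {R M : Type u} [CommRing R] [AddCommGroup M] [Module R M] (a : R) (N : ℕ)
    (hN : 1 ≤ N) (ha : a ^ N = 0)
    (hflat : Module.Flat (R ⧸ Ideal.span {a}) (M ⧸ (Ideal.span {a} • (⊤ : Submodule R M))))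
    (htor : ∀ m : M, a • m = 0 → ∃ m' : M, m = a ^ (N - 1) • m') : Module.Flat R M := by
  have h1 : FlatMod a 1 (0 : M) := flatMod_one a hflat 0
  have hk : ∀ k, k + 1 ≤ N → FlatMod a (k + 1) (0 : M) := by
    intro k
    induction k with
    | zero => intro _; exact h1
    | succ k ih => intro hk; exact flatMod_succ a N htor 0 h1 (k + 1) hk (ih (by omega))
  have hNN := hk (N - 1) (by omega)
  rw [Nat.sub_add_cancel hN] at hNN
  rw [Module.Flat.iff_forall_isTrivialRelation]
  intro l f x hx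
  obtain ⟨κ, _, r, n, m', s, hm, hs⟩ := hNN (Fin l) f x ⟨0, by rw [hx, smul_zero]⟩
  refine ⟨Fintype.card κ, fun i j => r i ((Fintype.equivFin κ).symm j),
    fun j => n ((Fintype.equivFin κ).symm j), fun i => ?_, fun j => ?_⟩
  · rw [hm i, ha, zero_smul, add_zero]
    exact (Equiv.sum_comp (Fintype.equivFin κ).symm fun j => r i j • n j).symm
  · rw [hs, ha, zero_mul]

end Vale.Agent.P202.Mix
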