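import Vale.Agent.P202.Mix.T7
import Vale.Agent.P202.Mix.FlatNil

/-!
P202, mixed characteristic, M4c-3: `B/p^N` is flat over `Λ/p^N` (M4c-1, M4c-2 are in VarReg).
-/

namespace Vale.Agent.P202.Mix

open Polynomial TensorProduct

universe u

section Gen

/-- change of rings along a surjection. -/
theorem fb_rTensor {Λ R M M' B : Type u} [CommRing Λ] [CommRing R] [Algebra Λ R]
    (hs : Function.Surjective (algebraMap Λ R)) [AddCommGroup M] [AddCommGroup M'] [AddCommGroup B]
    [Module Λ M] [Module Λ M'] [Module Λ B] [Module R M] [Module R M'] [Module R B]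
    [IsScalarTower Λ R M] [IsScalarTower Λ R M'] [IsScalarTower Λ R B] [Module.Flat R B]
    (f : M →ₗ[Λ] M') (hf : Function.Injective f) : Function.Injective (f.rTensor B) := by
  have hc1 : TensorProduct.CompatibleSMul Λ R M B := ⟨fun r x b => by
    obtain ⟨l, rfl⟩ := hs r
    rw [algebraMap_smul, algebraMap_smul, TensorProduct.smul_tmul]⟩
  have hc2 : TensorProduct.CompatibleSMul Λ R M' B := ⟨fun r x b => by
    obtain ⟨l, rfl⟩ := hs r
    rw [algebraMap_smul, algebraMap_smul, TensorProduct.smul_tmul]⟩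
  let g : M →ₗ[R] M' :=
    { toFun := f
      map_add' := map_add f
      map_smul' := fun r x => by
        obtain ⟨l, rfl⟩ := hs r
        simp [algebraMap_smul] }
  have h1 : Function.Injective (g.rTensor B) :=
    Module.Flat.rTensor_preserves_injective_linearMap g hf
  let e : M ⊗[Λ] B ≃ₗ[Λ] M ⊗[R] B := TensorProduct.equivOfCompatibleSMul R Λ Λ M B
  let e' : M' ⊗[Λ] B ≃ₗ[Λ] M' ⊗[R] B := TensorProduct.equivOfCompatibleSMul R Λ Λ M' B
  have h2 : ∀ z, e' (f.rTensor B z) = g.rTensor B (e z) := by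
    intro z
    induction z with
    | zero => simp
    | tmul x y => rfl
    | add x y hx hy => simp only [map_add, hx, hy]
  intro x y hxy
  apply e.injective
  apply h1
  rw [← h2, ← h2, hxy]

/-- base change of a flat homomorphism to the quotient by an element. -/
theorem fb_flat_quot {R S : Type u} [CommRing R] [CommRing S] (g : R →+* S) (hg : g.Flat) (t : R)
    (ρ : R ⧸ Ideal.span {t} →+* S ⧸ Ideal.span {g t})
    (hρ : ∀ x, ρ (Ideal.Quotient.mk _ x) = Ideal.Quotient.mk _ (g x)) : ρ.Flat := by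
  let := g.toAlgebra
  let := ρ.toAlgebra
  have hgf : Module.Flat R S := hg
  show Module.Flat (R ⧸ Ideal.span {t}) (S ⧸ Ideal.span {g t})
  refine Module.Flat.of_forall_isTrivialRelation ?_
  intro l f x h
  choose F hF using fun i => Ideal.Quotient.mk_surjective (f i)
  choose X hX using fun i => Ideal.Quotient.mk_surjective (x i)
  have h1 : ∑ i, g (F i) * X i ∈ Ideal.span {g t} := by
    rw [← Ideal.Quotient.eq_zero_iff_mem, map_sum, ← h]
    refine Finset.sum_congr rfl fun i _ => ?_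
    rw [map_mul, ← hρ, hF, hX]
    rfl
  rw [Ideal.mem_span_singleton'] at h1
  obtain ⟨c, hc⟩ := h1
  have h2 : ∑ i : Option (Fin l), (Option.elim i t F) • (Option.elim i (-c) X : S) = 0 := by
    rw [Fintype.sum_option]
    simp only [Option.elim_none, Option.elim_some]
    have h3 : ∀ i, F i • X i = g (F i) * X i := fun i => rfl
    have h4 : t • (-c) = -(c * g t) := by
      rw [Algebra.smul_def]
      show g t * -c = _
      ring
    simp only [h3]
    rw [h4, hc]
    ring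
  obtain ⟨m, a, y, hy, ha⟩ := Module.Flat.isTrivialRelation_of_sum_smul_eq_zero
    (R := R) (M := S) (ι := Option (Fin l)) (f := fun i => Option.elim i t F)
    (x := fun i => Option.elim i (-c) X) h2
  refine ⟨m, fun i j => Ideal.Quotient.mk _ (a (some i) j), fun j => Ideal.Quotient.mk _ (y j),
    fun i => ?_, fun j => ?_⟩
  · have h5 : X i = ∑ j, a (some i) j • y j := hy (some i)
    rw [← hX i, h5, map_sum]
    refine Finset.sum_congr rfl fun j _ => ?_
    show Ideal.Quotient.mk _ (g (a (some i) j) * y j) = ρ (Ideal.Quotient.mk _ (a (some i) j)) *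
      Ideal.Quotient.mk _ (y j)
    rw [hρ, map_mul]
  · have h6 := ha j
    rw [Fintype.sum_option] at h6
    simp only [Option.elim_none, Option.elim_some] at h6
    have h7 : ∑ i, F i * a (some i) j ∈ Ideal.span {t} := by
      rw [Ideal.mem_span_singleton']
      exact ⟨-(a none j), by linear_combination -h6⟩
    rw [← Ideal.Quotient.eq_zero_iff_mem, map_sum] at h7
    rw [← h7]
    refine Finset.sum_congr rfl fun i _ => ?_
    rw [map_mul, hF]

/-- the equational criterion modulo `a`, from a flat homomorphism `Λ/a → B/a`. -/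
theorem fb_gen {Λ B Q : Type u} [CommRing Λ] [CommRing B] [Algebra Λ B] [CommRing Q] (a : Λ)
    (q : B →+* Q) (hqs : Function.Surjective q) (hqk : ∀ z, q z = 0 → ∃ z', z = a • z')
    (hqp : ∀ z, q (a • z) = 0) (θ : Λ ⧸ Ideal.span {a} →+* Q) (hθ : θ.Flat)
    (key : ∀ l, q (algebraMap Λ B l) = θ (Ideal.Quotient.mk _ l)) : FlatMod a 1 (0 : B) := by
  intro ι _ b m he
  obtain ⟨e, he⟩ := he
  let := θ.toAlgebra
  have hfl : Module.Flat (Λ ⧸ Ideal.span {a}) Q := hθ
  have hsm : ∀ (l : Λ) (z : B), (Ideal.Quotient.mk (Ideal.span {a}) l) • q z = q (l • z) := by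
    intro l z
    rw [Algebra.smul_def (R := Λ), map_mul, key]
    rfl
  have h0 : ∑ i, (Ideal.Quotient.mk (Ideal.span {a}) (b i)) • q (m i) = 0 := by
    rw [Finset.sum_congr rfl fun i _ => hsm (b i) (m i), ← map_sum, he, pow_one, hqp]
  have h00 := Module.Flat.isTrivialRelation_of_sum_smul_eq_zero (R := Λ ⧸ Ideal.span {a}) (M := Q)
    (f := fun i => Ideal.Quotient.mk (Ideal.span {a}) (b i)) (x := fun i => q (m i)) h0
  obtain ⟨κ, A, y, h1, h2⟩ := h00
  choose s hs using fun i j => Ideal.Quotient.mk_surjective (A i j)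
  choose n hn using fun j => hqs (y j)
  have h3 : ∀ i, ∃ z, m i - ∑ j, s i j • n j = a • z := by
    intro i
    refine hqk _ ?_
    rw [map_sub, map_sum, sub_eq_zero]
    have h4 : q (m i) = ∑ j, A i j • y j := h1 i
    rw [h4]
    refine Finset.sum_congr rfl fun j _ => ?_
    rw [← hsm, hs, hn]
  choose m' hm' using h3
  have h5 : ∀ j, ∃ c, ∑ i, b i * s i j = a * c := by
    intro j
    have h6 : ∑ i, b i * s i j ∈ Ideal.span {a} := by
      rw [← Ideal.Quotient.eq_zero_iff_mem, map_sum, ← h2 j]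
      refine Finset.sum_congr rfl fun i _ => ?_
      rw [map_mul, hs]
    rw [Ideal.mem_span_singleton'] at h6
    obtain ⟨c, hc⟩ := h6
    exact ⟨c, by rw [← hc, mul_comm]⟩
  choose c hc using h5
  refine ⟨Fin κ, inferInstance, s, n, m', c, fun i => ?_, fun j => ?_⟩
  · rw [pow_one, ← hm' i]
    abel
  · rw [pow_one]
    exact hc j

end Gen

variable {p : ℕ} [Fact p.Prime] {k : Type u} [Field k] [CharP k p] {r : ℕ}
variable {Λ : Type u} [CommRing Λ] {u : Fin r → Λ} {ψ : Λ →+* WittVector p (Rp p k r)}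
  {red : Λ →+* R0 k r ⧸ Ideal.span {(MvPowerSeries.X 0 : R0 k r)}}

section M4c

/-- the projection `B/p^N → C/t`. -/
theorem fb_q {r0 : ℕ} (ψ : Λ →+* WittVector p (Rp p k r)) (d : PExt.{u} p k r r0) (N : ℕ)
    (hN : 1 ≤ N) : ∃ q : BN ψ d.C N →+* d.C ⧸ Ideal.span {tC p k r d.C},
      Function.Surjective q ∧ (∀ z, q z = 0 → ∃ z', z = (p : Λ) • z') ∧
      (∀ z, q ((p : Λ) • z) = 0) ∧
      ∀ l : Λ, q (algebraMap Λ (BN ψ d.C N) l) =
        Ideal.Quotient.mk _ (algebraMap (Rp p k r) d.C ((ψ l).coeff 0)) := by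
  obtain ⟨π, hπ, hπs, hπk⟩ := exists_proj p d.C (tC p k r d.C)
  have hπp : π (p : Bt p d.C (tC p k r d.C)) = 0 := by
    rw [← RingHom.mem_ker, hπk]
    exact Ideal.mem_span_singleton_self _
  obtain ⟨q, hq⟩ : ∃ q : BN ψ d.C N →+* d.C ⧸ Ideal.span {tC p k r d.C},
      ∀ x, q (mkN ψ d.C N x) = π x :=
    ⟨Ideal.Quotient.lift _ π fun a ha => by
      rw [Ideal.mem_span_singleton'] at ha
      obtain ⟨c, rfl⟩ := ha
      rw [map_mul, map_pow, hπp, zero_pow (by omega), mul_zero],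
      fun x => Ideal.Quotient.lift_mk _ _ _⟩
  refine ⟨q, fun z => ?_, fun z hz => ?_, fun z => ?_, fun l => ?_⟩
  · obtain ⟨x, rfl⟩ := hπs z
    exact ⟨mkN ψ d.C N x, hq x⟩
  · obtain ⟨x, rfl⟩ := mkN_surjective d.C N z
    rw [hq, ← RingHom.mem_ker, hπk, Ideal.mem_span_singleton'] at hz
    obtain ⟨c, rfl⟩ := hz
    refine ⟨mkN ψ d.C N c, ?_⟩
    rw [Algebra.smul_def, map_natCast, map_mul, map_natCast, mul_comm]
  · rw [Algebra.smul_def, map_natCast, map_mul, map_natCast]
    have h1 : ((p : ℕ) : d.C ⧸ Ideal.span {tC p k r d.C}) = 0 := by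
      rw [← map_natCast π, hπp]
    rw [h1, zero_mul]
  · have h3 : q (algebraMap Λ (BN ψ d.C N) l) = π (laB ψ d.C l) := hq _
    have h4 : π (laB ψ d.C l) = Ideal.Quotient.mk _
        ((WittVector.map (algebraMap (Rp p k r) d.C) (ψ l)).coeff 0) := hπ _
    rw [h3, h4, WittVector.map_coeff]

/-- the flat homomorphism `R0/t → C/t`. -/
theorem fb_rho {r0 : ℕ} (d : PExt.{u} p k r r0) :
    ∃ ρ : R0 k r ⧸ Ideal.span {(MvPowerSeries.X 0 : R0 k r)} →+*
      d.C ⧸ Ideal.span {tC p k r d.C}, ρ.Flat ∧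
      ∀ x, ρ (Ideal.Quotient.mk _ x) =
        Ideal.Quotient.mk _ (algebraMap (Rp p k r) d.C (PerfectClosure.of (R0 k r) p x)) := by
  obtain ⟨g, hg⟩ : ∃ g : R0 k r →+* d.C,
    g = (algebraMap (Rp p k r) d.C).comp (PerfectClosure.of (R0 k r) p) := ⟨_, rfl⟩
  have hgf : g.Flat := by
    rw [hg]
    refine RingHom.Flat.comp ?_ ?_
    · exact flat_perfectClosure p k r
    · exact RingHom.flat_algebraMap_iff.2 d.flat
  have hg0 : g (MvPowerSeries.X 0) = tC p k r d.C := by rw [hg]; rfl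
  have h1 : ∃ ρ : R0 k r ⧸ Ideal.span {(MvPowerSeries.X 0 : R0 k r)} →+*
      d.C ⧸ Ideal.span {g (MvPowerSeries.X 0)}, ρ.Flat ∧
      ∀ x, ρ (Ideal.Quotient.mk _ x) = Ideal.Quotient.mk _ (g x) := by
    obtain ⟨ρ, hρ⟩ : ∃ ρ : R0 k r ⧸ Ideal.span {(MvPowerSeries.X 0 : R0 k r)} →+*
        d.C ⧸ Ideal.span {g (MvPowerSeries.X 0)},
        ∀ x, ρ (Ideal.Quotient.mk _ x) = Ideal.Quotient.mk _ (g x) :=
      ⟨Ideal.Quotient.lift _ ((Ideal.Quotient.mk _).comp g) fun a ha => by
        rw [Ideal.mem_span_singleton'] at ha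
        obtain ⟨c, rfl⟩ := ha
        rw [RingHom.comp_apply, map_mul]
        exact Ideal.Quotient.eq_zero_iff_mem.2
          (Ideal.mul_mem_left _ _ (Ideal.mem_span_singleton_self _)),
        fun x => Ideal.Quotient.lift_mk _ _ _⟩
    exact ⟨ρ, fb_flat_quot g hgf (MvPowerSeries.X 0) ρ hρ, hρ⟩
  rw [hg0] at h1
  obtain ⟨ρ, hρf, hρ⟩ := h1
  refine ⟨ρ, hρf, fun x => ?_⟩
  rw [hρ, hg]
  rfl

/-- the equational criterion modulo `p` for `B/p^N`. -/
theorem fb_flatMod_one {r0 : ℕ} (hb : IsBase p k r Λ u ψ red) (d : PExt.{u} p k r r0) (N : ℕ)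
    (hN : 1 ≤ N) : FlatMod (p : Λ) 1 (0 : BN ψ d.C N) := by
  obtain ⟨q, hqs, hqk, hqp, hql⟩ := fb_q ψ d N hN
  obtain ⟨ρ, hρf, hρ⟩ := fb_rho d
  have hcomp := RingHom.Flat.comp hb.red_flat hρf
  have key : ∀ l : Λ, q (algebraMap Λ (BN ψ d.C N) l) = ρ (red l) := by
    intro l
    obtain ⟨g', y, h1, h2⟩ := hb.red_coeff l
    rw [hql, h1, hρ, h2, map_add, map_mul, map_add, map_mul]
    have h5 : Ideal.Quotient.mk (Ideal.span {tC p k r d.C})
        (algebraMap (Rp p k r) d.C (xp p k r 0)) = 0 :=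
      Ideal.Quotient.eq_zero_iff_mem.2 (Ideal.mem_span_singleton_self _)
    rw [h5, zero_mul, add_zero]
  exact fb_gen (p : Λ) q hqs hqk hqp _ hcomp key

/-- the equational criterion modulo `p^N` for `B/p^N`. -/
theorem fb_flatMod {r0 : ℕ} (hb : IsBase p k r Λ u ψ red) (d : PExt.{u} p k r r0) (N : ℕ)
    (hN : 1 ≤ N) : FlatMod (p : Λ) N (0 : BN ψ d.C N) := by
  have h1 := fb_flatMod_one hb d N hN
  have htor : ∀ m : BN ψ d.C N, (p : Λ) • m = 0 → ∃ m' : BN ψ d.C N, m = (p : Λ) ^ (N - 1) • m' := by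
    intro m hm
    rw [Algebra.smul_def, map_natCast] at hm
    have h2 := BN_p d N m hm
    rw [Ideal.mem_span_singleton'] at h2
    obtain ⟨c, hc⟩ := h2
    refine ⟨c, ?_⟩
    rw [Algebra.smul_def, map_pow, map_natCast, ← hc, mul_comm]
  have hk : ∀ j, j + 1 ≤ N → FlatMod (p : Λ) (j + 1) (0 : BN ψ d.C N) := by
    intro j
    induction j with
    | zero => intro _; exact h1
    | succ j ih => intro hj; exact flatMod_succ _ N htor 0 h1 (j + 1) hj (ih (by omega))
  have := hk (N - 1) (by omega)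
  rwa [Nat.sub_add_cancel hN] at this

/-- TASK M4c-3: `B/p^N` is flat over `Λ/p^N`, in the form that tensoring with `B/p^N` preserves
injections of `Λ`-modules killed by `p^N`. Proof: `flat_of_nilpotent` (M4a) for `R = Λ/p^N`,
`M = B/p^N`, `a = p`; `M/pM = C/t` is flat over `Λ/p` (`red_flat`, `C/t` flat over `R0/t` by base
change, as `C` is flat over `Rp` and `Rp` over `R0` (M4b)); `(0 : p) = p^(N-1)` by M1. -/
theorem lTensor_BN_injective {r0 : ℕ} (hb : IsBase p k r Λ u ψ red) (d : PExt.{u} p k r r0) (N : ℕ)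
    {M M' : Type u} [AddCommGroup M] [Module Λ M] [AddCommGroup M'] [Module Λ M']
    (f : M →ₗ[Λ] M') (hf : Function.Injective f) (hM' : ∀ m : M', (p : Λ) ^ N • m = 0) :
    Function.Injective (f.rTensor (BN ψ d.C N)) := by
  rcases Nat.eq_zero_or_pos N with hN | hN
  · subst hN
    have h1 : ∀ m : M, m = 0 := fun m => hf (by
      rw [map_zero]
      have := hM' (f m)
      rwa [pow_zero, one_smul] at this)
    have h2 : ∀ z : M ⊗[Λ] BN ψ d.C 0, z = 0 := by
      intro z
      induction z with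
      | zero => rfl
      | tmul x y => rw [h1 x, TensorProduct.zero_tmul]
      | add x y hx hy => rw [hx, hy, add_zero]
    intro x y _
    rw [h2 x, h2 y]
  have hM : ∀ m : M, (p : Λ) ^ N • m = 0 := fun m => hf (by rw [map_smul, hM', map_zero])
  have hBN : ∀ z : BN ψ d.C N, (p : Λ) ^ N • z = 0 := by
    intro z
    rw [Algebra.smul_def, map_pow, map_natCast]
    have : ((p : ℕ) : BN ψ d.C N) ^ N = mkN ψ d.C N ((p : Bt p d.C (tC p k r d.C)) ^ N) := by
      rw [map_pow, map_natCast]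
    rw [this, (mkN_eq_zero_iff d.C N).2 (Ideal.mem_span_singleton_self _), zero_mul]
  have tor : ∀ (X : Type u) [AddCommGroup X] [Module Λ X], (∀ m : X, (p : Λ) ^ N • m = 0) →
      Module.IsTorsionBySet Λ X (Ideal.span {(p : Λ) ^ N} : Ideal Λ) := by
    intro X _ _ hX m a
    obtain ⟨a, ha⟩ := a
    rw [SetLike.mem_coe, Ideal.mem_span_singleton'] at ha
    obtain ⟨c, rfl⟩ := ha
    show (c * (p : Λ) ^ N) • m = 0
    rw [mul_smul, hX, smul_zero]
  let i1 : Module (Λ ⧸ Ideal.span {(p : Λ) ^ N}) M := (tor M hM).module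
  let i2 : Module (Λ ⧸ Ideal.span {(p : Λ) ^ N}) M' := (tor M' hM').module
  let i3 : Module (Λ ⧸ Ideal.span {(p : Λ) ^ N}) (BN ψ d.C N) := (tor _ hBN).module
  have hsmul : ∀ (a : Λ) (z : BN ψ d.C N),
      (Ideal.Quotient.mk (Ideal.span {(p : Λ) ^ N}) a) • z = a • z := fun a z => rfl
  have t1 : IsScalarTower Λ (Λ ⧸ Ideal.span {(p : Λ) ^ N}) M := (tor M hM).isScalarTower
  have t2 : IsScalarTower Λ (Λ ⧸ Ideal.span {(p : Λ) ^ N}) M' := (tor M' hM').isScalarTower
  have t3 : IsScalarTower Λ (Λ ⧸ Ideal.span {(p : Λ) ^ N}) (BN ψ d.C N) :=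
    (tor _ hBN).isScalarTower
  have hflat : Module.Flat (Λ ⧸ Ideal.span {(p : Λ) ^ N}) (BN ψ d.C N) := by
    refine Module.Flat.of_forall_isTrivialRelation ?_
    intro l g x h
    choose G hG using fun i => Ideal.Quotient.mk_surjective (g i)
    have h0 : ∑ i, G i • x i = (p : Λ) ^ N • (0 : BN ψ d.C N) := by
      rw [smul_zero, ← h]
      refine Finset.sum_congr rfl fun i _ => ?_
      rw [← hG i, hsmul]
    obtain ⟨κ, _, s, n, m', c, hm, hs⟩ := fb_flatMod hb d N hN (Fin l) G x ⟨0, h0⟩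
    refine ⟨Fintype.card κ, fun i j => Ideal.Quotient.mk _ (s i ((Fintype.equivFin κ).symm j)),
      fun j => n ((Fintype.equivFin κ).symm j), fun i => ?_, fun j => ?_⟩
    · rw [hm i, hBN, add_zero]
      exact (Equiv.sum_comp (Fintype.equivFin κ).symm fun j => s i j • n j).symm
    · have h2 : ∑ i, g i * Ideal.Quotient.mk (Ideal.span {(p : Λ) ^ N})
          (s i ((Fintype.equivFin κ).symm j)) =
          Ideal.Quotient.mk _ (∑ i, G i * s i ((Fintype.equivFin κ).symm j)) := by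
        rw [map_sum]
        refine Finset.sum_congr rfl fun i _ => ?_
        rw [map_mul, hG]
      rw [h2, hs, Ideal.Quotient.eq_zero_iff_mem, Ideal.mem_span_singleton']
      exact ⟨_, mul_comm _ _⟩
  exact fb_rTensor (R := Λ ⧸ Ideal.span {(p : Λ) ^ N}) Ideal.Quotient.mk_surjective f hf

end M4c

end Vale.Agent.P202.Mix
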