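import Vale.Agent.P202.Mix.GeoCell

/-!
P202-MIX, part GEO, D4: arithmetic.
-/

namespace Vale.Agent.P202.Mix

open Finset

/-- the polynomial `∏ (u + i q)`. -/
noncomputable def ff (r q : ℕ) (u : ℤ) : ℝ := ∏ i ∈ Finset.range (r + 1), ((u : ℝ) + i * q)

theorem sum_tw (r q : ℕ) (j : ℤ) :
    ∑ m : Fin (r + 1), ∏ l, (((tw r q m l + j + 1 : ℤ)) : ℝ) = ff r q (j + 1) - ff r q j := by
  have h1 := Finset.prod_add_ordered (univ : Finset (Fin (r + 1)))
    (fun i => ((j : ℝ) + (i : ℕ) * q)) fun _ => (1 : ℝ)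
  have h2 : ff r q (j + 1) = ∏ i : Fin (r + 1), (((j : ℝ) + (i : ℕ) * q) + 1) := by
    rw [ff, ← Fin.prod_univ_eq_prod_range (fun i : ℕ => (((j + 1 : ℤ) : ℝ) + i * q)) (r + 1)]
    refine prod_congr rfl fun i _ => ?_
    push_cast
    ring
  have h3 : ff r q j = ∏ i : Fin (r + 1), ((j : ℝ) + (i : ℕ) * q) := by
    rw [ff, ← Fin.prod_univ_eq_prod_range (fun i : ℕ => ((j : ℝ) + i * q)) (r + 1)]
  rw [h2, h3, h1, add_sub_cancel_left]
  refine sum_congr rfl fun m _ => ?_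
  have h4 : ∏ l, (((tw r q m l + j + 1 : ℤ)) : ℝ) = ∏ i : Fin (r + 1),
      if i < m then ((j : ℝ) + (i : ℕ) * q) + 1 else
        if m < i then ((j : ℝ) + (i : ℕ) * q) else 1 := by
    rw [Fin.prod_univ_succAbove _ m, if_neg (lt_irrefl m), if_neg (lt_irrefl m), one_mul]
    refine prod_congr rfl fun l _ => ?_
    by_cases hl : l.castSucc < m
    · rw [Fin.succAbove_of_castSucc_lt m l hl, if_pos hl]
      have hl' : (l : ℕ) < m := hl
      rw [tw, if_pos hl']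
      push_cast
      rw [Fin.val_castSucc]
      ring
    · have hl1 : m ≤ l.castSucc := not_lt.1 hl
      have hl2 : m < l.succ := Fin.le_castSucc_iff.1 hl1
      rw [Fin.succAbove_of_le_castSucc m l hl1, if_neg (not_lt.2 hl2.le), if_pos hl2]
      have hl' : ¬ (l : ℕ) < m := fun h => hl h
      rw [tw, if_neg hl']
      push_cast
      rw [Fin.val_succ]
      push_cast
      ring
  rw [h4, one_mul, prod_ite]
  congr 1
  rw [prod_ite, prod_const_one, mul_one, filter_filter]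
  refine prod_congr ?_ fun _ _ => rfl
  ext i
  simp only [mem_filter, mem_univ, true_and]
  exact ⟨fun h => h.2, fun h => ⟨not_lt.2 h.le, h⟩⟩

/-- the `n`-th difference of a monic polynomial of degree `n`. -/
private theorem ff_diff (r q : ℕ) (u : ℤ) :
    ∑ i ∈ range (r + 2), (-1 : ℝ) ^ i * ((r + 1).choose i : ℝ) * ff r q (u - i) =
      ((r + 1).factorial : ℝ) := by
  set P : Polynomial ℝ := ∏ i ∈ range (r + 1), (Polynomial.X + Polynomial.C ((i : ℝ) * q)) with hP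
  have hPm : P.Monic := Polynomial.monic_prod_of_monic _ _ fun i _ => Polynomial.monic_X_add_C _
  have hPd : P.natDegree = r + 1 := by
    rw [hP, Polynomial.natDegree_prod_of_monic _ _ fun i _ => Polynomial.monic_X_add_C _,
      sum_congr rfl fun i _ => Polynomial.natDegree_X_add_C _]
    simp
  have hPe : ∀ v : ℤ, P.eval (v : ℝ) = ff r q v := by
    intro v
    rw [hP, ff, Polynomial.eval_prod]
    simp
  have h1 := congrFun (Polynomial.fwdDiff_iter_degree_eq_factorial P) ((u : ℝ) - (r + 1 : ℕ))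
  rw [fwdDiff_iter_eq_sum_shift, hPd, hPm.leadingCoeff, one_smul] at h1
  have h2 : ∀ k ∈ range (r + 1 + 1), ((-1 : ℤ) ^ (r + 1 - k) * ((r + 1).choose k : ℤ)) •
      P.eval ((u : ℝ) - (r + 1 : ℕ) + k • (1 : ℝ)) =
      (-1 : ℝ) ^ (r + 1 - k) * ((r + 1).choose (r + 1 - k) : ℝ) *
        ff r q (u - ((r + 1 - k : ℕ) : ℤ)) := by
    intro k hk
    have hk' : k ≤ r + 1 := by
      have := mem_range.1 hk
      omega
    rw [← hPe, Nat.choose_symm hk', zsmul_eq_mul]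
    push_cast [Nat.cast_sub hk']
    congr 2
    rw [nsmul_eq_mul, mul_one]
    ring
  rw [sum_congr rfl h2, sum_flip (f := fun i => (-1 : ℝ) ^ i * ((r + 1).choose i : ℝ) *
    ff r q (u - (i : ℤ)))] at h1
  rw [h1]
  simp

private theorem ff_zero (r q : ℕ) (k : ℕ) (hk : k ≤ r) : ff r q (-(k : ℤ) * q) = 0 := by
  rw [ff]
  refine prod_eq_zero (i := k) (mem_range.2 (by omega)) ?_
  push_cast
  ring

private theorem ff_q (r q : ℕ) : ff r q q = ((r + 1).factorial : ℝ) * (q : ℝ) ^ (r + 1) := by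
  rw [ff, ← prod_range_add_one_eq_factorial, Nat.cast_prod, ← card_range (r + 1),
    ← prod_const, card_range, ← prod_mul_distrib]
  refine prod_congr rfl fun i _ => ?_
  push_cast
  ring

private theorem ff_abel (f : ℤ → ℝ) (φ : ℤ → ℝ) (h0 : φ 0 = 0) (M : ℤ) (t : ℕ) :
    ∑ ν ∈ range t, (f (M - ν) - f (M - ν - 1)) * φ (ν + 1) =
      ∑ ν ∈ range t, f (M - ν) * (φ (ν + 1) - φ ν) - f (M - t) * φ t := by
  induction t with
  | zero => simp [h0]
  | succ t ih =>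
    rw [sum_range_succ, ih, sum_range_succ]
    push_cast
    have e : M - ((t : ℤ) + 1) = M - t - 1 := by ring
    rw [e]
    ring

private theorem ff_Ico (G : ℤ → ℝ) (M : ℤ) (t : ℕ) :
    ∑ j ∈ Ico (M - t) M, G j = ∑ ν ∈ range t, G (M - ν - 1) := by
  refine sum_bij' (fun j _ => (M - 1 - j).toNat) (fun ν _ => M - ν - 1) ?_ ?_ ?_ ?_ ?_
  · intro j hj
    rw [mem_Ico] at hj
    rw [mem_range]
    omega
  · intro ν hν
    rw [mem_range] at hν
    rw [mem_Ico]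
    omega
  · intro j hj
    rw [mem_Ico] at hj
    omega
  · intro ν hν
    rw [mem_range] at hν
    omega
  · intro j hj
    rw [mem_Ico] at hj
    congr 1
    omega

theorem arith (r q : ℕ) (hq : 1 ≤ q) (c₀ c₁ : ℝ) (κ : ℕ → ℝ) (h0 : κ 0 = c₀)
    (h1 : κ 1 = r * c₀ + c₁) (φ : ℤ → ℝ) (hφ : ∀ ν, ν ≤ 0 → φ ν = 0) (N : ℕ)
    (hφ' : ∀ ν : ℤ, N ≤ ν → φ ν = c₀) (w : ℤ) (hw : 2 * (q : ℤ) + r + 1 + N ≤ w) :
    ∑ i ∈ Finset.range (r + 2), (-1 : ℝ) ^ i *
      (κ i * (ff r q ((2 - i) * q) - ff r q ((1 - i) * q)) +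
        ((r + 1).choose i : ℝ) * ∑ j ∈ Finset.Ico ((2 - (i : ℤ)) * q) (w - i),
          (ff r q (j + 1) - ff r q j) * φ (w - i - j)) =
      ((r + 1).factorial : ℝ) * (c₀ - (q : ℝ) ^ (r + 1) * c₁) := by
  have hφ0 : φ 0 = 0 := hφ 0 le_rfl
  -- the inner sums
  have hS : ∀ i ∈ range (r + 2), ∑ j ∈ Finset.Ico ((2 - (i : ℤ)) * q) (w - i),
      (ff r q (j + 1) - ff r q j) * φ (w - i - j) =
      ∑ ν ∈ range N, ff r q (w - ν - i) * (φ (ν + 1) - φ ν) - ff r q ((2 - i) * q) * c₀ := by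
    intro i hi
    have hi' : (i : ℤ) ≤ r + 1 := by
      have := mem_range.1 hi
      omega
    have hiq : 0 ≤ (i : ℤ) * q := by positivity
    have hA : (2 - (i : ℤ)) * q = 2 * q - i * q := by ring
    obtain ⟨t, ht⟩ : ∃ t : ℕ, (w - i) - (2 - (i : ℤ)) * q = t :=
      Int.eq_ofNat_of_zero_le (by rw [hA]; omega)
    have htN : N ≤ t := by
      rw [hA] at ht
      omega
    have hA' : (2 - (i : ℤ)) * q = (w - i) - t := by omega
    rw [hA', ff_Ico (fun j => (ff r q (j + 1) - ff r q j) * φ (w - i - j))]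
    have e1 : ∀ ν ∈ range t, (ff r q (w - i - ν - 1 + 1) - ff r q (w - i - ν - 1)) *
        φ (w - i - (w - i - ν - 1)) =
        (ff r q (w - i - ν) - ff r q (w - i - ν - 1)) * φ (ν + 1) := by
      intro ν _
      have a1 : w - (i : ℤ) - ν - 1 + 1 = w - i - ν := by ring
      have a2 : w - (i : ℤ) - (w - i - ν - 1) = ν + 1 := by ring
      rw [a1, a2]
    rw [sum_congr rfl e1, ff_abel (ff r q) φ hφ0, hφ' t (by exact_mod_cast htN)]
    congr 1
    rw [← sum_subset (range_subset_range.2 htN)]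
    · refine sum_congr rfl fun ν _ => ?_
      have a1 : w - (i : ℤ) - ν = w - ν - i := by ring
      rw [a1]
    · intro ν _ hν
      rw [mem_range, not_lt] at hν
      rw [hφ' ν (by exact_mod_cast hν), hφ' (ν + 1) (by
        have : (N : ℤ) ≤ ν := by exact_mod_cast hν
        omega), sub_self, mul_zero]
  have hsum : ∀ i ∈ range (r + 2), (-1 : ℝ) ^ i *
      (κ i * (ff r q ((2 - i) * q) - ff r q ((1 - i) * q)) +
        ((r + 1).choose i : ℝ) * ∑ j ∈ Finset.Ico ((2 - (i : ℤ)) * q) (w - i),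
          (ff r q (j + 1) - ff r q j) * φ (w - i - j)) =
      (-1 : ℝ) ^ i * (κ i * (ff r q ((2 - i) * q) - ff r q ((1 - i) * q)) -
        ((r + 1).choose i : ℝ) * (ff r q ((2 - i) * q) * c₀)) +
      ∑ ν ∈ range N, (-1 : ℝ) ^ i * ((r + 1).choose i : ℝ) * ff r q (w - ν - i) *
        (φ (ν + 1) - φ ν) := by
    intro i hi
    have e : ∑ ν ∈ range N, (-1 : ℝ) ^ i * ((r + 1).choose i : ℝ) * ff r q (w - ν - i) *
        (φ (ν + 1) - φ ν) = (-1 : ℝ) ^ i * ((r + 1).choose i : ℝ) *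
        ∑ ν ∈ range N, ff r q (w - ν - i) * (φ (ν + 1) - φ ν) := by
      rw [mul_sum]
      exact sum_congr rfl fun ν _ => by ring
    rw [hS i hi, e]
    ring
  rw [sum_congr rfl hsum, sum_add_distrib, sum_comm (s := range (r + 2))]
  have hB : ∑ ν ∈ range N, ∑ i ∈ range (r + 2), (-1 : ℝ) ^ i * ((r + 1).choose i : ℝ) *
      ff r q (w - ν - i) * (φ (ν + 1) - φ ν) = ((r + 1).factorial : ℝ) * c₀ := by
    have e : ∀ ν ∈ range N, ∑ i ∈ range (r + 2), (-1 : ℝ) ^ i * ((r + 1).choose i : ℝ) *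
        ff r q (w - ν - i) * (φ (ν + 1) - φ ν) =
        ((r + 1).factorial : ℝ) * (φ ((ν + 1 : ℕ) : ℤ) - φ (ν : ℤ)) := by
      intro ν _
      rw [← sum_mul, ff_diff]
      push_cast
      rfl
    rw [sum_congr rfl e, ← mul_sum, sum_range_sub (fun ν : ℕ => φ (ν : ℤ)), Nat.cast_zero, hφ0,
      sub_zero, hφ' N le_rfl]
  rw [hB, sum_range_succ', sum_range_succ']
  have hC : ∑ k ∈ range r, (-1 : ℝ) ^ (k + 1 + 1) *
      (κ (k + 1 + 1) * (ff r q ((2 - ((k + 1 + 1 : ℕ) : ℤ)) * q) -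
        ff r q ((1 - ((k + 1 + 1 : ℕ) : ℤ)) * q)) -
        ((r + 1).choose (k + 1 + 1) : ℝ) * (ff r q ((2 - ((k + 1 + 1 : ℕ) : ℤ)) * q) * c₀)) =
      0 := by
    refine sum_eq_zero fun k hk => ?_
    have hk' := mem_range.1 hk
    have a1 : (2 - ((k + 1 + 1 : ℕ) : ℤ)) * q = -(k : ℤ) * q := by push_cast; ring
    have a2 : (1 - ((k + 1 + 1 : ℕ) : ℤ)) * q = -((k + 1 : ℕ) : ℤ) * q := by push_cast; ring
    rw [a1, a2, ff_zero r q k (by omega), ff_zero r q (k + 1) (by omega)]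
    ring
  rw [hC]
  have a0 : (1 - ((0 + 1 : ℕ) : ℤ)) * q = -((0 : ℕ) : ℤ) * q := by push_cast; ring
  have a1 : (2 - ((0 + 1 : ℕ) : ℤ)) * q = q := by push_cast; ring
  have a2 : (1 - ((0 : ℕ) : ℤ)) * q = q := by push_cast; ring
  rw [a0, a1, a2, ff_zero r q 0 (Nat.zero_le _), ff_q, zero_add, h0, h1]
  simp only [zero_add, pow_one, pow_zero, Nat.choose_one_right, Nat.choose_zero_right]
  push_cast
  ring

end Vale.Agent.P202.Mix
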