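import Vale.Agent.P202.Mix.CellOps
import Vale.Agent.P202.Mix.CellRow

/-!
P202-MIX, part GEO, task C3: the complexes of the windows.
-/

namespace Vale.Agent.P202.Mix

open Vale.Agent.P202.CharP

namespace WinCx

variable {r : ℕ} {a : Fin r → ℤ} {B p j₀ j₁ : ℤ}

section

variable {M : Type} [AddCommGroup M]

open Classical in
/-- extension by zero of a function on the cells of a window. -/
noncomputable def xt (f : ↥(cellset a B p j₀ j₁) → M) : UV r M := fun I g =>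
  if h : (I, g) ∈ cellset a B p j₀ j₁ then f ⟨(I, g), h⟩ else 0

theorem xt_of_mem (f : ↥(cellset a B p j₀ j₁) → M) {I : Finset (Fin r)} {g : Gz r}
    (h : (I, g) ∈ cellset a B p j₀ j₁) : xt f I g = f ⟨(I, g), h⟩ := dif_pos h

theorem xt_of_notMem (f : ↥(cellset a B p j₀ j₁) → M) {I : Finset (Fin r)} {g : Gz r}
    (h : (I, g) ∉ cellset a B p j₀ j₁) : xt f I g = 0 := dif_neg h

open Classical in
theorem sum_cell (f : ↥(cellset a B p j₀ j₁) → M) (k : ℤ) (I : Finset (Fin r)) (g : Gz r) :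
    ∑ y : ↥(cellset a B p j₀ j₁), (if y.1.1 = I ∧ y.1.2 = g then k else 0) • f y =
      k • xt f I g := by
  by_cases h : (I, g) ∈ cellset a B p j₀ j₁
  · rw [xt_of_mem f h, Finset.sum_eq_single (⟨(I, g), h⟩ : ↥(cellset a B p j₀ j₁))]
    · rw [if_pos ⟨rfl, rfl⟩]
    · intro y _ hy
      rw [if_neg, zero_smul]
      rintro ⟨h1, h2⟩
      exact hy (Subtype.ext (Prod.ext h1 h2))
    · intro hn
      exact absurd (Finset.mem_univ _) hn
  · rw [xt_of_notMem f h, smul_zero]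
    refine Finset.sum_eq_zero fun y _ => ?_
    rw [if_neg, zero_smul]
    rintro ⟨h1, h2⟩
    apply h
    have : y.1 = (I, g) := Prod.ext h1 h2
    rw [← this]
    exact y.2

theorem za_X (l : Fin (r + 1)) (f : ↥(cellset a B p j₀ j₁) → M) (x : ↥(cellset a B p j₀ j₁)) :
    za ((winRep a B p j₀ j₁).X l) ℤ M f x = XU ℤ M r l (xt f) x.1.1 x.1.2 := by
  classical
  show ∑ y : ↥(cellset a B p j₀ j₁), (∑ L ∈ (Finset.univ : Finset (Fin r)).powersetCard l,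
      if x.1.1 = y.1.1 ∧ x.1.2 = y.1.2 + exz L then (1 : ℤ) else 0) • f y =
    ∑ L ∈ (Finset.univ : Finset (Fin r)).powersetCard l, xt f x.1.1 (x.1.2 - exz L)
  simp only [Finset.sum_smul]
  rw [Finset.sum_comm]
  refine Finset.sum_congr rfl fun L _ => ?_
  rw [← one_smul ℤ (xt f x.1.1 (x.1.2 - exz L)), ← sum_cell]
  refine Finset.sum_congr rfl fun y _ => ?_
  congr 1
  refine if_congr ?_ rfl rfl
  constructor
  · rintro ⟨h1, h2⟩
    exact ⟨h1.symm, by rw [h2, add_sub_cancel_right]⟩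
  · rintro ⟨h1, h2⟩
    exact ⟨h1.symm, by rw [h2, sub_add_cancel]⟩

theorem za_D (p : ℕ) (f : ↥(cellset a B p j₀ j₁) → M) (x : ↥(cellset a B (p + 1 : ℕ) j₀ j₁)) :
    za ((winCx a B j₀ j₁).D p) ℤ M f x = dU ℤ M r (xt f) x.1.1 x.1.2 := by
  classical
  show ∑ y : ↥(cellset a B p j₀ j₁), (∑ i ∈ x.1.1,
      if y.1.1 = x.1.1.erase i ∧ y.1.2 = x.1.2 then ksg i x.1.1 else 0) • f y =
    ∑ i ∈ x.1.1, ksg i x.1.1 • xt f (x.1.1.erase i) x.1.2
  simp only [Finset.sum_smul]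
  rw [Finset.sum_comm]
  refine Finset.sum_congr rfl fun i _ => ?_
  exact sum_cell f _ _ _

end

/-! ### membership -/

theorem sub_fst (g : Gz r) (K : Finset (Fin r)) (l : Fin r) :
    (g - exz K).1 l = g.1 l - if l ∈ K then 1 else 0 := rfl

theorem sub_snd (g : Gz r) (K : Finset (Fin r)) : (g - exz K).2 = g.2 - 1 := rfl

theorem mem_iff (I : Finset (Fin r)) (g : Gz r) : (I, g) ∈ cellset a B p j₀ j₁ ↔
    (((∀ l, l ∉ I → 0 ≤ g.1 l) ∧ ∀ l, g.1 l ≤ B + g.2) ∧ ∀ l ∈ I, a l + g.2 < g.1 l) ∧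
      (I.card : ℤ) = p ∧ j₀ ≤ g.2 ∧ g.2 < j₁ := by
  have h : ¬ inG a I g ↔ ∀ l ∈ I, a l + g.2 < g.1 l := by
    unfold inG
    push Not
    rfl
  rw [← h]
  rfl

theorem mem_mid {I : Finset (Fin r)} {g : Gz r} {K L : Finset (Fin r)}
    (hx : (I, g) ∈ cellset a B p j₀ j₁) (hz : (I, g - exz K - exz L) ∈ cellset a B p j₀ j₁) :
    (I, g - exz K) ∈ cellset a B p j₀ j₁ := by
  rw [mem_iff] at hx hz ⊢
  obtain ⟨⟨⟨h1, h2⟩, h3⟩, h4, h5, h6⟩ := hx
  obtain ⟨⟨⟨k1, k2⟩, k3⟩, k4, k5, k6⟩ := hz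
  simp only [sub_fst, sub_snd] at *
  refine ⟨⟨⟨fun l hl => ?_, fun l => ?_⟩, fun l hl => ?_⟩, h4, by omega, by omega⟩
  · have := k1 l hl
    split_ifs at this ⊢ <;> omega
  · have := k2 l
    split_ifs at this ⊢ <;> omega
  · have := h3 l hl
    split_ifs <;> omega

theorem mem_two {p' : ℤ} {I : Finset (Fin r)} {g : Gz r} {i : Fin r} {L : Finset (Fin r)}
    (hx : (I, g) ∈ cellset a B p' j₀ j₁)
    (hz : (I.erase i, g - exz L) ∈ cellset a B p j₀ j₁) :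
    (I.erase i, g) ∈ cellset a B p j₀ j₁ := by
  rw [mem_iff] at hx hz ⊢
  obtain ⟨⟨⟨h1, h2⟩, h3⟩, h4, h5, h6⟩ := hx
  obtain ⟨⟨⟨k1, k2⟩, k3⟩, k4, k5, k6⟩ := hz
  simp only [sub_fst, sub_snd] at *
  refine ⟨⟨⟨fun l hl => ?_, h2⟩, fun l hl => h3 l (Finset.mem_of_mem_erase hl)⟩, k4, h5, h6⟩
  have := k1 l hl
  split_ifs at this <;> omega

theorem mem_three {p' : ℤ} {I : Finset (Fin r)} {g : Gz r} {i : Fin r} {K : Finset (Fin r)}
    (hx : (I, g) ∈ cellset a B p' j₀ j₁)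
    (hz : (I.erase i, g - exz K) ∈ cellset a B p j₀ j₁) :
    (I, g - exz K) ∈ cellset a B p' j₀ j₁ := by
  rw [mem_iff] at hx hz ⊢
  obtain ⟨⟨⟨h1, h2⟩, h3⟩, h4, h5, h6⟩ := hx
  obtain ⟨⟨⟨k1, k2⟩, k3⟩, k4, k5, k6⟩ := hz
  refine ⟨⟨⟨fun l hl => k1 l fun h => hl (Finset.mem_of_mem_erase h), k2⟩, fun l hl => ?_⟩,
    h4, k5, k6⟩
  simp only [sub_fst, sub_snd] at *
  have := h3 l hl
  split_ifs <;> omega

theorem mem_four {p' p'' : ℤ} {I : Finset (Fin r)} {g : Gz r} {i k : Fin r} (hi : i ∈ I)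
    (hp : p' = p'' + 1) (hx : (I, g) ∈ cellset a B p' j₀ j₁)
    (hz : ((I.erase i).erase k, g) ∈ cellset a B p j₀ j₁) :
    (I.erase i, g) ∈ cellset a B p'' j₀ j₁ := by
  rw [mem_iff] at hx hz ⊢
  obtain ⟨⟨⟨h1, h2⟩, h3⟩, h4, h5, h6⟩ := hx
  obtain ⟨⟨⟨k1, k2⟩, k3⟩, k4, k5, k6⟩ := hz
  refine ⟨⟨⟨fun l hl => k1 l fun h => hl (Finset.mem_of_mem_erase h), h2⟩,
    fun l hl => h3 l (Finset.mem_of_mem_erase hl)⟩, ?_, h5, h6⟩
  have := Finset.card_erase_add_one hi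
  omega

/-! ### restriction to a window -/

section

variable {M : Type} [AddCommGroup M]

/-- restriction to a window. -/
def rs (a : Fin r → ℤ) (B p j₀ j₁ : ℤ) (u : UV r M) : ↥(cellset a B p j₀ j₁) → M :=
  fun x => u x.1.1 x.1.2

theorem xt_rs {u : UV r M} {I : Finset (Fin r)} {g : Gz r}
    (h : (I, g) ∉ cellset a B p j₀ j₁ → u I g = 0) : xt (rs a B p j₀ j₁ u) I g = u I g := by
  by_cases hm : (I, g) ∈ cellset a B p j₀ j₁
  · rw [xt_of_mem _ hm]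
    rfl
  · rw [xt_of_notMem _ hm, h hm]

theorem XU_apply (l : Fin (r + 1)) (u : UV r M) (I : Finset (Fin r)) (g : Gz r) :
    XU ℤ M r l u I g =
      ∑ L ∈ (Finset.univ : Finset (Fin r)).powersetCard l, u I (g - exz L) := rfl

theorem dU_apply (u : UV r M) (I : Finset (Fin r)) (g : Gz r) :
    dU ℤ M r u I g = ∑ i ∈ I, ksg i I • u (I.erase i) g := rfl

theorem XX (k l : Fin (r + 1)) (f : ↥(cellset a B p j₀ j₁) → M) (x : ↥(cellset a B p j₀ j₁)) :
    XU ℤ M r k (xt (rs a B p j₀ j₁ (XU ℤ M r l (xt f)))) x.1.1 x.1.2 =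
      XU ℤ M r k (XU ℤ M r l (xt f)) x.1.1 x.1.2 := by
  rw [XU_apply, XU_apply]
  refine Finset.sum_congr rfl fun K _ => ?_
  refine xt_rs fun h => ?_
  rw [XU_apply]
  exact Finset.sum_eq_zero fun L _ => xt_of_notMem f fun h' => h (mem_mid x.2 h')

theorem DX (l : Fin (r + 1)) {p' : ℤ} (f : ↥(cellset a B p j₀ j₁) → M)
    (x : ↥(cellset a B p' j₀ j₁)) :
    dU ℤ M r (xt (rs a B p j₀ j₁ (XU ℤ M r l (xt f)))) x.1.1 x.1.2 =
      dU ℤ M r (XU ℤ M r l (xt f)) x.1.1 x.1.2 := by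
  rw [dU_apply, dU_apply]
  refine Finset.sum_congr rfl fun i _ => congrArg _ ?_
  refine xt_rs fun h => ?_
  rw [XU_apply]
  exact Finset.sum_eq_zero fun L _ => xt_of_notMem f fun h' => h (mem_two x.2 h')

theorem XD (l : Fin (r + 1)) {p' : ℤ} (f : ↥(cellset a B p j₀ j₁) → M)
    (x : ↥(cellset a B p' j₀ j₁)) :
    XU ℤ M r l (xt (rs a B p' j₀ j₁ (dU ℤ M r (xt f)))) x.1.1 x.1.2 =
      XU ℤ M r l (dU ℤ M r (xt f)) x.1.1 x.1.2 := by
  rw [XU_apply, XU_apply]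
  refine Finset.sum_congr rfl fun K _ => ?_
  refine xt_rs fun h => ?_
  rw [dU_apply]
  refine Finset.sum_eq_zero fun i _ => ?_
  rw [xt_of_notMem f fun h' => h (mem_three x.2 h'), smul_zero]

theorem DD {p' p'' : ℤ} (hp : p' = p'' + 1) (f : ↥(cellset a B p j₀ j₁) → M)
    (x : ↥(cellset a B p' j₀ j₁)) :
    dU ℤ M r (xt (rs a B p'' j₀ j₁ (dU ℤ M r (xt f)))) x.1.1 x.1.2 =
      dU ℤ M r (dU ℤ M r (xt f)) x.1.1 x.1.2 := by
  rw [dU_apply, dU_apply]
  refine Finset.sum_congr rfl fun i hi => congrArg _ ?_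
  refine xt_rs fun h => ?_
  rw [dU_apply]
  refine Finset.sum_eq_zero fun k _ => ?_
  rw [xt_of_notMem f fun h' => h (mem_four hi hp x.2 h'), smul_zero]

/-! ### matrices through their actions -/

theorem mat_ext {α β : Type} [Fintype β] [DecidableEq β] {A A' : Matrix α β ℤ}
    (h : ∀ f : β → ℤ, za A ℤ ℤ f = za A' ℤ ℤ f) : A = A' := by
  ext i j
  have h1 := congrFun (h (Pi.single j 1)) i
  have h2 : ∀ C : Matrix α β ℤ, za C ℤ ℤ (Pi.single j 1) i = C i j := by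
    intro C
    show ∑ b, C i b • (Pi.single j (1 : ℤ) : β → ℤ) b = C i j
    rw [Finset.sum_eq_single j]
    · simp
    · intro b _ hb
      simp [Pi.single_eq_of_ne hb]
    · intro hn
      exact absurd (Finset.mem_univ _) hn
  rwa [h2, h2] at h1

theorem za_mul {α β γ : Type} [Fintype β] [Fintype γ] (A : Matrix α β ℤ) (A' : Matrix β γ ℤ)
    (f : γ → M) : za (A * A') ℤ M f = za A ℤ M (za A' ℤ M f) := by
  ext i
  show ∑ c, (A * A') i c • f c = ∑ b, A i b • ∑ c, A' b c • f c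
  simp only [Matrix.mul_apply, Finset.sum_smul, Finset.smul_sum, smul_smul]
  rw [Finset.sum_comm]

theorem za_X' (l : Fin (r + 1)) (f : ↥(cellset a B p j₀ j₁) → M) :
    za ((winRep a B p j₀ j₁).X l) ℤ M f = rs a B p j₀ j₁ (XU ℤ M r l (xt f)) :=
  funext fun x => za_X l f x

theorem za_D' (p : ℕ) (f : ↥(cellset a B p j₀ j₁) → M) :
    za ((winCx a B j₀ j₁).D p) ℤ M f = rs a B (p + 1 : ℕ) j₀ j₁ (dU ℤ M r (xt f)) :=
  funext fun x => za_D p f x

theorem za_XX (k l : Fin (r + 1)) (f : ↥(cellset a B p j₀ j₁) → M) :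
    za ((winRep a B p j₀ j₁).X k) ℤ M (za ((winRep a B p j₀ j₁).X l) ℤ M f) =
      rs a B p j₀ j₁ (XU ℤ M r k (XU ℤ M r l (xt f))) := by
  refine (za_X' k _).trans ?_
  rw [za_X' l f]
  exact funext fun x => XX k l f x

theorem za_DX (p : ℕ) (l : Fin (r + 1)) (f : ↥(cellset a B p j₀ j₁) → M) :
    za ((winCx a B j₀ j₁).D p) ℤ M (za ((winRep a B p j₀ j₁).X l) ℤ M f) =
      rs a B (p + 1 : ℕ) j₀ j₁ (dU ℤ M r (XU ℤ M r l (xt f))) := by
  refine (za_D' p _).trans ?_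
  rw [za_X' l f]
  exact funext fun x => DX l f x

theorem za_XD (p : ℕ) (l : Fin (r + 1)) (f : ↥(cellset a B p j₀ j₁) → M) :
    za ((winRep a B (p + 1 : ℕ) j₀ j₁).X l) ℤ M (za ((winCx a B j₀ j₁).D p) ℤ M f) =
      rs a B (p + 1 : ℕ) j₀ j₁ (XU ℤ M r l (dU ℤ M r (xt f))) := by
  refine (za_X' l _).trans ?_
  refine (congrArg (fun u => rs a B (p + 1 : ℕ) j₀ j₁ (XU ℤ M r l (xt u))) (za_D' p f)).trans ?_
  exact funext fun x => XD l f x

theorem za_DD (p : ℕ) (f : ↥(cellset a B p j₀ j₁) → M) :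
    za ((winCx a B j₀ j₁).D (p + 1)) ℤ M (za ((winCx a B j₀ j₁).D p) ℤ M f) = 0 := by
  refine (za_D' (p + 1) _).trans ?_
  refine (congrArg (fun u => rs a B (p + 1 + 1 : ℕ) j₀ j₁ (dU ℤ M r (xt u)))
    (za_D' p f)).trans ?_
  funext x
  refine (DD (by push_cast; ring) f x).trans ?_
  rw [dU_sq]
  rfl

/-- the third coordinate of a cell. -/
def cj (x : (winRep a B p j₀ j₁).ι) : ℤ := (show ↥(cellset a B p j₀ j₁) from x).1.2.2

theorem cj_X (l : Fin (r + 1)) (x y : (winRep a B p j₀ j₁).ι)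
    (h : (winRep a B p j₀ j₁).X l x y ≠ 0) : cj x = cj y + 1 := by
  classical
  obtain ⟨x', hx'⟩ : ∃ x' : ↥(cellset a B p j₀ j₁), x' = x := ⟨x, rfl⟩
  obtain ⟨y', hy'⟩ : ∃ y' : ↥(cellset a B p j₀ j₁), y' = y := ⟨y, rfl⟩
  subst hx' hy'
  have h' : (∑ L ∈ (Finset.univ : Finset (Fin r)).powersetCard l,
      if x'.1.1 = y'.1.1 ∧ x'.1.2 = y'.1.2 + exz L then (1 : ℤ) else 0) ≠ 0 := h
  obtain ⟨L, _, hL⟩ := Finset.exists_ne_zero_of_sum_ne_zero h'
  have h4 : x'.1.2 = y'.1.2 + exz L := by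
    by_contra hc
    exact hL (if_neg fun h => hc h.2)
  show x'.1.2.2 = y'.1.2.2 + 1
  rw [h4]
  rfl

theorem prod_deg (m : ℕ) (f : Fin m → Fin (r + 1)) (x z : (winRep a B p j₀ j₁).ι)
    (h : ((List.ofFn fun i => (winRep a B p j₀ j₁).X (f i)).prod) x z ≠ 0) :
    cj x = cj z + m := by
  induction m generalizing x with
  | zero =>
    rw [List.ofFn_zero, List.prod_nil] at h
    by_cases hxz : x = z
    · rw [hxz]; simp
    · exact absurd (Matrix.one_apply_ne hxz) h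
  | succ m ih =>
    rw [List.ofFn_succ, List.prod_cons, Matrix.mul_apply] at h
    obtain ⟨y, _, hy⟩ := Finset.exists_ne_zero_of_sum_ne_zero h
    have h1 := cj_X _ x y (left_ne_zero_of_mul hy)
    have h2 := ih (fun i => f i.succ) y (right_ne_zero_of_mul hy)
    rw [h1, h2]
    push_cast
    ring

/-! ### exactness -/

open Classical in
/-- the family supported on a window. -/
noncomputable def wfam (r : ℕ) (M : Type) [AddCommGroup M] (j₀ j₁ : ℤ) : ℤ → Gz r → Submodule ℤ M :=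
  fun _ g => if j₀ ≤ g.2 ∧ g.2 < j₁ then ⊤ else ⊥

theorem inF_erase {I : Finset (Fin r)} {g : Gz r} {i : Fin r} (h : inF B (I.erase i) g) :
    inF B I g := ⟨fun l hl => h.1 l fun h' => hl (Finset.mem_of_mem_erase h'), h.2⟩

theorem inG_erase {I : Finset (Fin r)} {g : Gz r} {i : Fin r} (h : inG a (I.erase i) g) :
    inG a I g := by
  obtain ⟨l, h1, h2⟩ := h
  exact ⟨l, Finset.mem_of_mem_erase h1, h2⟩

theorem ex_aux {pm pp : ℤ} (hm : pm = p - 1) (hp : pp = p + 1)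
    (h : ∀ j, j₀ ≤ j → j < j₁ → (∃ l, a l + j = -1) ∨ (pj a j : ℤ) ≠ p)
    (u : UV r M) (hu : ∀ I g, (I, g) ∉ cellset a B p j₀ j₁ → u I g = 0)
    (hd : ∀ I g, (I, g) ∈ cellset a B pp j₀ j₁ → dU ℤ M r u I g = 0) :
    ∃ w : UV r M, (∀ I g, ¬ inG a I g → (I, g) ∉ cellset a B pm j₀ j₁ → w I g = 0) ∧
      ∀ I g, (I, g) ∈ cellset a B p j₀ j₁ → dU ℤ M r w I g = u I g := by
  classical
  subst hm hp
  let v : KV r M := fun J I g => if J = ∅ then u I g else 0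
  have hv0 : v ∅ = u := by funext I g; exact if_pos rfl
  have hv1 : ∀ J, J ≠ ∅ → v J = 0 := fun J hJ => by funext I g; exact if_neg hJ
  have hv : v ∈ CF a B (wfam r M j₀ j₁) 0 p := by
    intro J I g
    by_cases hJ : J = ∅
    · subst hJ
      rw [hv0]
      by_cases hc : (I, g) ∈ cellset a B p j₀ j₁
      · obtain ⟨⟨hF, hG⟩, h3, h4, h5⟩ := hc
        unfold CV
        rw [if_pos ⟨by simp, h3, hF⟩, if_neg hG]
        unfold wfam
        rw [if_pos ⟨h4, h5⟩]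
        exact Submodule.mem_top
      · rw [hu I g hc]
        exact Submodule.zero_mem _
    · rw [hv1 J hJ]
      exact Submodule.zero_mem _
  have hdv : dK ℤ M r v ∈ CF a B (fun _ _ => (⊥ : Submodule ℤ M)) 0 (p + 1) := by
    intro J I g
    show dU ℤ M r (v J) I g ∈ _
    by_cases hJ : J = ∅
    · subst hJ
      rw [hv0]
      unfold CV
      by_cases hF : I.card = p + 1 ∧ inF B I g
      · rw [if_pos ⟨by simp, hF⟩]
        by_cases hG : inG a I g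
        · rw [if_pos hG]
          exact Submodule.mem_top
        · rw [if_neg hG, Submodule.mem_bot]
          by_cases hj : j₀ ≤ g.2 ∧ g.2 < j₁
          · exact hd I g ⟨⟨hF.2, hG⟩, hF.1, hj.1, hj.2⟩
          · rw [dU_apply]
            refine Finset.sum_eq_zero fun i _ => ?_
            rw [hu _ _ fun hc => hj ⟨hc.2.2.1, hc.2.2.2⟩, smul_zero]
      · have : dU ℤ M r u I g = 0 := by
          rw [dU_apply]
          refine Finset.sum_eq_zero fun i hi => ?_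
          rw [hu, smul_zero]
          intro hc
          refine hF ⟨?_, inF_erase hc.1.1⟩
          have h1 : ((I.erase i).card : ℤ) = p := hc.2.1
          have h2 := Finset.card_erase_add_one hi
          omega
        rw [this]
        exact Submodule.zero_mem _
    · rw [hv1 J hJ, map_zero]
      exact Submodule.zero_mem _
  have hrow : ∀ g : Gz r, (⊥ : Submodule ℤ M) = wfam r M j₀ j₁ 0 g ∨
      (∃ l, a l + g.2 = -1) ∨ (pj a g.2 : ℤ) ≠ p := fun g => by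
    by_cases hj : j₀ ≤ g.2 ∧ g.2 < j₁
    · exact Or.inr (h g.2 hj.1 hj.2)
    · left
      unfold wfam
      rw [if_neg hj]
  have hex : Ex (dK ℤ M r) (CF a B (wfam r M j₀ j₁) 0) (CF a B (fun _ _ => (⊥ : Submodule ℤ M)) 0) p :=
    row_exact a B (fun _ _ => ⊥) (wfam r M j₀ j₁) 0 p (fun _ => bot_le) hrow
  obtain ⟨y, hy, z, hz, hyz⟩ := Submodule.mem_sup.1 (hex ⟨hv, hdv⟩)
  obtain ⟨w, hw, rfl⟩ := hy
  refine ⟨w ∅, fun I g hG hc => ?_, fun I g hc => ?_⟩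
  · have h1 := hw ∅ I g
    unfold CV at h1
    split_ifs at h1 with h2
    · unfold wfam at h1
      split_ifs at h1 with h3
      · exact absurd ⟨⟨h2.2.2, hG⟩, h2.2.1, h3.1, h3.2⟩ hc
      · exact (Submodule.mem_bot ℤ).1 h1
    · exact (Submodule.mem_bot ℤ).1 h1
  · have h1 := hz ∅ I g
    unfold CV at h1
    rw [if_pos ⟨by simp, hc.2.1, hc.1.1⟩, if_neg hc.1.2, Submodule.mem_bot] at h1
    have h2 : dU ℤ M r (w ∅) I g + z ∅ I g = v ∅ I g :=
      congrFun (congrFun (congrFun hyz ∅) I) g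
    rw [h1, add_zero, hv0] at h2
    exact h2

end

end WinCx

variable {r : ℕ} (a : Fin r → ℤ) (B : ℤ)

open WinCx in
theorem winCx_isCx (j₀ : ℤ) (q : ℕ) : (winCx a B j₀ (j₀ + q)).IsCx q where
  nil p := by
    refine ⟨fun k l => mat_ext fun f => ?_, fun f => ?_⟩
    · rw [za_mul, za_mul]
      refine (za_XX k l f).trans ?_
      rw [XU_comm]
      exact (za_XX l k f).symm
    · ext x z
      by_contra hc
      have h := prod_deg q f x z hc
      have hx := (show ↥(cellset a B p j₀ (j₀ + q)) from x).2.2.2.2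
      have hz := (show ↥(cellset a B p j₀ (j₀ + q)) from z).2.2.2.1
      unfold cj at h
      omega
  dd p := by
    refine mat_ext fun f => ?_
    rw [za_mul]
    refine (za_DD p f).trans ?_
    funext x
    show (0 : ℤ) = ∑ b, (0 : Matrix _ _ ℤ) x b • f b
    simp
  comm p l := by
    refine mat_ext fun f => ?_
    rw [za_mul, za_mul]
    refine (za_DX p l f).trans ?_
    rw [dU_XU]
    exact (za_XD p l f).symm

theorem winCx_top (j₀ j₁ : ℤ) (p : ℕ) (hp : r + 1 ≤ p) : IsEmpty ((winCx a B j₀ j₁).W p).ι := by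
  refine ⟨fun x => ?_⟩
  have h1 : ((x : ↥(cellset a B p j₀ j₁)).1.1.card : ℤ) = p := x.2.2.1
  have h2 := Finset.card_le_univ (x : ↥(cellset a B p j₀ j₁)).1.1
  rw [Fintype.card_fin] at h2
  omega

open WinCx in
theorem winCx_ex (j₀ j₁ : ℤ) (p : ℕ)
    (h : ∀ j, j₀ ≤ j → j < j₁ → (∃ l, a l + j = -1) ∨ pj a j ≠ p) : (winCx a B j₀ j₁).ExAt p := by
  have h' : ∀ j, j₀ ≤ j → j < j₁ → (∃ l, a l + j = -1) ∨ (pj a j : ℤ) ≠ p := fun j h1 h2 =>
    (h j h1 h2).imp id fun h3 h4 => h3 (by exact_mod_cast h4)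
  have key : ∀ (M : Type) [AddCommGroup M] (f : ↥(cellset a B p j₀ j₁) → M),
      za ((winCx a B j₀ j₁).D p) ℤ M f = 0 → ∃ w : UV r M,
        (∀ I g, ¬ inG a I g → (I, g) ∉ cellset a B ((p : ℤ) - 1) j₀ j₁ → w I g = 0) ∧
        ∀ I g, (I, g) ∈ cellset a B p j₀ j₁ → dU ℤ M r w I g = xt f I g := by
    intro M _ f hf
    refine ex_aux (pp := ((p + 1 : ℕ) : ℤ)) rfl (by push_cast; ring) h' (xt f)
      (fun I g hc => xt_of_notMem f hc) fun I g hc => ?_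
    have h1 := congrFun ((za_D' p f).symm.trans hf) ⟨(I, g), hc⟩
    exact h1
  cases p with
  | zero =>
    intro M _ f hf
    obtain ⟨w, h1, h2⟩ := key M f hf
    funext x
    obtain ⟨x', hx'⟩ : ∃ x' : ↥(cellset a B (0 : ℕ) j₀ j₁), x' = x := ⟨x, rfl⟩
    subst hx'
    have h3 := h2 x'.1.1 x'.1.2 x'.2
    have h4 : x'.1.1 = ∅ := by
      have := x'.2.2.1
      rw [← Finset.card_eq_zero]
      exact_mod_cast this
    rw [dU_apply, h4, Finset.sum_empty] at h3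
    have h5 : xt f x'.1.1 x'.1.2 = f x' := xt_of_mem (p := ((0 : ℕ) : ℤ)) f x'.2
    rw [h4] at h5
    exact (h3.trans h5).symm
  | succ p =>
    intro M _ f hf
    obtain ⟨w, h1, h2⟩ := key M f hf
    refine ⟨rs a B p j₀ j₁ w, ?_⟩
    refine (za_D' p _).trans ?_
    funext x
    obtain ⟨x', hx'⟩ : ∃ x' : ↥(cellset a B (p + 1 : ℕ) j₀ j₁), x' = x := ⟨x, rfl⟩
    subst hx'
    have h5 : xt f x'.1.1 x'.1.2 = f x' := xt_of_mem (p := ((p + 1 : ℕ) : ℤ)) f x'.2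
    refine Eq.trans ?_ ((h2 x'.1.1 x'.1.2 x'.2).trans h5)
    show dU ℤ M r (xt (rs a B p j₀ j₁ w)) x'.1.1 x'.1.2 = _
    rw [dU_apply, dU_apply]
    refine Finset.sum_congr rfl fun i _ => congrArg _ ?_
    refine xt_rs fun hc => h1 _ _ (fun hG => x'.2.1.2 (inG_erase hG)) ?_
    have h6 : ((p + 1 : ℕ) : ℤ) - 1 = p := by push_cast; ring
    rw [h6]
    exact hc

end Vale.Agent.P202.Mix
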