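import Vale.Agent.P202.Mix.GeoCell

/-!
P202-MIX, part GEO, D1: position of the cohomology of the windows.
-/

namespace Vale.Agent.P202.Mix

variable {r : ℕ}

/-- the indices different from `m`, through `succAbove`. -/
theorem winpos_filter (m : Fin (r + 1)) (k : ℤ) :
    (Finset.univ.filter fun i : Fin (r + 1) => i ≠ m ∧ (i : ℤ) + k < 0) =
      (Finset.univ.filter fun l : Fin r => ((m.succAbove l : Fin (r + 1)) : ℤ) + k < 0).map
        m.succAboveEmb := by
  ext i
  simp only [Finset.mem_filter, Finset.mem_univ, true_and, Finset.mem_map, Fin.coe_succAboveEmb]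
  constructor
  · rintro ⟨h1, h2⟩
    obtain ⟨l, rfl⟩ := Fin.exists_succAbove_eq h1
    exact ⟨l, h2, rfl⟩
  · rintro ⟨l, h, rfl⟩
    exact ⟨Fin.succAbove_ne m l, h⟩

/-- number of negative factors in the window `k` (twist `m`). -/
theorem pj_tw (q : ℕ) (hq : 1 ≤ q) (m : Fin (r + 1)) (k j : ℤ) (h1 : k * q ≤ j)
    (h2 : j < (k + 1) * q) :
    (∃ l, tw r q m l + j = -1) ∨
      pj (tw r q m) j = (Finset.univ.filter fun i : Fin (r + 1) => i ≠ m ∧ (i : ℤ) + k < 0).card := by
  by_cases hex : ∃ l, tw r q m l + j = -1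
  · exact Or.inl hex
  · right
    push Not at hex
    rw [winpos_filter, Finset.card_map, pj]
    congr 1
    refine Finset.filter_congr fun l _ => ?_
    have hq' : (1 : ℤ) ≤ q := by exact_mod_cast hq
    have hne := hex l
    unfold tw at hne ⊢
    by_cases hl : (l : ℕ) < m
    · have hs : m.succAbove l = l.castSucc := Fin.succAbove_of_castSucc_lt _ _ (by
        rw [Fin.lt_def]
        exact hl)
      rw [if_pos hl, hs, Fin.val_castSucc]
      constructor
      · intro h
        by_contra hc
        push Not at hc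
        have : 0 ≤ ((l : ℕ) + k : ℤ) * q := mul_nonneg hc (by omega)
        nlinarith
      · intro h
        have : ((l : ℕ) + k + 1 : ℤ) * q ≤ 0 := mul_nonpos_of_nonpos_of_nonneg (by omega) (by omega)
        nlinarith
    · have hs : m.succAbove l = l.succ := Fin.succAbove_of_le_castSucc _ _ (by
        rw [Fin.le_def]
        exact not_lt.mp hl)
      rw [if_neg hl] at hne ⊢
      rw [hs, Fin.val_succ]
      push_cast
      constructor
      · intro h
        by_contra hc
        push Not at hc
        have h3 : 0 ≤ ((l : ℕ) + 1 + k : ℤ) * q := mul_nonneg hc (by omega)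
        have h4 : -1 ≤ ((l : ℕ) + 1 : ℤ) * q - 1 + j := by nlinarith
        omega
      · intro h
        have h3 : ((l : ℕ) + 1 + k + 1 : ℤ) * q ≤ 0 :=
          mul_nonpos_of_nonpos_of_nonneg (by omega) (by omega)
        nlinarith

theorem pk_upper (m : Fin (r + 1)) (k : ℤ) (i : ℕ) (h : 1 - (i : ℤ) ≤ k) :
    (Finset.univ.filter fun i : Fin (r + 1) => i ≠ m ∧ (i : ℤ) + k < 0).card ≤ i := by
  have h1 : (Finset.univ.filter fun i : Fin (r + 1) => i ≠ m ∧ (i : ℤ) + k < 0).card ≤
      (Finset.range i).card := by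
    refine Finset.card_le_card_of_injOn (fun l : Fin (r + 1) => (l : ℕ)) (fun l hl => ?_)
      (fun a _ b _ hab => Fin.ext hab)
    have hl' := (Finset.mem_filter.mp (Finset.mem_coe.mp hl)).2.2
    simp only [Finset.coe_range, Set.mem_Iio]
    omega
  rwa [Finset.card_range] at h1

theorem pk_lower (m : Fin (r + 1)) (k : ℤ) (i : ℕ) (h : k ≤ -(i : ℤ)) (hi : i ≤ r + 1) :
    i ≤ (Finset.univ.filter fun i : Fin (r + 1) => i ≠ m ∧ (i : ℤ) + k < 0).card + 1 := by
  have h1 : (Finset.univ.filter fun l : Fin (r + 1) => (l : ℕ) < i).card = i := by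
    rw [Fin.card_filter_val_lt]
    exact min_eq_right hi
  have h2 : ((Finset.univ.filter fun l : Fin (r + 1) => (l : ℕ) < i).erase m) ⊆
      (Finset.univ.filter fun i : Fin (r + 1) => i ≠ m ∧ (i : ℤ) + k < 0) := by
    intro l hl
    rw [Finset.mem_erase, Finset.mem_filter] at hl
    rw [Finset.mem_filter]
    refine ⟨Finset.mem_univ _, hl.1, ?_⟩
    have := hl.2.2
    omega
  have h3 := Finset.card_le_card h2
  have h4 := Finset.pred_card_le_card_erase
    (s := Finset.univ.filter fun l : Fin (r + 1) => (l : ℕ) < i) (a := m)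
  omega

end Vale.Agent.P202.Mix
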