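import Vale.Agent.P202.Mix.WinZZ
import Vale.Agent.P202.Mix.LenBasic

/-!
P202-MIX, part GEO, task C4: the windows inside the cell model, cycle part.
-/

namespace Vale.Agent.P202.Mix

open Vale.Agent.P202.CharP
open scoped ENNReal

universe u

section Win

variable {R : Type u} [CommRing R] {r : ℕ} {Q : Type u} [AddCommGroup Q]
  [Module R Q] (a : Fin r → ℤ) (B : ℤ) (x : Fin (r + 1) → R)

theorem wz_le (q : ℕ) (i : ℤ) : (1 - i) * (q : ℤ) ≤ (2 - i) * q := by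
  nlinarith [Int.natCast_nonneg q]

theorem wz_KG_anti {j₀ j₁ : ℤ} (hj : j₀ ≤ j₁) (i p : ℤ) :
    KG R Q a B j₁ i p ≤ KG R Q a B j₀ i p := by
  intro v hv
  rw [wzz_mem_KG] at hv ⊢
  intro J I g hne
  obtain ⟨h1, h2, h3, h4⟩ := hv J I g hne
  exact ⟨h1, h2, h3, h4.imp_right fun h => hj.trans h⟩

theorem wz_eK_mem {j₀ i p : ℤ} {v : KV r Q} (hv : v ∈ KG R Q a B j₀ i p) :
    eK Q x v ∈ KG R Q a B j₀ (i - 1) p :=
  (bstab_KG (Q := Q) a B x j₀).he i p v hv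

theorem wz_dK_mem {j₀ i p : ℤ} {v : KV r Q} (hv : v ∈ KG R Q a B j₀ i p) :
    dK R Q r v ∈ KG R Q a B j₀ i (p + 1) :=
  (bstab_KG (Q := Q) a B (0 : Fin (r + 1) → R) j₀).hd i p v hv

/-- on `K_{≥ (1-i)q}`, membership in `Z` means that the restriction is a cycle -/
theorem wz_mem_ZF (q : ℕ) (i p : ℤ) (v : KV r Q) (hv : v ∈ KG R Q a B ((1 - i) * q) i p) :
    v ∈ ZF Q x a B q i p ↔
      wzz_rho R Q a B p ((1 - i) * q) ((2 - i) * q) v ∈
        kcyc ((winRep a B p ((1 - i) * q) ((2 - i) * q)).T Q x) i := by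
  have h1 : wzz_rho R Q a B p ((1 - i) * q) ((2 - i) * q) v ∈
      kgr R (↥(cellset a B p ((1 - i) * q) ((2 - i) * q)) → Q) (r + 1) i := by
    rw [← wzz_map_KG (R := R) (Q := Q) a B i p ((1 - i) * q) ((2 - i) * q)]
    exact ⟨v, hv, rfl⟩
  have h2 := wzz_rho_eK a B x i p ((1 - i) * q) ((2 - i) * q) v hv
  have h3 := wzz_ker a B (i - 1) p _ _ (wz_le q i) (eK Q x v) (wz_eK_mem a B x hv)
  constructor
  · rintro ⟨-, h4⟩
    refine ⟨h1, ?_⟩
    change kz ((winRep a B p ((1 - i) * q) ((2 - i) * q)).T Q x)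
      (wzz_rho R Q a B p ((1 - i) * q) ((2 - i) * q) v) = 0
    exact h2.symm.trans (h3.2 h4)
  · rintro ⟨-, h4⟩
    have h4' : kz ((winRep a B p ((1 - i) * q) ((2 - i) * q)).T Q x)
      (wzz_rho R Q a B p ((1 - i) * q) ((2 - i) * q) v) = 0 := h4
    exact ⟨hv, h3.1 (h2.trans h4')⟩

theorem wz_map_ZF (q : ℕ) (i p : ℤ) :
    (ZF Q x a B q i p).map (wzz_rho R Q a B p ((1 - i) * q) ((2 - i) * q)) =
      kcyc ((winRep a B p ((1 - i) * q) ((2 - i) * q)).T Q x) i := by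
  apply le_antisymm
  · rintro _ ⟨v, hv, rfl⟩
    exact (wz_mem_ZF a B x q i p v hv.1).1 hv
  · intro w hw
    have h1 : w ∈ (KG R Q a B ((1 - i) * q) i p).map
        (wzz_rho R Q a B p ((1 - i) * q) ((2 - i) * q)) := by
      rw [wzz_map_KG]
      exact hw.1
    obtain ⟨v, hv, rfl⟩ := h1
    exact ⟨v, (wz_mem_ZF a B x q i p v hv).2 hw, rfl⟩

theorem wz_KG_le_ZF (q : ℕ) (i p : ℤ) :
    KG R Q a B ((2 - i) * q) i p ≤ ZF Q x a B q i p := fun _ hv =>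
  ⟨wz_KG_anti a B (wz_le q i) i p hv, wz_eK_mem a B x hv⟩

end Win

section Final

variable {R : Type u} [CommRing R] (L : AddLen R) {r : ℕ} (Q : Type u) [AddCommGroup Q]
  [Module R Q] (x : Fin (r + 1) → R) (a : Fin r → ℤ) (B : ℤ)

/-- length of `Z / K_{≥ (2-i)q}`. -/
theorem rl_KG_ZF (q : ℕ) (i p : ℤ) :
    L.rl (KG R Q a B ((2 - i) * q) i p) (ZF Q x a B q i p) =
      L.len ↥(kcyc ((winRep a B p ((1 - i) * q) ((2 - i) * q)).T Q x) i) := by
  have h := wzz_rl_eq L (wzz_rho R Q a B p ((1 - i) * q) ((2 - i) * q))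
    (KG R Q a B ((2 - i) * q) i p) (ZF Q x a B q i p) ⊥ _ (wz_map_ZF a B x q i p) (by
      intro y hy
      rw [Submodule.mem_bot]
      exact wzz_ker a B i p _ _ (wz_le q i) y hy.1)
  rw [← h]
  exact rl_bot L _

/-- the rows of `Z / K_{≥ (2-i)q}`. -/
theorem hc_ZF_KG (q : ℕ) (i : ℤ) (p : ℕ) :
    L.hc (dK R Q r) (ZF Q x a B q i) (KG R Q a B ((2 - i) * q) i) ((p : ℤ) + 1) =
      L.rl ((kcyc (((winCx a B ((1 - i) * q) ((2 - i) * q)).W p).T Q x) i).map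
          (kmap (r + 1) (za ((winCx a B ((1 - i) * q) ((2 - i) * q)).D p) R Q)))
        (kcyc (((winCx a B ((1 - i) * q) ((2 - i) * q)).W (p + 1)).T Q x) i ⊓
          LinearMap.ker (kmap (r + 1)
            (za ((winCx a B ((1 - i) * q) ((2 - i) * q)).D (p + 1)) R Q))) := by
  rw [← Nat.cast_add_one]
  have hW : kcyc (((winCx a B ((1 - i) * q) ((2 - i) * q)).W (p + 1)).T Q x) i =
      (ZF Q x a B q i ((p + 1 : ℕ) : ℤ)).map
        (wzz_rho R Q a B ((p + 1 : ℕ) : ℤ) ((1 - i) * q) ((2 - i) * q)) :=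
    (wz_map_ZF a B x q i ((p + 1 : ℕ) : ℤ)).symm
  have hW0 : kcyc (((winCx a B ((1 - i) * q) ((2 - i) * q)).W p).T Q x) i =
      (ZF Q x a B q i (p : ℤ)).map
        (wzz_rho R Q a B (p : ℤ) ((1 - i) * q) ((2 - i) * q)) :=
    (wz_map_ZF a B x q i (p : ℤ)).symm
  rw [hW, hW0]
  symm
  refine wzz_rl_eq L (wzz_rho R Q a B ((p + 1 : ℕ) : ℤ) ((1 - i) * q) ((2 - i) * q)) _ _ _ _ ?_ ?_
  · -- the cycles
    apply le_antisymm
    · rintro _ ⟨v, ⟨hv1, hv2⟩, rfl⟩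
      refine ⟨⟨v, hv1, rfl⟩, ?_⟩
      change kmap (r + 1) (za ((winCx a B ((1 - i) * q) ((2 - i) * q)).D (p + 1)) R Q)
        (wzz_rho R Q a B ((p + 1 : ℕ) : ℤ) ((1 - i) * q) ((2 - i) * q) v) = 0
      have h1 := wzz_rho_dK a B i ((1 - i) * q) ((2 - i) * q) (p + 1) v hv1.1
      refine h1.symm.trans ?_
      have h2 := wz_dK_mem a B hv1.1
      rw [← Nat.cast_add_one (R := ℤ) (p + 1)] at h2
      have h3 : dK R Q r v ∈ KG R Q a B ((2 - i) * q) i (((p + 1 : ℕ) : ℤ) + 1) := hv2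
      rw [← Nat.cast_add_one (R := ℤ) (p + 1)] at h3
      exact (wzz_ker a B i _ _ _ (wz_le q i) _ h2).2 h3
    · rintro _ ⟨⟨v, hv, rfl⟩, hw⟩
      have hw' : kmap (r + 1) (za ((winCx a B ((1 - i) * q) ((2 - i) * q)).D (p + 1)) R Q)
        (wzz_rho R Q a B ((p + 1 : ℕ) : ℤ) ((1 - i) * q) ((2 - i) * q) v) = 0 := hw
      refine ⟨v, ⟨hv, ?_⟩, rfl⟩
      change dK R Q r v ∈ KG R Q a B ((2 - i) * q) i (((p + 1 : ℕ) : ℤ) + 1)
      have h1 := wzz_rho_dK a B i ((1 - i) * q) ((2 - i) * q) (p + 1) v hv.1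
      have h2 := wz_dK_mem a B hv.1
      rw [← Nat.cast_add_one (R := ℤ) (p + 1)] at h2 ⊢
      exact (wzz_ker a B i _ _ _ (wz_le q i) _ h2).1 (h1.trans hw')
  · -- the boundaries
    intro y hy
    have hp : (((p + 1 : ℕ) : ℤ) - 1) = p := by push_cast; ring
    constructor
    · rintro ⟨_, ⟨v, hv, rfl⟩, h1⟩
      have h1' : wzz_rho R Q a B ((p + 1 : ℕ) : ℤ) ((1 - i) * q) ((2 - i) * q) (dK R Q r v) =
          wzz_rho R Q a B ((p + 1 : ℕ) : ℤ) ((1 - i) * q) ((2 - i) * q) y :=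
        (wzz_rho_dK a B i ((1 - i) * q) ((2 - i) * q) p v hv.1).trans h1
      have h2 := wz_dK_mem a B hv.1
      rw [← Nat.cast_add_one (R := ℤ) p] at h2
      have h3 : y - dK R Q r v ∈ KG R Q a B ((2 - i) * q) i ((p + 1 : ℕ) : ℤ) := by
        rw [← wzz_ker a B i _ _ _ (wz_le q i) _ (Submodule.sub_mem _ hy.1.1 h2), map_sub,
          sub_eq_zero]
        exact h1'.symm
      have h4 : y = dK R Q r v + (y - dK R Q r v) := by abel
      rw [h4]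
      refine Submodule.add_mem _ (Submodule.mem_sup_left ⟨v, ?_, rfl⟩)
        (Submodule.mem_sup_right h3)
      rw [hp]
      exact hv
    · intro h
      obtain ⟨b, hb, c, hc, rfl⟩ := Submodule.mem_sup.1 h
      rw [hp] at hb
      obtain ⟨v, hv, rfl⟩ := hb
      refine ⟨wzz_rho R Q a B (p : ℤ) ((1 - i) * q) ((2 - i) * q) v, ⟨v, hv, rfl⟩, ?_⟩
      have h1 := wzz_rho_dK a B i ((1 - i) * q) ((2 - i) * q) p v hv.1
      refine h1.symm.trans ?_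
      rw [map_add, (wzz_ker a B i _ _ _ (wz_le q i) c
        (wz_KG_anti a B (wz_le q i) i _ hc)).2 hc, add_zero]

end Final

end Vale.Agent.P202.Mix
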