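import Vale.Agent.P202.Mix.CellStab

/-!
P202-MIX, part GEO, task C5: the windows inside the cell model, boundary part.
-/

namespace Vale.Agent.P202.Mix

open Vale.Agent.P202.CharP
open scoped ENNReal

universe u

section Len

variable {R : Type u} [CommRing R] (L : AddLen R) {M N : Type u} [AddCommGroup M] [Module R M]
  [AddCommGroup N] [Module R N]

theorem wzz_len_congr (e : M ≃ₗ[R] N) : L.len M = L.len N := by
  have h := L.add (0 : PUnit.{u + 1} →ₗ[R] M) (e : M →ₗ[R] N)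
    (fun _ _ _ => Subsingleton.elim _ _) e.surjective (by
      intro y
      constructor
      · intro hy
        have : y = 0 := by simpa using hy
        exact ⟨PUnit.unit, by simp [this]⟩
      · rintro ⟨z, rfl⟩
        simp)
  rw [h, L.zero, zero_add]

theorem wzz_rl_eq (f : M →ₗ[R] N) (X Y : Submodule R M) (X' Y' : Submodule R N)
    (hY : Y.map f = Y') (h : ∀ y ∈ Y, f y ∈ X' ↔ y ∈ X) : L.rl X' Y' = L.rl X Y := by
  subst hY
  let φ : ↥Y →ₗ[R] (↥(Y.map f) ⧸ X'.submoduleOf (Y.map f)) :=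
    (X'.submoduleOf (Y.map f)).mkQ ∘ₗ
      (f.restrict (fun y hy => Submodule.mem_map_of_mem hy : ∀ y ∈ Y, f y ∈ Y.map f))
  have hsurj : Function.Surjective φ := by
    intro z
    obtain ⟨⟨w, hw⟩, rfl⟩ := Submodule.mkQ_surjective _ z
    obtain ⟨y, hy, rfl⟩ := Submodule.mem_map.1 hw
    exact ⟨⟨y, hy⟩, rfl⟩
  have hker : LinearMap.ker φ = X.submoduleOf Y := by
    ext ⟨y, hy⟩
    rw [LinearMap.mem_ker]
    simp only [φ, LinearMap.comp_apply, Submodule.mkQ_apply,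
      Submodule.Quotient.mk_eq_zero]
    exact h y hy
  have e : (↥Y ⧸ X.submoduleOf Y) ≃ₗ[R] (↥(Y.map f) ⧸ X'.submoduleOf (Y.map f)) :=
    (Submodule.quotEquivOfEq _ _ hker.symm).trans (φ.quotKerEquivOfSurjective hsurj)
  exact (wzz_len_congr L e).symm

end Len

section Win

variable {R : Type u} [CommRing R] {r : ℕ} {Q : Type u} [AddCommGroup Q]
  [Module R Q]

theorem wzz_mem_KG (a : Fin r → ℤ) (B j₀ i p : ℤ) (v : KV r Q) :
    v ∈ KG R Q a B j₀ i p ↔ ∀ J I g, v J I g ≠ 0 →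
      (J.card : ℤ) = i ∧ (I.card : ℤ) = p ∧ inF B I g ∧ (inG a I g ∨ j₀ ≤ g.2) := by
  change (∀ (J : Finset (Fin (r + 1))) (I : Finset (Fin r)) (g : Gz r),
    v J I g ∈ CV a B (fun _ g => if j₀ ≤ g.2 then ⊤ else ⊥) i p J I g) ↔ _
  refine forall_congr' fun J => forall_congr' fun I => forall_congr' fun g => ?_
  unfold CV
  by_cases h1 : (J.card : ℤ) = i ∧ (I.card : ℤ) = p ∧ inF B I g
  · rw [if_pos h1]
    by_cases h2 : inG a I g
    · rw [if_pos h2]
      exact ⟨fun _ _ => ⟨h1.1, h1.2.1, h1.2.2, Or.inl h2⟩, fun _ => Submodule.mem_top⟩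
    · rw [if_neg h2]
      change v J I g ∈ (if j₀ ≤ g.2 then (⊤ : Submodule R Q) else ⊥) ↔ _
      by_cases h3 : j₀ ≤ g.2
      · rw [if_pos h3]
        exact ⟨fun _ _ => ⟨h1.1, h1.2.1, h1.2.2, Or.inr h3⟩, fun _ => Submodule.mem_top⟩
      · rw [if_neg h3, Submodule.mem_bot]
        constructor
        · intro h h'
          exact absurd h h'
        · intro h
          by_contra h'
          obtain ⟨-, -, -, h4⟩ := h h'
          rcases h4 with h4 | h4
          · exact h2 h4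
          · exact h3 h4
  · rw [if_neg h1, Submodule.mem_bot]
    constructor
    · intro h h'
      exact absurd h h'
    · intro h
      by_contra h'
      obtain ⟨h5, h6, h7, -⟩ := h h'
      exact h1 ⟨h5, h6, h7⟩

/-- restriction to the valid cells of a window. -/
def wzz_rho (R : Type u) [CommRing R] (Q : Type u) [AddCommGroup Q] [Module R Q]
    (a : Fin r → ℤ) (B p j₀ j₁ : ℤ) :
    KV r Q →ₗ[R] (Finset (Fin (r + 1)) → ↥(cellset a B p j₀ j₁) → Q) where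
  toFun v J c := v J c.1.1 c.1.2
  map_add' _ _ := rfl
  map_smul' _ _ := rfl

variable (a : Fin r → ℤ) (B : ℤ)

theorem wzz_shift_G {I : Finset (Fin r)} {g : Gz r} {L : Finset (Fin r)}
    (h : inG a I (g - exz L)) : inG a I g := by
  obtain ⟨l, hl, h1⟩ := h
  refine ⟨l, hl, ?_⟩
  simp only [exz, Prod.fst_sub, Prod.snd_sub, Pi.sub_apply] at h1
  split_ifs at h1 <;> omega

theorem wzz_rho_eK (x : Fin (r + 1) → R) (i p j₀ j₁ : ℤ) (v : KV r Q)
    (hv : v ∈ KG R Q a B j₀ i p) :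
    wzz_rho R Q a B p j₀ j₁ (eK Q x v) =
      kz ((winRep a B p j₀ j₁).T Q x) (wzz_rho R Q a B p j₀ j₁ v) := by
  classical
  rw [wzz_mem_KG] at hv
  ext J c
  have e1 : wzz_rho R Q a B p j₀ j₁ (eK Q x v) J c = ∑ l ∈ Jᶜ, ksg l J •
      (XU R Q r l (v (insert l J)) c.1.1 c.1.2 - x l • v (insert l J) c.1.1 c.1.2) := by
    change (∑ l ∈ Jᶜ, ksg l J • (XU R Q r l - x l • (LinearMap.id : UV r Q →ₗ[R] UV r Q))
      (v (insert l J))) c.1.1 c.1.2 = _
    rw [Finset.sum_apply, Finset.sum_apply]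
    rfl
  have e2 : kz ((winRep a B p j₀ j₁).T Q x) (wzz_rho R Q a B p j₀ j₁ v) J c = ∑ l ∈ Jᶜ, ksg l J •
      (za ((winRep a B p j₀ j₁).X l) R Q (wzz_rho R Q a B p j₀ j₁ v (insert l J)) c -
        x l • v (insert l J) c.1.1 c.1.2) := by
    exact (Finset.sum_apply c _ _).trans rfl
  rw [e1, e2]
  refine Finset.sum_congr rfl fun l _ => ?_
  congr 2
  change ∑ L ∈ (Finset.univ : Finset (Fin r)).powersetCard l, v (insert l J) c.1.1 (c.1.2 - exz L) =
    ∑ b : ↥(cellset a B p j₀ j₁), (∑ L ∈ (Finset.univ : Finset (Fin r)).powersetCard l,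
      if c.1.1 = b.1.1 ∧ c.1.2 = b.1.2 + exz L then (1 : ℤ) else 0) • v (insert l J) b.1.1 b.1.2
  simp only [Finset.sum_smul, ite_smul, one_smul, zero_smul]
  rw [Finset.sum_comm]
  refine Finset.sum_congr rfl fun L _ => ?_
  obtain ⟨⟨I, g⟩, hc⟩ := c
  obtain ⟨⟨hF, hG⟩, hp, hj0, hj1⟩ := hc
  simp only at hF hG hp hj0 hj1 ⊢
  have hG' : ¬ inG a I (g - exz L) := fun h => hG (wzz_shift_G a h)
  by_cases hb : (I, g - exz L) ∈ cellset a B p j₀ j₁
  · rw [Finset.sum_eq_single (⟨(I, g - exz L), hb⟩ : ↥(cellset a B p j₀ j₁))]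
    · rw [if_pos ⟨rfl, by simp⟩]
    · rintro ⟨⟨I', g'⟩, hb'⟩ - hne
      rw [if_neg]
      rintro ⟨h1, h2⟩
      apply hne
      simp only at h1 h2
      subst h1
      rw [Subtype.mk.injEq, Prod.mk.injEq]
      exact ⟨rfl, by rw [h2]; simp⟩
    · intro h
      exact absurd (Finset.mem_univ _) h
  · rw [Finset.sum_eq_zero]
    · by_contra hne
      obtain ⟨-, h2, h3, h4⟩ := hv _ _ _ hne
      apply hb
      refine ⟨⟨h3, hG'⟩, h2, ?_, ?_⟩
      · rcases h4 with h4 | h4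
        · exact absurd h4 hG'
        · exact h4
      · simp only [exz, Prod.snd_sub]
        omega
    · rintro ⟨⟨I', g'⟩, hb'⟩ -
      rw [if_neg]
      rintro ⟨h1, h2⟩
      apply hb
      simp only at h1 h2
      subst h1
      have : g - exz L = g' := by rw [h2]; simp
      rw [this]
      exact hb'

theorem wzz_rho_dK (i j₀ j₁ : ℤ) (p : ℕ) (v : KV r Q)
    (hv : v ∈ KG R Q a B j₀ i p) :
    wzz_rho R Q a B ((p + 1 : ℕ) : ℤ) j₀ j₁ (dK R Q r v) =
      kmap (r + 1) (za ((winCx a B j₀ j₁).D p) R Q) (wzz_rho R Q a B p j₀ j₁ v) := by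
  classical
  rw [wzz_mem_KG] at hv
  ext J c
  change ∑ l ∈ c.1.1, ksg l c.1.1 • v J (c.1.1.erase l) c.1.2 =
    ∑ b : ↥(cellset a B (p : ℤ) j₀ j₁), (∑ l ∈ c.1.1,
      if b.1.1 = c.1.1.erase l ∧ b.1.2 = c.1.2 then ksg l c.1.1 else 0) • v J b.1.1 b.1.2
  simp only [Finset.sum_smul, ite_smul, zero_smul]
  rw [Finset.sum_comm]
  obtain ⟨⟨I, g⟩, hc⟩ := c
  obtain ⟨⟨hF, hG⟩, hp, hj0, hj1⟩ := hc
  simp only at hF hG hp hj0 hj1 ⊢
  refine Finset.sum_congr rfl fun l hl => ?_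
  have hcard : ((I.erase l).card : ℤ) = p := by
    rw [Finset.card_erase_of_mem hl]
    have := Finset.card_pos.2 ⟨l, hl⟩
    push_cast [Nat.cast_sub this] at hp ⊢
    omega
  have hG' : ¬ inG a (I.erase l) g := by
    rintro ⟨l', hl', h⟩
    exact hG ⟨l', Finset.mem_of_mem_erase hl', h⟩
  by_cases hb : (I.erase l, g) ∈ cellset a B (p : ℤ) j₀ j₁
  · rw [Finset.sum_eq_single (⟨(I.erase l, g), hb⟩ : ↥(cellset a B (p : ℤ) j₀ j₁))]
    · rw [if_pos ⟨rfl, rfl⟩]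
    · rintro ⟨⟨I', g'⟩, hb'⟩ - hne
      rw [if_neg]
      rintro ⟨h1, h2⟩
      apply hne
      simp only at h1 h2
      rw [Subtype.mk.injEq, Prod.mk.injEq]
      exact ⟨h1, h2⟩
    · intro h
      exact absurd (Finset.mem_univ _) h
  · rw [Finset.sum_eq_zero]
    · have : v J (I.erase l) g = 0 := by
        by_contra hne
        obtain ⟨-, h2, h3, h4⟩ := hv _ _ _ hne
        apply hb
        refine ⟨⟨h3, hG'⟩, h2, ?_, hj1⟩
        rcases h4 with h4 | h4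
        · exact absurd h4 hG'
        · exact h4
      rw [this, smul_zero]
    · rintro ⟨⟨I', g'⟩, hb'⟩ -
      rw [if_neg]
      rintro ⟨h1, h2⟩
      apply hb
      simp only at h1 h2
      rw [← h1, ← h2]
      exact hb'

theorem wzz_ker (i p j₀ j₁ : ℤ) (_hj : j₀ ≤ j₁) (v : KV r Q) (hv : v ∈ KG R Q a B j₀ i p) :
    wzz_rho R Q a B p j₀ j₁ v = 0 ↔ v ∈ KG R Q a B j₁ i p := by
  rw [wzz_mem_KG] at hv ⊢
  constructor
  · intro h J I g hne
    obtain ⟨h1, h2, h3, h4⟩ := hv J I g hne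
    refine ⟨h1, h2, h3, ?_⟩
    by_contra hcon
    rw [not_or] at hcon
    rcases h4 with h4 | h4
    · exact hcon.1 h4
    · have hc : (I, g) ∈ cellset a B p j₀ j₁ := ⟨⟨h3, hcon.1⟩, h2, h4, by
        have := hcon.2
        simp only
        omega⟩
      exact hne (congrFun (congrFun h J) ⟨(I, g), hc⟩)
  · intro h
    ext J c
    obtain ⟨⟨I, g⟩, hc⟩ := c
    obtain ⟨⟨hF, hG⟩, hp, hj0, hj1⟩ := hc
    change v J I g = 0
    by_contra hne
    obtain ⟨-, -, -, h4⟩ := h J I g hne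
    rcases h4 with h4 | h4
    · exact hG h4
    · simp only at hj1
      omega

theorem wzz_map_KG (i p j₀ j₁ : ℤ) :
    (KG R Q a B j₀ i p).map (wzz_rho R Q a B p j₀ j₁) =
      kgr R (↥(cellset a B p j₀ j₁) → Q) (r + 1) i := by
  classical
  apply le_antisymm
  · rintro w ⟨v, hv, rfl⟩ J hJ
    rw [SetLike.mem_coe, wzz_mem_KG] at hv
    by_contra hcard
    apply hJ
    ext c
    change v J c.1.1 c.1.2 = 0
    by_contra hne
    exact hcard (hv _ _ _ hne).1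
  · intro w hw
    refine ⟨fun J I g => if h : (I, g) ∈ cellset a B p j₀ j₁ then w J ⟨(I, g), h⟩ else 0, ?_, ?_⟩
    · rw [SetLike.mem_coe, wzz_mem_KG]
      intro J I g hne
      by_cases h : (I, g) ∈ cellset a B p j₀ j₁
      · simp only [h, dite_true] at hne
        obtain ⟨⟨hF, hG⟩, hp, hj0, hj1⟩ := h
        refine ⟨hw J ?_, hp, hF, Or.inr hj0⟩
        intro h0
        apply hne
        rw [h0]
        rfl
      · simp only [h, dite_false, ne_eq, not_true_eq_false] at hne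
    · ext J c
      change (if h : (c.1.1, c.1.2) ∈ cellset a B p j₀ j₁ then w J ⟨(c.1.1, c.1.2), h⟩ else 0) =
        w J c
      rw [dif_pos c.2]

theorem wzz_map_ZZF (x : Fin (r + 1) → R) (q : ℕ) (i p : ℤ) :
    (ZZF Q x a B q i p).map (wzz_rho R Q a B p (-i * q) ((1 - i) * q)) =
      kbd ((winRep a B p (-i * q) ((1 - i) * q)).T Q x) i := by
  have hj : -i * (q : ℤ) ≤ (1 - i) * q := by nlinarith [Int.natCast_nonneg q]
  rw [ZZF, Submodule.map_sup]
  have h0 : (KG R Q a B ((1 - i) * q) i p).map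
      (wzz_rho R Q a B p (-i * q) ((1 - i) * q)) = ⊥ := by
    rw [eq_bot_iff]
    rintro w ⟨v, hv, rfl⟩
    rw [Submodule.mem_bot]
    have hv' : v ∈ KG R Q a B (-i * q) i p := by
      rw [SetLike.mem_coe, wzz_mem_KG] at hv
      rw [wzz_mem_KG]
      intro J I g hne
      obtain ⟨h1, h2, h3, h4⟩ := hv J I g hne
      exact ⟨h1, h2, h3, h4.imp_right fun h => hj.trans h⟩
    exact (wzz_ker a B i p _ _ hj v hv').2 hv
  rw [h0, sup_bot_eq]
  unfold kbd
  have h1 := wzz_map_KG (R := R) (Q := Q) a B (i + 1) p (-i * q) ((1 - i) * q)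
  change _ = Submodule.map (kz ((winRep a B p (-i * ↑q) ((1 - i) * ↑q)).T Q x))
    (kgr R (↥(cellset a B p (-i * q) ((1 - i) * q)) → Q) (r + 1) (i + 1))
  rw [← h1]
  ext w
  constructor
  · rintro ⟨_, ⟨v, hv, rfl⟩, rfl⟩
    rw [wzz_rho_eK a B x (i + 1) p _ _ v hv]
    exact ⟨_, ⟨v, hv, rfl⟩, rfl⟩
  · rintro ⟨_, ⟨v, hv, rfl⟩, rfl⟩
    rw [← wzz_rho_eK a B x (i + 1) p _ _ v hv]
    exact ⟨_, ⟨v, hv, rfl⟩, rfl⟩

theorem wzz_ZZF_le (x : Fin (r + 1) → R) (q : ℕ) (i p : ℤ) :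
    ZZF Q x a B q i p ≤ KG R Q a B (-i * q) i p := by
  have hj : -i * (q : ℤ) ≤ (1 - i) * q := by nlinarith [Int.natCast_nonneg q]
  refine sup_le ?_ ?_
  · rintro _ ⟨v, hv, rfl⟩
    have := (bstab_KG (Q := Q) a B x (-i * q)).he (i + 1) p v hv
    simpa using this
  · intro v hv
    rw [wzz_mem_KG] at hv ⊢
    intro J I g hne
    obtain ⟨h1, h2, h3, h4⟩ := hv J I g hne
    exact ⟨h1, h2, h3, h4.imp_right fun h => hj.trans h⟩

theorem wzz_map_cz (x : Fin (r + 1) → R) (q : ℕ) (i : ℤ) (p : ℕ) :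
    (cz (dK R Q r) (KG R Q a B (-i * q) i) (ZZF Q x a B q i) (p : ℤ)).map
        (wzz_rho R Q a B p (-i * q) ((1 - i) * q)) =
      (kgr R (((winCx a B (-i * q) ((1 - i) * q)).W p).ι → Q) (r + 1) i ⊓
          (kbd (((winCx a B (-i * q) ((1 - i) * q)).W (p + 1)).T Q x) i).comap
            (kmap (r + 1) (za ((winCx a B (-i * q) ((1 - i) * q)).D p) R Q))) := by
  have hj : -i * (q : ℤ) ≤ (1 - i) * q := by nlinarith [Int.natCast_nonneg q]
  have hW : kbd (((winCx a B (-i * q) ((1 - i) * q)).W (p + 1)).T Q x) i =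
      (ZZF Q x a B q i ((p + 1 : ℕ) : ℤ)).map
        (wzz_rho R Q a B ((p + 1 : ℕ) : ℤ) (-i * q) ((1 - i) * q)) :=
    (wzz_map_ZZF a B x q i ((p + 1 : ℕ) : ℤ)).symm
  have hK : kgr R (((winCx a B (-i * q) ((1 - i) * q)).W p).ι → Q) (r + 1) i =
      (KG R Q a B (-i * q) i p).map (wzz_rho R Q a B p (-i * q) ((1 - i) * q)) :=
    (wzz_map_KG a B i p _ _).symm
  rw [hW, hK]
  have hd : ∀ v ∈ KG R Q a B (-i * q) i p, dK R Q r v ∈ KG R Q a B (-i * q) i ((p + 1 : ℕ) : ℤ) := by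
    intro v hv
    have := (bstab_KG (Q := Q) a B (0 : Fin (r + 1) → R) (-i * q)).hd i p v hv
    rw [Nat.cast_add_one]
    exact this
  apply le_antisymm
  · rintro _ ⟨v, ⟨hv1, hv2⟩, rfl⟩
    refine ⟨⟨v, hv1, rfl⟩, ?_⟩
    change kmap (r + 1) (za ((winCx a B (-i * q) ((1 - i) * q)).D p) R Q)
      (wzz_rho R Q a B p (-i * q) ((1 - i) * q) v) ∈ (ZZF Q x a B q i ((p + 1 : ℕ) : ℤ)).map
        (wzz_rho R Q a B ((p + 1 : ℕ) : ℤ) (-i * q) ((1 - i) * q))
    refine ⟨dK R Q r v, ?_, ?_⟩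
    · rw [Nat.cast_add_one]
      exact hv2
    · exact wzz_rho_dK a B i _ _ p v hv1
  · rintro _ ⟨⟨v, hv, rfl⟩, hw⟩
    have hw' : kmap (r + 1) (za ((winCx a B (-i * q) ((1 - i) * q)).D p) R Q)
      (wzz_rho R Q a B p (-i * q) ((1 - i) * q) v) ∈ (ZZF Q x a B q i ((p + 1 : ℕ) : ℤ)).map
        (wzz_rho R Q a B ((p + 1 : ℕ) : ℤ) (-i * q) ((1 - i) * q)) := hw
    refine ⟨v, ⟨hv, ?_⟩, rfl⟩
    change dK R Q r v ∈ ZZF Q x a B q i ((p : ℤ) + 1)
    obtain ⟨y, hy, hy'⟩ := hw'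
    have hy' : wzz_rho R Q a B ((p + 1 : ℕ) : ℤ) (-i * q) ((1 - i) * q) y =
        wzz_rho R Q a B ((p + 1 : ℕ) : ℤ) (-i * q) ((1 - i) * q) (dK R Q r v) :=
      hy'.trans (wzz_rho_dK a B i _ _ p v hv).symm
    have h1 : dK R Q r v - y ∈ KG R Q a B ((1 - i) * q) i ((p + 1 : ℕ) : ℤ) := by
      rw [← wzz_ker a B i _ _ _ hj _ (Submodule.sub_mem _ (hd v hv) (wzz_ZZF_le a B x q i _ hy)),
        map_sub, sub_eq_zero]
      exact hy'.symm
    have h2 : dK R Q r v = y + (dK R Q r v - y) := by abel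
    rw [h2, ← Nat.cast_add_one]
    refine Submodule.add_mem _ hy ?_
    exact Submodule.mem_sup_right h1

variable (L : AddLen R) (x : Fin (r + 1) → R)

theorem wzz_hc (q : ℕ) (i : ℤ) (p : ℕ)
    (X' : Submodule R (Finset (Fin (r + 1)) → ((winCx a B (-i * q) ((1 - i) * q)).W p).ι → Q))
    (hX : (cb (dK R Q r) (KG R Q a B (-i * q) i) (ZZF Q x a B q i) (p : ℤ)).map
        (wzz_rho R Q a B p (-i * q) ((1 - i) * q)) = X') :
    L.hc (dK R Q r) (KG R Q a B (-i * q) i) (ZZF Q x a B q i) (p : ℤ) =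
      L.rl X' (kgr R (((winCx a B (-i * q) ((1 - i) * q)).W p).ι → Q) (r + 1) i ⊓
          (kbd (((winCx a B (-i * q) ((1 - i) * q)).W (p + 1)).T Q x) i).comap
            (kmap (r + 1) (za ((winCx a B (-i * q) ((1 - i) * q)).D p) R Q))) := by
  have hj : -i * (q : ℤ) ≤ (1 - i) * q := by nlinarith [Int.natCast_nonneg q]
  symm
  refine wzz_rl_eq L (wzz_rho R Q a B p (-i * q) ((1 - i) * q)) _ _ _ _
    (wzz_map_cz a B x q i p) ?_
  intro y hy
  subst hX
  constructor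
  · rintro ⟨b, hb, hb'⟩
    have hbK : b ∈ KG R Q a B (-i * q) i p := by
      have : cb (dK R Q r) (KG R Q a B (-i * q) i) (ZZF Q x a B q i) (p : ℤ) ≤
          KG R Q a B (-i * q) i p := by
        refine sup_le ?_ (wzz_ZZF_le a B x q i p)
        rintro _ ⟨v, hv, rfl⟩
        have := (bstab_KG (Q := Q) a B (0 : Fin (r + 1) → R) (-i * q)).hd i (p - 1) v hv
        simpa using this
      exact this hb
    have h1 : y - b ∈ KG R Q a B ((1 - i) * q) i p := by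
      rw [← wzz_ker a B i _ _ _ hj _ (Submodule.sub_mem _ hy.1 hbK), map_sub, sub_eq_zero]
      exact hb'.symm
    have h2 : y = b + (y - b) := by abel
    rw [h2]
    exact Submodule.add_mem _ hb (Submodule.mem_sup_right (Submodule.mem_sup_right h1))
  · intro h
    exact ⟨y, h, rfl⟩

end Win

section Final

variable {R : Type u} [CommRing R] (L : AddLen R) {r : ℕ} (Q : Type u) [AddCommGroup Q]
  [Module R Q] (x : Fin (r + 1) → R) (a : Fin r → ℤ) (B : ℤ)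

/-- the rows of `K_{≥ -iq} / Z''`. -/
theorem hc_KG_ZZF_zero (q : ℕ) (i : ℤ) :
    L.hc (dK R Q r) (KG R Q a B (-i * q) i) (ZZF Q x a B q i) 0 =
      L.rl (kbd (((winCx a B (-i * q) ((1 - i) * q)).W 0).T Q x) i)
        (kgr R (((winCx a B (-i * q) ((1 - i) * q)).W 0).ι → Q) (r + 1) i ⊓
          (kbd (((winCx a B (-i * q) ((1 - i) * q)).W 1).T Q x) i).comap
            (kmap (r + 1) (za ((winCx a B (-i * q) ((1 - i) * q)).D 0) R Q))) := by
  refine wzz_hc a B L x q i 0 _ ?_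
  rw [cb, Submodule.map_sup]
  have h0 : KG R Q a B (-i * q) i (((0 : ℕ) : ℤ) - 1) = ⊥ := by
    rw [eq_bot_iff]
    intro v hv
    rw [wzz_mem_KG] at hv
    rw [Submodule.mem_bot]
    ext J I g
    by_contra hne
    have := (hv J I g hne).2.1
    simp only [Nat.cast_zero, zero_sub] at this
    omega
  rw [h0, Submodule.map_bot, Submodule.map_bot, bot_sup_eq]
  exact wzz_map_ZZF a B x q i _

theorem hc_KG_ZZF_succ (q : ℕ) (i : ℤ) (p : ℕ) :
    L.hc (dK R Q r) (KG R Q a B (-i * q) i) (ZZF Q x a B q i) ((p : ℤ) + 1) =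
      L.rl ((kgr R (((winCx a B (-i * q) ((1 - i) * q)).W p).ι → Q) (r + 1) i).map
            (kmap (r + 1) (za ((winCx a B (-i * q) ((1 - i) * q)).D p) R Q)) ⊔
          kbd (((winCx a B (-i * q) ((1 - i) * q)).W (p + 1)).T Q x) i)
        (kgr R (((winCx a B (-i * q) ((1 - i) * q)).W (p + 1)).ι → Q) (r + 1) i ⊓
          (kbd (((winCx a B (-i * q) ((1 - i) * q)).W (p + 2)).T Q x) i).comap
            (kmap (r + 1) (za ((winCx a B (-i * q) ((1 - i) * q)).D (p + 1)) R Q))) := by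
  rw [← Nat.cast_add_one]
  refine wzz_hc a B L x q i (p + 1) _ ?_
  rw [cb, Submodule.map_sup]
  have h1 := wzz_map_ZZF (Q := Q) a B x q i ((p + 1 : ℕ) : ℤ)
  have h2 : ((KG R Q a B (-i * q) i (((p + 1 : ℕ) : ℤ) - 1)).map (dK R Q r)).map
      (wzz_rho R Q a B ((p + 1 : ℕ) : ℤ) (-i * q) ((1 - i) * q)) =
      (kgr R (((winCx a B (-i * q) ((1 - i) * q)).W p).ι → Q) (r + 1) i).map
            (kmap (r + 1) (za ((winCx a B (-i * q) ((1 - i) * q)).D p) R Q)) := by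
    have hp : (((p + 1 : ℕ) : ℤ) - 1) = p := by push_cast; ring
    rw [hp]
    have hK := wzz_map_KG (R := R) (Q := Q) a B i p (-i * q) ((1 - i) * q)
    ext w
    constructor
    · rintro ⟨_, ⟨v, hv, rfl⟩, rfl⟩
      rw [wzz_rho_dK a B i _ _ p v hv]
      refine ⟨wzz_rho R Q a B p (-i * q) ((1 - i) * q) v, ?_, rfl⟩
      exact hK.le ⟨v, hv, rfl⟩
    · rintro ⟨y, hy, rfl⟩
      obtain ⟨v, hv, rfl⟩ := hK.ge hy
      exact ⟨_, ⟨v, hv, rfl⟩, wzz_rho_dK a B i _ _ p v hv⟩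
  rw [h2, h1]
  rfl

end Final

end Vale.Agent.P202.Mix
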