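import Vale.Agent.P202.Mix.RepBd
import Vale.Agent.P202.Mix.LenTot
import Vale.Agent.P202.Mix.LenLes
import Vale.Agent.P202.Mix.CellRow
import Vale.Agent.P202.Mix.CellStab
import Vale.Agent.P202.Mix.WinCx
import Vale.Agent.P202.Mix.WinZ
import Vale.Agent.P202.Mix.WinZZ
import Vale.Agent.P202.Mix.WinPos
import Vale.Agent.P202.Mix.RepCyc

/-!
P202-MIX, part GEO, tasks D2, D3: the homology of `Z / Y_w` outside degree zero is null.
-/

namespace Vale.Agent.P202.Mix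

open Vale.Agent.P202.CharP
open scoped ENNReal

universe u

section Aux

variable {R : Type u} [CommRing R] (L : AddLen R)

theorem homz_hc_of_ex {M : Type u} [AddCommGroup M] [Module R M] (d : M →ₗ[R] M)
    (Y X : ℤ → Submodule R M) (p : ℤ) (h : Ex d Y X p) : L.hc d Y X p = 0 :=
  rl_eq_zero_of_le L h

/-- the window containing `j`. -/
theorem homz_win (q : ℕ) (hq : 1 ≤ q) (j : ℤ) :
    (j / q) * q ≤ j ∧ j < (j / q + 1) * q := by
  have hq' : (0 : ℤ) < q := by exact_mod_cast hq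
  have h1 := Int.emod_nonneg j hq'.ne'
  have h2 := Int.emod_lt_of_pos j hq'
  have h3 := Int.emod_add_mul_ediv j q
  constructor <;> nlinarith

end Aux

section Win

variable {R : Type u} [CommRing R] (L : AddLen R) {r : ℕ} (Q : Type u) [AddCommGroup Q]
  [Module R Q] (x : Fin (r + 1) → R) (a : Fin r → ℤ) (B : ℤ)

/-- the windows `k` have cohomology in one degree only. -/
theorem homz_winCx_ex (q : ℕ) (hq : 1 ≤ q) (m : Fin (r + 1)) (k j₀ j₁ : ℤ) (hj₀ : j₀ = k * q)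
    (hj₁ : j₁ = (k + 1) * q) (p : ℕ)
    (hp : p ≠ (Finset.univ.filter fun i : Fin (r + 1) => i ≠ m ∧ (i : ℤ) + k < 0).card) :
    (winCx (tw r q m) B j₀ j₁).ExAt p := by
  subst hj₀ hj₁
  refine winCx_ex _ _ _ _ _ fun j h1 h2 => ?_
  rcases pj_tw q hq m k j h1 h2 with h | h
  · exact Or.inl h
  · right
    rw [h]
    exact fun h' => hp h'.symm

theorem homz_KG_mono {j₀ j₁ : ℤ} (hj : j₀ ≤ j₁) (i p : ℤ) :
    KG R Q a B j₁ i p ≤ KG R Q a B j₀ i p := by
  classical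
  refine CF_mono a B _ _ i p fun g => ?_
  split_ifs with h1 h2
  · exact le_rfl
  · omega
  · exact bot_le
  · exact le_rfl

theorem homz_winCx_isCx (q : ℕ) (j₀ j₁ : ℤ) (h : j₁ = j₀ + q) :
    (winCx a B j₀ j₁).IsCx q := by
  subst h
  exact winCx_isCx a B j₀ q

variable (q : ℕ) (hq : 1 ≤ q) (m : Fin (r + 1)) (hCL : CLnull L (r + 1) q Q x) (N : ℕ)
  (hN : xpw Q x N = ⊥) (w : ℤ) (hw : 2 * (q : ℤ) + r + 1 + N ≤ w)
  (hB : ((r : ℤ) + 1) * q + 2 * r + 2 + N ≤ B) (hB' : ∀ l, tw r q m l ≤ B)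

include hq hCL hN hw hB hB'

/-- D2. -/
theorem ZF_YF_neg (δ : ℤ) (hδ : δ < 0) :
    L.hh (totD (dK R Q r) (eK Q x)) (TT (ZF Q x (tw r q m) B q))
      (TT (YF Q x (tw r q m) B w)) δ = 0 := by
  have hq' : (1 : ℤ) ≤ q := by exact_mod_cast hq
  refine row_null L (r + 1) (dK R Q r) (eK Q x) (dK_sq) (eK_sq x) (dK_eK x) _ _
    (bstab_YF _ B x w) (bstab_ZF _ B x q) (YF_le_ZF _ B x q N hN w hw) ?_ δ ?_
  · intro i p hi
    refine le_bot_iff.1 (inf_le_left.trans ?_)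
    exact (CF_box _ _ _ i p hi).le
  intro i hi0 hi1'
  have hi1 : (i : ℤ) ≤ r + 1 := by exact_mod_cast hi1'
  -- `Y_w ≤ K_{≥ (2-i)q} ≤ Z`
  have hYK : ∀ p, YF Q x (tw r q m) B w (i : ℤ) p ≤
      KG R Q (tw r q m) B ((2 - (i : ℤ)) * q) (i : ℤ) p := by
    intro p
    refine CF_mono _ B _ _ _ p fun g => ?_
    split_ifs with h
    · exact le_top
    · have h1 : ((2 : ℤ) - i) * q ≤ 2 * q := by nlinarith
      have h2 : (N : ℤ) ≤ w - i - g.2 := by omega
      refine le_trans (Submodule.smul_mono_left (Ideal.pow_le_pow_right ?_)) hN.le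
      omega
  have hKZ : ∀ p, KG R Q (tw r q m) B ((2 - (i : ℤ)) * q) (i : ℤ) p ≤
      ZF Q x (tw r q m) B q (i : ℤ) p := wz_KG_le_ZF (tw r q m) B x q (i : ℤ)
  refine le_antisymm ((hc_le_add L (dK R Q r) dK_sq _
    (KG R Q (tw r q m) B ((2 - (i : ℤ)) * q) (i : ℤ)) _
    (fun p v hv => (bstab_YF _ B x w).hd _ _ _ hv) (fun p v hv => (bstab_KG _ B x _).hd _ _ _ hv)
    (fun p v hv => (bstab_ZF _ B x q).hd _ _ _ hv) hYK hKZ _).trans ?_) zero_le
  obtain ⟨p, hp⟩ : ∃ p : ℕ, (i : ℤ) - δ = p + 1 :=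
    ⟨((i : ℤ) - δ - 1).toNat, by omega⟩
  rw [hp]
  have e1 : L.hc (dK R Q r) (ZF Q x (tw r q m) B q (i : ℤ))
      (KG R Q (tw r q m) B ((2 - (i : ℤ)) * q) (i : ℤ)) ((p : ℤ) + 1) = 0 := by
    rw [hc_ZF_KG]
    refine cyc_null L Q x hCL _ (homz_winCx_isCx _ _ _ _ _ (by ring)) (r + 1)
      (fun p hp => winCx_top _ _ _ _ _ hp)
      (Finset.univ.filter fun i' : Fin (r + 1) => i' ≠ m ∧ (i' : ℤ) + (1 - i) < 0).card
      (fun p hp => homz_winCx_ex B q hq m (1 - i) _ _ rfl (by ring) p hp) p ?_ _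
    have := pk_upper m (1 - i) i le_rfl
    omega
  have e2 : L.hc (dK R Q r) (KG R Q (tw r q m) B ((2 - (i : ℤ)) * q) (i : ℤ))
      (YF Q x (tw r q m) B w (i : ℤ)) ((p : ℤ) + 1) = 0 := by
    refine homz_hc_of_ex L _ _ _ _ ?_
    refine row_exact _ B _ _ _ _ ?_ ?_
    · intro g
      split_ifs with h
      · exact le_top
      · have h1 : ((2 : ℤ) - i) * q ≤ 2 * q := by nlinarith
        have h2 : (N : ℤ) ≤ w - i - g.2 := by omega
        refine le_trans (Submodule.smul_mono_left (Ideal.pow_le_pow_right ?_)) hN.le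
        omega
    · intro g
      by_cases h : (2 - (i : ℤ)) * q ≤ g.2
      · right
        obtain ⟨h1, h2⟩ := homz_win q hq g.2
        rcases pj_tw q hq m _ _ h1 h2 with h3 | h3
        · exact Or.inl h3
        · right
          rw [h3]
          have h4 : 1 - (i : ℤ) ≤ g.2 / q := by
            by_contra h5
            have : g.2 / q + 1 ≤ 1 - i := by omega
            nlinarith
          have h5 := pk_upper m _ i h4
          omega
      · left
        rw [if_neg h]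
        have h1 : ((2 : ℤ) - i) * q ≤ 2 * q := by nlinarith
        have h2 : (N : ℤ) ≤ w - i - g.2 := by omega
        refine le_bot_iff.1 (le_trans (Submodule.smul_mono_left (Ideal.pow_le_pow_right ?_)) hN.le)
        omega
  rw [e1, e2, add_zero]

/-- D3a: the columns of `Z'' / Z` are exact. -/
theorem ZZF_ZF (δ : ℤ) :
    L.hh (totD (dK R Q r) (eK Q x)) (TT (ZZF Q x (tw r q m) B q))
      (TT (ZF Q x (tw r q m) B q)) δ = 0 := by
  refine col_null L (r + 1) (dK R Q r) (eK Q x) (dK_sq) (eK_sq x) (dK_eK x) _ _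
    (bstab_ZF _ B x q) (bstab_ZZF _ B x q) (ZF_le_ZZF _ B x q) ?_ δ ?_
  · intro i p hi
    refine le_bot_iff.1 ((wzz_ZZF_le _ B x q i p).trans ?_)
    exact (CF_box _ _ _ i p hi).le
  intro i hi0 hi1
  refine rl_eq_zero_of_le L ?_
  rintro z ⟨hz1, hz2⟩
  obtain ⟨_, ⟨y, hy, rfl⟩, k, hk, rfl⟩ := Submodule.mem_sup.1 hz1
  have hz2' : eK Q x (eK Q x y + k) ∈ ZF Q x (tw r q m) B q (i - 1) (i - δ) := hz2
  rw [map_add, eK_sq, zero_add] at hz2'
  refine Submodule.add_mem_sup ⟨y, ?_, rfl⟩ ?_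
  · change y ∈ ZZF Q x (tw r q m) B q (i + 1) (i - δ)
    refine Submodule.mem_sup_right ?_
    have : (1 - (i + 1)) * (q : ℤ) = -i * q := by ring
    rw [this]
    exact hy
  · change k ∈ ZF Q x (tw r q m) B q i (i - δ)
    refine ⟨hk, ?_⟩
    have h1 := hz2'.1
    have : (1 - (i - 1)) * (q : ℤ) = (2 - i) * q := by ring
    rw [this] at h1
    exact h1

/-- D3b. -/
theorem YF_ZZF (δ : ℤ) (hδ : 2 ≤ δ) :
    L.hh (totD (dK R Q r) (eK Q x)) (TT (YF Q x (tw r q m) B (-((r : ℤ) + 1) * q)))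
      (TT (ZZF Q x (tw r q m) B q)) δ = 0 := by
  have hq' : (1 : ℤ) ≤ q := by exact_mod_cast hq
  refine row_null L (r + 1) (dK R Q r) (eK Q x) (dK_sq) (eK_sq x) (dK_eK x) _ _
    (bstab_ZZF _ B x q) (bstab_YF _ B x _) (ZZF_le_YF _ B x q hq) (CF_box _ _ _) δ ?_
  intro i hi0 hi1'
  have hi1 : (i : ℤ) ≤ r + 1 := by exact_mod_cast hi1'
  have hle : ∀ g : Gz r, (if -(i : ℤ) * q ≤ g.2 then (⊤ : Submodule R Q) else ⊥) ≤
      xpw Q x (-((r : ℤ) + 1) * q - i - g.2) := by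
    intro g
    split_ifs with h
    · have h1 : -((r : ℤ) + 1) * q - i - g.2 ≤ 0 := by
        nlinarith
      unfold xpw
      rw [Int.toNat_of_nonpos h1, pow_zero, Ideal.one_eq_top, Submodule.top_smul]
    · exact bot_le
  refine le_antisymm ((hc_le_add L (dK R Q r) dK_sq _
    (KG R Q (tw r q m) B (-(i : ℤ) * q) (i : ℤ)) _
    (fun p v hv => (bstab_ZZF _ B x q).hd _ _ _ hv) (fun p v hv => (bstab_KG _ B x _).hd _ _ _ hv)
    (fun p v hv => (bstab_YF _ B x _).hd _ _ _ hv) (wzz_ZZF_le _ B x q (i : ℤ))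
    (fun p => CF_mono _ B _ _ _ p fun g => hle g) _).trans ?_) zero_le
  have e2 : L.hc (dK R Q r) (YF Q x (tw r q m) B (-((r : ℤ) + 1) * q) (i : ℤ))
      (KG R Q (tw r q m) B (-(i : ℤ) * q) (i : ℤ)) ((i : ℤ) - δ) = 0 := by
    refine homz_hc_of_ex L _ _ _ _ ?_
    refine row_exact _ B _ _ _ _ (fun g => hle g) ?_
    intro g
    by_cases h : -(i : ℤ) * q ≤ g.2
    · left
      refine le_antisymm (hle g) ?_
      rw [if_pos h]
      exact le_top
    · right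
      obtain ⟨h1, h2⟩ := homz_win q hq g.2
      rcases pj_tw q hq m _ _ h1 h2 with h3 | h3
      · exact Or.inl h3
      · right
        rw [h3]
        have h4 : g.2 / q ≤ -(i : ℤ) := by
          by_contra h5
          have : -(i : ℤ) + 1 ≤ g.2 / q := by omega
          nlinarith
        have h5 := pk_lower m _ i h4 hi1'
        omega
  have hlow := pk_lower m (-(i : ℤ)) i le_rfl hi1'
  have e1 : L.hc (dK R Q r) (KG R Q (tw r q m) B (-(i : ℤ) * q) (i : ℤ))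
      (ZZF Q x (tw r q m) B q (i : ℤ)) ((i : ℤ) - δ) = 0 := by
    rcases lt_or_ge ((i : ℤ) - δ) 0 with hneg | hnn
    · refine rl_eq_zero_of_le L (inf_le_left.trans ?_)
      rw [show KG R Q (tw r q m) B (-(i : ℤ) * q) (i : ℤ) ((i : ℤ) - δ) = ⊥ from
        CF_out _ _ _ _ _ (Or.inl hneg)]
      exact bot_le
    · have hex : ∀ p : ℕ, p ≠ (Finset.univ.filter fun i' : Fin (r + 1) =>
          i' ≠ m ∧ (i' : ℤ) + (-(i : ℤ)) < 0).card →
          (winCx (tw r q m) B (-(i : ℤ) * q) ((1 - (i : ℤ)) * q)).ExAt p :=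
        fun p hp => homz_winCx_ex B q hq m (-(i : ℤ)) _ _ rfl (by ring) p hp
      rcases hnn.eq_or_lt with h0 | hpos
      · rw [← h0, hc_KG_ZZF_zero]
        refine bd_null_zero L Q x hCL _ (homz_winCx_isCx _ _ _ _ _ (by ring)) (r + 1)
          (fun p hp => winCx_top _ _ _ _ _ hp) _ hex ?_ _
        omega
      · obtain ⟨p, hp⟩ : ∃ p : ℕ, (i : ℤ) - δ = p + 1 :=
          ⟨((i : ℤ) - δ - 1).toNat, by omega⟩
        rw [hp, hc_KG_ZZF_succ]
        refine bd_null_succ L Q x hCL _ (homz_winCx_isCx _ _ _ _ _ (by ring)) (r + 1)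
          (fun p hp => winCx_top _ _ _ _ _ hp) _ hex p ?_ _
        omega
  rw [e1, e2, add_zero]

end Win

end Vale.Agent.P202.Mix
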