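import Vale.Agent.P202.Mix.GeoDefs

/-!
P202-MIX, part GEO-B1b: lengths of the Koszul cycles in degrees `0` and `1`.
-/

namespace Vale.Agent.P202.Mix

open Vale.Agent.P202.CharP
open scoped ENNReal

universe u

section KzLen

variable {R : Type u} [CommRing R] (L : AddLen R) {V : Type u} [AddCommGroup V] [Module R V]
  {n : ℕ}

private theorem kl_congr {M N : Type u} [AddCommGroup M] [Module R M] [AddCommGroup N]
    [Module R N] (e : M ≃ₗ[R] N) : L.len M = L.len N := by
  have h := L.add (e : M →ₗ[R] N) (0 : N →ₗ[R] PUnit.{u + 1}) e.injective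
    (fun y => ⟨0, Subsingleton.elim _ _⟩) (fun y => ⟨fun _ => ⟨e.symm y, by simp⟩, fun _ => rfl⟩)
  rw [h, L.zero, add_zero]

private theorem kl_pi : ∀ n : ℕ, L.len (Fin n → V) = n * L.len V
  | 0 => by
    have e : (Fin 0 → V) ≃ₗ[R] PUnit.{u + 1} :=
      { toFun := fun _ => PUnit.unit
        invFun := fun _ => 0
        left_inv := fun _ => Subsingleton.elim _ _
        right_inv := fun _ => rfl
        map_add' := fun _ _ => rfl
        map_smul' := fun _ _ => rfl }
    rw [kl_congr L e, L.zero, Nat.cast_zero, zero_mul]
  | n + 1 => by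
    have h := L.add (LinearMap.single R (fun _ : Fin (n + 1) => V) 0)
      (LinearMap.funLeft R V (Fin.succ : Fin n → Fin (n + 1)))
      (fun a b hab => by simpa using congrFun hab 0)
      (fun v => ⟨Fin.cons 0 v, by ext i; simp [LinearMap.funLeft]⟩)
      (fun v => by
        constructor
        · intro hv
          refine ⟨v 0, ?_⟩
          ext i
          refine Fin.cases ?_ (fun j => ?_) i
          · simp
          · have := congrFun hv j
            simp only [LinearMap.funLeft_apply, Pi.zero_apply] at this
            simp [this]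
        · rintro ⟨a, rfl⟩
          ext i
          simp [LinearMap.funLeft_apply])
    rw [h, kl_pi n, Nat.cast_succ, add_mul, one_mul, add_comm]

/-- an element of degree `0` is determined by its value at `∅`. -/
private theorem kgr_zero_apply {v : Finset (Fin n) → V} (hv : v ∈ kgr R V n 0)
    {J : Finset (Fin n)} (hJ : J ≠ ∅) : v J = 0 := by
  by_contra h
  have := hv J h
  exact hJ (Finset.card_eq_zero.1 (by exact_mod_cast this))

private theorem kgr_one_apply {v : Finset (Fin n) → V} (hv : v ∈ kgr R V n 1)
    {J : Finset (Fin n)} (hJ : J.card ≠ 1) : v J = 0 := by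
  by_contra h
  have := hv J h
  exact hJ (by exact_mod_cast this)

/-- the lengths `κ_0` of the Koszul cycles of `-x` on `Q`. -/
theorem len_cyc_zero (x : Fin n → R) :
    L.len ↥(kcyc (fun l => -(x l • (LinearMap.id : V →ₗ[R] V))) 0) = L.len V := by
  apply kl_congr L
  refine LinearEquiv.ofBijective ((LinearMap.proj (∅ : Finset (Fin n))).comp
    (Submodule.subtype _)) ⟨?_, ?_⟩
  · rw [injective_iff_map_eq_zero]
    rintro ⟨v, hv⟩ h0
    apply Subtype.ext
    funext J
    by_cases hJ : J = ∅
    · subst hJ
      exact h0
    · exact kgr_zero_apply (R := R) hv.1 hJ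
  · intro a
    refine ⟨⟨Pi.single ∅ a, ?_, ?_⟩, ?_⟩
    · intro J hJ
      by_cases h : J = ∅
      · subst h; simp
      · exact absurd (Pi.single_eq_of_ne (M := fun _ => V) h a) hJ
    · change kz _ _ = 0
      funext J
      refine Finset.sum_eq_zero fun l _ => ?_
      rw [Pi.single_eq_of_ne (Finset.insert_ne_empty l J), map_zero, smul_zero]
    · simp

/-- the differential from degree `1` to degree `0`. -/
private def kph (x : Fin n → R) : (Fin n → V) →ₗ[R] V where
  toFun v := ∑ l, x l • v l
  map_add' v w := by simp [Finset.sum_add_distrib]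
  map_smul' c v := by
    simp only [Pi.smul_apply, RingHom.id_apply, Finset.smul_sum]
    exact Finset.sum_congr rfl fun l _ => smul_comm _ _ _

private theorem range_kph (x : Fin n → R) :
    LinearMap.range (kph (V := V) x) = Ideal.span (Set.range x) • (⊤ : Submodule R V) := by
  apply le_antisymm
  · rintro _ ⟨v, rfl⟩
    change ∑ l, x l • v l ∈ _
    exact Submodule.sum_mem _ fun l _ =>
      Submodule.smul_mem_smul (Ideal.subset_span (Set.mem_range_self l)) Submodule.mem_top
  · rw [Submodule.smul_le]
    intro r hr m _
    obtain ⟨c, rfl⟩ := Ideal.mem_span_range_iff_exists_fun.1 hr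
    refine ⟨fun l => c l • m, ?_⟩
    change ∑ l, x l • c l • m = _
    rw [Finset.sum_smul]
    exact Finset.sum_congr rfl fun l _ => by rw [smul_smul, mul_comm]

/-- the lengths `κ_1` of the Koszul cycles of `-x` on `Q`. -/
theorem len_cyc_one (x : Fin n → R) :
    L.len ↥(kcyc (fun l => -(x l • (LinearMap.id : V →ₗ[R] V))) 1) + L.len V =
      n * L.len V + L.len (V ⧸ (Ideal.span (Set.range x) • (⊤ : Submodule R V))) := by
  have h1 : L.len ↥(kcyc (fun l => -(x l • (LinearMap.id : V →ₗ[R] V))) 1) =
      L.len ↥(LinearMap.ker (kph (V := V) x)) := by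
    apply kl_congr L
    refine LinearEquiv.ofBijective (LinearMap.codRestrict (LinearMap.ker (kph (V := V) x))
      ((LinearMap.pi fun l : Fin n => LinearMap.proj ({l} : Finset (Fin n))).comp
        (Submodule.subtype _)) ?_) ⟨?_, ?_⟩
    · rintro ⟨v, hv⟩
      rw [LinearMap.mem_ker]
      change ∑ l, x l • v {l} = 0
      have h2 : kz (fun l => -(x l • (LinearMap.id : V →ₗ[R] V))) v ∅ = 0 := by
        rw [LinearMap.mem_ker.1 hv.2]
        rfl
      have h3 : kz (fun l => -(x l • (LinearMap.id : V →ₗ[R] V))) v ∅ =
          - ∑ l, x l • v {l} := by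
        change ∑ l ∈ (∅ : Finset (Fin n))ᶜ, _ = _
        rw [Finset.compl_empty, ← Finset.sum_neg_distrib]
        refine Finset.sum_congr rfl fun l _ => ?_
        simp [ksg]
      rw [h3, neg_eq_zero] at h2
      exact h2
    · rw [injective_iff_map_eq_zero]
      rintro ⟨v, hv⟩ h0
      apply Subtype.ext
      funext J
      by_cases hJ : J.card = 1
      · obtain ⟨l, rfl⟩ := Finset.card_eq_one.1 hJ
        exact congrFun (congrArg Subtype.val h0) l
      · exact kgr_one_apply (R := R) hv.1 hJ
    · rintro ⟨w, hw⟩
      classical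
      have hs : ∀ l : Fin n, (∑ m, (Pi.single {m} (w m) : Finset (Fin n) → V)) {l} = w l := by
        intro l
        rw [Finset.sum_apply, Finset.sum_eq_single l]
        · simp
        · intro m _ hm
          rw [Pi.single_eq_of_ne]
          intro h
          exact hm (Finset.singleton_injective h).symm
        · intro h
          exact absurd (Finset.mem_univ l) h
      have hs' : ∀ J : Finset (Fin n), J.card ≠ 1 →
          (∑ m, (Pi.single {m} (w m) : Finset (Fin n) → V)) J = 0 := by
        intro J hJ
        rw [Finset.sum_apply]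
        refine Finset.sum_eq_zero fun m _ => ?_
        rw [Pi.single_eq_of_ne]
        rintro rfl
        exact hJ (Finset.card_singleton m)
      refine ⟨⟨∑ m, (Pi.single {m} (w m) : Finset (Fin n) → V), ?_, ?_⟩, ?_⟩
      · intro J hJ
        by_contra h
        exact hJ (hs' J fun h' => h (by exact_mod_cast h'))
      · change kz _ _ = 0
        funext J
        by_cases hJ : J = ∅
        · subst hJ
          change ∑ l ∈ (∅ : Finset (Fin n))ᶜ, _ = _
          have h2 : ∑ l, x l • w l = 0 := LinearMap.mem_ker.1 hw
          rw [Finset.compl_empty, Pi.zero_apply, ← neg_eq_zero.2 h2, ← Finset.sum_neg_distrib]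
          refine Finset.sum_congr rfl fun l _ => ?_
          have h4 : (insert l (∅ : Finset (Fin n))) = {l} := rfl
          rw [h4, hs l]
          simp [ksg]
        · refine Finset.sum_eq_zero fun l hl => ?_
          rw [hs', map_zero, smul_zero]
          rw [Finset.card_insert_of_notMem (Finset.mem_compl.1 hl)]
          have := Finset.card_pos.2 (Finset.nonempty_iff_ne_empty.2 hJ)
          omega
      · apply Subtype.ext
        funext l
        exact hs l
  have h2 := L.add (LinearMap.ker (kph (V := V) x)).subtype
    (kph (V := V) x).rangeRestrict (Submodule.injective_subtype _)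
    (LinearMap.surjective_rangeRestrict _)
    (fun v => by
      constructor
      · intro hv
        have : v ∈ LinearMap.ker (kph (V := V) x) := by
          rw [LinearMap.mem_ker]
          exact congrArg Subtype.val hv
        exact ⟨⟨v, this⟩, rfl⟩
      · rintro ⟨⟨w, hw⟩, rfl⟩
        apply Subtype.ext
        exact LinearMap.mem_ker.1 hw)
  have h3 := L.add (LinearMap.range (kph (V := V) x)).subtype
    (LinearMap.range (kph (V := V) x)).mkQ (Submodule.injective_subtype _)
    (Submodule.mkQ_surjective _)
    (fun v => by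
      constructor
      · intro hv
        exact ⟨⟨v, (Submodule.Quotient.mk_eq_zero _).1 hv⟩, rfl⟩
      · rintro ⟨⟨w, hw⟩, rfl⟩
        exact (Submodule.Quotient.mk_eq_zero _).2 hw)
  have h4 : L.len (V ⧸ (Ideal.span (Set.range x) • (⊤ : Submodule R V))) =
      L.len (V ⧸ LinearMap.range (kph (V := V) x)) :=
    kl_congr L (Submodule.quotEquivOfEq _ _ (range_kph x).symm)
  rw [h1, h4, ← kl_pi L n, h2]
  conv_lhs => rw [h3]
  rw [add_assoc]

end KzLen

end Vale.Agent.P202.Mix
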