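import Vale.Agent.P202.Mix.LenBasic

/-!
P202-MIX, part GEO, task A4: the Euler characteristic of a bounded bigraded family.
-/

namespace Vale.Agent.P202.Mix

open Vale.Agent.P202.CharP
open scoped ENNReal

universe u

section Gen

variable {R : Type u} [CommRing R] (L : AddLen R) {M : Type u} [AddCommGroup M] [Module R M]

private theorem eul_cyc (D : M →ₗ[R] M) (Y X : ℤ → Submodule R M) (δ : ℤ) :
    L.rl (zz D Y X δ) (Y δ) = L.rl (X (δ - 1)) (bb D Y X (δ - 1)) := by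
  have e1 : L.rl (zz D Y X δ) (Y δ) = L.rl ((X (δ - 1)).comap D) (Y δ) := by
    rw [zz, inf_comm, rl_inf_left]
  have e2 : (X (δ - 1)).comap D = (X (δ - 1)).comap D ⊔ LinearMap.ker D := by
    rw [left_eq_sup]
    intro x hx
    rw [Submodule.mem_comap, LinearMap.mem_ker.1 hx]
    exact Submodule.zero_mem _
  have e3 : L.rl (LinearMap.range D ⊓ X (δ - 1)) ((Y δ).map D) =
      L.rl (X (δ - 1)) ((Y δ).map D) := by
    rw [← rl_inf_left L (LinearMap.range D ⊓ X (δ - 1)) ((Y δ).map D),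
      ← rl_inf_left L (X (δ - 1)) ((Y δ).map D)]
    congr 1
    rw [inf_right_comm, inf_eq_right.2 (LinearMap.map_le_range : (Y δ).map D ≤ LinearMap.range D),
      inf_comm]
  rw [e1, e2, ← rl_map, Submodule.map_comap_eq, e3, bb, sub_add_cancel, sup_comm, rl_sup_right]

private theorem eul_split (D : M →ₗ[R] M) (hD : ∀ x, D (D x) = 0) (Y X : ℤ → Submodule R M)
    (hX : Stab D X) (hY : Stab D Y) (hXY : ∀ δ, X δ ≤ Y δ) (δ : ℤ) :
    L.rl (X δ) (Y δ) = L.rl (X δ) (bb D Y X δ) + L.hh D Y X δ +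
      L.rl (X (δ - 1)) (bb D Y X (δ - 1)) := by
  have h1 : X δ ≤ bb D Y X δ := le_sup_right
  have h3 : zz D Y X δ ≤ Y δ := inf_le_left
  have h2 : bb D Y X δ ≤ zz D Y X δ := by
    refine sup_le ?_ ?_
    · rintro _ ⟨y, hy, rfl⟩
      refine Submodule.mem_inf.2 ⟨?_, ?_⟩
      · have := hY _ _ hy
        rwa [add_sub_cancel_right] at this
      · rw [Submodule.mem_comap, hD]
        exact Submodule.zero_mem _
    · intro x hx
      exact Submodule.mem_inf.2 ⟨hXY _ hx, hX _ _ hx⟩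
  rw [rl_add L h1 (h2.trans h3), rl_add L h2 h3, eul_cyc, AddLen.hh, add_assoc]

end Gen

section Tot

variable {R : Type u} [CommRing R] (L : AddLen R) {V : Type u} [AddCommGroup V] [Module R V]

/-- extension by zero -/
private def eulE (R : Type u) [CommRing R] (V : Type u) [AddCommGroup V] [Module R V] (n : ℕ) :
    (Fin (n + 1) → V) →ₗ[R] (ℤ → V) where
  toFun f i := if h : 0 ≤ i ∧ i ≤ n then f ⟨i.toNat, by omega⟩ else 0
  map_add' f g := by
    ext i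
    by_cases h : 0 ≤ i ∧ i ≤ n
    · simp [h]
    · simp [h]
  map_smul' c f := by
    ext i
    by_cases h : 0 ≤ i ∧ i ≤ n
    · simp [h]
    · simp [h]

private theorem eulE_cast (n : ℕ) (f : Fin (n + 1) → V) (j : Fin (n + 1)) :
    eulE R V n f ((j : ℕ) : ℤ) = f j := by
  have h : (0 : ℤ) ≤ ((j : ℕ) : ℤ) ∧ ((j : ℕ) : ℤ) ≤ n := by
    have := j.2
    omega
  change (if h : 0 ≤ ((j : ℕ) : ℤ) ∧ ((j : ℕ) : ℤ) ≤ n then f ⟨(((j : ℕ) : ℤ)).toNat, _⟩ else 0) = _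
  rw [dif_pos h]
  congr 1

private theorem eulE_out (n : ℕ) (f : Fin (n + 1) → V) (i : ℤ) (h : ¬(0 ≤ i ∧ i ≤ n)) :
    eulE R V n f i = 0 := dif_neg h

private theorem eulE_inj (n : ℕ) : LinearMap.ker (eulE R V n) = ⊥ := by
  rw [LinearMap.ker_eq_bot']
  intro f hf
  funext j
  rw [← eulE_cast (R := R) n f j, hf]
  rfl

private theorem eul_TT (n : ℕ) (X : ℤ → ℤ → Submodule R V) (hX : BBox n X) (δ : ℤ) :
    TT X δ = (Submodule.pi Set.univ fun i : Fin (n + 1) =>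
      X ((i : ℕ) : ℤ) (((i : ℕ) : ℤ) - δ)).map (eulE R V n) := by
  ext z
  constructor
  · intro hz
    have hz' : ∀ i, z i ∈ X i (i - δ) := fun i => (Submodule.mem_pi.1 hz) i (Set.mem_univ _)
    refine ⟨fun j => z ((j : ℕ) : ℤ), ?_, ?_⟩
    · exact Submodule.mem_pi.2 fun j _ => hz' _
    · funext i
      by_cases h : 0 ≤ i ∧ i ≤ n
      · have e : i = (((⟨i.toNat, by omega⟩ : Fin (n + 1)) : ℕ) : ℤ) := by
          simp only
          omega
        rw [e, eulE_cast]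
      · rw [eulE_out n _ i h]
        have h1 := hz' i
        rw [hX i (i - δ) (by omega), Submodule.mem_bot] at h1
        exact h1.symm
  · rintro ⟨f, hf, rfl⟩
    refine Submodule.mem_pi.2 fun i _ => ?_
    by_cases h : 0 ≤ i ∧ i ≤ n
    · have e : i = (((⟨i.toNat, by omega⟩ : Fin (n + 1)) : ℕ) : ℤ) := by
        simp only
        omega
      have h1 := (Submodule.mem_pi.1 hf) ⟨i.toNat, by omega⟩ (Set.mem_univ _)
      rw [e, eulE_cast]
      exact h1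
    · rw [eulE_out n _ i h]
      exact Submodule.zero_mem _

private theorem eul_len (n : ℕ) (X Y : ℤ → ℤ → Submodule R V) (hX : BBox n X) (hY : BBox n Y)
    (δ : ℤ) : L.rl (TT X δ) (TT Y δ) =
      ∑ i : Fin (n + 1), L.rl (X ((i : ℕ) : ℤ) (((i : ℕ) : ℤ) - δ))
        (Y ((i : ℕ) : ℤ) (((i : ℕ) : ℤ) - δ)) := by
  rw [eul_TT n X hX, eul_TT n Y hY, rl_map, eulE_inj, sup_bot_eq, rl_pi]

private theorem eul_sq {d e : V →ₗ[R] V} (hdd : ∀ v, d (d v) = 0) (hee : ∀ v, e (e v) = 0)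
    (hde : ∀ v, d (e v) = e (d v)) (z : ℤ → V) : totD d e (totD d e z) = 0 := by
  funext i
  change (i.negOnePow : ℤ) • d ((i.negOnePow : ℤ) • d (z i) + e (z (i + 1))) +
    e (((i + 1).negOnePow : ℤ) • d (z (i + 1)) + e (z (i + 1 + 1))) = 0
  rw [map_add, map_add, map_zsmul, map_zsmul, hdd, hee, hde, smul_zero, zero_add, add_zero,
    Int.negOnePow_succ, Units.val_neg, neg_smul, add_neg_cancel]

private theorem eul_stab {d e : V →ₗ[R] V} {X : ℤ → ℤ → Submodule R V} (hX : BStab d e X) :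
    Stab (totD d e) (TT X) := by
  intro δ z hz
  have hz' : ∀ i, z i ∈ X i (i - δ) := fun i => (Submodule.mem_pi.1 hz) i (Set.mem_univ _)
  refine Submodule.mem_pi.2 fun i _ => ?_
  change (i.negOnePow : ℤ) • d (z i) + e (z (i + 1)) ∈ X i (i - (δ - 1))
  refine Submodule.add_mem _ ?_ ?_
  · have h1 := hX.hd i _ _ (hz' i)
    rw [show i - δ + 1 = i - (δ - 1) by ring] at h1
    exact zsmul_mem h1 _
  · have h1 := hX.he _ _ _ (hz' (i + 1))
    rw [show i + 1 - 1 = i by ring, show i + 1 - δ = i - (δ - 1) by ring] at h1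
    exact h1

private theorem eul_sign (i p : ℕ) : (-1 : ℝ) ^ (i + p) = (-1 : ℝ) ^ ((i : ℤ) - (p : ℤ)) := by
  rw [zpow_sub₀ (by norm_num), zpow_natCast, zpow_natCast, pow_add, div_eq_mul_inv, ← inv_pow]
  norm_num

/-- reindexing of one row -/
private theorem eul_row (A : ℤ → ℝ) (n r i : ℕ) (hi : i ≤ n)
    (hA : ∀ p : ℤ, (p < 0 ∨ (r : ℤ) < p) → A p = 0) :
    ∑ p ∈ Finset.range (r + 1), (-1 : ℝ) ^ (i + p) * A p =
      ∑ k ∈ Finset.range (n + r + 1), (-1 : ℝ) ^ ((k : ℤ) - r) * A (i - ((k : ℤ) - r)) := by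
  have hsub : (Finset.range (r + 1)).image (fun p => i + r - p) ⊆ Finset.range (n + r + 1) := by
    intro k hk
    obtain ⟨p, hp, rfl⟩ := Finset.mem_image.1 hk
    rw [Finset.mem_range] at hp ⊢
    omega
  rw [← Finset.sum_subset hsub, Finset.sum_image]
  · refine Finset.sum_congr rfl fun p hp => ?_
    rw [Finset.mem_range] at hp
    have e1 : ((i + r - p : ℕ) : ℤ) - r = (i : ℤ) - p := by omega
    rw [e1, eul_sign, sub_sub_cancel]
  · intro p hp p' hp' h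
    rw [Finset.mem_coe, Finset.mem_range] at hp hp'
    simp only at h
    omega
  · intro k _ hk
    rw [hA, mul_zero]
    by_contra hcon
    push Not at hcon
    refine hk (Finset.mem_image.2 ⟨i + r - k, ?_, ?_⟩)
    · rw [Finset.mem_range]
      omega
    · omega

theorem euler_nonneg (n : ℕ) (d e : V →ₗ[R] V) (hdd : ∀ v, d (d v) = 0) (hee : ∀ v, e (e v) = 0)
    (hde : ∀ v, d (e v) = e (d v)) (r : ℕ) (X Y : ℤ → ℤ → Submodule R V) (hX : BStab d e X)
    (hY : BStab d e Y) (hXY : ∀ i p, X i p ≤ Y i p) (hout : BBox n Y)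
    (hout' : ∀ i p, (p < 0 ∨ (r : ℤ) < p) → Y i p = ⊥)
    (hfin : ∀ i p, L.rl (X i p) (Y i p) ≠ ⊤)
    (hnull : ∀ δ, δ ≠ 0 → L.hh (totD d e) (TT Y) (TT X) δ = 0) :
    0 ≤ ∑ i ∈ Finset.range (n + 1), ∑ p ∈ Finset.range (r + 1),
      (-1 : ℝ) ^ (i + p) * (L.rl (X i p) (Y i p)).toReal := by
  have houtX : BBox n X := fun i p h => le_bot_iff.1 ((hXY i p).trans (hout i p h).le)
  have hA : ∀ (i p : ℤ), (p < 0 ∨ (r : ℤ) < p) → (L.rl (X i p) (Y i p)).toReal = 0 := by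
    intro i p hp
    rw [hout' i p hp, rl_eq_zero_of_le L bot_le, ENNReal.toReal_zero]
  -- the total lengths
  have hT : ∀ δ : ℤ, L.rl (TT X δ) (TT Y δ) ≠ ⊤ := by
    intro δ
    rw [eul_len L n X Y houtX hout]
    exact ENNReal.sum_ne_top.2 fun i _ => hfin _ _
  have hT' : ∀ δ : ℤ, (L.rl (TT X δ) (TT Y δ)).toReal =
      ∑ i ∈ Finset.range (n + 1), (L.rl (X i (i - δ)) (Y i (i - δ))).toReal := by
    intro δ
    rw [eul_len L n X Y houtX hout, ENNReal.toReal_sum fun i _ => hfin _ _,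
      Fin.sum_univ_eq_sum_range
        (fun i : ℕ => (L.rl (X (i : ℤ) ((i : ℤ) - δ)) (Y (i : ℤ) ((i : ℤ) - δ))).toReal)]
  have hS : ∑ i ∈ Finset.range (n + 1), ∑ p ∈ Finset.range (r + 1),
      (-1 : ℝ) ^ (i + p) * (L.rl (X i p) (Y i p)).toReal =
      ∑ k ∈ Finset.range (n + r + 1), (-1 : ℝ) ^ ((k : ℤ) - r) *
        (L.rl (TT X ((k : ℤ) - r)) (TT Y ((k : ℤ) - r))).toReal := by
    have h1 : ∀ i ∈ Finset.range (n + 1), ∑ p ∈ Finset.range (r + 1),
        (-1 : ℝ) ^ (i + p) * (L.rl (X i p) (Y i p)).toReal =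
        ∑ k ∈ Finset.range (n + r + 1), (-1 : ℝ) ^ ((k : ℤ) - r) *
          (L.rl (X i (i - ((k : ℤ) - r))) (Y i (i - ((k : ℤ) - r)))).toReal := fun i hi =>
      eul_row (fun p => (L.rl (X i p) (Y i p)).toReal) n r i
        (Nat.lt_succ_iff.1 (Finset.mem_range.1 hi)) fun p hp => hA i p hp
    rw [Finset.sum_congr rfl h1, Finset.sum_comm]
    refine Finset.sum_congr rfl fun k _ => ?_
    rw [hT', Finset.mul_sum]
  have hsplit : ∀ δ : ℤ, (L.rl (TT X δ) (TT Y δ)).toReal =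
      (L.rl (TT X δ) (bb (totD d e) (TT Y) (TT X) δ)).toReal +
      (L.hh (totD d e) (TT Y) (TT X) δ).toReal +
      (L.rl (TT X (δ - 1)) (bb (totD d e) (TT Y) (TT X) (δ - 1))).toReal := by
    intro δ
    have h := eul_split L (totD d e) (eul_sq hdd hee hde) (TT Y) (TT X) (eul_stab hX)
      (eul_stab hY) (fun δ => Submodule.pi_mono fun i _ => hXY _ _) δ
    have h0 := hT δ
    rw [h] at h0 ⊢
    rw [ENNReal.add_ne_top, ENNReal.add_ne_top] at h0
    rw [ENNReal.toReal_add (ENNReal.add_ne_top.2 h0.1) h0.2, ENNReal.toReal_add h0.1.1 h0.1.2]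
  set β : ℤ → ℝ := fun δ => (L.rl (TT X δ) (bb (totD d e) (TT Y) (TT X) δ)).toReal with hβ
  set H : ℤ → ℝ := fun δ => (L.hh (totD d e) (TT Y) (TT X) δ).toReal with hH
  have hβ0 : ∀ δ, 0 ≤ β δ := fun δ => ENNReal.toReal_nonneg
  have hH0 : ∀ δ, 0 ≤ H δ := fun δ => ENNReal.toReal_nonneg
  have hsplit' : ∀ δ : ℤ, (L.rl (TT X δ) (TT Y δ)).toReal = β δ + H δ + β (δ - 1) := hsplit
  have b1 : β (-(r : ℤ) - 1) = 0 := by
    have h1 : (L.rl (TT X (-(r : ℤ) - 1)) (TT Y (-(r : ℤ) - 1))).toReal = 0 := by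
      rw [hT']
      refine Finset.sum_eq_zero fun i _ => hA _ _ (Or.inr ?_)
      omega
    have h2 := hsplit' (-(r : ℤ) - 1)
    have h3 := hβ0 (-(r : ℤ) - 1)
    have h4 := hH0 (-(r : ℤ) - 1)
    have h5 := hβ0 (-(r : ℤ) - 1 - 1)
    linarith
  have b2 : β n = 0 := by
    have h1 : (L.rl (TT X ((n : ℤ) + 1)) (TT Y ((n : ℤ) + 1))).toReal = 0 := by
      rw [hT']
      refine Finset.sum_eq_zero fun i hi => hA _ _ (Or.inl ?_)
      rw [Finset.mem_range] at hi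
      omega
    have h2 := hsplit' ((n : ℤ) + 1)
    rw [add_sub_cancel_right] at h2
    have h3 := hβ0 ((n : ℤ) + 1)
    have h4 := hH0 ((n : ℤ) + 1)
    have h5 := hβ0 (n : ℤ)
    linarith
  rw [hS]
  have key : ∀ k ∈ Finset.range (n + r + 1), (-1 : ℝ) ^ ((k : ℤ) - r) *
        (L.rl (TT X ((k : ℤ) - r)) (TT Y ((k : ℤ) - r))).toReal =
      (-1 : ℝ) ^ ((k : ℤ) - r) * H ((k : ℤ) - r) +
      ((-1 : ℝ) ^ (((k + 1 : ℕ) : ℤ) - r - 1) * β (((k + 1 : ℕ) : ℤ) - r - 1) -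
        (-1 : ℝ) ^ ((k : ℤ) - r - 1) * β ((k : ℤ) - r - 1)) := by
    intro k _
    have e1 : ((k + 1 : ℕ) : ℤ) - r - 1 = (k : ℤ) - r := by push_cast; ring
    rw [hsplit', e1, zpow_sub_one₀ (by norm_num : (-1 : ℝ) ≠ 0)]
    norm_num
    ring
  rw [Finset.sum_congr rfl key, Finset.sum_add_distrib,
    Finset.sum_range_sub (fun k : ℕ => (-1 : ℝ) ^ ((k : ℤ) - r - 1) * β ((k : ℤ) - r - 1))]
  have e1 : ((n + r + 1 : ℕ) : ℤ) - r - 1 = n := by push_cast; ring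
  have e2 : ((0 : ℕ) : ℤ) - r - 1 = -(r : ℤ) - 1 := by push_cast; ring
  rw [e1, e2, b1, b2, mul_zero, mul_zero, sub_zero, add_zero]
  refine Finset.sum_nonneg fun k _ => ?_
  by_cases hk : (k : ℤ) - r = 0
  · rw [hk, zpow_zero, one_mul]
    exact hH0 0
  · have : H ((k : ℤ) - r) = 0 := by
      rw [hH]
      simp only
      rw [hnull _ hk, ENNReal.toReal_zero]
    rw [this, mul_zero]

end Tot

end Vale.Agent.P202.Mix
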