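import Vale.Agent.P202.Mix.LenBasic
import Vale.Agent.P202.Mix.LenLes
import Vale.Agent.P202.Mix.LenTot
import Vale.Agent.P202.Mix.LenEuler
import Vale.Agent.P202.Mix.KzLen
import Vale.Agent.P202.Mix.CellOps
import Vale.Agent.P202.Mix.CellStab
import Vale.Agent.P202.Mix.CellCount
import Vale.Agent.P202.Mix.CellLen
import Vale.Agent.P202.Mix.CellYF
import Vale.Agent.P202.Mix.RepLen
import Vale.Agent.P202.Mix.WinCx
import Vale.Agent.P202.Mix.WinZ
import Vale.Agent.P202.Mix.GeoArith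
import Vale.Agent.P202.Mix.HomZ

/-!
P202-MIX, part GEO: the core inequality for additive lengths (assembly).
-/

namespace Vale.Agent.P202.Mix

open Vale.Agent.P202.CharP
open scoped ENNReal

universe u

section Core

variable {R : Type u} [CommRing R] (L : AddLen R) {r q : ℕ} {Q : Type u} [AddCommGroup Q]
  [Module R Q] {x : Fin (r + 1) → R}

theorem core_len_mono {M : Type u} [AddCommGroup M] [Module R M] (X : Submodule R M) :
    L.len X ≤ L.len M := by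
  rw [len_sub_quot L X]
  exact le_self_add

theorem core_rl_le {M : Type u} [AddCommGroup M] [Module R M] (X Y : Submodule R M) :
    L.rl X Y ≤ L.len M :=
  (rl_anti_left L bot_le).trans ((rl_bot L Y).le.trans (core_len_mono L Y))

theorem core_xp_top {ν : ℤ} (h : ν ≤ 0) : xpw Q x ν = ⊤ := by
  rw [xpw, Int.toNat_of_nonpos h, pow_zero, Ideal.one_eq_top, Submodule.top_smul]

theorem core_xp_bot {N : ℕ} (hN : xpw Q x N = ⊥) {ν : ℤ} (h : (N : ℤ) ≤ ν) : xpw Q x ν = ⊥ := by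
  rw [eq_bot_iff, ← hN, xpw, xpw, Int.toNat_natCast]
  exact Submodule.smul_mono_left (Ideal.pow_le_pow_right (by omega))

theorem core_tele (f : ℤ → ℝ) (a : ℤ) (k : ℕ) :
    ∑ j ∈ Finset.Ico a (a + k), (f (j + 1) - f j) = f (a + k) - f a := by
  induction k with
  | zero => simp
  | succ k ih =>
    have h1 : Finset.Ico a (a + ((k + 1 : ℕ) : ℤ)) = insert (a + k) (Finset.Ico a (a + k)) := by
      ext j
      simp only [Finset.mem_Ico, Finset.mem_insert]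
      push_cast
      omega
    rw [h1, Finset.sum_insert (by simp), ih]
    push_cast
    rw [← add_assoc]
    ring

theorem core_card (a : Fin r → ℤ) (B p j₀ j₁ : ℤ) :
    Fintype.card (winRep a B p j₀ j₁).ι = ncell a B p j₀ j₁ := by
  rw [ncell, ← Nat.card_coe_set_eq, Nat.card_eq_fintype_card]
  rfl

/-- homology of `Z / Y_w` in positive degrees. -/
theorem core_null_pos (hq : 1 ≤ q) (m : Fin (r + 1)) (hCL : CLnull L (r + 1) q Q x) (N : ℕ)
    (hN : xpw Q x N = ⊥) (w : ℤ) (hw : 2 * (q : ℤ) + r + 1 + N ≤ w) (B : ℤ)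
    (hB : ((r : ℤ) + 1) * q + 2 * r + 2 + N ≤ B) (hB' : ∀ l, tw r q m l ≤ B) (δ : ℤ)
    (hδ : 1 ≤ δ) :
    L.hh (totD (dK R Q r) (eK Q x)) (TT (ZF Q x (tw r q m) B q))
      (TT (YF Q x (tw r q m) B w)) δ = 0 := by
  have hdd := dK_sq (R := R) (Q := Q) (r := r)
  have hee := eK_sq (R := R) (Q := Q) x
  have hde := dK_eK (R := R) (Q := Q) x
  have hD := totD_sq (dK R Q r) (eK Q x) hdd hee hde
  have hT : ∀ {X : ℤ → ℤ → Submodule R (KV r Q)}, BStab (dK R Q r) (eK Q x) X →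
      Stab (totD (dK R Q r) (eK Q x)) (TT X) := fun {X} hX =>
    stab_TT (dK R Q r) (eK Q x) hdd hee hde X hX
  have hTT : ∀ {X Y : ℤ → ℤ → Submodule R (KV r Q)}, (∀ i p, X i p ≤ Y i p) →
      ∀ δ, TT X δ ≤ TT Y δ := fun {X Y} h δ => Submodule.pi_mono fun i _ => h i _
  have s1 := hT (bstab_YF (R := R) (Q := Q) (tw r q m) B x w)
  have s2 := hT (bstab_ZF (R := R) (Q := Q) (tw r q m) B x q)
  have s3 := hT (bstab_ZZF (R := R) (Q := Q) (tw r q m) B x q)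
  have s4 := hT (bstab_YF (R := R) (Q := Q) (tw r q m) B x (-((r : ℤ) + 1) * q))
  have i1 := hTT (YF_le_ZF (R := R) (Q := Q) (tw r q m) B x q N hN w hw)
  have i2 := hTT (ZF_le_ZZF (R := R) (Q := Q) (tw r q m) B x q)
  have i3 := hTT (ZZF_le_YF (R := R) (Q := Q) (tw r q m) B x q hq)
  have h0 : (0 : ℤ) ≤ ((r : ℤ) + 1) * q := by positivity
  have e1 : L.hh (totD (dK R Q r) (eK Q x)) (TT (ZZF Q x (tw r q m) B q))
      (TT (YF Q x (tw r q m) B w)) δ = 0 := by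
    refine le_antisymm ((hh_sub_le L _ hD _ _ _ s1 s3 s4 (fun δ => (i1 δ).trans (i2 δ)) i3 δ).trans
      ?_) bot_le
    rw [YF_acyclic L (tw r q m) B x N hN (-((r : ℤ) + 1) * q) w (by nlinarith) hB'
      (by nlinarith) δ, YF_ZZF L Q x B q hq m hCL N hN w hw hB hB' (δ + 1) (by omega), add_zero]
  refine le_antisymm ((hh_sub_le L _ hD _ _ _ s1 s2 s3 i1 i2 δ).trans ?_) bot_le
  rw [e1, ZZF_ZF L Q x B q hq m hCL N hN w hw hB hB' (δ + 1), add_zero]

/-- the lengths. -/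
theorem core_rl (hfin : L.len Q ≠ ⊤) (hq : 1 ≤ q) (hCL : CLnull L (r + 1) q Q x) (N : ℕ)
    (hN : xpw Q x N = ⊥) (w : ℤ) (hw : 2 * (q : ℤ) + r + 1 + N ≤ w) (a : Fin r → ℤ) (B : ℤ)
    (i p : ℕ) (hi : i ≤ r + 1) :
    L.rl (YF Q x a B w i p) (ZF Q x a B q i p) =
      ((r + 1).choose i : ℝ≥0∞) * ∑ j ∈ Finset.Ico ((2 - (i : ℤ)) * q) (w - i),
        (ncell a B p j (j + 1) : ℝ≥0∞) * L.rl (xpw Q x (w - i - j)) ⊤ +
      (ncell a B p ((1 - (i : ℤ)) * q) ((2 - (i : ℤ)) * q) : ℝ≥0∞) *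
        L.len ↥(kcyc (fun l => -(x l • (LinearMap.id : Q →ₗ[R] Q))) i) := by
  have hi' : (i : ℤ) ≤ r + 1 := by exact_mod_cast hi
  have hbot : ∀ g : Gz r, g.2 < (2 - (i : ℤ)) * q → xpw Q x (w - i - g.2) = ⊥ := by
    intro g hg
    refine core_xp_bot hN ?_
    have h1 : (0 : ℤ) ≤ (i : ℤ) * q := by positivity
    nlinarith
  have hcc : ∀ g : Gz r, xpw Q x (w - i - g.2) ≤ (if (2 - (i : ℤ)) * q ≤ g.2 then ⊤ else ⊥) := by
    intro g
    split_ifs with h
    · exact le_top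
    · rw [hbot g (not_le.1 h)]
  have h1 : YF Q x a B w i p ≤ KG R Q a B ((2 - (i : ℤ)) * q) i p := CF_mono a B _ _ i p hcc
  have hKG : ∀ {j j' : ℤ}, j ≤ j' → ∀ i p : ℤ, KG R Q a B j' i p ≤ KG R Q a B j i p := by
    intro j j' hj i p
    refine CF_mono a B _ _ i p fun g => ?_
    split_ifs with h1 h2
    · exact le_rfl
    · exact absurd (hj.trans h1) h2
    · exact bot_le
    · exact le_rfl
  have h2 : KG R Q a B ((2 - (i : ℤ)) * q) i p ≤ ZF Q x a B q i p := by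
    refine le_inf (hKG (by nlinarith) i p) ?_
    intro v hv
    exact (bstab_KG (R := R) (Q := Q) a B x ((2 - (i : ℤ)) * q)).he i p v hv
  rw [rl_add L h1 h2, rl_KG_ZF L Q x a B q i p]
  have hnil : (winRep a B p ((1 - (i : ℤ)) * q) ((2 - (i : ℤ)) * q)).IsNil q := by
    have h3 := (winCx_isCx (r := r) a B ((1 - (i : ℤ)) * q) q).nil p
    have h4 : (1 - (i : ℤ)) * q + q = (2 - (i : ℤ)) * q := by ring
    rw [h4] at h3
    exact h3
  rw [len_cyc_rep L Q x hfin hCL hq _ hnil i, core_card]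
  congr 1
  have h5 := rl_CF L a B (fun i g => xpw Q x (w - i - g.2))
    (fun i g => if (2 - (i : ℤ)) * q ≤ g.2 then ⊤ else ⊥) i p hcc
    (fun j => L.rl (xpw Q x (w - i - j)) (if (2 - (i : ℤ)) * q ≤ j then ⊤ else ⊥))
    (fun g => rfl) ((2 - (i : ℤ)) * q) (w - i) (fun g hg => ?_)
  · refine Eq.trans h5 ?_
    congr 1
    refine Finset.sum_congr rfl fun j hj => ?_
    rw [if_pos (Finset.mem_Ico.1 hj).1]
  · rcases hg with hg | hg
    · rw [hbot g hg, if_neg (not_le.2 hg)]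
    · have h6 : (0 : ℤ) ≤ (i : ℤ) * q := by positivity
      rw [core_xp_top (by linarith), if_pos (by nlinarith)]

/-- real version of the lengths. -/
theorem core_rl_real (hfin : L.len Q ≠ ⊤) (hq : 1 ≤ q) (hCL : CLnull L (r + 1) q Q x) (N : ℕ)
    (hN : xpw Q x N = ⊥) (w : ℤ) (hw : 2 * (q : ℤ) + r + 1 + N ≤ w) (a : Fin r → ℤ) (B : ℤ)
    (i p : ℕ) (hi : i ≤ r + 1) :
    L.rl (YF Q x a B w i p) (ZF Q x a B q i p) ≠ ⊤ ∧
    (L.rl (YF Q x a B w i p) (ZF Q x a B q i p)).toReal =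
      ((r + 1).choose i : ℝ) * ∑ j ∈ Finset.Ico ((2 - (i : ℤ)) * q) (w - i),
        (ncell a B p j (j + 1) : ℝ) * (L.rl (xpw Q x (w - i - j)) ⊤).toReal +
      (∑ j ∈ Finset.Ico ((1 - (i : ℤ)) * q) ((2 - (i : ℤ)) * q), (ncell a B p j (j + 1) : ℝ)) *
        (L.len ↥(kcyc (fun l => -(x l • (LinearMap.id : Q →ₗ[R] Q))) i)).toReal := by
  rw [core_rl L hfin hq hCL N hN w hw a B i p hi, ncell_window a B p ((1 - (i : ℤ)) * q)]
  have f1 : ∀ ν : ℤ, L.rl (xpw Q x ν) ⊤ ≠ ⊤ := fun ν => ne_top_of_le_ne_top hfin (core_rl_le L _ _)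
  have f2 : L.len ↥(kcyc (fun l => -(x l • (LinearMap.id : Q →ₗ[R] Q))) i) ≠ ⊤ := by
    refine ne_top_of_le_ne_top ?_ (core_len_mono L _)
    rw [len_pi]
    exact ENNReal.mul_ne_top (ENNReal.natCast_ne_top _) hfin
  have f3 : (∑ j ∈ Finset.Ico ((2 - (i : ℤ)) * q) (w - i),
        (ncell a B p j (j + 1) : ℝ≥0∞) * L.rl (xpw Q x (w - i - j)) ⊤) ≠ ⊤ :=
    ENNReal.sum_ne_top.2 fun j _ => ENNReal.mul_ne_top (ENNReal.natCast_ne_top _) (f1 _)
  have f4 : ((r + 1).choose i : ℝ≥0∞) * ∑ j ∈ Finset.Ico ((2 - (i : ℤ)) * q) (w - i),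
        (ncell a B p j (j + 1) : ℝ≥0∞) * L.rl (xpw Q x (w - i - j)) ⊤ ≠ ⊤ :=
    ENNReal.mul_ne_top (ENNReal.natCast_ne_top _) f3
  have f5 : ((∑ j ∈ Finset.Ico ((1 - (i : ℤ)) * q) ((2 - (i : ℤ)) * q), ncell a B p j (j + 1) :
      ℕ) : ℝ≥0∞) * L.len ↥(kcyc (fun l => -(x l • (LinearMap.id : Q →ₗ[R] Q))) i) ≠ ⊤ :=
    ENNReal.mul_ne_top (ENNReal.natCast_ne_top _) f2
  refine ⟨ENNReal.add_ne_top.2 ⟨f4, f5⟩, ?_⟩
  rw [ENNReal.toReal_add f4 f5, ENNReal.toReal_mul, ENNReal.toReal_mul, ENNReal.toReal_natCast,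
    ENNReal.toReal_natCast, ENNReal.toReal_sum fun j _ =>
      ENNReal.mul_ne_top (ENNReal.natCast_ne_top _) (f1 _)]
  push_cast
  congr 2
  refine Finset.sum_congr rfl fun j _ => ?_
  rw [ENNReal.toReal_mul, ENNReal.toReal_natCast]

/-- the Euler characteristic of one twist. -/
theorem core_euler (hfin : L.len Q ≠ ⊤) (hq : 1 ≤ q) (hCL : CLnull L (r + 1) q Q x) (N : ℕ)
    (hN : xpw Q x N = ⊥) (w : ℤ) (hw : 2 * (q : ℤ) + r + 1 + N ≤ w) (m : Fin (r + 1)) :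
    0 ≤ ∑ i ∈ Finset.range (r + 2), (-1 : ℝ) ^ i *
      ((L.len ↥(kcyc (fun l => -(x l • (LinearMap.id : Q →ₗ[R] Q))) i)).toReal *
          (∑ j ∈ Finset.Ico ((1 - (i : ℤ)) * q) ((2 - (i : ℤ)) * q),
            ∏ l, (((tw r q m l + j + 1 : ℤ)) : ℝ)) +
        ((r + 1).choose i : ℝ) * ∑ j ∈ Finset.Ico ((2 - (i : ℤ)) * q) (w - i),
          (∏ l, (((tw r q m l + j + 1 : ℤ)) : ℝ)) * (L.rl (xpw Q x (w - i - j)) ⊤).toReal) := by
  have hq' : (1 : ℤ) ≤ q := by exact_mod_cast hq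
  obtain ⟨B, hBdef⟩ : ∃ B : ℤ, B = ((r : ℤ) + 1) * q + 2 * r + 2 + N := ⟨_, rfl⟩
  have hB : ((r : ℤ) + 1) * q + 2 * r + 2 + N ≤ B := hBdef.ge
  have hB' : ∀ l, tw r q m l ≤ B := by
    intro l
    have hl : (l : ℤ) ≤ r := by exact_mod_cast l.2.le
    have hl0 : (0 : ℤ) ≤ l := by positivity
    have h1 : (l : ℤ) * q ≤ r * q := mul_le_mul_of_nonneg_right hl (by omega)
    unfold tw
    split_ifs <;> nlinarith
  have hdd := dK_sq (R := R) (Q := Q) (r := r)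
  have hee := eK_sq (R := R) (Q := Q) x
  have hde := dK_eK (R := R) (Q := Q) x
  have hle : ∀ i p : ℤ, ZF Q x (tw r q m) B q i p ≤ KG R Q (tw r q m) B ((1 - i) * q) i p :=
    fun i p => inf_le_left
  have key := euler_nonneg L (r + 1) (dK R Q r) (eK Q x) hdd hee hde r
    (YF Q x (tw r q m) B w) (ZF Q x (tw r q m) B q) (bstab_YF (tw r q m) B x w)
    (bstab_ZF (tw r q m) B x q) (YF_le_ZF (tw r q m) B x q N hN w hw)
    (fun i p h => le_bot_iff.1 ((hle i p).trans (CF_box (tw r q m) B _ i p h).le))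
    (fun i p h => le_bot_iff.1 ((hle i p).trans (CF_out (tw r q m) B _ i p h).le)) ?_ ?_
  · refine key.trans (le_of_eq ?_)
    refine Finset.sum_congr rfl fun i hi => ?_
    have hi' : i ≤ r + 1 := Nat.lt_succ_iff.1 (Finset.mem_range.1 hi)
    have hi'' : (i : ℤ) ≤ r + 1 := by exact_mod_cast hi'
    have hcast : ∀ j : ℤ, (1 - (i : ℤ)) * q ≤ j →
        ∑ p ∈ Finset.range (r + 1), (-1 : ℝ) ^ p * (ncell (tw r q m) B p j (j + 1) : ℝ) =
          ∏ l, (((tw r q m l + j + 1 : ℤ)) : ℝ) := by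
      intro j hj
      have h1 := ncell_euler (tw r q m) B j hB' (by nlinarith)
      have h2 := congrArg (Int.cast : ℤ → ℝ) h1
      push_cast at h2 ⊢
      exact h2
    have h1 : ∀ p ∈ Finset.range (r + 1), (-1 : ℝ) ^ (i + p) *
        (L.rl (YF Q x (tw r q m) B w i p) (ZF Q x (tw r q m) B q i p)).toReal =
        (-1 : ℝ) ^ i * ((L.len ↥(kcyc (fun l => -(x l • (LinearMap.id : Q →ₗ[R] Q))) i)).toReal *
          (∑ j ∈ Finset.Ico ((1 - (i : ℤ)) * q) ((2 - (i : ℤ)) * q),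
            (-1 : ℝ) ^ p * (ncell (tw r q m) B p j (j + 1) : ℝ)) +
        ((r + 1).choose i : ℝ) * ∑ j ∈ Finset.Ico ((2 - (i : ℤ)) * q) (w - i),
          ((-1 : ℝ) ^ p * (ncell (tw r q m) B p j (j + 1) : ℝ)) *
            (L.rl (xpw Q x (w - i - j)) ⊤).toReal) := by
      intro p _
      rw [(core_rl_real L hfin hq hCL N hN w hw (tw r q m) B i p hi').2, pow_add,
        ← Finset.mul_sum]
      simp only [mul_assoc]
      rw [← Finset.mul_sum]
      ring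
    rw [Finset.sum_congr rfl h1, ← Finset.mul_sum, Finset.sum_add_distrib, ← Finset.mul_sum,
      ← Finset.mul_sum, Finset.sum_comm]
    congr 3
    · refine Finset.sum_congr rfl fun j hj => ?_
      exact hcast j (Finset.mem_Ico.1 hj).1
    · rw [Finset.sum_comm]
      refine Finset.sum_congr rfl fun j hj => ?_
      rw [← Finset.sum_mul, hcast j (le_trans (by nlinarith) (Finset.mem_Ico.1 hj).1)]
  · intro i p
    by_cases hi : i < 0 ∨ ((r + 1 : ℕ) : ℤ) < i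
    · have h1 : ZF Q x (tw r q m) B q i p = ⊥ :=
        le_bot_iff.1 ((hle i p).trans (CF_box (tw r q m) B _ i p hi).le)
      rw [h1, rl_eq_zero_of_le L bot_le]
      exact ENNReal.zero_ne_top
    by_cases hp : p < 0 ∨ (r : ℤ) < p
    · have h1 : ZF Q x (tw r q m) B q i p = ⊥ :=
        le_bot_iff.1 ((hle i p).trans (CF_out (tw r q m) B _ i p hp).le)
      rw [h1, rl_eq_zero_of_le L bot_le]
      exact ENNReal.zero_ne_top
    push Not at hi hp
    obtain ⟨i, rfl⟩ := Int.eq_ofNat_of_zero_le hi.1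
    obtain ⟨p, rfl⟩ := Int.eq_ofNat_of_zero_le hp.1
    exact (core_rl_real L hfin hq hCL N hN w hw (tw r q m) B i p (by exact_mod_cast hi.2)).1
  · intro δ hδ
    rcases lt_or_gt_of_ne hδ with h | h
    · exact ZF_YF_neg L Q x B q hq m hCL N hN w hw hB hB' δ h
    · exact core_null_pos L hq m hCL N hN w hw B hB hB' δ h

end Core

/-- **The core inequality.** -/
theorem core_len {R : Type u} [CommRing R] (L : AddLen R) (r q : ℕ) (hq : 1 ≤ q) (Q : Type u)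
    [AddCommGroup Q] [Module R Q] (hfin : L.len Q ≠ ⊤) (x : Fin (r + 1) → R)
    (hx : ∃ N : ℕ, Ideal.span (Set.range x) ^ N • (⊤ : Submodule R Q) = ⊥)
    (hCL : CLnull L (r + 1) q Q x) :
    (q : ℝ≥0∞) ^ (r + 1) * L.len (Q ⧸ (Ideal.span (Set.range x) • (⊤ : Submodule R Q))) ≤
      L.len Q := by
  obtain ⟨N, hN'⟩ := hx
  have hN : xpw Q x (N : ℤ) = ⊥ := by rw [xpw, Int.toNat_natCast]; exact hN'
  obtain ⟨w, hwdef⟩ : ∃ w : ℤ, w = 2 * (q : ℤ) + r + 1 + N := ⟨_, rfl⟩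
  have hw : 2 * (q : ℤ) + r + 1 + N ≤ w := hwdef.ge
  have fQ : ∀ X : Submodule R Q, L.len (Q ⧸ X) ≠ ⊤ := fun X =>
    ne_top_of_le_ne_top hfin (by rw [len_sub_quot L X]; exact le_add_self)
  have fκ : ∀ i, L.len ↥(kcyc (fun l => -(x l • (LinearMap.id : Q →ₗ[R] Q))) i) ≠ ⊤ := by
    intro i
    refine ne_top_of_le_ne_top ?_ (core_len_mono L _)
    rw [len_pi]
    exact ENNReal.mul_ne_top (ENNReal.natCast_ne_top _) hfin
  have h0 := Finset.sum_nonneg fun (m : Fin (r + 1)) (_ : m ∈ Finset.univ) =>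
    core_euler L hfin hq hCL N hN w hw m
  rw [Finset.sum_comm] at h0
  have h1 := arith r q hq (L.len Q).toReal
    (L.len (Q ⧸ (Ideal.span (Set.range x) • (⊤ : Submodule R Q)))).toReal
    (fun i => (L.len ↥(kcyc (fun l => -(x l • (LinearMap.id : Q →ₗ[R] Q))) (i : ℤ))).toReal)
    ?_ ?_ (fun ν => (L.rl (xpw Q x ν) ⊤).toReal) ?_ N ?_ w hw
  · have h2 : (0 : ℝ) ≤ ((r + 1).factorial : ℝ) * ((L.len Q).toReal - (q : ℝ) ^ (r + 1) *
        (L.len (Q ⧸ (Ideal.span (Set.range x) • (⊤ : Submodule R Q)))).toReal) := by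
      rw [← h1]
      refine h0.trans (le_of_eq ?_)
      refine Finset.sum_congr rfl fun i hi => ?_
      rw [← Finset.mul_sum, Finset.sum_add_distrib, ← Finset.mul_sum, ← Finset.mul_sum]
      congr 3
      · rw [Finset.sum_comm]
        rw [Finset.sum_congr rfl fun j _ => sum_tw r q j]
        have h5 := core_tele (ff r q) ((1 - (i : ℤ)) * q) q
        rw [show (1 - (i : ℤ)) * q + q = (2 - (i : ℤ)) * q by ring] at h5
        exact h5
      · rw [Finset.sum_comm]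
        refine Finset.sum_congr rfl fun j _ => ?_
        rw [← Finset.sum_mul, sum_tw]
    have h3 : (0 : ℝ) < ((r + 1).factorial : ℝ) := by positivity
    have h4 := (mul_nonneg_iff_of_pos_left h3).1 h2
    rw [← ENNReal.toReal_le_toReal (ENNReal.mul_ne_top (ENNReal.pow_ne_top
      (ENNReal.natCast_ne_top _)) (fQ _)) hfin, ENNReal.toReal_mul, ENNReal.toReal_pow,
      ENNReal.toReal_natCast]
    linarith
  · show (L.len ↥(kcyc (fun l => -(x l • (LinearMap.id : Q →ₗ[R] Q))) ((0 : ℕ) : ℤ))).toReal = _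
    rw [Nat.cast_zero, len_cyc_zero]
  · have h2 := len_cyc_one L (V := Q) x
    have h3 := congrArg ENNReal.toReal h2
    rw [ENNReal.toReal_add (fκ 1) hfin, ENNReal.toReal_add (ENNReal.mul_ne_top
      (ENNReal.natCast_ne_top _) hfin) (fQ _), ENNReal.toReal_mul, ENNReal.toReal_natCast] at h3
    show (L.len ↥(kcyc (fun l => -(x l • (LinearMap.id : Q →ₗ[R] Q))) ((1 : ℕ) : ℤ))).toReal = _
    push_cast at h3 ⊢
    linarith
  · intro ν hν
    show (L.rl (xpw Q x ν) ⊤).toReal = 0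
    rw [core_xp_top hν, rl_eq_zero_of_le L le_rfl, ENNReal.toReal_zero]
  · intro ν hν
    show (L.rl (xpw Q x ν) ⊤).toReal = _
    rw [core_xp_bot hN hν, rl_bot]
    congr 1
    exact len_congr L Submodule.topEquiv

end Vale.Agent.P202.Mix
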