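import Vale.Agent.P202.Mix.HonDefs
import Vale.Agent.P202.Mix.LenBasic

/-!
P202-MIX, HON-8: ultralimits of additive lengths.
-/

namespace Vale.Agent.P202.Mix

open Vale.Agent.P202.CharP
open scoped ENNReal Topology

universe u

section UltraAux

variable (R : ℕ → Type u) [∀ e, CommRing (R e)]

/-- the idempotent of the `e`-th factor. -/
def ultraId (e : ℕ) : ∀ e, R e := Pi.single e 1

/-- the `e`-th component of a module over the product ring. -/
def ultraSub (e : ℕ) (M : Type u) [AddCommGroup M] [Module (∀ e, R e) M] : AddSubgroup M where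
  carrier := {m | ultraId R e • m = m}
  add_mem' := by
    intro a b ha hb
    show ultraId R e • (a + b) = a + b
    rw [smul_add]
    exact congrArg₂ _ ha hb
  zero_mem' := by simp
  neg_mem' := by
    intro a ha
    show ultraId R e • (-a) = -a
    rw [smul_neg]
    exact congrArg _ ha

/-- the `e`-th component, as a type. -/
def UltraT (e : ℕ) (M : Type u) [AddCommGroup M] [Module (∀ e, R e) M] : Type u :=
  ↥(ultraSub R e M)

variable (e : ℕ) (M : Type u) [AddCommGroup M] [Module (∀ e, R e) M]

instance : AddCommGroup (UltraT R e M) := inferInstanceAs (AddCommGroup ↥(ultraSub R e M))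

theorem ultra_mul (e : ℕ) (r : R e) : ultraId R e * Pi.single e r = Pi.single e r := by
  unfold ultraId
  rw [← Pi.single_mul, one_mul]

instance : SMul (R e) (UltraT R e M) where
  smul r m := ⟨(Pi.single e r : ∀ e, R e) • (m : ↥(ultraSub R e M)).1, by
    show ultraId R e • _ = _
    rw [smul_smul, ultra_mul]⟩

theorem ultra_smul_val (r : R e) (m : UltraT R e M) :
    (r • m : UltraT R e M).1 = (Pi.single e r : ∀ e, R e) • m.1 := rfl

instance : Module (R e) (UltraT R e M) where
  one_smul m := Subtype.ext (by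
    rw [ultra_smul_val]
    exact m.2)
  mul_smul a b m := Subtype.ext (by
    rw [ultra_smul_val, ultra_smul_val, ultra_smul_val, smul_smul, ← Pi.single_mul])
  smul_zero a := Subtype.ext (by
    rw [ultra_smul_val]
    exact smul_zero _)
  smul_add a m n := Subtype.ext (by
    rw [ultra_smul_val]
    show _ • (m.1 + n.1) = _ • m.1 + _ • n.1
    rw [smul_add])
  add_smul a b m := Subtype.ext (by
    rw [ultra_smul_val]
    show _ = (Pi.single e a : ∀ e, R e) • m.1 + (Pi.single e b : ∀ e, R e) • m.1
    rw [Pi.single_add, add_smul])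
  zero_smul m := Subtype.ext (by
    rw [ultra_smul_val, Pi.single_zero, zero_smul]
    rfl)

variable {M} {N : Type u} [AddCommGroup N] [Module (∀ e, R e) N]

/-- functoriality. -/
def ultraMap (f : M →ₗ[∀ e, R e] N) : UltraT R e M →ₗ[R e] UltraT R e N where
  toFun m := ⟨f m.1, by
    show ultraId R e • f m.1 = f m.1
    rw [← map_smul]
    congr 1
    exact m.2⟩
  map_add' m n := Subtype.ext (by
    show f (m.1 + n.1) = f m.1 + f n.1
    rw [map_add])
  map_smul' r m := Subtype.ext (by
    show f (r • m).1 = (Pi.single e r : ∀ e, R e) • f m.1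
    rw [ultra_smul_val, map_smul])

theorem ultraMap_val (f : M →ₗ[∀ e, R e] N) (m : UltraT R e M) : (ultraMap R e f m).1 = f m.1 :=
  rfl

/-- projection to a component. -/
def ultraPr (m : M) : UltraT R e M := ⟨ultraId R e • m, by
  show ultraId R e • _ = _
  rw [smul_smul]
  exact congrArg (fun t : ∀ e, R e => t • m) (ultra_mul R e 1)⟩

theorem ultraMap_inj (f : M →ₗ[∀ e, R e] N) (hf : Function.Injective f) :
    Function.Injective (ultraMap R e f) := by
  intro a b h
  have h1 := congrArg Subtype.val h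
  rw [ultraMap_val, ultraMap_val] at h1
  exact Subtype.ext (hf h1)

theorem ultraMap_surj (f : M →ₗ[∀ e, R e] N) (hf : Function.Surjective f) :
    Function.Surjective (ultraMap R e f) := by
  intro b
  obtain ⟨a, ha⟩ := hf b.1
  refine ⟨ultraPr R e a, Subtype.ext ?_⟩
  rw [ultraMap_val]
  show f (ultraId R e • a) = b.1
  rw [map_smul, ha]
  exact b.2

theorem ultraMap_exact {K : Type u} [AddCommGroup K] [Module (∀ e, R e) K]
    (f : M →ₗ[∀ e, R e] N) (g : N →ₗ[∀ e, R e] K) (h : Function.Exact f g) :
    Function.Exact (ultraMap R e f) (ultraMap R e g) := by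
  intro b
  constructor
  · intro hb
    have h1 : g b.1 = 0 := by
      have := congrArg Subtype.val hb
      exact this
    obtain ⟨a, ha⟩ := (h b.1).1 h1
    refine ⟨ultraPr R e a, Subtype.ext ?_⟩
    rw [ultraMap_val]
    show f (ultraId R e • a) = b.1
    rw [map_smul, ha]
    exact b.2
  · rintro ⟨a, rfl⟩
    refine Subtype.ext ?_
    rw [ultraMap_val, ultraMap_val]
    exact (h _).2 ⟨_, rfl⟩

/-- the components of a product module. -/
def ultraPi (X : ℕ → Type u) [∀ e, AddCommGroup (X e)] [∀ e, Module (R e) (X e)] :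
    UltraT R e (∀ e, X e) ≃ₗ[R e] X e where
  toFun m := m.1 e
  invFun x := ⟨Pi.single e x, by
    show ultraId R e • (Pi.single e x : ∀ e, X e) = Pi.single e x
    ext i
    rw [Pi.smul_apply']
    by_cases h : i = e
    · subst h
      rw [ultraId, Pi.single_eq_same, Pi.single_eq_same, one_smul]
    · rw [Pi.single_eq_of_ne h, smul_zero]⟩
  left_inv m := by
    refine Subtype.ext ?_
    have hm : ultraId R e • m.1 = m.1 := m.2
    ext i
    show (Pi.single e (m.1 e) : ∀ e, X e) i = m.1 i
    by_cases h : i = e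
    · subst h
      rw [Pi.single_eq_same]
    · rw [Pi.single_eq_of_ne h, ← hm, Pi.smul_apply', ultraId, Pi.single_eq_of_ne h, zero_smul]
  right_inv x := by
    show (Pi.single e x : ∀ e, X e) e = x
    rw [Pi.single_eq_same]
  map_add' m n := rfl
  map_smul' r m := by
    show (r • m).1 e = r • m.1 e
    rw [ultra_smul_val, Pi.smul_apply', Pi.single_eq_same]

/-- the limit. -/
noncomputable def ultraLen (U : Ultrafilter ℕ) (L : ∀ e, AddLen (R e)) (ρ : ℕ → ℝ≥0∞)
    (M : Type u) [AddCommGroup M] [Module (∀ e, R e) M] : ℝ≥0∞ :=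
  (U.map fun e => (L e).len (UltraT R e M) / ρ e).lim

theorem ultraLen_tendsto (U : Ultrafilter ℕ) (L : ∀ e, AddLen (R e)) (ρ : ℕ → ℝ≥0∞)
    (M : Type u) [AddCommGroup M] [Module (∀ e, R e) M] :
    Filter.Tendsto (fun e => (L e).len (UltraT R e M) / ρ e) U (𝓝 (ultraLen R U L ρ M)) :=
  (U.map fun e => (L e).len (UltraT R e M) / ρ e).le_nhds_lim

theorem exists_ultra (U : Ultrafilter ℕ) (L : ∀ e, AddLen (R e)) (ρ : ℕ → ℝ≥0∞) :
    ∃ LU : AddLen (∀ e, R e), ∀ (X : ℕ → Type u) [∀ e, AddCommGroup (X e)]
      [∀ e, Module (R e) (X e)],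
      Filter.Tendsto (fun e => (L e).len (X e) / ρ e) U (𝓝 (LU.len (∀ e, X e))) := by
  refine ⟨⟨fun M _ _ => ultraLen R U L ρ M, ?_, ?_⟩, ?_⟩
  · refine tendsto_nhds_unique (ultraLen_tendsto R U L ρ PUnit.{u + 1}) ?_
    have h : (fun e => (L e).len (UltraT R e PUnit.{u + 1}) / ρ e) = fun _ => 0 := by
      funext e
      have hs : Subsingleton (UltraT R e PUnit.{u + 1}) :=
        ⟨fun a b => Subtype.ext (Subsingleton.elim _ _)⟩
      rw [len_subsingleton_aux (L e), ENNReal.zero_div]
    rw [h]
    exact tendsto_const_nhds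
  · intro M N K _ _ _ _ _ _ f g hf hg hfg
    refine tendsto_nhds_unique (ultraLen_tendsto R U L ρ N) ?_
    have h : (fun e => (L e).len (UltraT R e N) / ρ e) =
        fun e => (L e).len (UltraT R e M) / ρ e + (L e).len (UltraT R e K) / ρ e := by
      funext e
      rw [(L e).add (ultraMap R e f) (ultraMap R e g) (ultraMap_inj R e f hf)
        (ultraMap_surj R e g hg) (ultraMap_exact R e f g hfg), ENNReal.add_div]
    rw [h]
    exact (ultraLen_tendsto R U L ρ M).add (ultraLen_tendsto R U L ρ K)
  · intro X _ _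
    have h := ultraLen_tendsto R U L ρ (∀ e, X e)
    have h2 : (fun e => (L e).len (UltraT R e (∀ e, X e)) / ρ e) =
        fun e => (L e).len (X e) / ρ e := by
      funext e
      rw [len_congr (L e) (ultraPi R e X)]
    rw [h2] at h
    exact h

end UltraAux

end Vale.Agent.P202.Mix
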