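import Vale.Agent.P202.Mix.GeoHonA
import Vale.Agent.P202.Mix.Hon
import Vale.Agent.P202.Mix.Ultra
import Vale.Agent.P202.Mix.GeoCore

/-!
P202-MIX, TASK HON-9: the limit inequality.
-/

namespace Vale.Agent.P202.Mix

open Vale.Agent.P202.CharP
open scoped ENNReal Topology

universe u

theorem geo_hon (R : ℕ → Type u) [∀ e, CommRing (R e)] (X : ℕ → Type u) [∀ e, AddCommGroup (X e)]
    [∀ e, Module (R e) (X e)] (p : ℕ) {r : ℕ} (h : ∀ e, R e) (v y z : ∀ e, Fin (r + 1) → R e)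
    (w : ℕ) (hw : 1 ≤ w) (H : HonData R X p h v y z w)
    (hnil : ∃ N : ℕ, ∀ e, Ideal.span (Set.range (z e)) ^ N • (⊤ : Submodule (R e) (X e)) ≤
      ys (X e) (y e))
    (L : ∀ e, AddLen (R e)) (ρ : ℕ → ℝ≥0∞) (hρ0 : ∀ e, ρ e ≠ 0) (hρ : ∀ e, ρ e ≠ ⊤)
    (hfin : ∃ C : ℝ≥0∞, C ≠ ⊤ ∧ ∀ e, (L e).len (QQ R X y e) ≤ C * ρ e)
    (hsmall : ∀ c : ℕ, Filter.Tendsto (fun e => (L e).len
      (QQ R X y e ⧸ LinearMap.range (h e ^ c • (LinearMap.id : QQ R X y e →ₗ[R e] QQ R X y e))) /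
        ρ e) Filter.atTop (𝓝 0))
    (ε : ℝ≥0∞) (hε : ε ≠ 0) :
    ∀ᶠ e in Filter.atTop, (w : ℝ≥0∞) ^ (r + 1) * (L e).len
        (QQ R X y e ⧸ ys (QQ R X y e) (z e)) ≤ (L e).len (QQ R X y e) + ε * ρ e := by
  obtain ⟨N, hN⟩ := hnil
  refine geo_hon_of R (fun e => QQ R X y e) h z w ⟨N, fun e => ?_⟩ L ρ hρ0 hρ hfin hsmall ε hε
    (fun W W' hW hW' f i => hon R X p h v y z w H W W' hW hW' f i)
    (fun U => exists_ultra R U L ρ)
    (fun LU hLU x hx hCL => core_len LU r w hw (∀ e, QQ R X y e) hLU x hx hCL)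
  have h1 := Submodule.map_mono (f := (ys (X e) (y e)).mkQ) (hN e)
  rw [Submodule.map_smul'', Submodule.map_top, Submodule.range_mkQ, Submodule.mkQ_map_self] at h1
  exact le_bot_iff.mp h1

end Vale.Agent.P202.Mix
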