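import Vale.Agent.P202.Mix.LenBasic
import Vale.Agent.P202.Mix.HonDefs

/-!
P202-MIX, TASK HON-9, auxiliary part: cokernels of products, and the limit inequality with the
three inputs as hypotheses.
-/

namespace Vale.Agent.P202.Mix

open Vale.Agent.P202.CharP
open scoped ENNReal Topology

universe u

section GHFinite

variable {R : Type u} [CommRing R] (L : AddLen R) {M N : Type u} [AddCommGroup M] [Module R M]
  [AddCommGroup N] [Module R N]

theorem gh_len_le_inj (f : M →ₗ[R] N) (hf : Function.Injective f) : L.len M ≤ L.len N := by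
  have h1 := len_congr L (LinearEquiv.ofInjective f hf)
  rw [h1, len_sub_quot L (LinearMap.range f)]
  exact le_self_add

theorem gh_len_le_surj (f : M →ₗ[R] N) (hf : Function.Surjective f) : L.len N ≤ L.len M := by
  have h1 := len_congr L (f.quotKerEquivOfSurjective hf)
  rw [← h1, len_sub_quot L (LinearMap.ker f)]
  exact le_add_self

theorem gh_len_quot_range (g : M →ₗ[R] M) (hM : L.len M ≠ ⊤) :
    L.len (M ⧸ LinearMap.range g) = L.len ↥(LinearMap.ker g) := by
  have h1 := len_sub_quot L (LinearMap.ker g)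
  have h2 := len_sub_quot L (LinearMap.range g)
  have h3 := len_congr L g.quotKerEquivRange
  rw [h3] at h1
  have h4 : L.len ↥(LinearMap.range g) ≠ ⊤ := by
    intro h
    rw [h, top_add] at h2
    exact hM h2
  have h5 : L.len ↥(LinearMap.range g) + L.len (M ⧸ LinearMap.range g) =
      L.len ↥(LinearMap.range g) + L.len ↥(LinearMap.ker g) := by
    rw [← h2, h1, add_comm]
  exact (ENNReal.add_right_inj h4).mp h5

/-- if `a Y ⊆ X`, `Y ⊆ Q^m`, the length of `Y / (X ∩ Y)` is at most `m` times that of `Q / a`. -/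
theorem gh_coker_le {α β : Type} [Fintype α] [Fintype β] {Q : Type u} [AddCommGroup Q]
    [Module R Q] (hQ : L.len Q ≠ ⊤) (a : R) (X Y : Submodule R (α → β → Q))
    (h : ∀ y ∈ Y, a • y ∈ X) :
    L.rl X Y ≤ (Fintype.card α * Fintype.card β : ℕ) *
      L.len (Q ⧸ LinearMap.range (a • (LinearMap.id : Q →ₗ[R] Q))) := by
  have hfun : L.len (α → β → Q) = Fintype.card α * (Fintype.card β * L.len Q) := by
    rw [len_pi L α, len_pi L β]
  have hfin : L.len (α → β → Q) ≠ ⊤ := by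
    rw [hfun]
    exact ENNReal.mul_ne_top (ENNReal.natCast_ne_top _)
      (ENNReal.mul_ne_top (ENNReal.natCast_ne_top _) hQ)
  have hY : L.len ↥Y ≠ ⊤ :=
    ne_top_of_le_ne_top hfin (gh_len_le_inj L Y.subtype Y.injective_subtype)
  let g : ↥Y →ₗ[R] ↥Y := a • LinearMap.id
  have s1 : L.rl X Y ≤ L.len (↥Y ⧸ LinearMap.range g) := by
    have hle : LinearMap.range g ≤ X.submoduleOf Y := by
      rintro _ ⟨y, rfl⟩
      exact h y.1 y.2
    exact gh_len_le_surj L (Submodule.factor hle) (Submodule.factor_surjective hle)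
  rw [gh_len_quot_range L g hY] at s1
  refine s1.trans ?_
  rw [gh_len_quot_range L _ hQ]
  have s2 : L.len ↥(LinearMap.ker g) ≤
      L.len (α → β → ↥(LinearMap.ker (a • (LinearMap.id : Q →ₗ[R] Q)))) := by
    let F : ↥(LinearMap.ker g) →ₗ[R] (α → β → ↥(LinearMap.ker (a • (LinearMap.id : Q →ₗ[R] Q)))) :=
      { toFun := fun y i j => ⟨y.1.1 i j, by
          have h1 : a • y.1 = 0 := y.2
          have h2 : a • y.1.1 = 0 := congrArg Subtype.val h1
          have h3 : (a • y.1.1) i j = 0 := by rw [h2]; rfl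
          exact h3⟩
        map_add' := fun _ _ => rfl
        map_smul' := fun _ _ => rfl }
    refine gh_len_le_inj L F ?_
    intro y y' hyy
    apply Subtype.ext
    apply Subtype.ext
    funext i j
    exact congrArg Subtype.val (congrFun (congrFun hyy i) j)
  refine s2.trans (le_of_eq ?_)
  rw [len_pi L α, len_pi L β]
  push_cast
  ring

end GHFinite

section GHProd

variable {n : ℕ}

theorem gh_mem_span_range {R : Type u} [CommRing R] {M : Type u} [AddCommGroup M] [Module R M]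
    (y : Fin n → R) (m : M) :
    m ∈ Ideal.span (Set.range y) • (⊤ : Submodule R M) ↔ ∃ c : Fin n → M, m = ∑ l, y l • c l := by
  constructor
  · intro hm
    refine Submodule.smul_induction_on hm ?_ ?_
    · intro a ha x _
      obtain ⟨c, hc⟩ := (Ideal.mem_span_range_iff_exists_fun).mp ha
      refine ⟨fun l => c l • x, ?_⟩
      rw [← hc, Finset.sum_smul]
      refine Finset.sum_congr rfl fun l _ => ?_
      rw [mul_comm, mul_smul]
    · rintro x x' ⟨c, rfl⟩ ⟨c', rfl⟩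
      refine ⟨fun l => c l + c' l, ?_⟩
      rw [← Finset.sum_add_distrib]
      exact Finset.sum_congr rfl fun l _ => (smul_add _ _ _).symm
  · rintro ⟨c, rfl⟩
    exact Submodule.sum_mem _ fun l _ =>
      Submodule.smul_mem_smul (Ideal.subset_span ⟨l, rfl⟩) trivial

variable (R : ℕ → Type u) [∀ e, CommRing (R e)] (Q : ℕ → Type u) [∀ e, AddCommGroup (Q e)]
  [∀ e, Module (R e) (Q e)] (z : ∀ e, Fin n → R e)

/-- the evaluation of a Koszul chain at `e`. -/
def ghev {α β : Type} (e : ℕ) (v : α → β → ∀ e, Q e) : α → β → Q e := fun J a => v J a e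

theorem ghev_T (W : MRep n) (l : Fin n) (f : W.ι → ∀ e, Q e) (e : ℕ) (a : W.ι) :
    W.T (∀ e, Q e) (fun l e => z e l) l f a e = W.T (Q e) (z e) l (fun b => f b e) a := by
  unfold MRep.T
  rw [LinearMap.sub_apply, LinearMap.sub_apply, Pi.sub_apply, Pi.sub_apply, Pi.sub_apply]
  congr 1
  change (∑ b, W.X l a b • f b) e = ∑ b, W.X l a b • f b e
  rw [Finset.sum_apply]
  rfl

theorem ghev_kz (W : MRep n) (v : Finset (Fin n) → W.ι → ∀ e, Q e) (e : ℕ) :
    ghev Q e (kz (W.T (∀ e, Q e) (fun l e => z e l)) v) =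
      kz (W.T (Q e) (z e)) (ghev Q e v) := by
  funext J a
  change (∑ l ∈ Jᶜ, ksg l J • W.T (∀ e, Q e) (fun l e => z e l) l (v (insert l J))) a e =
    (∑ l ∈ Jᶜ, ksg l J • W.T (Q e) (z e) l (fun b => v (insert l J) b e)) a
  rw [Finset.sum_apply, Finset.sum_apply, Finset.sum_apply]
  refine Finset.sum_congr rfl fun l _ => ?_
  rw [Pi.smul_apply, Pi.smul_apply, Pi.smul_apply, ghev_T]

omit [∀ e, AddCommGroup (Q e)] in
theorem ghev_inj {α β : Type} {v v' : α → β → ∀ e, Q e} (h : ∀ e, ghev Q e v = ghev Q e v') :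
    v = v' := by
  funext J a e
  exact congrFun (congrFun (h e) J) a

theorem ghev_mem_kgr (W : MRep n) (i : ℤ) (v : Finset (Fin n) → W.ι → ∀ e, Q e) :
    v ∈ kgr (∀ e, R e) (W.ι → ∀ e, Q e) n i ↔
      ∀ e, ghev Q e v ∈ kgr (R e) (W.ι → Q e) n i := by
  constructor
  · intro h e J hJ
    refine h J fun h0 => hJ ?_
    funext a
    change v J a e = 0
    rw [h0]
    rfl
  · intro h J hJ
    by_contra hne
    apply hJ
    funext a e
    by_contra h1
    exact hne (h e J fun h0 => h1 (congrFun h0 a))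

theorem ghev_mem_kcyc (W : MRep n) (i : ℤ) (v : Finset (Fin n) → W.ι → ∀ e, Q e) :
    v ∈ kcyc (W.T (∀ e, Q e) (fun l e => z e l)) i ↔
      ∀ e, ghev Q e v ∈ kcyc (W.T (Q e) (z e)) i := by
  unfold kcyc
  rw [Submodule.mem_inf, ghev_mem_kgr]
  constructor
  · rintro ⟨h1, h2⟩ e
    refine ⟨h1 e, ?_⟩
    rw [SetLike.mem_coe, LinearMap.mem_ker, ← ghev_kz, LinearMap.mem_ker.mp h2]
    rfl
  · intro h
    refine ⟨fun e => (h e).1, ?_⟩
    rw [LinearMap.mem_ker]
    refine ghev_inj Q fun e => ?_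
    rw [ghev_kz]
    exact LinearMap.mem_ker.mp (h e).2

theorem ghev_kmap (W W' : MRep n) (P : Matrix W'.ι W.ι ℤ)
    (v : Finset (Fin n) → W.ι → ∀ e, Q e) (e : ℕ) :
    ghev Q e (kmap n (za P (∀ e, R e) (∀ e, Q e)) v) = kmap n (za P (R e) (Q e)) (ghev Q e v) := by
  funext J a
  change (∑ b, P a b • v J b) e = ∑ b, P a b • v J b e
  rw [Finset.sum_apply]
  rfl

theorem ghev_mem_map (W W' : MRep n) (P : Matrix W'.ι W.ι ℤ) (i : ℤ)
    (v : Finset (Fin n) → W'.ι → ∀ e, Q e) :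
    v ∈ (kcyc (W.T (∀ e, Q e) (fun l e => z e l)) i).map
        (kmap n (za P (∀ e, R e) (∀ e, Q e))) ↔
      ∀ e, ghev Q e v ∈ (kcyc (W.T (Q e) (z e)) i).map (kmap n (za P (R e) (Q e))) := by
  constructor
  · rintro ⟨u, hu, rfl⟩ e
    rw [ghev_kmap]
    exact ⟨_, (ghev_mem_kcyc R Q z W i u).mp hu e, rfl⟩
  · intro h
    choose u hu hu' using h
    refine ⟨fun J a e => u e J a, ?_, ?_⟩
    · refine (ghev_mem_kcyc R Q z W i _).mpr fun e => ?_
      exact hu e
    · refine ghev_inj Q fun e => ?_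
      rw [ghev_kmap]
      exact hu' e

/-- relative length on a product. -/
theorem gh_rl_prod (LU : AddLen (∀ e, R e)) {M : Type u} [AddCommGroup M]
    [Module (∀ e, R e) M] (X Y : Submodule (∀ e, R e) M) (M' : ℕ → Type u)
    [∀ e, AddCommGroup (M' e)] [∀ e, Module (R e) (M' e)]
    (Xe Ye : ∀ e, Submodule (R e) (M' e)) (ev : ∀ e, M → M' e)
    (hadd : ∀ e x y, ev e (x + y) = ev e x + ev e y)
    (hsmul : ∀ e (c : ∀ e, R e) x, ev e (c • x) = c e • ev e x)
    (hsurj : ∀ t : ∀ e, M' e, ∃ y, ∀ e, ev e y = t e)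
    (hX : ∀ y, y ∈ X ↔ ∀ e, ev e y ∈ Xe e) (hY : ∀ y, y ∈ Y ↔ ∀ e, ev e y ∈ Ye e) :
    LU.rl X Y = LU.len (∀ e, ↥(Ye e) ⧸ (Xe e).submoduleOf (Ye e)) := by
  let F : ↥Y →ₗ[∀ e, R e] (∀ e, ↥(Ye e) ⧸ (Xe e).submoduleOf (Ye e)) :=
    { toFun := fun y e => Submodule.Quotient.mk ⟨ev e y.1, (hY y.1).mp y.2 e⟩
      map_add' := fun x y => by
        funext e
        have h : (⟨ev e (x + y).1, (hY (x + y).1).mp (x + y).2 e⟩ : ↥(Ye e)) =
            ⟨ev e x.1, (hY x.1).mp x.2 e⟩ + ⟨ev e y.1, (hY y.1).mp y.2 e⟩ :=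
          Subtype.ext (hadd e _ _)
        exact congrArg (Submodule.Quotient.mk (p := (Xe e).submoduleOf (Ye e))) h
      map_smul' := fun c y => by
        funext e
        have h : (⟨ev e (c • y).1, (hY (c • y).1).mp (c • y).2 e⟩ : ↥(Ye e)) =
            c e • ⟨ev e y.1, (hY y.1).mp y.2 e⟩ :=
          Subtype.ext (hsmul e c _)
        exact congrArg (Submodule.Quotient.mk (p := (Xe e).submoduleOf (Ye e))) h }
  refine rl_eq_len_aux LU F ?_ ?_
  · intro y
    choose t ht using fun e => Submodule.mkQ_surjective _ (y e)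
    obtain ⟨y0, hy0⟩ := hsurj fun e => (t e).1
    refine ⟨⟨y0, (hY y0).mpr fun e => by rw [hy0]; exact (t e).2⟩, ?_⟩
    funext e
    rw [← ht e]
    have h : (⟨ev e y0, (hY y0).mp ((hY y0).mpr fun e => by rw [hy0]; exact (t e).2) e⟩ :
        ↥(Ye e)) = t e := Subtype.ext (hy0 e)
    exact congrArg (Submodule.Quotient.mk (p := (Xe e).submoduleOf (Ye e))) h
  · ext y
    rw [LinearMap.mem_ker]
    have h2 : y ∈ X.submoduleOf Y ↔ ∀ e, ev e y.1 ∈ Xe e := hX y.1
    rw [h2]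
    constructor
    · intro h e
      have h3 := congrFun h e
      exact (Submodule.Quotient.mk_eq_zero ((Xe e).submoduleOf (Ye e))).mp h3
    · intro h
      funext e
      exact (Submodule.Quotient.mk_eq_zero ((Xe e).submoduleOf (Ye e))).mpr (h e)

/-- the cokernel on the product is the product of the cokernels. -/
theorem gh_coker (LU : AddLen (∀ e, R e)) (W W' : MRep n) (f : W.Surj W') (i : ℤ) :
    ∃ (C : ℕ → Type u) (_ : ∀ e, AddCommGroup (C e)) (_ : ∀ e, Module (R e) (C e)),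
      cokerCyc LU (∀ e, Q e) (fun l e => z e l) f i = LU.len (∀ e, C e) ∧
      ∀ e (L : AddLen (R e)), L.len (C e) = cokerCyc L (Q e) (z e) f i := by
  refine ⟨fun e => ↥(kcyc (W'.T (Q e) (z e)) i) ⧸
        ((kcyc (W.T (Q e) (z e)) i).map (kmap n (za f.P (R e) (Q e)))).submoduleOf
          (kcyc (W'.T (Q e) (z e)) i), fun e => inferInstance, fun e => inferInstance, ?_, ?_⟩
  · exact gh_rl_prod R LU _ _ (fun e => Finset (Fin n) → W'.ι → Q e)
      (fun e => (kcyc (W.T (Q e) (z e)) i).map (kmap n (za f.P (R e) (Q e))))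
      (fun e => kcyc (W'.T (Q e) (z e)) i) (fun e v => ghev Q e v) (fun _ _ _ => rfl)
      (fun _ _ _ => rfl) (fun t => ⟨fun J a e => t e J a, fun _ => rfl⟩)
      (ghev_mem_map R Q z W W' f.P i) (ghev_mem_kcyc R Q z W' i)
  · intro e L
    rfl

/-- the quotient by the sequence on the product is the product of the quotients. -/
theorem gh_quot (LU : AddLen (∀ e, R e)) :
    LU.len ((∀ e, Q e) ⧸ (Ideal.span (Set.range (fun (l : Fin n) (e : ℕ) => z e l)) •
        (⊤ : Submodule (∀ e, R e) (∀ e, Q e)))) =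
      LU.len (∀ e, Q e ⧸ (Ideal.span (Set.range (z e)) • (⊤ : Submodule (R e) (Q e)))) := by
  let F : (∀ e, Q e) →ₗ[∀ e, R e]
      (∀ e, Q e ⧸ (Ideal.span (Set.range (z e)) • (⊤ : Submodule (R e) (Q e)))) :=
    { toFun := fun y e => Submodule.Quotient.mk (y e)
      map_add' := fun _ _ => rfl
      map_smul' := fun _ _ => rfl }
  have hF : Function.Surjective F := by
    intro y
    choose t ht using fun e => Submodule.mkQ_surjective _ (y e)
    exact ⟨t, funext ht⟩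
  have hk : LinearMap.ker F = Ideal.span (Set.range (fun (l : Fin n) (e : ℕ) => z e l)) •
      (⊤ : Submodule (∀ e, R e) (∀ e, Q e)) := by
    ext y
    rw [LinearMap.mem_ker, gh_mem_span_range]
    constructor
    · intro h
      have h1 : ∀ e, ∃ c : Fin n → Q e, y e = ∑ l, z e l • c l := fun e =>
        (gh_mem_span_range (z e) (y e)).mp ((Submodule.Quotient.mk_eq_zero _).mp (congrFun h e))
      choose c hc using h1
      refine ⟨fun l e => c e l, ?_⟩
      funext e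
      rw [Finset.sum_apply, hc e]
      rfl
    · rintro ⟨c, hc⟩
      funext e
      refine (Submodule.Quotient.mk_eq_zero _).mpr ?_
      rw [gh_mem_span_range]
      refine ⟨fun l => c l e, ?_⟩
      rw [hc, Finset.sum_apply]
      rfl
  rw [← hk]
  exact len_congr LU (F.quotKerEquivOfSurjective hF)

/-- nilpotency on the product. -/
theorem gh_nil (N : ℕ)
    (h : ∀ e, Ideal.span (Set.range (z e)) ^ N • (⊤ : Submodule (R e) (Q e)) = ⊥) :
    Ideal.span (Set.range (fun (l : Fin n) (e : ℕ) => z e l)) ^ N •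
      (⊤ : Submodule (∀ e, R e) (∀ e, Q e)) = ⊥ := by
  rw [eq_bot_iff, Submodule.smul_le]
  intro a ha q _
  rw [Submodule.mem_bot]
  funext e
  have h1 : (Pi.evalRingHom R e) a ∈ Ideal.span (Set.range (z e)) ^ N := by
    have h2 := Ideal.mem_map_of_mem (Pi.evalRingHom R e) ha
    rw [Ideal.map_pow, Ideal.map_span, ← Set.range_comp] at h2
    exact h2
  have h3 : a e • q e ∈ Ideal.span (Set.range (z e)) ^ N • (⊤ : Submodule (R e) (Q e)) :=
    Submodule.smul_mem_smul h1 trivial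
  rw [h e, Submodule.mem_bot] at h3
  exact h3

end GHProd

/-- the limit inequality, with the three inputs (cycle lifting, ultralimits, core inequality) as
hypotheses. -/
theorem geo_hon_of (R : ℕ → Type u) [∀ e, CommRing (R e)] (Q : ℕ → Type u)
    [∀ e, AddCommGroup (Q e)] [∀ e, Module (R e) (Q e)] {r : ℕ} (h : ∀ e, R e)
    (z : ∀ e, Fin (r + 1) → R e) (w : ℕ)
    (hnil : ∃ N : ℕ, ∀ e, Ideal.span (Set.range (z e)) ^ N • (⊤ : Submodule (R e) (Q e)) = ⊥)
    (L : ∀ e, AddLen (R e)) (ρ : ℕ → ℝ≥0∞) (hρ0 : ∀ e, ρ e ≠ 0) (hρ : ∀ e, ρ e ≠ ⊤)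
    (hfin : ∃ C : ℝ≥0∞, C ≠ ⊤ ∧ ∀ e, (L e).len (Q e) ≤ C * ρ e)
    (hsmall : ∀ c : ℕ, Filter.Tendsto (fun e => (L e).len
      (Q e ⧸ LinearMap.range (h e ^ c • (LinearMap.id : Q e →ₗ[R e] Q e))) / ρ e)
      Filter.atTop (𝓝 0))
    (ε : ℝ≥0∞) (hε : ε ≠ 0)
    (hhon : ∀ (W W' : MRep (r + 1)), W.IsNil w → W'.IsNil w → ∀ (f : W.Surj W') (i : ℤ),
      ∃ c e₀ : ℕ, ∀ e, e₀ ≤ e → ∀ ζ ∈ kcyc (W'.T (Q e) (z e)) i,
        h e ^ c • ζ ∈ (kcyc (W.T (Q e) (z e)) i).map (kmap (r + 1) (za f.P (R e) (Q e))))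
    (hult : ∀ U : Ultrafilter ℕ, ∃ LU : AddLen (∀ e, R e), ∀ (X : ℕ → Type u)
      [∀ e, AddCommGroup (X e)] [∀ e, Module (R e) (X e)],
      Filter.Tendsto (fun e => (L e).len (X e) / ρ e) U (𝓝 (LU.len (∀ e, X e))))
    (hcore : ∀ LU : AddLen (∀ e, R e), LU.len (∀ e, Q e) ≠ ⊤ →
      ∀ x : Fin (r + 1) → (∀ e, R e),
      (∃ N : ℕ, Ideal.span (Set.range x) ^ N • (⊤ : Submodule (∀ e, R e) (∀ e, Q e)) = ⊥) →
      CLnull LU (r + 1) w (∀ e, Q e) x →
      (w : ℝ≥0∞) ^ (r + 1) * LU.len ((∀ e, Q e) ⧸ (Ideal.span (Set.range x) •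
        (⊤ : Submodule (∀ e, R e) (∀ e, Q e)))) ≤ LU.len (∀ e, Q e)) :
    ∀ᶠ e in Filter.atTop, (w : ℝ≥0∞) ^ (r + 1) * (L e).len
        (Q e ⧸ (Ideal.span (Set.range (z e)) • (⊤ : Submodule (R e) (Q e)))) ≤
      (L e).len (Q e) + ε * ρ e := by
  by_contra hcon
  rw [Filter.not_eventually] at hcon
  obtain ⟨C, hC, hfinC⟩ := hfin
  -- an ultrafilter on the bad set
  have hne := Filter.frequently_iff_neBot.mp hcon
  let U : Ultrafilter ℕ := @Ultrafilter.of ℕ _ hne
  have hU : (U : Filter ℕ) ≤ Filter.atTop ⊓ Filter.principal {x | ¬ ((w : ℝ≥0∞) ^ (r + 1) *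
      (L x).len (Q x ⧸ (Ideal.span (Set.range (z x)) • (⊤ : Submodule (R x) (Q x)))) ≤
      (L x).len (Q x) + ε * ρ x)} := @Ultrafilter.of_le ℕ _ hne
  have hU1 : (U : Filter ℕ) ≤ Filter.atTop := hU.trans inf_le_left
  have hU2 : ∀ᶠ x in (U : Filter ℕ), ¬ ((w : ℝ≥0∞) ^ (r + 1) *
      (L x).len (Q x ⧸ (Ideal.span (Set.range (z x)) • (⊤ : Submodule (R x) (Q x)))) ≤
      (L x).len (Q x) + ε * ρ x) :=
    (hU.trans inf_le_right) (Filter.mem_principal_self _)
  obtain ⟨LU, hLU⟩ := hult U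
  have hQfin : ∀ e, (L e).len (Q e) ≠ ⊤ := fun e =>
    ne_top_of_le_ne_top (ENNReal.mul_ne_top hC (hρ e)) (hfinC e)
  have hb := hLU Q
  have hbC : LU.len (∀ e, Q e) ≤ C := by
    refine le_of_tendsto hb (Filter.Eventually.of_forall fun e => ?_)
    rw [ENNReal.div_le_iff (hρ0 e) (hρ e)]
    exact hfinC e
  have hbtop : LU.len (∀ e, Q e) ≠ ⊤ := ne_top_of_le_ne_top hC hbC
  obtain ⟨N, hN⟩ := hnil
  have hCL : CLnull LU (r + 1) w (∀ e, Q e) (fun l e => z e l) := by
    intro W W' hW hW' f i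
    obtain ⟨Ck, i1, i2, hCk, hCk'⟩ := gh_coker R Q z LU W W' f i
    rw [hCk]
    have h1 := hLU Ck
    obtain ⟨c, e₀, hc⟩ := hhon W W' hW hW' f i
    set m : ℕ := Fintype.card (Finset (Fin (r + 1))) * Fintype.card W'.ι with hm
    have h2 : Filter.Tendsto (fun e => (m : ℝ≥0∞) * ((L e).len
      (Q e ⧸ LinearMap.range (h e ^ c • (LinearMap.id : Q e →ₗ[R e] Q e))) / ρ e))
      Filter.atTop (𝓝 0) := by
      have := ENNReal.Tendsto.const_mul (a := (m : ℝ≥0∞)) (hsmall c)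
        (Or.inr (ENNReal.natCast_ne_top m))
      rwa [mul_zero] at this
    have h3 : Filter.Tendsto (fun e => (L e).len (Ck e) / ρ e) Filter.atTop (𝓝 0) := by
      refine tendsto_of_tendsto_of_tendsto_of_le_of_le' tendsto_const_nhds h2
        (Filter.Eventually.of_forall fun e => zero_le) ?_
      filter_upwards [Filter.eventually_ge_atTop e₀] with e he
      rw [← mul_div_assoc]
      refine ENNReal.div_le_div_right ?_ _
      rw [hCk' e (L e)]
      exact gh_coker_le (L e) (hQfin e) (h e ^ c) _ _ (hc e he)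
    exact tendsto_nhds_unique h1 (h3.mono_left hU1)
  have hmain := hcore LU hbtop (fun l e => z e l) ⟨N, gh_nil R Q z N hN⟩ hCL
  rw [gh_quot R Q z LU] at hmain
  have ha := hLU (fun e => Q e ⧸ (Ideal.span (Set.range (z e)) • (⊤ : Submodule (R e) (Q e))))
  have ha' := ENNReal.Tendsto.const_mul (a := (w : ℝ≥0∞) ^ (r + 1)) ha
    (Or.inr (ENNReal.pow_ne_top (ENNReal.natCast_ne_top w)))
  have hb' : Filter.Tendsto (fun e => (L e).len (Q e) / ρ e + ε) U
      (𝓝 (LU.len (∀ e, Q e) + ε)) := hb.add_const ε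
  have hle := le_of_tendsto_of_tendsto hb' ha' (by
    filter_upwards [hU2] with e he
    have he' := (not_le.mp he).le
    have h4 : (L e).len (Q e) / ρ e + ε = ((L e).len (Q e) + ε * ρ e) / ρ e := by
      rw [ENNReal.add_div, mul_div_assoc, ENNReal.div_self (hρ0 e) (hρ e), mul_one]
    rw [h4, ← mul_div_assoc]
    exact ENNReal.div_le_div_right he' _)
  have h5 := hle.trans hmain
  have h6 : LU.len (∀ e, Q e) + ε ≤ LU.len (∀ e, Q e) + 0 := by rw [add_zero]; exact h5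
  have h7 := (ENNReal.add_le_add_iff_left hbtop).mp h6
  exact hε (le_antisymm h7 zero_le)

end Vale.Agent.P202.Mix
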