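import Vale.Agent.P202.Mix.HonDefs
import Vale.Agent.P202.Mix.KzBasic

/-!
P202-MIX, part HON: depth sensitivity of the Koszul complex.
-/

namespace Vale.Agent.P202.Mix

open Vale.Agent.P202.CharP
open scoped ENNReal

universe u

section HonDepth

variable {R : Type u} [CommRing R] {V : Type u} [AddCommGroup V] [Module R V] {n : ℕ}

/-- exterior multiplication with the basis vector `l`. -/
private noncomputable def hdw (l : Fin n) (c : Finset (Fin n) → V) : Finset (Fin n) → V :=
  fun J => if l ∈ J then ksg l (J.erase l) • c (J.erase l) else 0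

private theorem hdw_in {l : Fin n} {c : Finset (Fin n) → V} {J : Finset (Fin n)} (h : l ∈ J) :
    hdw l c J = ksg l (J.erase l) • c (J.erase l) := if_pos h

private theorem hdw_out {l : Fin n} {c : Finset (Fin n) → V} {J : Finset (Fin n)} (h : l ∉ J) :
    hdw l c J = 0 := if_neg h

private theorem hdw_kgr (l : Fin n) {c : Finset (Fin n) → V} {i : ℤ} (hc : c ∈ kgr R V n i) :
    hdw l c ∈ kgr R V n (i + 1) := by
  intro J hJ
  by_cases h : l ∈ J
  · have h2 : c (J.erase l) ≠ 0 := by
      intro h0
      apply hJ
      rw [hdw_in h, h0, smul_zero]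
    have h3 := hc _ h2
    rw [Finset.card_erase_of_mem h] at h3
    have h4 : 1 ≤ J.card := Finset.card_pos.mpr ⟨l, h⟩
    omega
  · exact absurd (hdw_out h) hJ

/-- the homotopy formula. -/
private theorem hdw_kz (y : Fin n → R) (l : Fin n) (c : Finset (Fin n) → V)
    (J : Finset (Fin n)) :
    kz (sop V y) (hdw l c) J = y l • c J - hdw l (kz (sop V y) c) J := by
  rw [kzb_apply]
  by_cases h : l ∈ J
  · set J' := J.erase l with hJ'
    have hJ'l : l ∉ J' := Finset.notMem_erase l J
    have hJ : insert l J' = J := Finset.insert_erase h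
    have hc : J'ᶜ = insert l Jᶜ := by
      ext k
      simp only [Finset.mem_compl, Finset.mem_insert, hJ', Finset.mem_erase]
      tauto
    have hlc : l ∉ Jᶜ := by simpa using h
    have h2 : kz (sop V y) c J' = ksg l J' • (y l • c J) +
        ∑ k ∈ Jᶜ, ksg k J' • (y k • c (insert k J')) := by
      rw [kzb_apply, hc, Finset.sum_insert hlc, hJ]
      rfl
    have h1 : ∀ k ∈ Jᶜ, ksg k J • (sop V y k) (hdw l c (insert k J)) =
        -(ksg l J' • (ksg k J' • (y k • c (insert k J')))) := by
      intro k hk
      have hk' : k ∉ J := by simpa using hk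
      have hkl : l ≠ k := fun h0 => hk' (h0 ▸ h)
      have hkJ' : k ∉ J' := fun h0 => hk' (Finset.mem_of_mem_erase h0)
      have e2 : (insert k J).erase l = insert k J' := by
        rw [hJ', Finset.erase_insert_of_ne (Ne.symm hkl)]
      rw [hdw_in (Finset.mem_insert_of_mem h), e2, map_zsmul, smul_smul, smul_smul, ← neg_smul]
      show (ksg k J * ksg l (insert k J')) • (y k • c (insert k J')) = _
      congr 1
      rw [← hJ]
      exact kzb_ksg_anti' hJ'l hkJ' hkl
    rw [Finset.sum_congr rfl h1, Finset.sum_neg_distrib, ← Finset.smul_sum, hdw_in h, ← hJ', h2,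
      smul_add, smul_smul, kzb_ksg_mul_self, one_smul]
    abel
  · rw [hdw_out h, sub_zero, Finset.sum_eq_single l]
    · rw [hdw_in (Finset.mem_insert_self l J), Finset.erase_insert h, map_zsmul, smul_smul,
        kzb_ksg_mul_self, one_smul]
      rfl
    · intro k hk hkl
      have : l ∉ insert k J := by
        simp only [Finset.mem_insert, not_or]
        exact ⟨Ne.symm hkl, h⟩
      rw [hdw_out this, map_zero, smul_zero]
    · intro h0
      exact absurd (by simpa using h) h0

private theorem hd_kz_mem (U : Submodule R V) (y : Fin n → R) (c : Finset (Fin n) → V)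
    (hc : ∀ J, c J ∈ U) (J : Finset (Fin n)) : kz (sop V y) c J ∈ U := by
  rw [kzb_apply]
  refine Submodule.sum_mem _ fun l _ => ?_
  exact U.toAddSubgroup.zsmul_mem (U.smul_mem (y l) (hc _)) _

/-- being a boundary modulo `U`. -/
private def HBd (U : Submodule R V) (y : Fin n → R) (i : ℤ) (c : Finset (Fin n) → V) : Prop :=
  ∃ b ∈ kgr R V n (i + 1), ∀ J, c J - kz (sop V y) b J ∈ U

private theorem HBd.smul {U : Submodule R V} {y : Fin n → R} {i : ℤ} {c : Finset (Fin n) → V}
    (a : R) (h : HBd U y i c) : HBd U y i (a • c) := by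
  obtain ⟨b, hb, h⟩ := h
  refine ⟨a • b, Submodule.smul_mem _ a hb, fun J => ?_⟩
  rw [map_smul, Pi.smul_apply, Pi.smul_apply, ← smul_sub]
  exact U.smul_mem a (h J)

private theorem HBd.add {U : Submodule R V} {y : Fin n → R} {i : ℤ} {c c' : Finset (Fin n) → V}
    (h : HBd U y i c) (h' : HBd U y i c') : HBd U y i (c + c') := by
  obtain ⟨b, hb, h⟩ := h
  obtain ⟨b', hb', h'⟩ := h'
  refine ⟨b + b', Submodule.add_mem _ hb hb', fun J => ?_⟩
  rw [map_add, Pi.add_apply, Pi.add_apply]
  have := U.add_mem (h J) (h' J)
  convert this using 1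
  abel

/-- elements of `(y)` kill the homology modulo `U`. -/
private theorem hd_kill (U : Submodule R V) (y : Fin n → R) (i : ℤ) (c : Finset (Fin n) → V)
    (hc : c ∈ kgr R V n i) (hz : ∀ J, kz (sop V y) c J ∈ U) (a : R)
    (ha : a ∈ Ideal.span (Set.range y)) : HBd U y i (a • c) := by
  induction ha using Submodule.span_induction with
  | mem a ha =>
    obtain ⟨l, rfl⟩ := ha
    refine ⟨hdw l c, hdw_kgr l hc, fun J => ?_⟩
    rw [hdw_kz, Pi.smul_apply, sub_sub_cancel]
    by_cases h : l ∈ J
    · rw [hdw_in h]
      exact U.toAddSubgroup.zsmul_mem (hz _) _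
    · rw [hdw_out h]
      exact U.zero_mem
  | zero =>
    rw [zero_smul]
    exact ⟨0, Submodule.zero_mem _, fun J => by simp⟩
  | add a b _ _ ha hb =>
    rw [add_smul]
    exact ha.add hb
  | smul r a _ ha =>
    rw [smul_eq_mul, mul_smul]
    exact ha.smul r

/-- the submodules generated by the first elements of the sequence. -/
private def hdU (V : Type u) [AddCommGroup V] [Module R V] (v : Fin n → R) (k : ℕ) :
    Submodule R V :=
  Ideal.span (v '' {i | i.val < k}) • (⊤ : Submodule R V)

private theorem hdU_succ (v : Fin n → R) (k : Fin n) (x : V)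
    (hx : x ∈ hdU V v (k.val + 1)) : ∃ s : V, x - v k • s ∈ hdU V v k.val := by
  have h1 : (v '' {i : Fin n | i.val < k.val + 1}) = insert (v k) (v '' {i | i.val < k.val}) := by
    rw [← Set.image_insert_eq]
    congr 1
    ext i
    simp only [Set.mem_ofPred_eq, Set.mem_insert_iff, Fin.ext_iff]
    omega
  unfold hdU at hx ⊢
  rw [h1, Ideal.span_insert, Submodule.sup_smul] at hx
  obtain ⟨a, ha, b, hb, hab⟩ := Submodule.mem_sup.mp hx
  rw [Submodule.ideal_span_singleton_smul, Submodule.mem_smul_pointwise_iff_exists] at ha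
  obtain ⟨s, _, hs⟩ := ha
  refine ⟨s, ?_⟩
  rw [hs, ← hab, add_sub_cancel_left]
  exact hb

/-- depth sensitivity, elementwise. -/
private theorem hd_main (v y : Fin n → R) (hv : WReg V v) (L : ℕ)
    (hL : ∀ k, v k ^ L ∈ Ideal.span (Set.range y)) (j k : ℕ) (hjk : j + k = n) (i : ℤ)
    (hi : (k : ℤ) < i) (c : Finset (Fin n) → V) (hc : c ∈ kgr R V n i)
    (hz : ∀ J, kz (sop V y) c J ∈ hdU V v k) : HBd (hdU V v k) y i c := by
  induction j generalizing k i c with
  | zero =>
    have h0 : c = 0 := by
      funext J
      by_contra h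
      have h1 := hc J h
      have h2 : J.card ≤ n := by simpa using Finset.card_le_univ J
      omega
    subst h0
    exact ⟨0, Submodule.zero_mem _, fun J => by simp⟩
  | succ j ih =>
    have hkn : k < n := by omega
    set kk : Fin n := ⟨k, hkn⟩ with hkk
    have hW : ∀ s : V, v kk • s ∈ hdU V v k → s ∈ hdU V v k := by
      intro s hs
      have e1 : ({i : Fin n | i.val < k} : Set (Fin n)) = Set.Iio kk := by
        ext i
        simp [Fin.lt_def, hkk]
      unfold hdU at hs ⊢
      rw [e1] at hs ⊢
      exact hv kk s hs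
    -- injectivity on homology
    have hinj : ∀ c : Finset (Fin n) → V, c ∈ kgr R V n i →
        HBd (hdU V v k) y i (v kk • c) → HBd (hdU V v k) y i c := by
      rintro c hc ⟨b, hb, hb2⟩
      have hle : hdU V v k ≤ hdU V v (k + 1) := by
        unfold hdU
        refine Submodule.smul_mono_left (Ideal.span_mono (Set.image_mono ?_))
        intro x hx
        simp only [Set.mem_ofPred_eq] at hx ⊢
        omega
      have hb3 : ∀ J, kz (sop V y) b J ∈ hdU V v (k + 1) := by
        intro J
        have h1 : kz (sop V y) b J = v kk • c J - ((v kk • c) J - kz (sop V y) b J) := by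
          rw [Pi.smul_apply]
          abel
        rw [h1]
        refine Submodule.sub_mem _ ?_ (hle (hb2 J))
        unfold hdU
        refine Submodule.smul_mem_smul (Ideal.subset_span ⟨kk, ?_, rfl⟩) Submodule.mem_top
        simp [hkk]
      obtain ⟨b', hb', hb4⟩ := ih (k + 1) (by omega) (i + 1) (by push_cast; omega) b hb hb3
      have hs : ∀ J, ∃ s : V, ((b J - kz (sop V y) b' J) - v kk • s ∈ hdU V v k) ∧
          (s ≠ 0 → (J.card : ℤ) = i + 1) := by
        intro J
        by_cases hJ : (J.card : ℤ) = i + 1
        · obtain ⟨s, hs⟩ := hdU_succ v kk _ (hb4 J)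
          exact ⟨s, hs, fun _ => hJ⟩
        · refine ⟨0, ?_, fun h => absurd rfl h⟩
          have h1 : b J = 0 := by
            by_contra h
            exact hJ (hb J h)
          have h2 : kz (sop V y) b' J = 0 := by
            by_contra h
            exact hJ (kz_kgr (sop V y) (i + 1) b' hb' J h)
          rw [h1, h2]
          simp
      choose s hs1 hs2 using hs
      refine ⟨s, fun J hJ => hs2 J hJ, fun J => hW _ ?_⟩
      have h1 : kz (sop V y) (fun J => (b J - kz (sop V y) b' J) - v kk • s J) J ∈ hdU V v k :=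
        hd_kz_mem _ y _ hs1 J
      have h2 : kz (sop V y) (fun J => (b J - kz (sop V y) b' J) - v kk • s J) =
          kz (sop V y) b - kz (sop V y) (kz (sop V y) b') - v kk • kz (sop V y) s := by
        rw [← map_sub, ← map_smul, ← map_sub]
        rfl
      rw [h2, kz_sq (sop V y) (fun k l v => smul_comm (y k) (y l) v), sub_zero] at h1
      have h3 := Submodule.add_mem _ (hb2 J) h1
      have h4 : v kk • (c J - kz (sop V y) s J) = ((v kk • c) J - kz (sop V y) b J) +
          (kz (sop V y) b - v kk • kz (sop V y) s) J := by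
        rw [smul_sub, Pi.smul_apply, Pi.sub_apply, Pi.smul_apply]
        abel
      rw [h4]
      exact h3
    have hpow : ∀ m : ℕ, HBd (hdU V v k) y i (v kk ^ m • c) → HBd (hdU V v k) y i c := by
      intro m
      induction m with
      | zero => intro h; simpa using h
      | succ m ihm =>
        intro h
        apply ihm
        apply hinj _ (Submodule.smul_mem _ _ hc)
        rw [smul_smul, ← pow_succ']
        exact h
    exact hpow L (hd_kill _ y i c hc hz _ (hL kk))

/-- powers of `v` lie in `(y)`; `v` weakly regular ⟹ the Koszul complex of `y` (same number of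
elements) is acyclic in positive degrees. -/
theorem acyc_of_wreg (v y : Fin n → R) (hv : WReg V v) (L : ℕ)
    (hL : ∀ k, v k ^ L ∈ Ideal.span (Set.range y)) : Acyc (sop V y) := by
  intro i hi c hc
  obtain ⟨hc1, hc2⟩ := hc
  have hU : hdU V v 0 = ⊥ := by
    unfold hdU
    have : ({i : Fin n | i.val < 0} : Set (Fin n)) = ∅ := by
      ext i
      simp
    rw [this, Set.image_empty, Ideal.span_empty, Submodule.bot_smul]
  have hc0 : kz (sop V y) c = 0 := hc2
  obtain ⟨b, hb, hb2⟩ := hd_main v y hv L hL n 0 (by omega) i (by push_cast; omega) c hc1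
    (fun J => by rw [hc0]; exact Submodule.zero_mem _)
  refine ⟨b, hb, ?_⟩
  funext J
  have := hb2 J
  rw [hU, Submodule.mem_bot, sub_eq_zero] at this
  exact this.symm

end HonDepth

end Vale.Agent.P202.Mix
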