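import Vale.Agent.P202.Mix.Hon
import Vale.Agent.P202.Mix.LenBasic

/-!
P202-MIX, part HON, task HON-10: the `y`-adic filtration.
-/

namespace Vale.Agent.P202.Mix

open Vale.Agent.P202.CharP
open scoped ENNReal Topology

universe u

namespace HonPow

/-- monomials of degree `< j` in `n` variables. -/
abbrev MM (n j : ℕ) : Type := Σ i : Fin j, Sym (Fin n) (i : ℕ)

/-- the underlying multiset. -/
def mu {n j : ℕ} (s : MM n j) : Multiset (Fin n) := s.2.1

theorem mu_card {n j : ℕ} (s : MM n j) : Multiset.card (mu s) = (s.1 : ℕ) := s.2.2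

theorem mu_lt {n j : ℕ} (s : MM n j) : Multiset.card (mu s) < j := by
  rw [mu_card]
  exact s.1.2

/-- the monomial with given multiset. -/
def mk {n j : ℕ} (m : Multiset (Fin n)) (h : Multiset.card m < j) : MM n j :=
  ⟨⟨Multiset.card m, h⟩, ⟨m, rfl⟩⟩

theorem mu_mk {n j : ℕ} (m : Multiset (Fin n)) (h : Multiset.card m < j) : mu (mk m h) = m := rfl

theorem mu_inj {n j : ℕ} {s t : MM n j} (h : mu s = mu t) : s = t := by
  obtain ⟨⟨a, ha⟩, ⟨s, hs⟩⟩ := s
  obtain ⟨⟨b, hb⟩, ⟨t, ht⟩⟩ := t
  change s = t at h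
  subst h
  change Multiset.card s = a at hs
  change Multiset.card s = b at ht
  subst hs
  subst ht
  rfl

/-- multiplication by a variable. -/
def sh {n : ℕ} (j : ℕ) (l : Fin n) : Matrix (MM n j) (MM n j) ℤ :=
  Matrix.of fun s' s => if mu s' = l ::ₘ mu s then 1 else 0

theorem sh_apply {n j : ℕ} (l : Fin n) (s' s : MM n j) :
    sh j l s' s = if mu s' = l ::ₘ mu s then 1 else 0 := rfl

/-- the truncated polynomial ring `ℤ[Y] / (Y)^j`. -/
abbrev U (n j : ℕ) : MRep n where
  ι := MM n j
  X := sh j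

theorem U_sum {n j : ℕ} {V : Type u} [AddCommGroup V] (l : Fin n) (s' : MM n j)
    (F : Multiset (Fin n) → V) :
    ∑ t : MM n j, (if mu s' = l ::ₘ mu t then (1 : ℤ) else 0) • F (mu t) =
      if l ∈ mu s' then F ((mu s').erase l) else 0 := by
  by_cases h : l ∈ mu s'
  · rw [if_pos h]
    have h1 : Multiset.card ((mu s').erase l) < j :=
      lt_of_le_of_lt (Multiset.card_le_card (Multiset.erase_le l (mu s'))) (mu_lt s')
    rw [Finset.sum_eq_single (mk ((mu s').erase l) h1)]
    · rw [mu_mk, Multiset.cons_erase h, if_pos rfl, one_smul]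
    · intro t _ ht
      rw [if_neg, zero_smul]
      intro h2
      apply ht
      apply mu_inj
      rw [mu_mk, h2, Multiset.erase_cons_head]
    · intro h2
      exact absurd (Finset.mem_univ _) h2
  · rw [if_neg h]
    refine Finset.sum_eq_zero fun t _ => ?_
    rw [if_neg, zero_smul]
    intro h2
    apply h
    rw [h2]
    exact Multiset.mem_cons_self _ _

theorem U_deg {n j : ℕ} (q : ℕ) (f : Fin q → Fin n) (s' s : MM n j)
    (h : (List.ofFn fun i => sh j (f i)).prod s' s ≠ 0) :
    Multiset.card (mu s') = q + Multiset.card (mu s) := by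
  induction q generalizing s' with
  | zero =>
    rw [List.ofFn_zero, List.prod_nil] at h
    by_cases h1 : s' = s
    · rw [h1, zero_add]
    · exact absurd (Matrix.one_apply_ne h1) h
  | succ q ih =>
    rw [List.ofFn_succ, List.prod_cons] at h
    have h1 : ∃ t : MM n j, sh j (f 0) s' t *
        (List.ofFn fun i => sh j (f (Fin.succ i))).prod t s ≠ 0 := by
      by_contra hc
      push Not at hc
      apply h
      rw [Matrix.mul_apply]
      exact Finset.sum_eq_zero fun t _ => hc t
    obtain ⟨t, ht⟩ := h1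
    have h2 := ih (fun i => f i.succ) t (right_ne_zero_of_mul ht)
    have h3 : sh j (f 0) s' t ≠ 0 := left_ne_zero_of_mul ht
    have h4 : mu s' = f 0 ::ₘ mu t := by
      by_contra hc
      exact h3 (if_neg hc)
    rw [h4, Multiset.card_cons, h2]
    ring

theorem U_nil (n j : ℕ) : (U n j).IsNil j where
  comm k l := by
    have key : ∀ (k l : Fin n) (s' s : MM n j), (sh j k * sh j l) s' s =
        if mu s' = k ::ₘ l ::ₘ mu s then 1 else 0 := by
      intro k l s' s
      rw [Matrix.mul_apply]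
      have h1 := U_sum k s' (fun m => if m = l ::ₘ mu s then (1 : ℤ) else 0)
      have h2 : ∑ t : MM n j, sh j k s' t * sh j l t s =
          if k ∈ mu s' then (if (mu s').erase k = l ::ₘ mu s then (1 : ℤ) else 0) else 0 := h1
      refine h2.trans ?_
      by_cases h3 : mu s' = k ::ₘ l ::ₘ mu s
      · rw [if_pos h3, if_pos (by rw [h3]; exact Multiset.mem_cons_self _ _), if_pos]
        rw [h3, Multiset.erase_cons_head]
      · rw [if_neg h3]
        by_cases h4 : k ∈ mu s'
        · rw [if_pos h4, if_neg]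
          intro h5
          apply h3
          rw [← h5, Multiset.cons_erase h4]
        · rw [if_neg h4]
    refine Matrix.ext fun s' s => ?_
    refine (key k l s' s).trans ?_
    rw [Multiset.cons_swap]
    exact (key l k s' s).symm
  nil f := by
    refine Matrix.ext fun s' s => ?_
    by_contra h
    have h1 := U_deg j f s' s h
    have h2 := mu_lt s'
    omega

section Mod

variable {R : Type u} [CommRing R] {V : Type u} [AddCommGroup V] [Module R V] {n : ℕ}

theorem U_T {j : ℕ} (y : Fin n → R) (l : Fin n) (F : Multiset (Fin n) → V) (s' : MM n j) :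
    (U n j).T V y l (fun t => F (mu t)) s' =
      (if l ∈ mu s' then F ((mu s').erase l) else 0) - y l • F (mu s') := by
  have h1 := U_sum l s' F
  change (∑ t : MM n j, (if mu s' = l ::ₘ mu t then (1 : ℤ) else 0) • F (mu t)) -
    y l • F (mu s') = _
  rw [h1]

/-- extension of a function on the monomials of degree `< j` by zero. -/
noncomputable def ex {j : ℕ} (u : MM n j → V) (m : Multiset (Fin n)) : V :=
  if h : Multiset.card m < j then u (mk m h) else 0

theorem ex_mu {j : ℕ} (u : MM n j → V) (s : MM n j) : ex u (mu s) = u s := by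
  unfold ex
  rw [dif_pos (mu_lt s)]
  exact congrArg u (mu_inj rfl)

theorem ex_eq {j : ℕ} (u : MM n j → V) : (fun s => ex u (mu s)) = u := funext (ex_mu u)

/-- value of a monomial. -/
def mv (y : Fin n → R) (m : Multiset (Fin n)) : R := (m.map y).prod

/-- elementary tensor. -/
noncomputable def el (j : ℕ) (m : Multiset (Fin n)) (v : V) : MM n j → V :=
  fun s => if mu s = m then v else 0

theorem el_T (j : ℕ) (y : Fin n → R) (l : Fin n) (m : Multiset (Fin n)) (v : V) :
    (U n j).T V y l (el j m v) = el j (l ::ₘ m) v - el j m (y l • v) := by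
  funext s
  have h1 := U_T (j := j) y l (fun m' => if m' = m then v else 0) s
  refine h1.trans ?_
  change _ = el j (l ::ₘ m) v s - el j m (y l • v) s
  unfold el
  congr 1
  · by_cases h2 : mu s = l ::ₘ m
    · rw [if_pos h2, if_pos (by rw [h2]; exact Multiset.mem_cons_self _ _), if_pos]
      rw [h2, Multiset.erase_cons_head]
    · rw [if_neg h2]
      by_cases h3 : l ∈ mu s
      · rw [if_pos h3, if_neg]
        intro h4
        apply h2
        rw [← h4, Multiset.cons_erase h3]
      · rw [if_neg h3]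
  · by_cases h2 : mu s = m
    · rw [if_pos h2, if_pos h2]
    · rw [if_neg h2, if_neg h2, smul_zero]

theorem mem_trg_T {j : ℕ} (y : Fin n → R) (l : Fin n) (w : MM n j → V) :
    (U n j).T V y l w ∈ trg ((U n j).T V y) :=
  (le_iSup (fun l => LinearMap.range ((U n j).T V y l)) l) ⟨w, rfl⟩

theorem el_red (j : ℕ) (y : Fin n → R) (m : Multiset (Fin n)) (v : V) :
    el j m v - el j 0 (mv y m • v) ∈ trg ((U n j).T V y) := by
  induction m using Multiset.induction_on generalizing v with
  | empty =>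
    unfold mv
    rw [Multiset.map_zero, Multiset.prod_zero, one_smul, sub_self]
    exact Submodule.zero_mem _
  | cons l m ih =>
    have h1 := mem_trg_T y l (el j m v)
    rw [el_T] at h1
    have h2 := ih (y l • v)
    have h3 : mv y (l ::ₘ m) • v = mv y m • (y l • v) := by
      unfold mv
      rw [Multiset.map_cons, Multiset.prod_cons, mul_comm, mul_smul]
    rw [h3]
    have h4 := Submodule.add_mem _ h1 h2
    rwa [sub_add_sub_cancel] at h4

theorem el_big (j : ℕ) (m : Multiset (Fin n)) (hm : j ≤ Multiset.card m) (v : V) :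
    el j m v = 0 := by
  funext s
  unfold el
  rw [if_neg]
  · rfl
  · intro h
    have := mu_lt s
    rw [h] at this
    omega

/-- elementary tensors as a linear map. -/
noncomputable def elL (j : ℕ) (m : Multiset (Fin n)) : V →ₗ[R] (MM n j → V) where
  toFun := el j m
  map_add' v w := by
    funext s
    rw [Pi.add_apply]
    unfold el
    by_cases h : mu s = m
    · rw [if_pos h, if_pos h, if_pos h]
    · rw [if_neg h, if_neg h, if_neg h, add_zero]
  map_smul' c v := by
    funext s
    rw [Pi.smul_apply, RingHom.id_apply]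
    unfold el
    by_cases h : mu s = m
    · rw [if_pos h, if_pos h]
    · rw [if_neg h, if_neg h, smul_zero]

/-- powers of an ideal generated by a finite family. -/
theorem span_pow_le {y : Fin n → R} (j : ℕ) (I : Ideal R)
    (h : ∀ m : Multiset (Fin n), Multiset.card m = j → mv y m ∈ I) :
    Ideal.span (Set.range y) ^ j ≤ I := by
  induction j generalizing I with
  | zero =>
    rw [pow_zero, Ideal.one_eq_top]
    have h1 := h 0 (Multiset.card_zero)
    unfold mv at h1
    rw [Multiset.map_zero, Multiset.prod_zero] at h1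
    exact le_of_eq ((Ideal.eq_top_iff_one I).2 h1).symm
  | succ j ih =>
    rw [pow_succ, mul_comm, Ideal.mul_le]
    intro a ha b hb
    -- fix the first factor
    have h1 : Ideal.span (Set.range y) ≤ I.colon ((Ideal.span (Set.range y) ^ j : Ideal R) : Set R) := by
      rw [Ideal.span_le]
      rintro _ ⟨l, rfl⟩
      have h2 := ih (Submodule.comap (LinearMap.mulLeft R (y l)) I) (by
        intro m hm
        show y l * mv y m ∈ I
        have h3 := h (l ::ₘ m) (by rw [Multiset.card_cons, hm])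
        unfold mv at h3 ⊢
        rwa [Multiset.map_cons, Multiset.prod_cons] at h3)
      rw [SetLike.mem_coe, Submodule.mem_colon]
      intro b hb
      exact h2 hb
    have h4 := h1 ha
    rw [Submodule.mem_colon] at h4
    exact h4 b hb

theorem el_zero_mem (j : ℕ) (y : Fin n → R) (v : V)
    (hv : v ∈ Ideal.span (Set.range y) ^ j • (⊤ : Submodule R V)) :
    el j 0 v ∈ trg ((U n j).T V y) := by
  have h1 : Ideal.span (Set.range y) ^ j • (⊤ : Submodule R V) ≤
      (trg ((U n j).T V y)).comap (elL j 0) := by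
    rw [Submodule.smul_le]
    intro a ha w _
    have h2 : Ideal.span (Set.range y) ^ j ≤
        ((trg ((U n j).T V y)).comap (elL j 0)).comap (LinearMap.toSpanSingleton R V w) := by
      refine span_pow_le j _ fun m hm => ?_
      have h3 := el_red j y m w
      rw [el_big j m hm.ge, zero_sub] at h3
      have h4 := (Submodule.neg_mem_iff _).1 h3
      exact h4
    exact h2 ha
  exact h1 hv

theorem sum_el {j : ℕ} (u : MM n j → V) : ∑ s, el j (mu s) (u s) = u := by
  funext t
  rw [Finset.sum_apply, Finset.sum_eq_single t]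
  · exact if_pos rfl
  · intro s _ hs
    exact if_neg fun h => hs (mu_inj h).symm
  · intro h
    exact absurd (Finset.mem_univ _) h

theorem mem_trg_of (j : ℕ) (y : Fin n → R) (u : MM n j → V)
    (hu : ∑ s, mv y (mu s) • u s ∈ Ideal.span (Set.range y) ^ j • (⊤ : Submodule R V)) :
    u ∈ trg ((U n j).T V y) := by
  have h1 : ∑ s, (el j (mu s) (u s) - el j 0 (mv y (mu s) • u s)) ∈ trg ((U n j).T V y) :=
    Submodule.sum_mem _ fun s _ => el_red j y (mu s) (u s)
  rw [Finset.sum_sub_distrib, sum_el] at h1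
  have h2 : ∑ s : MM n j, el j 0 (mv y (mu s) • u s) = el j 0 (∑ s, mv y (mu s) • u s) :=
    (map_sum (elL (R := R) (V := V) (n := n) j 0) _ _).symm
  rw [h2] at h1
  exact (Submodule.sub_mem_iff_left _ (el_zero_mem j y _ hu)).1 h1

theorem exists_of_mem_trg {W : Type u} [AddCommGroup W] [Module R W] (T : Fin n → W →ₗ[R] W)
    (u : W) (hu : u ∈ trg T) : ∃ w : Fin n → W, ∑ l, T l (w l) = u := by
  let S : Submodule R W := LinearMap.range (∑ l, T l ∘ₗ (LinearMap.proj l : (Fin n → W) →ₗ[R] W))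
  have hS : ∀ w, w ∈ S ↔ ∃ w' : Fin n → W, ∑ l, T l (w' l) = w := by
    intro w
    simp only [S, LinearMap.mem_range, LinearMap.sum_apply, LinearMap.comp_apply,
      LinearMap.proj_apply]
  rw [← hS]
  refine (iSup_le fun l => ?_ : trg T ≤ S) hu
  rintro _ ⟨w, rfl⟩
  rw [hS]
  refine ⟨Pi.single l w, ?_⟩
  rw [Finset.sum_eq_single l]
  · rw [Pi.single_eq_same]
  · intro k _ hk
    rw [Pi.single_eq_of_ne hk, map_zero]
  · intro h
    exact absurd (Finset.mem_univ _) h

theorem kz_empty {W : Type u} [AddCommGroup W] [Module R W] (T : Fin n → W →ₗ[R] W)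
    (c : Finset (Fin n) → W) : kz T c ∅ = ∑ l, T l (c {l}) := by
  rw [kzb_apply, Finset.compl_empty]
  refine Finset.sum_congr rfl fun l _ => ?_
  unfold ksg
  rw [Finset.filter_empty, Finset.card_empty, pow_zero, one_smul, insert_empty_eq]

/-- the chain of degree one. -/
def ch1 {W : Type u} [AddCommGroup W] (w : Fin n → W) (J : Finset (Fin n)) : W :=
  ∑ l, if J = {l} then w l else 0

theorem ch1_single {W : Type u} [AddCommGroup W] (w : Fin n → W) (l : Fin n) :
    ch1 w {l} = w l := by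
  unfold ch1
  rw [Finset.sum_eq_single l]
  · exact if_pos rfl
  · intro k _ hk
    exact if_neg fun h => hk (Finset.singleton_inj.1 h).symm
  · intro h
    exact absurd (Finset.mem_univ _) h

theorem ch1_kgr {W : Type u} [AddCommGroup W] [Module R W] (w : Fin n → W) :
    ch1 w ∈ kgr R W n 1 := by
  intro J hJ
  by_contra h
  apply hJ
  refine Finset.sum_eq_zero fun l _ => if_neg fun h1 => h ?_
  rw [h1, Finset.card_singleton]
  rfl

/-- inclusion of the monomials of degree `< i`. -/
def inc {i : ℕ} (s : MM n i) : MM n (i + 1) := mk (mu s) ((mu_lt s).trans (Nat.lt_succ_self i))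

theorem funLeft_T {i : ℕ} (y : Fin n → R) (l : Fin n) (u : MM n (i + 1) → V) :
    LinearMap.funLeft R V inc ((U n (i + 1)).T V y l u) =
      (U n i).T V y l (LinearMap.funLeft R V inc u) := by
  rw [← ex_eq u]
  funext s
  have h1 := U_T y l (ex u) (inc s)
  have h2 := U_T y l (ex u) s
  exact h1.trans h2.symm

/-- the quasi-regularity. -/
theorem quasi {y : Fin n → R} (hy : Acyc (sop V y)) (i : ℕ) (m : Multiset (Fin n) → V)
    (hm : ∑ s : Sym (Fin n) i, mv y s.1 • m s.1 ∈
      Ideal.span (Set.range y) ^ (i + 1) • (⊤ : Submodule R V)) (s : Multiset (Fin n))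
    (hs : Multiset.card s = i) : m s ∈ ys V y := by
  -- the element of the truncated polynomial ring
  let u : MM n (i + 1) → V := fun t => if Multiset.card (mu t) = i then m (mu t) else 0
  have hu : u ∈ trg ((U n (i + 1)).T V y) := by
    refine mem_trg_of (i + 1) y u ?_
    have h1 : ∑ t : MM n (i + 1), mv y (mu t) • u t =
        ∑ s : Sym (Fin n) i, mv y s.1 • m s.1 := by
      rw [Fintype.sum_sigma, Fin.sum_univ_castSucc, Finset.sum_eq_zero, zero_add]
      · refine Finset.sum_congr rfl fun s _ => ?_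
        congr 1
        exact if_pos s.2
      · intro d _
        refine Finset.sum_eq_zero fun s _ => ?_
        have h2 : u ⟨d.castSucc, s⟩ = 0 := by
          refine if_neg fun h3 => ?_
          have h4 := mu_card (⟨d.castSucc, s⟩ : MM n (i + 1))
          rw [h3] at h4
          have h5 : i = (d : ℕ) := h4
          have := d.2
          omega
        rw [h2, smul_zero]
    rw [h1]
    exact hm
  obtain ⟨w, hw⟩ := exists_of_mem_trg _ u hu
  -- notation
  let ρ : (MM n (i + 1) → V) →ₗ[R] (MM n i → V) := LinearMap.funLeft R V inc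
  have hρT : ∀ l v, ρ ((U n (i + 1)).T V y l v) = (U n i).T V y l (ρ v) := fun l v =>
    funLeft_T y l v
  have hρu : ρ u = 0 := by
    funext s
    refine if_neg fun h => ?_
    have h1 := mu_lt s
    have h2 : Multiset.card (mu s) = i := h
    omega
  have hW0 : kz ((U n (i + 1)).T V y) (ch1 w) ∅ = u := by
    rw [kz_empty, ← hw]
    exact Finset.sum_congr rfl fun l _ => by rw [ch1_single]
  have hW1 := kz_kgr ((U n (i + 1)).T V y) 0 (ch1 w) (ch1_kgr w)
  have hcyc : kmap n ρ (ch1 w) ∈ kcyc ((U n i).T V y) 1 := by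
    refine ⟨hr_kmap_kgr ρ 1 _ (ch1_kgr w), ?_⟩
    show kz ((U n i).T V y) (kmap n ρ (ch1 w)) = 0
    rw [← kz_kmap _ _ ρ hρT]
    funext J
    show ρ (kz ((U n (i + 1)).T V y) (ch1 w) J) = 0
    by_cases hJ : J = ∅
    · rw [hJ, hW0, hρu]
    · have h1 : kz ((U n (i + 1)).T V y) (ch1 w) J = 0 := by
        by_contra h2
        have h3 := hW1 J h2
        apply hJ
        rw [← Finset.card_eq_zero]
        exact_mod_cast h3
      rw [h1, map_zero]
  obtain ⟨b', hb1, hb2⟩ := acyc_rep i (U n i) (U_nil n i) y hy 1 le_rfl hcyc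
  let b : Finset (Fin n) → (MM n (i + 1) → V) := fun J t => ex (b' J) (mu t)
  have hρb : kmap n ρ b = b' := by
    funext J s
    exact ex_mu (b' J) s
  let D := ch1 w - kz ((U n (i + 1)).T V y) b
  have hD : ∀ J, ρ (D J) = 0 := by
    intro J
    have h1 := kz_kmap ((U n (i + 1)).T V y) ((U n i).T V y) ρ hρT b
    rw [hρb, hb2] at h1
    have h2 := congrFun h1 J
    show ρ (ch1 w J - kz ((U n (i + 1)).T V y) b J) = 0
    rw [map_sub]
    exact sub_eq_zero.2 h2.symm
  have hDu : ∑ l, (U n (i + 1)).T V y l (D {l}) = u := by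
    rw [← kz_empty]
    show kz ((U n (i + 1)).T V y) (ch1 w - kz ((U n (i + 1)).T V y) b) ∅ = u
    rw [map_sub, kz_sq _ (hr_comm (U n (i + 1)) (U_nil n (i + 1)) y), sub_zero, hW0]
  have hlt : Multiset.card s < i + 1 := by omega
  have h1 := congrFun hDu (mk s hlt)
  have h2 : u (mk s hlt) = m s := if_pos hs
  rw [h2, Finset.sum_apply] at h1
  rw [← h1]
  refine Submodule.sum_mem _ fun l _ => ?_
  have h3 := U_T y l (ex (D {l})) (mk s hlt)
  rw [ex_eq] at h3
  rw [h3]
  have h4 : (if l ∈ mu (mk s hlt) then ex (D {l}) ((mu (mk s hlt)).erase l) else 0) = 0 := by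
    rw [mu_mk]
    by_cases h5 : l ∈ s
    · rw [if_pos h5]
      have h6 : Multiset.card (s.erase l) < i := by
        rw [Multiset.card_erase_of_mem h5, ← hs]
        exact Nat.pred_lt (Multiset.card_pos.2 (by rintro rfl; exact absurd h5 (Multiset.notMem_zero l))).ne'
      have h7 := congrFun (hD {l}) (mk (s.erase l) h6)
      refine Eq.trans ?_ h7
      unfold ex
      rw [dif_pos (h6.trans (Nat.lt_succ_self i))]
      rfl
    · rw [if_neg h5]
  rw [h4, zero_sub]
  refine (Submodule.neg_mem_iff _).2 ?_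
  exact Submodule.smul_mem_smul (Ideal.subset_span ⟨l, rfl⟩) Submodule.mem_top

end Mod

section Pow

variable {R : Type u} [CommRing R] {V : Type u} [AddCommGroup V] [Module R V] {n : ℕ}

theorem mv_mem (y : Fin n → R) (m : Multiset (Fin n)) :
    mv y m ∈ Ideal.span (Set.range y) ^ Multiset.card m := by
  induction m using Multiset.induction_on with
  | empty =>
    rw [Multiset.card_zero, pow_zero, Ideal.one_eq_top]
    exact Submodule.mem_top
  | cons l m ih =>
    unfold mv at ih ⊢
    rw [Multiset.map_cons, Multiset.prod_cons, Multiset.card_cons, pow_succ']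
    exact Ideal.mul_mem_mul (Ideal.subset_span ⟨l, rfl⟩) ih

/-- the map `m ↦ ∑ y^s m_s`. -/
noncomputable def Phi (V : Type u) [AddCommGroup V] [Module R V] (y : Fin n → R) (k : ℕ) :
    (Sym (Fin n) k → V) →ₗ[R] V :=
  ∑ s : Sym (Fin n) k, mv y s.1 • LinearMap.proj s

theorem Phi_apply (y : Fin n → R) (k : ℕ) (m : Sym (Fin n) k → V) :
    Phi V y k m = ∑ s : Sym (Fin n) k, mv y s.1 • m s := by
  unfold Phi
  rw [LinearMap.sum_apply]
  rfl

theorem range_Phi (y : Fin n → R) (k : ℕ) :
    LinearMap.range (Phi V y k) = Ideal.span (Set.range y) ^ k • (⊤ : Submodule R V) := by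
  classical
  refine le_antisymm ?_ ?_
  · rintro _ ⟨m, rfl⟩
    rw [Phi_apply]
    refine Submodule.sum_mem _ fun s _ => Submodule.smul_mem_smul ?_ Submodule.mem_top
    have h1 := mv_mem y s.1
    have h2 : Multiset.card s.1 = k := s.2
    rwa [h2] at h1
  · rw [Submodule.smul_le]
    intro a ha w _
    have h2 : Ideal.span (Set.range y) ^ k ≤
        (LinearMap.range (Phi V y k)).comap (LinearMap.toSpanSingleton R V w) := by
      refine span_pow_le k _ fun m hm => ?_
      obtain ⟨s₀, hs₀⟩ : ∃ s₀ : Sym (Fin n) k, s₀.1 = m := ⟨⟨m, hm⟩, rfl⟩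
      refine ⟨Pi.single s₀ w, ?_⟩
      rw [Phi_apply, Finset.sum_eq_single s₀, ← hs₀]
      · rw [Pi.single_eq_same]
        rfl
      · intro s _ hs
        rw [Pi.single_eq_of_ne hs, smul_zero]
      · intro h
        exact absurd (Finset.mem_univ _) h
    exact h2 ha

theorem mem_span_smul (y : Fin n → R) (x : V)
    (hx : x ∈ Ideal.span (Set.range y) • (⊤ : Submodule R V)) :
    ∃ w : Fin n → V, ∑ l, y l • w l = x := by
  refine exists_of_mem_trg (sop V y) x ?_
  have h1 : Ideal.span (Set.range y) • (⊤ : Submodule R V) ≤ trg (sop V y) := by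
    rw [Submodule.smul_le]
    intro a ha w _
    have h2 : Ideal.span (Set.range y) ≤
        (trg (sop V y)).comap (LinearMap.toSpanSingleton R V w) := by
      rw [Ideal.span_le]
      rintro _ ⟨l, rfl⟩
      exact (le_iSup (fun l => LinearMap.range (sop V y l)) l) ⟨w, rfl⟩
    exact h2 ha
  exact h1 hx

/-- Membership of a fraction in `K • ⊤`. -/
theorem loc_mem (S : Submonoid R) (K : Ideal R) (m : V) (s : S)
    (h : LocalizedModule.mk m s ∈ K • (⊤ : Submodule R (LocalizedModule S V))) :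
    ∃ u : S, (u : R) • m ∈ K • (⊤ : Submodule R V) := by
  have key : ∀ t ∈ K • (⊤ : Submodule R (LocalizedModule S V)),
      ∃ m' ∈ K • (⊤ : Submodule R V), ∃ s' : S, t = LocalizedModule.mk m' s' := by
    intro t ht
    refine Submodule.smul_induction_on ht ?_ ?_
    · intro r hr n _
      induction n using LocalizedModule.induction_on with
      | h m s =>
        exact ⟨r • m, Submodule.smul_mem_smul hr Submodule.mem_top, s,
          LocalizedModule.smul'_mk r m s⟩
    · rintro _ _ ⟨m1, h1, s1, rfl⟩ ⟨m2, h2, s2, rfl⟩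
      exact ⟨s2 • m1 + s1 • m2, add_mem (Submodule.smul_mem _ _ h1) (Submodule.smul_mem _ _ h2),
        s1 * s2, LocalizedModule.mk_add_mk⟩
  obtain ⟨m', hm', s', he⟩ := key _ h
  obtain ⟨u, hu⟩ := LocalizedModule.mk_eq.1 he
  refine ⟨u * s', ?_⟩
  have h3 : ((u * s' : S) : R) • m = u • s' • m := by
    rw [Submonoid.coe_mul, mul_smul]
    rfl
  rw [h3, hu]
  exact Submodule.smul_mem _ _ (Submodule.smul_mem _ _ hm')

end Pow

section Ext

variable (R : ℕ → Type u) [∀ e, CommRing (R e)] (X : ℕ → Type u) [∀ e, AddCommGroup (X e)]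
  [∀ e, Module (R e) (X e)] (p : ℕ) {n : ℕ} (h : ∀ e, R e) (y : ∀ e, Fin n → R e)

theorem mv_pi (m : Multiset (Fin n)) (e : ℕ) : mv (fun l e => y e l) m e = mv (y e) m := by
  unfold mv
  have h1 := map_multiset_prod (Pi.evalRingHom R e) (m.map fun l e => y e l)
  rw [Multiset.map_map] at h1
  exact h1

theorem pow_pi (k : ℕ) (x : ∀ e, X e)
    (hx : ∀ e, x e ∈ Ideal.span (Set.range (y e)) ^ k • (⊤ : Submodule (R e) (X e))) :
    x ∈ Ideal.span (Set.range fun (l : Fin n) (e : ℕ) => y e l) ^ k •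
      (⊤ : Submodule (∀ e, R e) (∀ e, X e)) := by
  have h1 : ∀ e, ∃ w : Sym (Fin n) k → X e, Phi (X e) (y e) k w = x e := by
    intro e
    have h2 := hx e
    rw [← range_Phi] at h2
    exact h2
  choose w hw using h1
  rw [← range_Phi]
  refine ⟨fun s e => w e s, ?_⟩
  rw [Phi_apply]
  funext e
  rw [Finset.sum_apply, ← hw e, Phi_apply]
  refine Finset.sum_congr rfl fun s _ => ?_
  rw [Pi.smul_apply', mv_pi]

theorem extract_pow (L : ℕ) (hL : ∀ e, (p : R e) ^ L ∈ Ideal.span (Set.range (y e)))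
    (hy : Acyc (sop (SS R X p h) (fun l e => y e l))) (i : ℕ) :
    ∃ c e₀ : ℕ, ∀ e, e₀ ≤ e → ∀ m : Multiset (Fin n) → X e,
      ∑ s : Sym (Fin n) i, mv (y e) s.1 • m s.1 ∈
        Ideal.span (Set.range (y e)) ^ (i + 1) • (⊤ : Submodule (R e) (X e)) →
      ∀ s, Multiset.card s = i → h e ^ c • m s ∈ ys (X e) (y e) := by
  classical
  by_contra hcon
  push Not at hcon
  -- the level `e` is bad for the exponent `c`
  let P : ℕ → ℕ → Prop := fun e c => ∃ m : Multiset (Fin n) → X e,
      ∑ s : Sym (Fin n) i, mv (y e) s.1 • m s.1 ∈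
        Ideal.span (Set.range (y e)) ^ (i + 1) • (⊤ : Submodule (R e) (X e)) ∧
      ∃ s, Multiset.card s = i ∧ h e ^ c • m s ∉ ys (X e) (y e)
  have hmono : ∀ e (x : X e) (k c : ℕ), k ≤ c → h e ^ k • x ∈ ys (X e) (y e) →
      h e ^ c • x ∈ ys (X e) (y e) := by
    intro e x k c hkc hx
    have h1 := Submodule.smul_mem _ (h e ^ (c - k)) hx
    rwa [smul_smul, ← pow_add, Nat.sub_add_cancel hkc] at h1
  have hch : ∀ e, ∃ m : Multiset (Fin n) → X e,
      ∑ s : Sym (Fin n) i, mv (y e) s.1 • m s.1 ∈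
        Ideal.span (Set.range (y e)) ^ (i + 1) • (⊤ : Submodule (R e) (X e)) ∧
      ∀ k, k ≤ e → P e k → ∃ s, Multiset.card s = i ∧ h e ^ k • m s ∉ ys (X e) (y e) := by
    intro e
    by_cases hex : ∃ c ≤ e, P e c
    · obtain ⟨c₀, hc₀, hP₀⟩ := hex
      obtain ⟨m, hm1, s, hs, hm2⟩ := Nat.findGreatest_spec (P := P e) hc₀ hP₀
      refine ⟨m, hm1, fun k hk hPk => ⟨s, hs, fun h1 => hm2 ?_⟩⟩
      exact hmono e _ k _ (Nat.le_findGreatest hk hPk) h1
    · refine ⟨fun _ => 0, ?_, fun k hk hPk => absurd ⟨k, hk, hPk⟩ hex⟩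
      simp only [smul_zero, Finset.sum_const_zero]
      exact Submodule.zero_mem _
  choose m hm1 hm2 using hch
  -- the family in the honest module
  let φ : (∀ e, X e) →ₗ[∀ e, R e] SS R X p h :=
    LocalizedModule.mkLinearMap (Submonoid.powers h) (XX R X p) ∘ₗ (Jinf R X p).mkQ
  have hsum : ∑ s : Sym (Fin n) i, mv (fun l e => y e l) s.1 • φ (fun e => m e s.1) ∈
      Ideal.span (Set.range fun (l : Fin n) (e : ℕ) => y e l) ^ (i + 1) •
        (⊤ : Submodule (∀ e, R e) (SS R X p h)) := by
    have h1 : (∑ s : Sym (Fin n) i, mv (fun l e => y e l) s.1 • (fun e => m e s.1) :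
        ∀ e, X e) ∈ Ideal.span (Set.range fun (l : Fin n) (e : ℕ) => y e l) ^ (i + 1) •
        (⊤ : Submodule (∀ e, R e) (∀ e, X e)) := by
      refine pow_pi R X y (i + 1) _ fun e => ?_
      have h2 := hm1 e
      rw [Finset.sum_apply]
      refine (congrArg (· ∈ _) (Finset.sum_congr rfl fun s _ => ?_)).mpr h2
      rw [Pi.smul_apply', mv_pi]
    have h2 := Submodule.mem_map_of_mem (f := φ) h1
    rw [Submodule.map_smul'', map_sum] at h2
    simp only [map_smul] at h2
    exact Submodule.smul_mono le_rfl le_top h2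
  have hq := fun s hs => quasi hy i (fun s => φ (fun e => m e s)) hsum s hs
  have hfin : ∀ s : Sym (Fin n) i, ∃ k e₁ : ℕ, ∀ e, e₁ ≤ e → h e ^ k • m e s.1 ∈ ys (X e) (y e) := by
    intro s
    have h1 := hq s.1 s.2
    obtain ⟨⟨u, k, hk⟩, hu⟩ := loc_mem (Submonoid.powers h)
      (Ideal.span (Set.range fun (l : Fin n) (e : ℕ) => y e l))
      ((Jinf R X p).mkQ fun e => m e s.1) 1 h1
    obtain ⟨w, hw⟩ : ∃ w : Fin n → XX R X p,
        ∑ l, (fun e => y e l : ∀ e, R e) • w l = u • (Jinf R X p).mkQ fun e => m e s.1 :=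
      mem_span_smul (fun l e => y e l) _ hu
    choose w' hw' using fun l => (Jinf R X p).mkQ_surjective (w l)
    have h2 : (h ^ k • (fun e => m e s.1) - ∑ l, (fun e => y e l : ∀ e, R e) • w' l :
        ∀ e, X e) ∈ Jinf R X p := by
      rw [← Submodule.Quotient.mk_eq_zero, ← Submodule.mkQ_apply, map_sub, map_sum, map_smul,
        sub_eq_zero]
      have h3 : h ^ k = u := hk
      rw [h3, ← hw]
      exact Finset.sum_congr rfl fun l _ => by rw [map_smul, hw']
    obtain ⟨e₁, he₁⟩ := h2 L
    refine ⟨k, e₁, fun e he => ?_⟩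
    obtain ⟨x', hx'⟩ := he₁ e he
    rw [Pi.sub_apply, Finset.sum_apply, sub_eq_iff_eq_add] at hx'
    have h3 : h e ^ k • m e s.1 = (p : R e) ^ L • x' + ∑ l, y e l • w' l e := hx'
    rw [h3]
    refine Submodule.add_mem _ (Submodule.smul_mem_smul (hL e) Submodule.mem_top)
      (Submodule.sum_mem _ fun l _ =>
        Submodule.smul_mem_smul (Ideal.subset_span ⟨l, rfl⟩) Submodule.mem_top)
  choose k e₁ hke using hfin
  let K := Finset.univ.sup k
  let E := Finset.univ.sup e₁
  obtain ⟨e, he, m', hm'1, s', hs', hm'2⟩ := hcon K (max E K)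
  obtain ⟨s, hs, hns⟩ := hm2 e K (le_trans (le_max_right _ _) he) ⟨m', hm'1, s', hs', hm'2⟩
  apply hns
  refine hmono e _ (k ⟨s, hs⟩) K (Finset.le_sup (f := k) (Finset.mem_univ _)) ?_
  exact hke ⟨s, hs⟩ e (le_trans (Finset.le_sup (f := e₁) (Finset.mem_univ _))
    (le_trans (le_max_left _ _) he))

end Ext

section Len

variable {R : Type u} [CommRing R] (L : AddLen R) {V : Type u} [AddCommGroup V] [Module R V]
  {n : ℕ}

/-- one step of the filtration. -/
theorem len_step (y : Fin n → R) (t : R) (i : ℕ) (hfin : L.len (V ⧸ ys V y) ≠ ⊤)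
    (ht : ∀ m : Multiset (Fin n) → V, ∑ s : Sym (Fin n) i, mv y s.1 • m s.1 ∈
        Ideal.span (Set.range y) ^ (i + 1) • (⊤ : Submodule R V) →
      ∀ s, Multiset.card s = i → t • m s ∈ ys V y) :
    (Fintype.card (Sym (Fin n) i) : ℝ≥0∞) * L.len (V ⧸ ys V y) ≤
      L.rl (Ideal.span (Set.range y) ^ (i + 1) • (⊤ : Submodule R V))
        (Ideal.span (Set.range y) ^ i • (⊤ : Submodule R V)) +
      (Fintype.card (Sym (Fin n) i) : ℝ≥0∞) * L.len ((V ⧸ ys V y) ⧸
        LinearMap.range (t • (LinearMap.id : (V ⧸ ys V y) →ₗ[R] (V ⧸ ys V y)))) := by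
  classical
  let Q := V ⧸ ys V y
  let τ : Q →ₗ[R] Q := t • LinearMap.id
  -- the kernel of `t` on `Q`
  have hker : L.len (LinearMap.ker τ) = L.len (Q ⧸ LinearMap.range τ) := by
    have h1 := len_sub_quot L (LinearMap.ker τ)
    have h2 := len_sub_quot L (LinearMap.range τ)
    rw [len_congr L τ.quotKerEquivRange] at h1
    have h3 : L.len (LinearMap.range τ) ≠ ⊤ := by
      intro h4
      rw [h4, top_add] at h2
      exact hfin h2
    rw [h1, add_comm] at h2
    exact (ENNReal.add_right_inj h3).1 h2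
  have hrl : L.rl (ys V y) ((LinearMap.ker τ).comap (ys V y).mkQ) = L.len (LinearMap.ker τ) := by
    have h1 := rl_comap L (ys V y).mkQ ⊥ (LinearMap.ker τ)
    rw [Submodule.range_mkQ, inf_top_eq, rl_bot] at h1
    rw [← h1]
    congr 1
    rw [← LinearMap.ker, Submodule.ker_mkQ]
  -- the map `Φ`
  have h1 : L.rl ((Ideal.span (Set.range y) ^ (i + 1) • (⊤ : Submodule R V)).comap
      (Phi V y i)) ⊤ = L.rl (Ideal.span (Set.range y) ^ (i + 1) • (⊤ : Submodule R V))
        (Ideal.span (Set.range y) ^ i • (⊤ : Submodule R V)) := by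
    have h2 := rl_comap L (Phi V y i)
      (Ideal.span (Set.range y) ^ (i + 1) • (⊤ : Submodule R V)) ⊤
    rw [top_inf_eq, range_Phi, Submodule.comap_top] at h2
    exact h2
  have hle1 : Submodule.pi Set.univ (fun _ : Sym (Fin n) i => ys V y) ≤
      (Ideal.span (Set.range y) ^ (i + 1) • (⊤ : Submodule R V)).comap (Phi V y i) := by
    intro m hm
    rw [Submodule.mem_comap, Phi_apply]
    refine Submodule.sum_mem _ fun s _ => ?_
    have h2 : mv y s.1 ∈ Ideal.span (Set.range y) ^ i := by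
      have h3 := mv_mem y s.1
      have h4 : Multiset.card s.1 = i := s.2
      rwa [h4] at h3
    have h5 : m s ∈ ys V y := hm s trivial
    rw [pow_succ, ← smul_eq_mul, Submodule.smul_assoc]
    exact Submodule.smul_mem_smul h2 h5
  have hle2 : (Ideal.span (Set.range y) ^ (i + 1) • (⊤ : Submodule R V)).comap (Phi V y i) ≤
      Submodule.pi Set.univ
        (fun _ : Sym (Fin n) i => (LinearMap.ker τ).comap (ys V y).mkQ) := by
    intro m hm s _
    rw [Submodule.mem_comap, Phi_apply] at hm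
    let m' : Multiset (Fin n) → V := fun a => if ha : Multiset.card a = i then m ⟨a, ha⟩ else 0
    have hm' : ∀ s : Sym (Fin n) i, m' s.1 = m s := by
      intro s
      show (if ha : Multiset.card s.1 = i then m ⟨s.1, ha⟩ else 0) = m s
      rw [dif_pos s.2]
      rfl
    have h2 := ht m' (by
      rw [Finset.sum_congr rfl fun s _ => by rw [hm' s]]
      exact hm) s.1 s.2
    rw [hm' s] at h2
    show (ys V y).mkQ (m s) ∈ LinearMap.ker τ
    rw [LinearMap.mem_ker]
    show t • (ys V y).mkQ (m s) = 0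
    rw [← map_smul, Submodule.mkQ_apply, Submodule.Quotient.mk_eq_zero]
    exact h2
  have h3 : L.rl (Submodule.pi Set.univ (fun _ : Sym (Fin n) i => ys V y)) ⊤ =
      Fintype.card (Sym (Fin n) i) * L.len (V ⧸ ys V y) := by
    have h4 := rl_pi L (fun _ : Sym (Fin n) i => ys V y) (fun _ => ⊤)
    rw [Submodule.pi_top] at h4
    rw [h4, Finset.sum_const, rl_top, nsmul_eq_mul]
    rfl
  have h5 : L.rl (Submodule.pi Set.univ (fun _ : Sym (Fin n) i => ys V y))
      (Submodule.pi Set.univ
        (fun _ : Sym (Fin n) i => (LinearMap.ker τ).comap (ys V y).mkQ)) =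
      Fintype.card (Sym (Fin n) i) * L.len (Q ⧸ LinearMap.range τ) := by
    rw [rl_pi L, Finset.sum_const, hrl, hker, nsmul_eq_mul]
    rfl
  rw [← h3, ← h1]
  calc L.rl (Submodule.pi Set.univ (fun _ : Sym (Fin n) i => ys V y)) ⊤ =
      L.rl (Submodule.pi Set.univ (fun _ : Sym (Fin n) i => ys V y))
        ((Ideal.span (Set.range y) ^ (i + 1) • (⊤ : Submodule R V)).comap (Phi V y i)) +
      L.rl ((Ideal.span (Set.range y) ^ (i + 1) • (⊤ : Submodule R V)).comap (Phi V y i)) ⊤ :=
        rl_add L hle1 le_top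
    _ ≤ _ := by
        rw [add_comm]
        refine add_le_add le_rfl ?_
        exact (rl_mono_right L hle2).trans h5.le

/-- the filtration. -/
theorem len_filt (y : Fin n → R) (j : ℕ) :
    L.len (V ⧸ (Ideal.span (Set.range y) ^ j • (⊤ : Submodule R V))) =
      ∑ i ∈ Finset.range j, L.rl (Ideal.span (Set.range y) ^ (i + 1) • (⊤ : Submodule R V))
        (Ideal.span (Set.range y) ^ i • (⊤ : Submodule R V)) := by
  rw [← rl_top]
  induction j with
  | zero =>
    rw [Finset.sum_range_zero, pow_zero, one_smul]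
    exact rl_eq_zero_of_le L le_rfl
  | succ j ih =>
    rw [Finset.sum_range_succ, ← ih]
    have h1 : Ideal.span (Set.range y) ^ (j + 1) • (⊤ : Submodule R V) ≤
        Ideal.span (Set.range y) ^ j • (⊤ : Submodule R V) :=
      Submodule.smul_mono_left (Ideal.pow_le_pow_right (Nat.le_succ j))
    exact (rl_add L h1 le_top).trans (add_comm _ _)

theorem card_sum (r j : ℕ) :
    ∑ i ∈ Finset.range j, Fintype.card (Sym (Fin (r + 1)) i) = (r + j).choose (r + 1) := by
  induction j with
  | zero =>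
    rw [Finset.sum_range_zero, add_zero, Nat.choose_succ_self]
  | succ j ih =>
    rw [Finset.sum_range_succ, ih, Sym.card_sym_eq_choose, Fintype.card_fin]
    have h1 : r + 1 + j - 1 = r + j := by omega
    have h2 : r + (j + 1) = (r + j) + 1 := by ring
    rw [h1, h2, Nat.choose_succ_succ, add_comm]
    congr 1
    exact Nat.choose_symm_add.symm

end Len

end HonPow

open HonPow in
theorem hon_pow (R : ℕ → Type u) [∀ e, CommRing (R e)] (X : ℕ → Type u) [∀ e, AddCommGroup (X e)]
    [∀ e, Module (R e) (X e)] (p : ℕ) {r : ℕ} (h : ∀ e, R e) (v y z : ∀ e, Fin (r + 1) → R e)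
    (w : ℕ) (hw : 1 ≤ w) (H : HonData R X p h v y z w)
    (L : ∀ e, AddLen (R e)) (ρ : ℕ → ℝ≥0∞) (hρ0 : ∀ e, ρ e ≠ 0) (hρ : ∀ e, ρ e ≠ ⊤)
    (hfin : ∃ C : ℝ≥0∞, C ≠ ⊤ ∧ ∀ e, (L e).len (QQ R X y e) ≤ C * ρ e)
    (hsmall : ∀ c : ℕ, Filter.Tendsto (fun e => (L e).len
      (QQ R X y e ⧸ LinearMap.range (h e ^ c • (LinearMap.id : QQ R X y e →ₗ[R e] QQ R X y e))) /
        ρ e) Filter.atTop (𝓝 0))
    (j : ℕ) (hj : 1 ≤ j) (ε : ℝ≥0∞) (hε : ε ≠ 0) :
    ∀ᶠ e in Filter.atTop, ((r + j).choose (r + 1) : ℝ≥0∞) * (L e).len (QQ R X y e) ≤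
      (L e).len (X e ⧸ (Ideal.span (Set.range (y e)) ^ j • (⊤ : Submodule (R e) (X e)))) +
        ε * ρ e := by
  obtain ⟨N, hN, H1a⟩ := H.tr
  obtain ⟨l, hl⟩ := H.vy
  have hreg := wreg_SS R X p h v H.hv0 N hN H1a H.reg
  have hy : Acyc (sop (SS R X p h) (fun l e => y e l)) :=
    acyc_of_wreg (fun k e => v e k) (fun l e => y e l) hreg l fun k =>
      hon7_span R y _ fun e => hl e k
  have hL : ∀ e, (p : R e) ^ l ∈ Ideal.span (Set.range (y e)) := fun e => by
    rw [← H.hv0 e]
    exact hl e 0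
  choose c e₀ hc using extract_pow R X p h y l hL hy
  obtain ⟨C, hC, hC'⟩ := hfin
  have hT : Filter.Tendsto (fun e => ∑ i ∈ Finset.range j,
      (Fintype.card (Sym (Fin (r + 1)) i) : ℝ≥0∞) * ((L e).len (QQ R X y e ⧸
        LinearMap.range (h e ^ c i • (LinearMap.id : QQ R X y e →ₗ[R e] QQ R X y e))) / ρ e))
      Filter.atTop (𝓝 0) := by
    have h1 : (0 : ℝ≥0∞) = ∑ i ∈ Finset.range j,
        (Fintype.card (Sym (Fin (r + 1)) i) : ℝ≥0∞) * 0 := by simp
    rw [h1]
    refine tendsto_finsetSum _ fun i _ => ?_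
    exact ENNReal.Tendsto.const_mul (hsmall (c i)) (Or.inr (ENNReal.natCast_ne_top _))
  have hlt := hT.eventually (gt_mem_nhds (pos_iff_ne_zero.2 hε))
  filter_upwards [hlt, Filter.eventually_ge_atTop ((Finset.range j).sup e₀)] with e he he'
  have hQ : (L e).len (X e ⧸ ys (X e) (y e)) ≠ ⊤ :=
    ne_top_of_le_ne_top (ENNReal.mul_ne_top hC (hρ e)) (hC' e)
  have hstep : ∀ i ∈ Finset.range j, (Fintype.card (Sym (Fin (r + 1)) i) : ℝ≥0∞) *
      (L e).len (QQ R X y e) ≤
      (L e).rl (Ideal.span (Set.range (y e)) ^ (i + 1) • (⊤ : Submodule (R e) (X e)))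
        (Ideal.span (Set.range (y e)) ^ i • (⊤ : Submodule (R e) (X e))) +
      (Fintype.card (Sym (Fin (r + 1)) i) : ℝ≥0∞) * (L e).len (QQ R X y e ⧸
        LinearMap.range (h e ^ c i • (LinearMap.id : QQ R X y e →ₗ[R e] QQ R X y e))) :=
    fun i hi => len_step (L e) (y e) (h e ^ c i) i hQ
      (hc i e (le_trans (Finset.le_sup hi) he'))
  rw [← card_sum, Nat.cast_sum, Finset.sum_mul, len_filt]
  refine (Finset.sum_le_sum hstep).trans ?_
  rw [Finset.sum_add_distrib]
  refine add_le_add le_rfl ?_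
  have h2 : ∑ i ∈ Finset.range j,
      (Fintype.card (Sym (Fin (r + 1)) i) : ℝ≥0∞) * ((L e).len (QQ R X y e ⧸
        LinearMap.range (h e ^ c i • (LinearMap.id : QQ R X y e →ₗ[R e] QQ R X y e))) / ρ e) =
      (∑ i ∈ Finset.range j, (Fintype.card (Sym (Fin (r + 1)) i) : ℝ≥0∞) *
        (L e).len (QQ R X y e ⧸
          LinearMap.range (h e ^ c i • (LinearMap.id : QQ R X y e →ₗ[R e] QQ R X y e)))) /
        ρ e := by
    rw [ENNReal.div_eq_inv_mul, Finset.mul_sum]
    refine Finset.sum_congr rfl fun i _ => ?_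
    rw [ENNReal.div_eq_inv_mul]
    ring
  rw [h2] at he
  exact (ENNReal.div_le_iff (hρ0 e) (hρ e)).1 he.le

end Vale.Agent.P202.Mix
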