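import Vale.Agent.P202.Red2
import Vale.Agent.P202.QuotLen
import Mathlib.RingTheory.KrullDimension.NonZeroDivisors
import Mathlib.RingTheory.LocalRing.Length

/-!
P202 MIX, task M17-A, M17-B: Hilbert-Samuel bound modulo a nonzerodivisor; lengths and flat local
homomorphisms.
-/

namespace Vale.Agent.P202.Mix

open Polynomial TensorProduct IsLocalRing
open scoped ENNReal

universe u

/-- TASK M17-A: Hilbert-Samuel bound modulo a nonzerodivisor (`dim R/g ≤ r`). -/
theorem hs_bound {R : Type u} [CommRing R] [IsLocalRing R] [IsNoetherianRing R] {r : ℕ}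
    (hdim : ringKrullDim R = (r + 1 : ℕ)) (I : Ideal R) (hI : I ≤ maximalIdeal R)
    (hfin : Module.length R (R ⧸ I) ≠ ⊤) (g : R) (hg : g ∈ nonZeroDivisors R) :
    ∃ C : ℕ, ∀ j : ℕ, 1 ≤ j →
      Module.length R (R ⧸ (I ^ j ⊔ Ideal.span {g})) ≤ ((C * j ^ r : ℕ) : ℕ∞) := by
  by_cases hgu : Ideal.span {g} = (⊤ : Ideal R)
  · refine ⟨0, fun j _ => ?_⟩
    have h1 : ell (I ^ j ⊔ Ideal.span {g}) = 0 := by
      rw [ell_eq_zero_iff, hgu, sup_top_eq]
    exact h1.le.trans zero_le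
  have : Nontrivial (R ⧸ Ideal.span {g}) := Ideal.Quotient.nontrivial_iff.mpr hgu
  have : IsLocalRing (R ⧸ Ideal.span {g}) :=
    IsLocalRing.of_surjective' (Ideal.Quotient.mk _) Ideal.Quotient.mk_surjective
  -- the dimension of the quotient
  have hd1 := ringKrullDim_quotient_succ_le_of_nonZeroDivisor hg
  rw [hdim] at hd1
  obtain ⟨d, hd⟩ : ∃ d : ℕ, ringKrullDim (R ⧸ Ideal.span {g}) = d := by
    rw [← IsLocalRing.maximalIdeal_height_eq_ringKrullDim]
    obtain ⟨d, hd⟩ := ENat.ne_top_iff_exists.mp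
      (Ideal.height_ne_top (I := maximalIdeal (R ⧸ Ideal.span {g})) (Ideal.IsPrime.ne_top'))
    exact ⟨d, by rw [← hd]; rfl⟩
  have hdr : d ≤ r := by
    rw [hd] at hd1
    have : ((d + 1 : ℕ) : WithBot ℕ∞) ≤ ((r + 1 : ℕ) : WithBot ℕ∞) := by
      exact_mod_cast hd1
    have h2 : d + 1 ≤ r + 1 := by exact_mod_cast this
    omega
  obtain ⟨w, hw, s, hs⟩ := exists_parameters hd
  have hell : ell (I.map (Ideal.Quotient.mk (Ideal.span {g}))) ≠ ⊤ := by
    rw [ell_map_mk]
    exact ne_top_of_le_ne_top hfin (ell_mono le_sup_left)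
  obtain ⟨D, hD⟩ := exists_pow_le_of_ell_ne_top hell
  have hwm : Ideal.span (Set.range w) ≤ maximalIdeal (R ⧸ Ideal.span {g}) := by
    rw [Ideal.span_le]
    rintro _ ⟨i, rfl⟩
    exact hw i
  obtain ⟨B, hB⟩ := exists_growth w ⟨s, hs⟩ (I.map (Ideal.Quotient.mk (Ideal.span {g}))) D
    ((Ideal.pow_right_mono hwm D).trans hD) hell
  refine ⟨B, fun j hj => ?_⟩
  have h1 := hB j hj
  rw [← Ideal.map_pow, ell_map_mk] at h1
  refine h1.trans ?_
  exact_mod_cast Nat.mul_le_mul_left B (Nat.pow_le_pow_right hj hdr)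

/-- TASK M17-B: lengths and flat local homomorphisms. -/
theorem length_flat_quot {A S : Type u} [CommRing A] [CommRing S] [IsLocalRing A] [IsLocalRing S]
    [IsNoetherianRing A] [IsNoetherianRing S] [Algebra A S] [IsLocalHom (algebraMap A S)]
    [Module.Flat A S] (𝔞 : Ideal A) (hfin : Module.length A (A ⧸ 𝔞) ≠ ⊤) :
    Module.length S (S ⧸ 𝔞.map (algebraMap A S)) =
      Module.length S (S ⧸ (maximalIdeal A).map (algebraMap A S)) * Module.length A (A ⧸ 𝔞) := by
  rw [← (Algebra.TensorProduct.quotIdealMapEquivTensorQuot S 𝔞).toLinearEquiv.length_eq.symm,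
    IsLocalRing.length_baseChange, mul_comm]

end Vale.Agent.P202.Mix
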