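import Mathlib

/-!
P202 MIX, M6 (helper666): a generic idempotent, and monic polynomials with a simple root.
-/

namespace Vale.Agent.P202.Mix

open Polynomial TensorProduct IsLocalRing

universe u

section aux

/-- A finite torsion-free module over a domain: a dual basis up to a nonzero denominator. -/
theorem exists_dual_family {Λ A : Type u} [CommRing Λ] [IsDomain Λ] [AddCommGroup A]
    [Module Λ A] [Module.Finite Λ A] :
    ∃ (ι : Type) (_ : Fintype ι) (e : ι → A) (φ : ι → (A →ₗ[Λ] Λ)) (d : Λ), d ≠ 0 ∧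
      ∀ x : A, d • x = ∑ i, φ i x • e i := by
  classical
  obtain ⟨n, v, hv⟩ := Module.Finite.exists_fin (R := Λ) (M := A)
  obtain ⟨s, hs, hmax⟩ := exists_maximal_linearIndepOn Λ v
  have hex : ∀ i : Fin n, ∃ c : Λ, c ≠ 0 ∧ c • v i ∈ Submodule.span Λ (v '' s) := by
    intro i
    by_cases hi : i ∈ s
    · exact ⟨1, one_ne_zero, by
        rw [one_smul]; exact Submodule.subset_span (Set.mem_image_of_mem _ hi)⟩
    · exact hmax i hi
  choose c hc0 hc using hex
  set d : Λ := ∏ i, c i with hd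
  have hd0 : d ≠ 0 := Finset.prod_ne_zero_iff.2 fun i _ => hc0 i
  have hdx : ∀ x : A, d • x ∈ Submodule.span Λ (v '' s) := by
    intro x
    have hx : x ∈ Submodule.span Λ (Set.range v) := hv ▸ Submodule.mem_top
    refine Submodule.span_induction ?_ ?_ ?_ ?_ hx
    · rintro _ ⟨i, rfl⟩
      rw [hd, ← Finset.mul_prod_erase Finset.univ c (Finset.mem_univ i), mul_comm, mul_smul]
      exact Submodule.smul_mem _ _ (hc i)
    · rw [smul_zero]; exact Submodule.zero_mem _
    · intro x y _ _ hx hy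
      rw [smul_add]; exact Submodule.add_mem _ hx hy
    · intro r x _ hx
      rw [smul_comm]; exact Submodule.smul_mem _ _ hx
  have hli : LinearIndependent Λ (fun i : s => v i) := hs
  have himg : Submodule.span Λ (v '' s) = Submodule.span Λ (Set.range fun i : s => v i) := by
    congr 1
    ext y
    simp
  rw [himg] at hdx
  let b := Module.Basis.span hli
  let D : A →ₗ[Λ] Submodule.span Λ (Set.range fun i : s => v i) :=
    LinearMap.codRestrict _ (d • (LinearMap.id : A →ₗ[Λ] A)) (fun x => hdx x)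
  refine ⟨s, inferInstance, fun i => v i, fun i => (b.coord i).comp D, d, hd0, fun x => ?_⟩
  have h := b.sum_repr (D x)
  have h2 := congrArg (Submodule.subtype _) h
  rw [map_sum] at h2
  have h3 : (Submodule.subtype (Submodule.span Λ (Set.range fun i : s => v i))) (D x) = d • x := rfl
  rw [h3] at h2
  rw [← h2]
  refine Finset.sum_congr rfl fun i _ => ?_
  rw [map_smul, LinearMap.comp_apply, Module.Basis.coord_apply]
  congr 1
  exact congrArg Subtype.val (Module.Basis.span_apply hli i)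

/-- coefficientwise application of a linear map -/
noncomputable def cw {Λ A : Type u} [CommRing Λ] [CommRing A] [Algebra Λ A] {s : ℕ}
    (φ : A →ₗ[Λ] Λ) (q : MvPolynomial (Fin s) A) : MvPolynomial (Fin s) Λ :=
  ∑ m ∈ q.support, MvPolynomial.monomial m (φ (q.coeff m))

theorem coeff_cw {Λ A : Type u} [CommRing Λ] [CommRing A] [Algebra Λ A] {s : ℕ}
    (φ : A →ₗ[Λ] Λ) (q : MvPolynomial (Fin s) A) (m : Fin s →₀ ℕ) :
    (cw φ q).coeff m = φ (q.coeff m) := by
  classical
  rw [cw, MvPolynomial.coeff_sum]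
  simp only [MvPolynomial.coeff_monomial]
  rw [Finset.sum_ite_eq']
  split_ifs with h
  · rfl
  · rw [MvPolynomial.notMem_support_iff.1 h, map_zero]

theorem cw_add {Λ A : Type u} [CommRing Λ] [CommRing A] [Algebra Λ A] {s : ℕ}
    (φ : A →ₗ[Λ] Λ) (q r : MvPolynomial (Fin s) A) : cw φ (q + r) = cw φ q + cw φ r := by
  ext m
  simp [coeff_cw]

theorem cw_zero {Λ A : Type u} [CommRing Λ] [CommRing A] [Algebra Λ A] {s : ℕ}
    (φ : A →ₗ[Λ] Λ) : cw φ (0 : MvPolynomial (Fin s) A) = 0 := by
  ext m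
  simp [coeff_cw]

theorem cw_sum {Λ A : Type u} [CommRing Λ] [CommRing A] [Algebra Λ A] {s : ℕ}
    (φ : A →ₗ[Λ] Λ) {κ : Type} (t : Finset κ) (q : κ → MvPolynomial (Fin s) A) :
    cw φ (∑ i ∈ t, q i) = ∑ i ∈ t, cw φ (q i) := by
  classical
  induction t using Finset.induction_on with
  | empty => simp [cw_zero]
  | insert i t hi ih => rw [Finset.sum_insert hi, Finset.sum_insert hi, cw_add, ih]

theorem cw_map_mul {Λ A : Type u} [CommRing Λ] [CommRing A] [Algebra Λ A] {s : ℕ}
    (φ : A →ₗ[Λ] Λ) (p : MvPolynomial (Fin s) Λ) (q : MvPolynomial (Fin s) A) :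
    cw φ (MvPolynomial.map (algebraMap Λ A) p * q) = p * cw φ q := by
  classical
  ext m
  rw [coeff_cw, MvPolynomial.coeff_mul, MvPolynomial.coeff_mul, map_sum]
  refine Finset.sum_congr rfl fun ij _ => ?_
  rw [MvPolynomial.coeff_map, ← Algebra.smul_def, map_smul, coeff_cw, smul_eq_mul]

theorem smul_eval_eq {Λ A : Type u} [CommRing Λ] [CommRing A] [Algebra Λ A] {s : ℕ}
    (a : Fin s → A) {ι : Type} [Fintype ι] (e : ι → A) (φ : ι → (A →ₗ[Λ] Λ)) (d : Λ)
    (h : ∀ x : A, d • x = ∑ i, φ i x • e i) (q : MvPolynomial (Fin s) A) :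
    d • MvPolynomial.eval a q = ∑ i, MvPolynomial.aeval a (cw (φ i) q) * e i := by
  have h1 : MvPolynomial.eval a q = ∑ m ∈ q.support, q.coeff m * m.prod fun j k => a j ^ k := by
    rw [MvPolynomial.eval_eq]
    rfl
  have h2 : ∀ i, MvPolynomial.aeval a (cw (φ i) q) =
      ∑ m ∈ q.support, algebraMap Λ A (φ i (q.coeff m)) * m.prod fun j k => a j ^ k := by
    intro i
    rw [cw, map_sum]
    exact Finset.sum_congr rfl fun m _ => MvPolynomial.aeval_monomial _ _ _
  rw [h1, Finset.smul_sum]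
  simp only [h2, Finset.sum_mul]
  rw [Finset.sum_comm]
  refine Finset.sum_congr rfl fun m _ => ?_
  rw [← smul_mul_assoc, h, Finset.sum_mul]
  refine Finset.sum_congr rfl fun i _ => ?_
  rw [Algebra.smul_def]
  ring

theorem sub_eval_mem {A : Type u} [CommRing A] {s : ℕ} (a : Fin s → A)
    (f : MvPolynomial (Fin s) A) :
    f - MvPolynomial.C (MvPolynomial.eval a f) ∈
      Ideal.span (Set.range fun j => MvPolynomial.X j - MvPolynomial.C (a j)) := by
  induction f using MvPolynomial.induction_on with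
  | C c => simp
  | add p q hp hq =>
    have : p + q - MvPolynomial.C (MvPolynomial.eval a (p + q)) =
        (p - MvPolynomial.C (MvPolynomial.eval a p)) +
          (q - MvPolynomial.C (MvPolynomial.eval a q)) := by
      rw [map_add, map_add]; ring
    rw [this]
    exact Ideal.add_mem _ hp hq
  | mul_X p j hp =>
    have : p * MvPolynomial.X j - MvPolynomial.C (MvPolynomial.eval a (p * MvPolynomial.X j)) =
        MvPolynomial.X j * (p - MvPolynomial.C (MvPolynomial.eval a p)) +
          MvPolynomial.C (MvPolynomial.eval a p) * (MvPolynomial.X j - MvPolynomial.C (a j)) := by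
      rw [map_mul, map_mul, MvPolynomial.eval_X]; ring
    rw [this]
    exact Ideal.add_mem _ (Ideal.mul_mem_left _ _ hp)
      (Ideal.mul_mem_left _ _ (Ideal.subset_span ⟨j, rfl⟩))

end aux

section M6

/-- TASK M6a: a generic idempotent. Proof: in `A[T]` let `ε = ∏_j F_j(T_j)/(T_j - a_j)`; for
`f ∈ Λ[T]` with `f(a) = 0` we have `f ∈ (T_j - a_j)`, hence `f ε ∈ (F_j(T_j)) A[T]`. For a
`Λ`-linear `φ : A → Λ`, applied to the coefficients, `φ(ε) f ∈ (F_j(T_j)) Λ[T]`. As
`ε(a) = ∏ F_j'(a_j) ≠ 0`, some `φ` has `φ(ε)(a) ≠ 0` (basis of `Frac A` over `Frac Λ`, dual basis,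
clear the denominators); multiply by a polynomial `β` with `β(a) φ(ε)(a) ∈ Λ - 0`. -/
theorem exists_idem {Λ A : Type u} [CommRing Λ] [IsDomain Λ] [CommRing A] [IsDomain A]
    [Algebra Λ A] [Module.Finite Λ A] (hinj : Function.Injective (algebraMap Λ A)) {s : ℕ}
    (a : Fin s → A) (ha : Algebra.adjoin Λ (Set.range a) = ⊤) (F : Fin s → Λ[X])
    (hFm : ∀ j, (F j).Monic) (hF : ∀ j, aeval (a j) (F j) = 0)
    (hF' : ∀ j, aeval (a j) (derivative (F j)) ≠ 0) :
    ∃ (g : Λ) (E : MvPolynomial (Fin s) Λ), g ≠ 0 ∧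
      MvPolynomial.aeval a E = algebraMap Λ A g ∧
      ∀ f : MvPolynomial (Fin s) Λ, MvPolynomial.aeval a f = 0 →
        E * f ∈ Ideal.span (Set.range fun j => Polynomial.toMvPolynomial j (F j)) := by
  classical
  have _ := hFm
  -- the quotients `G_j`
  set FA : Fin s → A[X] := fun j => (F j).map (algebraMap Λ A) with hFA
  set G : Fin s → A[X] := fun j => FA j /ₘ (X - C (a j)) with hG
  have hroot : ∀ j, (FA j).IsRoot (a j) := by
    intro j
    rw [IsRoot.def, hFA, eval_map_algebraMap]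
    exact hF j
  have hGmul : ∀ j, (X - C (a j)) * G j = FA j := fun j => mul_divByMonic_eq_iff_isRoot.2 (hroot j)
  have hGeval : ∀ j, (G j).eval (a j) ≠ 0 := by
    intro j h
    apply hF' j
    have h1 : (derivative (FA j)).eval (a j) = (G j).eval (a j) := by
      rw [← hGmul j, derivative_mul]
      simp
    rw [h, hFA, derivative_map, eval_map_algebraMap] at h1
    exact h1
  set ε : MvPolynomial (Fin s) A := ∏ j, toMvPolynomial j (G j) with hε
  have hεa : MvPolynomial.eval a ε ≠ 0 := by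
    rw [hε, map_prod]
    refine Finset.prod_ne_zero_iff.2 fun j _ => ?_
    rw [MvPolynomial.eval_toMvPolynomial]
    exact hGeval j
  -- `ε` kills
  set J : Ideal (MvPolynomial (Fin s) A) :=
    Ideal.span (Set.range fun j => toMvPolynomial j (FA j)) with hJ
  have hkill1 : ∀ f ∈ Ideal.span (Set.range fun j : Fin s =>
      (MvPolynomial.X j - MvPolynomial.C (a j) : MvPolynomial (Fin s) A)), ε * f ∈ J := by
    intro f hf
    refine Submodule.span_induction ?_ ?_ ?_ ?_ hf
    · rintro _ ⟨j, rfl⟩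
      have h1 : ε * (MvPolynomial.X j - MvPolynomial.C (a j)) =
          (∏ i ∈ Finset.univ.erase j, toMvPolynomial i (G i)) * toMvPolynomial j (FA j) := by
        rw [hε, ← Finset.mul_prod_erase Finset.univ _ (Finset.mem_univ j), ← hGmul j, map_mul,
          map_sub, toMvPolynomial_X, toMvPolynomial_C]
        ring
      change ε * (MvPolynomial.X j - MvPolynomial.C (a j)) ∈ J
      rw [h1]
      exact Ideal.mul_mem_left _ _ (Ideal.subset_span ⟨j, rfl⟩)
    · rw [mul_zero]; exact Ideal.zero_mem _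
    · intro x y _ _ hx hy
      rw [mul_add]; exact Ideal.add_mem _ hx hy
    · intro r x _ hx
      rw [smul_eq_mul, mul_left_comm]; exact Ideal.mul_mem_left _ _ hx
  have hkill : ∀ f : MvPolynomial (Fin s) A, MvPolynomial.eval a f = 0 → ε * f ∈ J := by
    intro f hf
    apply hkill1
    have := sub_eval_mem a f
    rwa [hf, map_zero, sub_zero] at this
  -- the dual family
  obtain ⟨ι, _, e, φ, d, hd0, hdφ⟩ := exists_dual_family (Λ := Λ) (A := A)
  have hne : ∃ i, MvPolynomial.aeval a (cw (φ i) ε) ≠ 0 := by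
    by_contra hcon
    push Not at hcon
    have h1 := smul_eval_eq a e φ d hdφ ε
    simp only [hcon, zero_mul, Finset.sum_const_zero] at h1
    rw [Algebra.smul_def] at h1
    rcases mul_eq_zero.1 h1 with h2 | h2
    · exact hd0 (hinj (by rw [h2, map_zero]))
    · exact hεa h2
  obtain ⟨i, hi⟩ := hne
  obtain ⟨g, hg0, z, hz⟩ :=
    ((Algebra.IsIntegral.isIntegral (R := Λ)
      (MvPolynomial.aeval a (cw (φ i) ε))).isAlgebraic).exists_nonzero_dvd
        (mem_nonZeroDivisors_of_ne_zero hi)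
  have hzmem : z ∈ Algebra.adjoin Λ (Set.range a) := ha ▸ Algebra.mem_top
  rw [Algebra.adjoin_range_eq_range_aeval] at hzmem
  obtain ⟨β, hβ⟩ := hzmem
  refine ⟨g, β * cw (φ i) ε, hg0, ?_, fun f hf => ?_⟩
  · rw [map_mul]
    rw [show (MvPolynomial.aeval a) β = z from hβ, hz, mul_comm]
  · have h1 : ε * MvPolynomial.map (algebraMap Λ A) f ∈ J := by
      apply hkill
      rw [MvPolynomial.eval_map, ← MvPolynomial.aeval_def]
      exact hf
    obtain ⟨c, hc⟩ := Submodule.mem_span_range_iff_exists_fun _ |>.1 h1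
    have h2 : cw (φ i) (ε * MvPolynomial.map (algebraMap Λ A) f) = f * cw (φ i) ε := by
      rw [mul_comm, cw_map_mul]
    have h3 : f * cw (φ i) ε = ∑ j, toMvPolynomial j (F j) * cw (φ i) (c j) := by
      rw [← h2, ← hc, cw_sum]
      refine Finset.sum_congr rfl fun j _ => ?_
      have h4 : toMvPolynomial j (FA j) =
          MvPolynomial.map (algebraMap Λ A) (toMvPolynomial j (F j)) := by
        rw [hFA]
        change toMvPolynomial j ((F j).map (algebraMap Λ A)) = _
        induction (F j) using Polynomial.induction_on' with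
        | add p q hp hq => rw [Polynomial.map_add, map_add, hp, hq, map_add, map_add]
        | monomial n c =>
          rw [Polynomial.map_monomial, ← C_mul_X_pow_eq_monomial, ← C_mul_X_pow_eq_monomial,
            map_mul, map_mul, map_pow, map_pow, toMvPolynomial_X, toMvPolynomial_X,
            toMvPolynomial_C, toMvPolynomial_C, map_mul, map_pow, MvPolynomial.map_C,
            MvPolynomial.map_X]
      rw [h4, smul_eq_mul, mul_comm, cw_map_mul]
    have h5 : β * cw (φ i) ε * f = β * (f * cw (φ i) ε) := by ring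
    rw [h5, h3]
    refine Ideal.mul_mem_left _ _ (Ideal.sum_mem _ fun j _ => ?_)
    exact Ideal.mul_mem_right _ _ (Ideal.subset_span ⟨j, rfl⟩)

/-- TASK M6b: monic polynomials with a simple root at `a`. Proof: `G` monic of degree `D1` with
lower coefficients in `𝔪` and `G(a) = 0` (Cayley-Hamilton for `a^M`); `P ≠ 0` in `Λ[T]` of minimal
degree with `P(a) = 0`, so `P'(a) ≠ 0`; `c ∈ 𝔪`, `c ≠ 0`. For `D ≥ D1, deg P + 1` take
`F = G T^(D - D1)` or `G T^(D - D1) + c P`. -/
theorem exists_simple_root {Λ A : Type u} [CommRing Λ] [IsDomain Λ] [CommRing A] [IsDomain A]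
    [CharZero A] [Algebra Λ A] [Module.Finite Λ A] (hinj : Function.Injective (algebraMap Λ A))
    (𝔪 : Ideal Λ) (h𝔪 : 𝔪 ≠ ⊥) (a : A) (M : ℕ) (ha : a ^ M ∈ 𝔪.map (algebraMap Λ A)) :
    ∃ D0 : ℕ, ∀ D, D0 ≤ D → ∃ F : Λ[X], F.Monic ∧ F.natDegree = D ∧ (∀ i < D, F.coeff i ∈ 𝔪) ∧
      aeval a F = 0 ∧ aeval a (derivative F) ≠ 0 := by
  classical
  have : CharZero Λ := by
    refine ⟨fun m n h => ?_⟩
    have : ((m : Λ) : Λ) = (n : Λ) := h
    have h2 := congrArg (algebraMap Λ A) this
    rw [map_natCast, map_natCast] at h2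
    exact_mod_cast h2
  -- Cayley-Hamilton
  have haM : a ^ (M + 1) ∈ 𝔪.map (algebraMap Λ A) := by
    rw [pow_succ]; exact Ideal.mul_mem_right _ _ ha
  have hrange : LinearMap.range (Algebra.lmul Λ A (a ^ (M + 1))) ≤
      𝔪 • (⊤ : Submodule Λ A) := by
    rintro _ ⟨x, rfl⟩
    have h1 : (𝔪 • (⊤ : Submodule Λ A)) = (𝔪.map (algebraMap Λ A)).restrictScalars Λ :=
      Ideal.smul_top_eq_map 𝔪
    rw [h1]
    change a ^ (M + 1) * x ∈ 𝔪.map (algebraMap Λ A)
    exact Ideal.mul_mem_right _ _ haM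
  obtain ⟨g0, hg0m, -, hg0c, hg0a⟩ :=
    LinearMap.exists_monic_and_natDegree_eq_and_coeff_mem_pow_and_aeval_eq_zero Λ
      (Algebra.lmul Λ A (a ^ (M + 1))) 𝔪 hrange
  have hg0a' : aeval (a ^ (M + 1)) g0 = 0 := by
    rw [Polynomial.aeval_algHom_apply] at hg0a
    exact Algebra.lmul_injective (by rw [hg0a, map_zero])
  set G : Λ[X] := Polynomial.expand Λ (M + 1) g0 with hG
  have hGm : G.Monic := hg0m.expand (Nat.succ_pos M)
  have hGa : aeval a G = 0 := by
    rw [hG, Polynomial.expand_aeval]; exact hg0a'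
  have hGd : G.natDegree = g0.natDegree * (M + 1) := natDegree_expand _ _
  have hGc : ∀ i < G.natDegree, G.coeff i ∈ 𝔪 := by
    intro i hi
    rw [hG, coeff_expand (Nat.succ_pos M)]
    split_ifs with h
    · have h2 : i / (M + 1) < g0.natDegree := by
        rw [hGd] at hi
        exact Nat.div_lt_of_lt_mul (by rwa [mul_comm])
      have h3 := hg0c (i / (M + 1))
      exact Ideal.pow_le_self (by omega) h3
    · exact Ideal.zero_mem _
  -- minimal degree
  have hexP : ∃ n : ℕ, ∃ P : Λ[X], P ≠ 0 ∧ P.natDegree = n ∧ aeval a P = 0 :=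
    ⟨G.natDegree, G, hGm.ne_zero, rfl, hGa⟩
  obtain ⟨P, hP0, hPn, hPa⟩ := Nat.find_spec hexP
  have hmin : ∀ Q : Λ[X], Q ≠ 0 → aeval a Q = 0 → P.natDegree ≤ Q.natDegree := by
    intro Q hQ hQa
    rw [hPn]
    exact Nat.find_min' hexP ⟨Q, hQ, rfl, hQa⟩
  have hP' : aeval a (derivative P) ≠ 0 := by
    intro h
    by_cases hd : derivative P = 0
    · have h1 := Polynomial.derivative_eq_zero.1 hd
      obtain ⟨c, hc⟩ := Polynomial.natDegree_eq_zero.1 h1
      rw [← hc, aeval_C] at hPa
      have : c = 0 := hinj (by rw [hPa, map_zero])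
      exact hP0 (by rw [← hc, this, map_zero])
    · have h1 := hmin _ hd h
      have h2 : P.natDegree ≠ 0 := by
        intro h3
        obtain ⟨c, hc⟩ := Polynomial.natDegree_eq_zero.1 h3
        exact hd (by rw [← hc, derivative_C])
      have h3 := Polynomial.natDegree_derivative_lt h2
      omega
  obtain ⟨c, hc, hc0⟩ := Submodule.exists_mem_ne_zero_of_ne_bot h𝔪
  refine ⟨max G.natDegree (P.natDegree + 1), fun D hD => ?_⟩
  have hD1 : G.natDegree ≤ D := le_trans (le_max_left _ _) hD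
  have hD2 : P.natDegree < D := lt_of_lt_of_le (Nat.lt_succ_self _) (le_trans (le_max_right _ _) hD)
  set F1 : Λ[X] := G * X ^ (D - G.natDegree) with hF1
  have hF1m : F1.Monic := hGm.mul (monic_X_pow _)
  have hF1d : F1.natDegree = D := by
    rw [hF1, hGm.natDegree_mul (monic_X_pow _), natDegree_X_pow]; omega
  have hF1a : aeval a F1 = 0 := by rw [hF1, map_mul, hGa, zero_mul]
  have hF1c : ∀ i < D, F1.coeff i ∈ 𝔪 := by
    intro i hi
    rw [hF1, coeff_mul_X_pow']
    split_ifs with h
    · exact hGc _ (by omega)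
    · exact Ideal.zero_mem _
  by_cases h1 : aeval a (derivative F1) = 0
  · have hlt : (C c * P).degree < F1.degree := by
      rw [degree_C_mul hc0, degree_eq_natDegree hP0, degree_eq_natDegree hF1m.ne_zero, hF1d]
      exact_mod_cast hD2
    refine ⟨F1 + C c * P, hF1m.add_of_left hlt, ?_, fun i hi => ?_, ?_, ?_⟩
    · rw [natDegree_add_eq_left_of_degree_lt hlt, hF1d]
    · rw [coeff_add, coeff_C_mul]
      exact Ideal.add_mem _ (hF1c i hi) (Ideal.mul_mem_right _ _ hc)
    · rw [map_add, hF1a, map_mul, hPa, mul_zero, add_zero]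
    · rw [derivative_add, derivative_C_mul, map_add, h1, zero_add, map_mul, aeval_C]
      refine mul_ne_zero (fun h => hc0 (hinj (by rw [h, map_zero]))) hP'
  · exact ⟨F1, hF1m, hF1d, hF1c, hF1a, h1⟩

end M6

end Vale.Agent.P202.Mix
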