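import Mathlib

/-!
P202, mixed characteristic: the additive normalized length `lam` over a tower of subalgebras.
-/

namespace Vale.Agent.P202.Mix

open Submodule

/-- A directed union of subalgebras of an `R0`-algebra `R`, with ranks: `sub j` is generated over
`sub i` by `rank j / rank i` elements. -/
structure Tower (R0 R : Type*) [CommRing R0] [CommRing R] [Algebra R0 R] (ι : Type*)
    [Preorder ι] where
  /-- the subalgebras -/
  sub : ι → Subalgebra R0 R
  mono : Monotone sub
  cover : ∀ x : R, ∃ i, x ∈ sub i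
  /-- the ranks -/
  rank : ι → ℕ
  rank_pos : ∀ i, 0 < rank i
  fg : ∀ i, (Subalgebra.toSubmodule (sub i)).FG
  gen : ∀ i j, i ≤ j → ∃ (m : ℕ) (e : Fin m → R), m * rank i = rank j ∧
    (∀ k, e k ∈ sub j) ∧ ∀ x ∈ sub j, ∃ c : Fin m → R, (∀ k, c k ∈ sub i) ∧ x = ∑ k, e k * c k

section Ext

variable {R0 R : Type*} [CommRing R0] [CommRing R] [Algebra R0 R]
variable {N : Type*} [AddCommGroup N] [Module R0 N] [Module R N] [IsScalarTower R0 R N]

/-- The `R0`-submodule generated by the products of elements of `B` and elements of `X`. -/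
def ext (B : Subalgebra R0 R) (X : Submodule R0 N) : Submodule R0 N :=
  map₂ (Algebra.lsmul R0 R0 N).toLinearMap (Subalgebra.toSubmodule B) X

theorem smul_mem_ext {B : Subalgebra R0 R} {X : Submodule R0 N} {b : R} {x : N} (hb : b ∈ B)
    (hx : x ∈ X) : b • x ∈ ext B X :=
  apply_mem_map₂ (f := (Algebra.lsmul R0 R0 N).toLinearMap) hb hx

theorem ext_le {B : Subalgebra R0 R} {X Y : Submodule R0 N}
    (h : ∀ b ∈ B, ∀ x ∈ X, b • x ∈ Y) : ext B X ≤ Y :=
  map₂_le.mpr h

theorem ext_mono {B B' : Subalgebra R0 R} {X X' : Submodule R0 N} (h : B ≤ B') (h' : X ≤ X') :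
    ext B X ≤ ext B' X' :=
  map₂_le_map₂ (fun _ hx => h hx) h'

theorem le_ext (B : Subalgebra R0 R) (X : Submodule R0 N) : X ≤ ext B X := by
  intro x hx
  have := smul_mem_ext (B := B) (b := 1) (one_mem B) hx
  rwa [one_smul] at this

theorem ext_fg {B : Subalgebra R0 R} (hB : (Subalgebra.toSubmodule B).FG) {X : Submodule R0 N}
    (hX : X.FG) : (ext B X).FG :=
  hB.map₂ _ hX

theorem smul_ext_mem {B : Subalgebra R0 R} {X : Submodule R0 N} {b : R} (hb : b ∈ B) {x : N}
    (hx : x ∈ ext B X) : b • x ∈ ext B X := by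
  refine map₂_le (f := (Algebra.lsmul R0 R0 N).toLinearMap) (p := Subalgebra.toSubmodule B)
    (q := X) (r := (ext B X).comap ((Algebra.lsmul R0 R0 N) b)) |>.mpr ?_ hx
  intro c hc y hy
  change b • c • y ∈ ext B X
  rw [smul_smul]
  exact smul_mem_ext (B.mul_mem hb hc) hy

theorem ext_ext {B B' : Subalgebra R0 R} (h : B ≤ B') (X : Submodule R0 N) :
    ext B' (ext B X) = ext B' X := by
  refine le_antisymm (ext_le fun b hb x hx => smul_ext_mem hb (ext_mono h le_rfl hx))
    (ext_mono le_rfl (le_ext B X))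

theorem ext_sup (B : Subalgebra R0 R) (X Y : Submodule R0 N) :
    ext B (X ⊔ Y) = ext B X ⊔ ext B Y :=
  map₂_sup_right _ _ _ _

theorem map_ext {N' : Type*} [AddCommGroup N'] [Module R0 N'] [Module R N']
    [IsScalarTower R0 R N'] (f : N →ₗ[R] N') (B : Subalgebra R0 R) (X : Submodule R0 N) :
    (ext B X).map (f.restrictScalars R0) = ext B (X.map (f.restrictScalars R0)) := by
  refine le_antisymm ?_ ?_
  · rw [map_le_iff_le_comap]
    refine ext_le fun b hb x hx => ?_
    have h1 : f (b • x) = b • f x := map_smul f b x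
    have h2 : b • f x ∈ ext B (X.map (f.restrictScalars R0)) :=
      smul_mem_ext hb (mem_map_of_mem (f := f.restrictScalars R0) hx)
    rw [← h1] at h2
    exact h2
  · refine ext_le fun b hb y hy => ?_
    obtain ⟨x, hx, rfl⟩ := hy
    exact ⟨b • x, smul_mem_ext hb hx, map_smul f b x⟩

/-- An `R`-submodule contains the extension of its `R0`-submodules. -/
theorem ext_le_of_le (N' : Submodule R N) {B : Subalgebra R0 R} {X : Submodule R0 N}
    (h : X ≤ N'.restrictScalars R0) : ext B X ≤ N'.restrictScalars R0 := by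
  refine ext_le fun b _ x hx => ?_
  have hx' : x ∈ N' := h hx
  exact N'.smul_mem b hx'

end Ext

section Len

variable {R0 : Type*} [CommRing R0] {M M' : Type*} [AddCommGroup M] [Module R0 M]
  [AddCommGroup M'] [Module R0 M']

theorem len_map_le (f : M →ₗ[R0] M') (X : Submodule R0 M) :
    Module.length R0 (X.map f) ≤ Module.length R0 X :=
  Module.length_le_of_surjective (f.submoduleMap X) (f.submoduleMap_surjective X)

theorem len_mono {X Y : Submodule R0 M} (h : X ≤ Y) :
    Module.length R0 X ≤ Module.length R0 Y :=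
  Module.length_le_of_injective (inclusion h) (inclusion_injective h)

/-- additivity of the length for a submodule `X` and a linear map. -/
theorem len_ker_map (f : M →ₗ[R0] M') (X : Submodule R0 M) :
    Module.length R0 X =
      Module.length R0 (X ⊓ LinearMap.ker f : Submodule R0 M) +
        Module.length R0 (X.map f) := by
  refine Module.length_eq_add_of_exact (inclusion inf_le_left) (f.submoduleMap X)
    (inclusion_injective _) (f.submoduleMap_surjective X) ?_
  intro x
  constructor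
  · intro hx
    have h1 : f x.1 = 0 := congrArg Subtype.val hx
    exact ⟨⟨x.1, x.2, h1⟩, Subtype.ext rfl⟩
  · rintro ⟨y, rfl⟩
    exact Subtype.ext y.2.2

/-- The key estimate: if `Z` is contained in `∑ e_k Y` (for endomorphisms `e_k`) and `e_k F ≤ Z'`
then `l(Z) ≤ l(Z') + m l(Y/F)`, in the form with a linear map `f` with kernel meeting `Y` in
`F`. -/
theorem len_le_add {m : ℕ} (e : Fin m → M →ₗ[R0] M) (Y Z Z' : Submodule R0 M)
    (f : M →ₗ[R0] M') (hZ : ∀ z ∈ Z, ∃ y : Fin m → M, (∀ k, y k ∈ Y) ∧ z = ∑ k, e k (y k))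
    (hF : ∀ k, ∀ y ∈ Y, f y = 0 → e k y ∈ Z') :
    Module.length R0 Z ≤ Module.length R0 Z' + m * Module.length R0 (Y.map f) := by
  -- the map `Y^m → M`
  let φ : (Fin m → Y) →ₗ[R0] M := ∑ k, (e k) ∘ₗ Y.subtype ∘ₗ LinearMap.proj k
  have hφ : ∀ y : Fin m → Y, φ y = ∑ k, e k (y k) := by
    intro y
    simp [φ]
  -- the map `Y^m → (f Y)^m`
  let ψ : (Fin m → Y) →ₗ[R0] (Fin m → Y.map f) :=
    LinearMap.pi fun k => (f.submoduleMap Y) ∘ₗ LinearMap.proj k
  have hψs : Function.Surjective ψ := by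
    intro w
    choose y hy using fun k => f.submoduleMap_surjective Y (w k)
    exact ⟨y, funext hy⟩
  have hker : LinearMap.ker ψ ≤ LinearMap.ker (Z'.mkQ ∘ₗ φ) := by
    intro y hy
    rw [LinearMap.mem_ker] at hy ⊢
    rw [LinearMap.comp_apply, hφ, mkQ_apply, Quotient.mk_eq_zero]
    refine sum_mem fun k _ => hF k _ (y k).2 ?_
    exact congrArg Subtype.val (congrFun hy k)
  have h1 : Module.length R0 Z ≤ Module.length R0 Z' + Module.length R0 (Z.map Z'.mkQ) := by
    rw [len_ker_map Z'.mkQ Z]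
    refine add_le_add (len_mono ?_) le_rfl
    rw [ker_mkQ]
    exact inf_le_right
  refine h1.trans (add_le_add le_rfl ?_)
  have h2 : Z.map Z'.mkQ ≤ LinearMap.range (Z'.mkQ ∘ₗ φ) := by
    rintro _ ⟨z, hz, rfl⟩
    obtain ⟨y, hy, rfl⟩ := hZ z hz
    exact ⟨fun k => ⟨y k, hy k⟩, by rw [LinearMap.comp_apply, hφ]⟩
  refine (len_mono h2).trans ?_
  have h3 : Module.length R0 (LinearMap.range (Z'.mkQ ∘ₗ φ)) ≤
      Module.length R0 (Fin m → Y.map f) := by
    -- factor through `ψ`
    have e1 := (Z'.mkQ ∘ₗ φ).quotKerEquivRange.length_eq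
    have e2 := (ψ.quotKerEquivOfSurjective hψs).length_eq
    rw [← e1, ← e2]
    exact Module.length_le_of_surjective (factor hker) (factor_surjective hker)
  refine h3.trans ?_
  rw [Module.length_pi_of_fintype, Finset.sum_const, Finset.card_univ, Fintype.card_fin,
    nsmul_eq_mul]

/-- an inequality of lengths over `R0` for restricted maps. -/
theorem len_map_eq {f : M →ₗ[R0] M'} (hf : Function.Injective f) (X : Submodule R0 M) :
    Module.length R0 (X.map f) = Module.length R0 X :=
  ((X.equivMapOfInjective f hf).length_eq).symm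

end Len

namespace Tower

variable {R0 R : Type*} [CommRing R0] [CommRing R] [Algebra R0 R] {ι : Type*} [Preorder ι]
variable (T : Tower R0 R ι)
variable {N : Type*} [AddCommGroup N] [Module R0 N] [Module R N] [IsScalarTower R0 R N]
variable {N' : Type*} [AddCommGroup N'] [Module R0 N'] [Module R N'] [IsScalarTower R0 R N']
variable {N'' : Type*} [AddCommGroup N''] [Module R0 N''] [Module R N'']
  [IsScalarTower R0 R N'']

/-- the length of `sub i * X` -/
noncomputable def len (i : ι) (X : Submodule R0 N) : ℕ∞ := Module.length R0 (ext (T.sub i) X)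

/-- the normalized length of `sub i * X` -/
noncomputable def nlen (i : ι) (X : Submodule R0 N) : ENNReal :=
  ((T.len i X : ℕ∞) : ENNReal) / (T.rank i : ENNReal)

/-- the normalized length of the `R`-module generated by `X` -/
noncomputable def lamX (X : Submodule R0 N) : ENNReal := ⨅ i, T.nlen i X

variable (N) in
/-- the additive normalized length -/
noncomputable def lam : ENNReal := ⨆ (X : Submodule R0 N) (_ : X.FG), T.lamX X

variable (N) in
/-- locally finite modules: the `R0`-modules `sub i * X` have finite length. -/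
def LF : Prop := ∀ (X : Submodule R0 N), X.FG → Module.length R0 X ≠ ⊤

theorem rank_ne_zero (i : ι) : (T.rank i : ENNReal) ≠ 0 := by
  exact_mod_cast (T.rank_pos i).ne'

theorem exists_gen {i j : ι} (h : i ≤ j) (X : Submodule R0 N) :
    ∃ (m : ℕ) (e : Fin m → N →ₗ[R0] N), m * T.rank i = T.rank j ∧
      (∀ k, ∃ r : R, r ∈ T.sub j ∧ ∀ x, e k x = r • x) ∧
      ∀ z ∈ ext (T.sub j) X, ∃ y : Fin m → N,
        (∀ k, y k ∈ ext (T.sub i) X) ∧ z = ∑ k, e k (y k) := by
  obtain ⟨m, e, hm, hmem, he⟩ := T.gen i j h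
  refine ⟨m, fun k => Algebra.lsmul R0 R0 N (e k), hm, fun k => ⟨e k, hmem k, fun x => rfl⟩, ?_⟩
  intro z hz
  have hz' : z ∈ LinearMap.range (∑ k, (Algebra.lsmul R0 R0 N (e k)) ∘ₗ
      (ext (T.sub i) X).subtype ∘ₗ LinearMap.proj (φ := fun _ : Fin m => ext (T.sub i) X) k) := by
    refine ext_le ?_ hz
    intro b hb x hx
    obtain ⟨c, hc, rfl⟩ := he b hb
    refine ⟨fun k => ⟨c k • x, smul_mem_ext (hc k) hx⟩, ?_⟩
    rw [LinearMap.sum_apply, Finset.sum_smul]
    refine Finset.sum_congr rfl fun k _ => ?_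
    exact (mul_smul (e k) (c k) x).symm
  obtain ⟨y, hy⟩ := hz'
  refine ⟨fun k => y k, fun k => (y k).2, ?_⟩
  rw [← hy, LinearMap.sum_apply]
  rfl

theorem len_mono' {i : ι} {X Y : Submodule R0 N} (h : X ≤ Y) : T.len i X ≤ T.len i Y :=
  len_mono (ext_mono le_rfl h)

theorem nlen_mono {i : ι} {X Y : Submodule R0 N} (h : X ≤ Y) : T.nlen i X ≤ T.nlen i Y :=
  ENNReal.div_le_div_right (by exact_mod_cast T.len_mono' h) _

/-- the division by the rank, and an estimate with a factor `m` -/
theorem div_rank_le {i j : ι} {m : ℕ} (hm : m * T.rank i = T.rank j) {a b c : ℕ∞}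
    (h : a ≤ b + m * c) :
    (a : ENNReal) / (T.rank j : ENNReal) ≤
      (b : ENNReal) / (T.rank j : ENNReal) + (c : ENNReal) / (T.rank i : ENNReal) := by
  have h1 : (a : ENNReal) ≤ (b : ENNReal) + (m : ENNReal) * (c : ENNReal) := by
    have := (ENat.toENNReal_le (m := a) (n := b + m * c)).mpr h
    rwa [ENat.toENNReal_add, ENat.toENNReal_mul, ENat.toENNReal_coe] at this
  refine (ENNReal.div_le_div_right h1 _).trans ?_
  rw [ENNReal.add_div]
  refine add_le_add le_rfl ?_
  have hr : (T.rank j : ENNReal) = (m : ENNReal) * (T.rank i : ENNReal) := by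
    rw [← hm]; push_cast; rfl
  have hm0 : (m : ENNReal) ≠ 0 := by
    intro h0
    rw [h0, zero_mul] at hr
    exact T.rank_ne_zero j hr
  rw [hr, ENNReal.mul_div_mul_left _ _ hm0 (ENNReal.natCast_ne_top m)]

theorem nlen_anti {i j : ι} (h : i ≤ j) (X : Submodule R0 N) : T.nlen j X ≤ T.nlen i X := by
  obtain ⟨m, e, hm, -, he⟩ := T.exists_gen h X
  have h1 : T.len j X ≤ 0 + m * T.len i X := by
    have := len_le_add e (ext (T.sub i) X) (ext (T.sub j) X) ⊥ LinearMap.id he
      (by rintro k y - hy; rw [LinearMap.id_apply] at hy; rw [hy, map_zero]; exact zero_mem _)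
    rw [map_id] at this
    refine this.trans (le_of_eq ?_)
    rw [show Module.length R0 (⊥ : Submodule R0 N) = 0 from Module.length_eq_zero]
    rfl
  have := T.div_rank_le hm h1
  rw [ENat.toENNReal_zero, ENNReal.zero_div, zero_add] at this
  exact this

theorem lamX_mono {X Y : Submodule R0 N} (h : X ≤ Y) : T.lamX X ≤ T.lamX Y :=
  iInf_mono fun _ => T.nlen_mono h

theorem lamX_le_nlen (i : ι) (X : Submodule R0 N) : T.lamX X ≤ T.nlen i X := iInf_le _ i

theorem lamX_le_lam {X : Submodule R0 N} (hX : X.FG) : T.lamX X ≤ T.lam N :=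
  le_iSup₂ (f := fun (X : Submodule R0 N) (_ : X.FG) => T.lamX X) X hX

theorem lam_le {a : ENNReal} (h : ∀ X : Submodule R0 N, X.FG → T.lamX X ≤ a) : T.lam N ≤ a :=
  iSup₂_le h

theorem nlen_map_le (i : ι) (f : N →ₗ[R] N') (X : Submodule R0 N) :
    T.nlen i (X.map (f.restrictScalars R0)) ≤ T.nlen i X := by
  refine ENNReal.div_le_div_right ?_ _
  rw [ENat.toENNReal_le, len, ← map_ext]
  exact len_map_le _ _

theorem nlen_map_eq (i : ι) {f : N →ₗ[R] N'} (hf : Function.Injective f) (X : Submodule R0 N) :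
    T.nlen i (X.map (f.restrictScalars R0)) = T.nlen i X := by
  rw [nlen, nlen, len, len, ← map_ext, len_map_eq (f := f.restrictScalars R0) hf]

theorem lamX_map_le (f : N →ₗ[R] N') (X : Submodule R0 N) :
    T.lamX (X.map (f.restrictScalars R0)) ≤ T.lamX X :=
  iInf_mono fun i => T.nlen_map_le i f X

theorem lamX_map_eq {f : N →ₗ[R] N'} (hf : Function.Injective f) (X : Submodule R0 N) :
    T.lamX (X.map (f.restrictScalars R0)) = T.lamX X :=
  iInf_congr fun i => T.nlen_map_eq i hf X

theorem lam_le_of_injective {f : N →ₗ[R] N'} (hf : Function.Injective f) :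
    T.lam N ≤ T.lam N' := by
  refine T.lam_le fun X hX => ?_
  rw [← T.lamX_map_eq hf]
  exact T.lamX_le_lam (hX.map _)

theorem exists_fg_lift {f : N →ₗ[R] N'} (hf : Function.Surjective f) {X : Submodule R0 N'}
    (hX : X.FG) : ∃ Y : Submodule R0 N, Y.FG ∧ Y.map (f.restrictScalars R0) = X := by
  classical
  obtain ⟨s, rfl⟩ := hX
  choose g hg using hf
  refine ⟨span R0 (s.image g : Finset N), fg_span (Finset.finite_toSet _), ?_⟩
  rw [map_span]
  congr 1
  ext x
  simp only [Finset.coe_image, Set.mem_image, LinearMap.coe_restrictScalars, exists_exists_and_eq_and]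
  constructor
  · rintro ⟨y, hy, rfl⟩
    rwa [hg]
  · intro hx
    exact ⟨x, hx, hg x⟩

theorem lam_le_of_surjective {f : N →ₗ[R] N'} (hf : Function.Surjective f) :
    T.lam N' ≤ T.lam N := by
  refine T.lam_le fun X hX => ?_
  obtain ⟨Y, hY, rfl⟩ := exists_fg_lift hf hX
  exact (T.lamX_map_le f Y).trans (T.lamX_le_lam hY)

theorem lam_congr (e : N ≃ₗ[R] N') : T.lam N = T.lam N' :=
  le_antisymm (T.lam_le_of_injective (f := e.toLinearMap) e.injective)
    (T.lam_le_of_surjective (f := e.toLinearMap) e.surjective)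

/-- superadditivity -/
theorem lamX_add_le (f : N →ₗ[R] N') {F X : Submodule R0 N} (hFX : F ≤ X)
    (hF : ∀ x ∈ F, f x = 0) :
    T.lamX F + T.lamX (X.map (f.restrictScalars R0)) ≤ T.lamX X := by
  refine le_iInf fun i => ?_
  refine (add_le_add (T.lamX_le_nlen i F) (T.lamX_le_nlen i _)).trans ?_
  rw [nlen, nlen, nlen, ← ENNReal.add_div]
  refine ENNReal.div_le_div_right ?_ _
  rw [← ENat.toENNReal_add, ENat.toENNReal_le, len, len, len, ← map_ext,
    len_ker_map (f.restrictScalars R0) (ext (T.sub i) X)]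
  refine add_le_add (len_mono (le_inf (ext_mono le_rfl hFX) ?_)) le_rfl
  intro x hx
  rw [LinearMap.mem_ker]
  exact ext_le_of_le (LinearMap.ker f) (X := F) (fun y hy => hF y hy) hx

/-- approximate subadditivity -/
theorem lamX_le_add [IsDirectedOrder ι] (hN : LF (R0 := R0) N) (f : N →ₗ[R] N')
    {X : Submodule R0 N} (hX : X.FG) {ε : ENNReal} (hε : ε ≠ 0) :
    ∃ F : Submodule R0 N, F.FG ∧ (∀ x ∈ F, f x = 0) ∧
      T.lamX X ≤ T.lamX F + (T.lamX (X.map (f.restrictScalars R0)) + ε) := by
  by_cases htop : T.lamX (X.map (f.restrictScalars R0)) = ⊤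
  · exact ⟨⊥, fg_bot, by simp, by rw [htop]; simp⟩
  have hlt : T.lamX (X.map (f.restrictScalars R0)) <
      T.lamX (X.map (f.restrictScalars R0)) + ε := ENNReal.lt_add_right htop hε
  obtain ⟨i, hi⟩ := iInf_lt_iff.mp hlt
  have hfg : (ext (T.sub i) X).FG := ext_fg (T.fg i) hX
  -- the submodule of `ext (sub i) X` killed by `f`
  let F : Submodule R0 N := ext (T.sub i) X ⊓ LinearMap.ker (f.restrictScalars R0)
  have hFfg : F.FG := by
    have h1 : Module.length R0 F ≠ ⊤ := by
      refine ne_top_of_le_ne_top (hN _ hfg) (len_mono inf_le_left)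
    have h2 : IsFiniteLength R0 F := Module.length_ne_top_iff.mp h1
    have := (isFiniteLength_iff_isNoetherian_isArtinian.mp h2).1
    exact (Submodule.fg_top F).mp (IsNoetherian.noetherian ⊤)
  refine ⟨F, hFfg, fun x hx => hx.2, ?_⟩
  refine le_trans ?_ (add_le_add le_rfl hi.le)
  -- estimate for every `j ≥ i`
  have key : ∀ j, i ≤ j → T.nlen j X ≤ T.nlen j F + T.nlen i (X.map (f.restrictScalars R0)) := by
    intro j hij
    obtain ⟨m, e, hm, he1, he2⟩ := T.exists_gen hij X
    refine T.div_rank_le hm ?_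
    have := len_le_add e (ext (T.sub i) X) (ext (T.sub j) X) (ext (T.sub j) F)
      (f.restrictScalars R0) he2 ?_
    · rwa [map_ext] at this
    · intro k y hy hfy
      obtain ⟨r, hr, hre⟩ := he1 k
      rw [hre]
      exact smul_mem_ext hr ⟨hy, hfy⟩
  have h3 : T.lamX X ≤ ⨅ j, (T.nlen j F + T.nlen i (X.map (f.restrictScalars R0))) := by
    refine le_iInf fun j => ?_
    obtain ⟨l, hil, hjl⟩ := exists_ge_ge i j
    exact (T.lamX_le_nlen l X).trans ((key l hil).trans
      (add_le_add (T.nlen_anti hjl F) le_rfl))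
  refine h3.trans (le_of_eq ?_)
  rw [lamX, ENNReal.iInf_add]

/-- ADDITIVITY of the normalized length. -/
theorem lam_eq_add [IsDirectedOrder ι] (hN : LF (R0 := R0) N) {f : N' →ₗ[R] N}
    {g : N →ₗ[R] N''} (hf : Function.Injective f) (hg : Function.Surjective g)
    (hfg : Function.Exact f g) : T.lam N = T.lam N' + T.lam N'' := by
  refine le_antisymm ?_ ?_
  · refine T.lam_le fun X hX => ?_
    refine ENNReal.le_of_forall_pos_le_add fun ε hε _ => ?_
    obtain ⟨F, hF1, hF2, hF3⟩ := T.lamX_le_add hN g hX (ε := ε) (by exact_mod_cast hε.ne')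
    refine hF3.trans ?_
    rw [← add_assoc]
    refine add_le_add (add_le_add ?_ (T.lamX_le_lam (hX.map _))) le_rfl
    -- `F` comes from `N'`
    have hFr : F ≤ LinearMap.range (f.restrictScalars R0) := by
      intro x hx
      obtain ⟨y, hy⟩ := (hfg x).mp (hF2 x hx)
      exact ⟨y, hy⟩
    have hFeq : (F.comap (f.restrictScalars R0)).map (f.restrictScalars R0) = F := by
      rw [map_comap_eq, inf_eq_right.mpr hFr]
    rw [← hFeq, T.lamX_map_eq hf]
    refine T.lamX_le_lam ?_
    refine fg_of_fg_map_injective (f.restrictScalars R0) hf ?_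
    rw [hFeq]; exact hF1
  · refine ENNReal.biSup_add_biSup_le' ⟨⊥, fg_bot⟩ ⟨⊥, fg_bot⟩ fun X hX Y hY => ?_
    obtain ⟨Z, hZ, rfl⟩ := exists_fg_lift hg hY
    have h1 := T.lamX_add_le g (F := X.map (f.restrictScalars R0))
      (X := X.map (f.restrictScalars R0) ⊔ Z) le_sup_left (by
        rintro _ ⟨x, -, rfl⟩
        exact hfg.apply_apply_eq_zero x)
    have h2 : (X.map (f.restrictScalars R0) ⊔ Z).map (g.restrictScalars R0) =
        Z.map (g.restrictScalars R0) := by
      rw [Submodule.map_sup, sup_eq_right.mpr]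
      rintro _ ⟨_, ⟨x, -, rfl⟩, rfl⟩
      have : g (f x) = 0 := hfg.apply_apply_eq_zero x
      change g (f x) ∈ _
      rw [this]
      exact zero_mem _
    rw [h2, T.lamX_map_eq hf] at h1
    exact h1.trans (T.lamX_le_lam ((hX.map _).sup hZ))

end Tower

end Vale.Agent.P202.Mix
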