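import Vale.Agent.P202.Mix.Lam

/-!
P202, mixed characteristic: bounds for the normalized length of modules in which every finite
subset lies in a submodule with few generators.
-/

namespace Vale.Agent.P202.Mix

open Submodule
open scoped ENNReal

namespace Tower

variable {R0 R : Type*} [CommRing R0] [CommRing R] [Algebra R0 R] {ι : Type*} [Preorder ι]
variable (T : Tower R0 R ι)
variable {N : Type*} [AddCommGroup N] [Module R0 N] [Module R N] [IsScalarTower R0 R N]

theorem lamX_ext [IsDirectedOrder ι] (i : ι) (X : Submodule R0 N) :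
    T.lamX (ext (T.sub i) X) = T.lamX X := by
  refine le_antisymm (le_iInf fun j => ?_) (T.lamX_mono (le_ext _ X))
  obtain ⟨l, hil, hjl⟩ := exists_ge_ge i j
  refine (T.lamX_le_nlen l _).trans ?_
  have h1 : T.nlen l (ext (T.sub i) X) = T.nlen l X := by
    unfold nlen len
    rw [ext_ext (T.mono hil)]
  rw [h1]
  exact T.nlen_anti hjl X

/-- finitely generated `R0`-submodules of the `R`-module generated by `Y` lie in some
`sub i * Y`. -/
theorem exists_le_ext [IsDirectedOrder ι] [Nonempty ι] {X Y : Submodule R0 N} (hX : X.FG)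
    (h : ∀ x ∈ X, x ∈ span R (Y : Set N)) : ∃ i, X ≤ ext (T.sub i) Y := by
  classical
  have h1 : ∀ x ∈ span R (Y : Set N), ∃ i, x ∈ ext (T.sub i) Y := by
    intro x hx
    induction hx using span_induction with
    | mem x hx => exact ⟨Classical.arbitrary ι, le_ext _ Y hx⟩
    | zero => exact ⟨Classical.arbitrary ι, zero_mem _⟩
    | add x y _ _ h1 h2 =>
      obtain ⟨i, hi⟩ := h1
      obtain ⟨j, hj⟩ := h2
      obtain ⟨l, hil, hjl⟩ := exists_ge_ge i j
      exact ⟨l, add_mem (ext_mono (T.mono hil) le_rfl hi) (ext_mono (T.mono hjl) le_rfl hj)⟩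
    | smul a x _ h1 =>
      obtain ⟨i, hi⟩ := h1
      obtain ⟨j, hj⟩ := T.cover a
      obtain ⟨l, hil, hjl⟩ := exists_ge_ge i j
      exact ⟨l, smul_ext_mem (T.mono hjl hj) (ext_mono (T.mono hil) le_rfl hi)⟩
  obtain ⟨s, rfl⟩ := hX
  have h2 : ∀ s : Finset N, (∀ x ∈ s, ∃ i, x ∈ ext (T.sub i) Y) →
      ∃ i, ∀ x ∈ s, x ∈ ext (T.sub i) Y := by
    intro s
    induction s using Finset.induction_on with
    | empty => intro _; exact ⟨Classical.arbitrary ι, by simp⟩
    | insert a s ha ih =>
      intro h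
      obtain ⟨i, hi⟩ := ih fun x hx => h x (Finset.mem_insert_of_mem hx)
      obtain ⟨j, hj⟩ := h a (Finset.mem_insert_self a s)
      obtain ⟨l, hil, hjl⟩ := exists_ge_ge i j
      refine ⟨l, fun x hx => ?_⟩
      rcases Finset.mem_insert.mp hx with rfl | hx
      · exact ext_mono (T.mono hjl) le_rfl hj
      · exact ext_mono (T.mono hil) le_rfl (hi x hx)
  obtain ⟨i, hi⟩ := h2 s fun x hx => h1 x (h x (subset_span hx))
  exact ⟨i, span_le.mpr fun x hx => hi x hx⟩

/-- the length is at most `m` if every finite subset lies in an `R`-submodule generated by an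
`R0`-submodule of length at most `m`. -/
theorem lam_le_of_generators [IsDirectedOrder ι] [Nonempty ι] (i0 : ι) (h1 : T.rank i0 = 1)
    (h0 : T.sub i0 = ⊥) (m : ℕ∞)
    (h : ∀ s : Finset N, ∃ Y : Submodule R0 N, Module.length R0 Y ≤ m ∧
      ∀ x ∈ s, x ∈ span R (Y : Set N)) : T.lam N ≤ (m : ENNReal) := by
  refine T.lam_le fun X hX => ?_
  obtain ⟨s, hs⟩ := id hX
  obtain ⟨Y, hY, hYs⟩ := h s
  have h2 : ∀ x ∈ X, x ∈ span R (Y : Set N) := by
    intro x hx
    rw [← hs] at hx
    have h3 : span R0 (s : Set N) ≤ (span R (Y : Set N)).restrictScalars R0 :=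
      span_le.mpr fun x hx => hYs x hx
    exact h3 hx
  obtain ⟨i, hi⟩ := T.exists_le_ext hX h2
  refine (T.lamX_mono hi).trans ?_
  rw [T.lamX_ext]
  refine (T.lamX_le_nlen i0 Y).trans ?_
  unfold nlen len
  rw [h1, Nat.cast_one, div_one, ENat.toENNReal_le]
  refine le_trans (len_mono ?_) hY
  rw [h0]
  refine ext_le fun b hb x hx => ?_
  obtain ⟨c, rfl⟩ := Algebra.mem_bot.mp hb
  rw [algebraMap_smul]
  exact Y.smul_mem c hx

end Tower

end Vale.Agent.P202.Mix
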