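import Vale.Agent.P202.Mix.LamApi

/-!
P202-MIX: the normalized length as a total additive length function (`⊤` on modules which are not
locally finite).
-/

namespace Vale.Agent.P202.Mix

open Submodule
open scoped ENNReal

universe u v w

/-- `M` is locally finite over `R0`, after restriction of scalars. -/
def LFr (R0 : Type v) (Ri : Type w) [CommRing R0] [CommRing Ri] [Algebra R0 Ri] (R : Type*)
    [CommRing R] [Algebra Ri R] (M : Type*) [AddCommGroup M] [Module R M] : Prop :=
  letI : Module R0 M := Module.compHom M ((algebraMap Ri R).comp (algebraMap R0 Ri))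
  Tower.LF (R0 := R0) M

section

variable {R0 : Type v} [CommRing R0]

lemma lf_of_injective {M N : Type*} [AddCommGroup M] [Module R0 M] [AddCommGroup N]
    [Module R0 N] (f : M →ₗ[R0] N) (hf : Function.Injective f) (h : Tower.LF (R0 := R0) N) :
    Tower.LF (R0 := R0) M := by
  intro X hX
  have h1 := h (X.map f) (hX.map f)
  rwa [LinearEquiv.length_eq (Submodule.equivMapOfInjective f hf X)]

lemma lf_of_surjective {M N : Type*} [AddCommGroup M] [Module R0 M] [AddCommGroup N]
    [Module R0 N] (f : M →ₗ[R0] N) (hf : Function.Surjective f) (h : Tower.LF (R0 := R0) M) :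
    Tower.LF (R0 := R0) N := by
  classical
  rintro X ⟨s, rfl⟩
  have hc : ∀ x : N, ∃ y : M, f y = x := hf
  choose g hg using hc
  have h1 : (span R0 (g '' (s : Set N))).FG := ⟨s.image g, by rw [Finset.coe_image]⟩
  have h2 : (span R0 (g '' (s : Set N))).map f = span R0 (s : Set N) := by
    rw [Submodule.map_span, Set.image_image]
    simp [hg]
  rw [← h2]
  exact ne_top_of_le_ne_top (h _ h1) (len_map_le f _)

lemma lf_of_exact [IsNoetherianRing R0] {M N K : Type*} [AddCommGroup M] [Module R0 M]
    [AddCommGroup N] [Module R0 N] [AddCommGroup K] [Module R0 K] (f : M →ₗ[R0] N)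
    (g : N →ₗ[R0] K) (hfg : Function.Exact f g)
    (hM : Tower.LF (R0 := R0) M) (hK : Tower.LF (R0 := R0) K) : Tower.LF (R0 := R0) N := by
  intro X hX
  have : IsNoetherian R0 X := isNoetherian_of_fg_of_noetherian _ hX
  have h1 : Module.length R0 (X.map g) ≠ ⊤ := hK _ (hX.map g)
  -- the kernel part
  let Y : Submodule R0 X := LinearMap.ker (g ∘ₗ X.subtype)
  have h2 : Module.length R0 X = Module.length R0 Y + Module.length R0 (X ⧸ Y) :=
    Module.length_eq_add_of_exact Y.subtype Y.mkQ Y.subtype_injective Y.mkQ_surjective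
      (LinearMap.exact_subtype_mkQ Y)
  have h3 : Module.length R0 (X ⧸ Y) = Module.length R0 (X.map g) := by
    refine LinearEquiv.length_eq ?_
    refine ((g ∘ₗ X.subtype).quotKerEquivRange).trans (LinearEquiv.ofEq _ _ ?_)
    rw [LinearMap.range_comp, Submodule.range_subtype]
  have hYfg : (Y.map X.subtype).FG := (IsNoetherian.noetherian Y).map _
  have h4 : Module.length R0 Y ≠ ⊤ := by
    have e1 : Module.length R0 Y = Module.length R0 (Y.map X.subtype) :=
      LinearEquiv.length_eq (Submodule.equivMapOfInjective _ X.subtype_injective Y)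
    rw [e1]
    have hle : Y.map X.subtype ≤ LinearMap.range f := by
      rintro _ ⟨y, hy, rfl⟩
      exact (hfg _).mp hy
    obtain ⟨s, hs⟩ := hYfg
    classical
    have hsub : ∀ x ∈ s, ∃ m, f m = x := fun x hx => by
      have : x ∈ Y.map X.subtype := by rw [← hs]; exact subset_span hx
      exact hle this
    choose! g' hg' using hsub
    have hfin : (span R0 (g' '' (s : Set N))).FG := ⟨s.image g', by rw [Finset.coe_image]⟩
    have h6 : (span R0 (g' '' (s : Set N))).map f = Y.map X.subtype := by
      rw [Submodule.map_span, Set.image_image, ← hs]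
      congr 1
      ext x
      constructor
      · rintro ⟨a, ha, rfl⟩
        change f (g' a) ∈ _
        rw [hg' a ha]
        exact ha
      · intro hx
        exact ⟨x, hx, hg' x hx⟩
    rw [← h6]
    exact ne_top_of_le_ne_top (hM _ hfin) (len_map_le f _)
  rw [h2, h3]
  exact WithTop.add_ne_top.mpr ⟨h4, h1⟩

end

section

variable {R0 : Type v} {Ri : Type w} [CommRing R0] [IsNoetherianRing R0] [CommRing Ri]
  [Algebra R0 Ri] {ι : Type*} [Preorder ι] (T : Tower R0 Ri ι) (R : Type*) [CommRing R]
  [Algebra Ri R]

theorem lfr_add {M N K : Type*} [AddCommGroup M] [Module R M] [AddCommGroup N] [Module R N]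
    [AddCommGroup K] [Module R K] (f : M →ₗ[R] N) (g : N →ₗ[R] K)
    (hf : Function.Injective f) (hg : Function.Surjective g) (hfg : Function.Exact f g) :
    LFr R0 Ri R N ↔ LFr R0 Ri R M ∧ LFr R0 Ri R K := by
  let φ := (algebraMap Ri R).comp (algebraMap R0 Ri)
  let _ : Module R0 M := Module.compHom M φ
  let _ : Module R0 N := Module.compHom N φ
  let _ : Module R0 K := Module.compHom K φ
  let f' : M →ₗ[R0] N := { f with map_smul' := fun a x => map_smul f (φ a) x }
  let g' : N →ₗ[R0] K := { g with map_smul' := fun a x => map_smul g (φ a) x }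
  constructor
  · intro h
    exact ⟨lf_of_injective f' hf h, lf_of_surjective g' hg h⟩
  · rintro ⟨h1, h2⟩
    exact lf_of_exact f' g' hfg h1 h2

omit [IsNoetherianRing R0] in
/-- additivity on locally finite modules. -/
theorem Tower.lenR_add' [IsDirectedOrder ι]
    {M N K : Type*} [AddCommGroup M] [Module R M] [AddCommGroup N] [Module R N]
    [AddCommGroup K] [Module R K] (f : M →ₗ[R] N) (g : N →ₗ[R] K)
    (hf : Function.Injective f) (hg : Function.Surjective g) (hfg : Function.Exact f g)
    (h : LFr R0 Ri R N) :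
    T.lenR R N = T.lenR R M + T.lenR R K := by
  let _ : Module Ri M := Module.compHom M (algebraMap Ri R)
  let _ : Module R0 M := Module.compHom M ((algebraMap Ri R).comp (algebraMap R0 Ri))
  let _ : Module Ri N := Module.compHom N (algebraMap Ri R)
  let _ : Module R0 N := Module.compHom N ((algebraMap Ri R).comp (algebraMap R0 Ri))
  let _ : Module Ri K := Module.compHom K (algebraMap Ri R)
  let _ : Module R0 K := Module.compHom K ((algebraMap Ri R).comp (algebraMap R0 Ri))
  have sM : IsScalarTower Ri R M := ⟨fun a b x => by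
    change (a • b) • x = (algebraMap Ri R a) • (b • x)
    rw [smul_smul, Algebra.smul_def]⟩
  have sN : IsScalarTower Ri R N := ⟨fun a b x => by
    change (a • b) • x = (algebraMap Ri R a) • (b • x)
    rw [smul_smul, Algebra.smul_def]⟩
  have sK : IsScalarTower Ri R K := ⟨fun a b x => by
    change (a • b) • x = (algebraMap Ri R a) • (b • x)
    rw [smul_smul, Algebra.smul_def]⟩
  have tM : IsScalarTower R0 Ri M := ⟨fun a b x => by
    change (algebraMap Ri R (a • b)) • x = (algebraMap Ri R (algebraMap R0 Ri a)) •
      ((algebraMap Ri R b) • x)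
    rw [smul_smul, ← map_mul, Algebra.smul_def]⟩
  have tN : IsScalarTower R0 Ri N := ⟨fun a b x => by
    change (algebraMap Ri R (a • b)) • x = (algebraMap Ri R (algebraMap R0 Ri a)) •
      ((algebraMap Ri R b) • x)
    rw [smul_smul, ← map_mul, Algebra.smul_def]⟩
  have tK : IsScalarTower R0 Ri K := ⟨fun a b x => by
    change (algebraMap Ri R (a • b)) • x = (algebraMap Ri R (algebraMap R0 Ri a)) •
      ((algebraMap Ri R b) • x)
    rw [smul_smul, ← map_mul, Algebra.smul_def]⟩
  rw [T.lenR_eq R M, T.lenR_eq R N, T.lenR_eq R K]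
  exact T.lam_eq_add h (f := f.restrictScalars Ri) (g := g.restrictScalars Ri) hf hg hfg

end

section

variable {R0 : Type v} {Ri : Type w} [CommRing R0] [IsNoetherianRing R0] [CommRing Ri]
  [Algebra R0 Ri] {ι : Type*} [Preorder ι] (T : Tower R0 Ri ι)

open Classical in
/-- the total additive length. -/
noncomputable def Tower.totLen [IsDirectedOrder ι] [Nonempty ι] (R : Type u) [CommRing R]
    [Algebra Ri R] : AddLen R where
  len M _ _ := if LFr R0 Ri R M then T.lenR R M else ⊤
  zero := by
    have h : LFr R0 Ri R PUnit.{u+1} := by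
      let _ : Module R0 PUnit.{u+1} :=
        Module.compHom PUnit.{u+1} ((algebraMap Ri R).comp (algebraMap R0 Ri))
      intro X _
      rw [Module.length_eq_zero]
      simp
    rw [if_pos h]
    exact T.lenR_subsingleton R PUnit
  add {M N K} _ _ _ _ _ _ f g hf hg hfg := by
    by_cases h : LFr R0 Ri R N
    · have h' := (lfr_add R f g hf hg hfg).mp h
      rw [if_pos h, if_pos h'.1, if_pos h'.2]
      exact T.lenR_add' R f g hf hg hfg h
    · have h' : ¬ (LFr R0 Ri R M ∧ LFr R0 Ri R K) := fun h' =>
        h ((lfr_add R f g hf hg hfg).mpr h')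
      rw [if_neg h]
      by_cases h1 : LFr R0 Ri R M
      · have h2 : ¬ LFr R0 Ri R K := fun h2 => h' ⟨h1, h2⟩
        rw [if_neg h2, add_top]
      · rw [if_neg h1, top_add]

theorem Tower.totLen_eq [IsDirectedOrder ι] [Nonempty ι] (R : Type u) [CommRing R]
    [Algebra Ri R] (M : Type u) [AddCommGroup M] [Module R M] (h : LFr R0 Ri R M) :
    (T.totLen R).len M = T.lenR R M := if_pos h

omit [IsNoetherianRing R0] in
/-- modules killed by an ideal of finite colength are locally finite. -/
theorem lfr_of_smul_eq_zero (R : Type u) [CommRing R] [Algebra Ri R] (J : Ideal R0)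
    (hJ : Module.length R0 (R0 ⧸ J) ≠ ⊤) (M : Type u) [AddCommGroup M] [Module R M]
    (h : ∀ a ∈ J, ∀ x : M, algebraMap Ri R (algebraMap R0 Ri a) • x = 0) :
    LFr R0 Ri R M := by
  let _ : Module R0 M := Module.compHom M ((algebraMap Ri R).comp (algebraMap R0 Ri))
  exact Tower.lf_of_smul_eq_zero J hJ h

end

end Vale.Agent.P202.Mix
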