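import Vale.Agent.P202.Mix.LenBasic
import Vale.Agent.P202.Mix.LenLes

/-!
P202-MIX, TASK M16: inequalities for additive lengths of quotient rings (normalisation, powers).
-/

namespace Vale.Agent.P202.Mix

open scoped ENNReal

universe u

section M16

variable {R : Type u} [CommRing R] {P : Type} [Fintype P] (L : AddLen R)

private theorem lnm_anti {I J : Ideal R} (h : I ≤ J) : L.len (R ⧸ J) ≤ L.len (R ⧸ I) := by
  rw [← rl_top L (M := R) J, ← rl_top L (M := R) I]
  exact rl_anti_left L h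

private theorem lnm_pi (I : P → Ideal R) :
    L.rl (Submodule.pi Set.univ fun π => (I π : Submodule R R)) ⊤ = ∑ π, L.len (R ⧸ I π) := by
  have h := rl_pi L (M := R) (fun π => (I π : Submodule R R)) fun _ : P => (⊤ : Submodule R R)
  have h0 : (Submodule.pi Set.univ fun _ : P => (⊤ : Submodule R R)) = ⊤ :=
    eq_top_iff.mpr fun _ _ _ _ => trivial
  rw [h0] at h
  rw [h]
  exact Finset.sum_congr rfl fun π _ => rl_top L (M := R) (I π)

private theorem lnm_top {I : Ideal R} (h : I = ⊤) : L.len (R ⧸ I) = 0 := by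
  have : Subsingleton (R ⧸ I) := Ideal.Quotient.subsingleton_iff.mpr h
  exact len_subsingleton_aux L

/-- TASK M16a: `L(R/𝔟) ≤ ∑ L(R/(K_π + 𝔟)) + L(R/(𝔟 + g1))`. (image of `⊕ R/(K_π + 𝔟)` under
`1_π ↦ η_π`.) -/
theorem len_le_sum (K : P → Ideal R) (η : P → R) (hη : ∀ π, ∀ y ∈ K π, y * η π = 0) (g1 : R)
    (hg1 : g1 ∈ Ideal.span (Set.range η)) (𝔟 : Ideal R) :
    L.len (R ⧸ 𝔟) ≤ ∑ π, L.len (R ⧸ (K π ⊔ 𝔟)) + L.len (R ⧸ (𝔟 ⊔ Ideal.span {g1})) := by
  set f : (P → R) →ₗ[R] R := Fintype.linearCombination R η with hf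
  have hr : LinearMap.range f = Ideal.span (Set.range η) := by
    rw [hf, Fintype.range_linearCombination]
  have h1 : L.len (R ⧸ 𝔟) = L.rl (𝔟 : Submodule R R) (LinearMap.range f) +
      L.rl ((𝔟 : Submodule R R) ⊔ LinearMap.range f) ⊤ := by
    rw [← rl_top L (M := R) 𝔟, rl_add L (M := R) (X := 𝔟) (Y := 𝔟 ⊔ LinearMap.range f) (Z := ⊤)
      le_sup_left le_top, rl_sup_right]
  rw [h1]
  refine add_le_add ?_ ?_
  · rw [← Submodule.map_top, lenLes_rl_map_right, ← lnm_pi L]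
    refine rl_anti_left L ?_
    intro x hx
    rw [Submodule.mem_comap, hf, Fintype.linearCombination_apply]
    refine Submodule.sum_mem _ fun π _ => ?_
    obtain ⟨k, hk, b, hb, hkb⟩ := Submodule.mem_sup.mp (hx π trivial)
    rw [← hkb, smul_eq_mul, add_mul, hη π k hk, zero_add]
    exact 𝔟.mul_mem_right _ hb
  · rw [← rl_top L (M := R)]
    refine rl_anti_left L (sup_le_sup_left ?_ _)
    rw [hr, Ideal.span_singleton_le_iff_mem]
    exact hg1

/-- TASK M16b: `∑ L(R/(K_π + 𝔟)) ≤ L(R/𝔟) + |P| L(R/(𝔟 + g0))`. (cokernel of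
`R/𝔟 → ∏ R/(K_π + 𝔟)`.) -/
theorem sum_le_len (K : P → Ideal R) (θ : P → R) (hθ : ∀ π π', π ≠ π' → θ π ∈ K π') (g0 : R)
    (hθ' : ∀ π, θ π - g0 ∈ K π) (𝔟 : Ideal R) :
    ∑ π, L.len (R ⧸ (K π ⊔ 𝔟)) ≤ L.len (R ⧸ 𝔟) + Fintype.card P * L.len (R ⧸ (𝔟 ⊔ Ideal.span {g0})) := by
  classical
  set f : R →ₗ[R] (P → R) := LinearMap.pi fun _ => LinearMap.id with hf
  rw [← lnm_pi L]
  set X : Submodule R (P → R) := Submodule.pi Set.univ fun π => (K π ⊔ 𝔟 : Submodule R R) with hX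
  have h1 : L.rl X ⊤ = L.rl X (LinearMap.range f) + L.rl (X ⊔ LinearMap.range f) ⊤ := by
    rw [rl_add L (X := X) (Y := X ⊔ LinearMap.range f) (Z := ⊤) le_sup_left le_top, rl_sup_right]
  rw [h1]
  refine add_le_add ?_ ?_
  · rw [← Submodule.map_top, lenLes_rl_map_right, ← rl_top L (M := R)]
    refine rl_anti_left L ?_
    intro x hx
    rw [Submodule.mem_comap]
    intro π _
    exact Submodule.mem_sup_right hx
  · have h2 : (Fintype.card P : ℝ≥0∞) * L.len (R ⧸ (𝔟 ⊔ Ideal.span {g0})) =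
        ∑ _π : P, L.len (R ⧸ (𝔟 ⊔ Ideal.span {g0})) := by
      simp
    rw [h2, ← lnm_pi L]
    refine rl_anti_left L ?_
    intro x hx
    have h3 : ∀ π, ∃ b ∈ 𝔟, ∃ c : R, b + c * g0 = x π := by
      intro π
      obtain ⟨b, hb, s, hs, hbs⟩ := Submodule.mem_sup.mp (hx π trivial)
      obtain ⟨c, rfl⟩ := Ideal.mem_span_singleton'.mp hs
      exact ⟨b, hb, c, hbs⟩
    choose b hb c hc using h3
    rw [Submodule.mem_sup]
    refine ⟨x - f (∑ π, c π * θ π), ?_, f (∑ π, c π * θ π), ⟨_, rfl⟩, by simp⟩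
    intro π _
    have h4 : (x - f (∑ π, c π * θ π)) π =
        (c π * (g0 - θ π) - ∑ π' ∈ Finset.univ.erase π, c π' * θ π') + b π := by
      have h5 : f (∑ π, c π * θ π) π = ∑ π, c π * θ π := rfl
      rw [Pi.sub_apply, h5, ← hc π, ← Finset.add_sum_erase _ _ (Finset.mem_univ π)]
      ring
    rw [h4]
    refine add_mem (Submodule.mem_sup_left (sub_mem ?_ ?_)) (Submodule.mem_sup_right (hb π))
    · refine (K π).mul_mem_left _ ?_
      rw [← neg_sub]
      exact neg_mem (hθ' π)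
    · exact Submodule.sum_mem _ fun π' hπ' =>
        (K π).mul_mem_left _ (hθ π' π (Finset.ne_of_mem_erase hπ'))

private theorem lnm_step (J A : Ideal R) (y : R) (h : ∀ a ∈ A, a * y ∈ J) :
    L.len (R ⧸ J) ≤ L.len (R ⧸ (J ⊔ Ideal.span {y})) + L.len (R ⧸ A) := by
  have h1 : Submodule.map (LinearMap.mulRight R y) ⊤ = Ideal.span {y} := by
    ext a
    rw [Submodule.mem_map, Ideal.mem_span_singleton']
    simp
  have h2 : L.len (R ⧸ J) = L.rl (J : Submodule R R) (Ideal.span {y}) +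
      L.rl ((J : Submodule R R) ⊔ Ideal.span {y}) ⊤ := by
    rw [← rl_top L (M := R) J, rl_add L (M := R) (X := J) (Y := J ⊔ Ideal.span {y}) (Z := ⊤)
      le_sup_left le_top, rl_sup_right]
  rw [h2, add_comm, ← rl_top L (M := R) A, ← rl_top L (M := R) (J ⊔ Ideal.span {y}), ← h1,
    lenLes_rl_map_right]
  refine add_le_add le_rfl (rl_anti_left L ?_)
  intro a ha
  exact h a ha

private theorem lnm_cons {n : ℕ} (K : Ideal R) (y : Fin (n + 1) → R) :
    K ⊔ Ideal.span (Set.range y) =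
      (K ⊔ Ideal.span {y 0}) ⊔ Ideal.span (Set.range fun i : Fin n => y i.succ) := by
  have h : Set.range y = {y 0} ∪ Set.range fun i : Fin n => y i.succ := by
    ext a
    simp only [Set.mem_range, Set.mem_union, Set.mem_singleton_iff, Fin.exists_fin_succ]
    exact or_congr_left eq_comm
  rw [h, Ideal.span_union, sup_assoc]

private theorem lnm_sup_pow (I K : Ideal R) (m : ℕ) : (I ⊔ K) ^ m ≤ I ^ m ⊔ K := by
  induction m with
  | zero => simp
  | succ m ih =>
    have h1 : (I ⊔ K) ^ m * (I ⊔ K) ≤ (I ^ m ⊔ K) * (I ⊔ K) := Ideal.mul_mono ih le_rfl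
    have h2 : (I ^ m ⊔ K) * (I ⊔ K) = I ^ m * I ⊔ K * I ⊔ (I ^ m ⊔ K) * K := by
      rw [Ideal.mul_sup, Ideal.sup_mul]
    rw [pow_succ, pow_succ]
    refine h1.trans ?_
    rw [h2]
    refine sup_le (sup_le le_sup_left ?_) ?_
    · exact (Ideal.mul_le_left (I := K) (J := I)).trans le_sup_right
    · exact (Ideal.mul_le_right (I := I ^ m ⊔ K) (J := K)).trans le_sup_right

private theorem lnm_pow : ∀ (n m : ℕ) (K : Ideal R) (y : Fin n → R),
    L.len (R ⧸ (K ⊔ Ideal.span (Set.range y) ^ m)) ≤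
      ((n + m - 1).choose n : ℝ≥0∞) * L.len (R ⧸ (K ⊔ Ideal.span (Set.range y)))
  | _, 0, K, y => by
    rw [lnm_top L (by simp)]
    exact zero_le
  | 0, m + 1, K, y => by
    have h : Ideal.span (Set.range y) = ⊥ := by
      rw [Set.range_eq_empty, Ideal.span_empty]
    rw [h, pow_succ, Ideal.mul_bot]
    simp
  | n + 1, m + 1, K, y => by
    set I : Ideal R := Ideal.span (Set.range y) with hI
    set I' : Ideal R := Ideal.span (Set.range fun i : Fin n => y i.succ) with hI'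
    have hI1 : I = I' ⊔ Ideal.span {y 0} := by
      have h := lnm_cons (⊥ : Ideal R) y
      rw [bot_sup_eq, bot_sup_eq, sup_comm] at h
      exact h
    have h0 : y 0 ∈ I := Ideal.subset_span ⟨0, rfl⟩
    have h1 := lnm_step L (K ⊔ I ^ (m + 1)) (K ⊔ I ^ m) (y 0) (by
      intro a ha
      obtain ⟨k, hk, b, hb, rfl⟩ := Submodule.mem_sup.mp ha
      rw [add_mul]
      refine add_mem (Submodule.mem_sup_left (K.mul_mem_right _ hk))
        (Submodule.mem_sup_right ?_)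
      rw [pow_succ]
      exact Ideal.mul_mem_mul hb h0)
    have h2 := lnm_pow n (m + 1) (K ⊔ Ideal.span {y 0}) fun i => y i.succ
    have h3 := lnm_pow (n + 1) m K y
    have h4 : L.len (R ⧸ (K ⊔ I ^ (m + 1) ⊔ Ideal.span {y 0})) ≤
        L.len (R ⧸ (K ⊔ Ideal.span {y 0} ⊔ I' ^ (m + 1))) := by
      refine lnm_anti L ?_
      refine sup_le (sup_le (le_sup_left.trans le_sup_left) le_sup_right) ?_
      refine (Ideal.pow_right_mono ?_ _).trans (le_sup_right.trans le_sup_left)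
      rw [hI1]
      exact le_sup_left
    rw [← lnm_cons] at h2
    have e1 : n + (m + 1) - 1 = n + m := rfl
    have e2 : n + 1 + (m + 1) - 1 = n + m + 1 := by omega
    have e3 : n + 1 + m - 1 = n + m := by omega
    rw [e1] at h2
    rw [e3] at h3
    rw [e2, Nat.choose_succ_succ, Nat.cast_add, add_mul]
    exact h1.trans (add_le_add (h4.trans h2) h3)

private theorem lnm_root_one (I : Ideal R) (z : R) (w : ℕ) :
    L.len (R ⧸ (I ⊔ Ideal.span {z ^ w})) ≤ (w : ℝ≥0∞) * L.len (R ⧸ (I ⊔ Ideal.span {z})) := by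
  induction w with
  | zero =>
    rw [lnm_top L (by simp)]
    exact zero_le
  | succ w ih =>
    have h1 := lnm_step L (I ⊔ Ideal.span {z ^ (w + 1)}) (I ⊔ Ideal.span {z ^ w}) z (by
      intro a ha
      obtain ⟨k, hk, b, hb, rfl⟩ := Submodule.mem_sup.mp ha
      obtain ⟨c, rfl⟩ := Ideal.mem_span_singleton'.mp hb
      rw [add_mul]
      refine add_mem (Submodule.mem_sup_left (I.mul_mem_right _ hk))
        (Submodule.mem_sup_right ?_)
      rw [mul_assoc, ← pow_succ]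
      exact Ideal.mem_span_singleton'.mpr ⟨c, rfl⟩)
    rw [Nat.cast_succ, add_mul, one_mul]
    refine h1.trans ((add_comm _ _).trans_le (add_le_add ih (lnm_anti L ?_)))
    exact sup_le_sup_right le_sup_left _

private theorem lnm_root : ∀ (n : ℕ) (K : Ideal R) (z : Fin n → R) (w : ℕ),
    L.len (R ⧸ (K ⊔ Ideal.span (Set.range fun l => z l ^ w))) ≤
      (w : ℝ≥0∞) ^ n * L.len (R ⧸ (K ⊔ Ideal.span (Set.range z)))
  | 0, K, z, w => by
    rw [Set.range_eq_empty, Set.range_eq_empty, pow_zero, one_mul]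
  | n + 1, K, z, w => by
    have h1 := lnm_root n (K ⊔ Ideal.span {z 0 ^ w}) (fun i => z i.succ) w
    have h2 := lnm_root_one L (K ⊔ Ideal.span (Set.range fun i : Fin n => z i.succ)) (z 0) w
    rw [lnm_cons K (fun l => z l ^ w), lnm_cons K z, pow_succ, mul_assoc]
    refine h1.trans (mul_le_mul_right ?_ _)
    rw [sup_right_comm, sup_right_comm (c := Ideal.span (Set.range fun i : Fin n => z i.succ))]
    exact h2

/-- TASK M16c: powers: if `z_l^w' ∈ 𝔪 + K` for all `l`, then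
`L(R/(K + 𝔪^m)) ≤ binom(r + m, r + 1) w'^(r+1) L(R/(K + (z)))`. -/
theorem len_pow_le {r : ℕ} (K 𝔪 : Ideal R) (z : Fin (r + 1) → R) (w' : ℕ)
    (hz : ∀ l, z l ^ w' ∈ 𝔪 ⊔ K) (m : ℕ) :
    L.len (R ⧸ (K ⊔ 𝔪 ^ m)) ≤
      ((r + m).choose (r + 1) : ℝ≥0∞) * ((w' : ℝ≥0∞) ^ (r + 1) * L.len (R ⧸ (K ⊔ Ideal.span (Set.range z)))) := by
  have h1 := lnm_pow L (r + 1) m K fun l => z l ^ w'
  have h2 := lnm_root L (r + 1) K z w'
  have e : r + 1 + m - 1 = r + m := by omega
  rw [e] at h1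
  have h3 : K ⊔ Ideal.span (Set.range fun l => z l ^ w') ^ m ≤ K ⊔ 𝔪 ^ m := by
    refine sup_le le_sup_left ?_
    refine (Ideal.pow_right_mono ?_ m).trans ((lnm_sup_pow 𝔪 K m).trans (sup_comm _ _).le)
    rw [Ideal.span_le]
    rintro _ ⟨l, rfl⟩
    exact hz l
  exact (lnm_anti L h3).trans (h1.trans (mul_le_mul_right h2 _))

end M16

end Vale.Agent.P202.Mix
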