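import Vale.Agent.P202.Mix.Defs4
import Vale.Agent.P202.Mix.LenBasic
import Vale.Agent.P202.Mix.Devissage

/-!
P202 MIX, TASKS M13, M14: additive lengths of `E/𝔟E`.
-/

namespace Vale.Agent.P202.Mix

open Polynomial TensorProduct IsLocalRing
open scoped ENNReal

universe u

section General

/-- base change along `A → S` and injectivity. -/
theorem rTensor_baseChange_injective {A S : Type u} [CommRing A] [CommRing S] [Algebra A S]
    (V : Type u) [AddCommGroup V] [Module A V] {M M' : Type u} [AddCommGroup M] [Module S M]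
    [Module A M] [IsScalarTower A S M] [AddCommGroup M'] [Module S M'] [Module A M']
    [IsScalarTower A S M'] (f : M →ₗ[S] M')
    (h : Function.Injective ((f.restrictScalars A).rTensor V)) :
    Function.Injective (f.rTensor (S ⊗[A] V)) := by
  have hnat : ∀ z, AlgebraTensorModule.cancelBaseChange A S S M' V (f.rTensor (S ⊗[A] V) z) =
      (f.restrictScalars A).rTensor V (AlgebraTensorModule.cancelBaseChange A S S M V z) := by
    intro z
    induction z with
    | zero => simp
    | add x y hx hy => rw [map_add, map_add, hx, hy, map_add, map_add]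
    | tmul m w =>
      induction w with
      | zero => simp
      | add x y hx hy =>
        rw [tmul_add, map_add, map_add, hx, hy, map_add, map_add]
      | tmul s v =>
        rw [LinearMap.rTensor_tmul, AlgebraTensorModule.cancelBaseChange_tmul,
          AlgebraTensorModule.cancelBaseChange_tmul, LinearMap.rTensor_tmul,
          LinearMap.restrictScalars_apply, map_smul]
  intro z z' hz
  apply (AlgebraTensorModule.cancelBaseChange A S S M V).injective
  apply h
  rw [← hnat, ← hnat, hz]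

/-- The additive function `Y ↦ L(X ⊗_S Y)`, for an `E`-module `X`. -/
theorem len_tensor_add {S E : Type u} [CommRing S] [CommRing E] [Algebra S E] (L : AddLen E)
    (X : Type u) [AddCommGroup X] [Module E X] [Module S X] [IsScalarTower S E X]
    {M N K : Type u} [AddCommGroup M] [Module S M] [AddCommGroup N] [Module S N]
    [AddCommGroup K] [Module S K] (f : M →ₗ[S] N) (g : N →ₗ[S] K)
    (hf : Function.Injective (f.lTensor X)) (hg : Function.Surjective g)
    (hfg : Function.Exact f g) :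
    L.len (X ⊗[S] N) = L.len (X ⊗[S] M) + L.len (X ⊗[S] K) := by
  refine L.add (AlgebraTensorModule.lTensor E X f) (AlgebraTensorModule.lTensor E X g) ?_ ?_ ?_
  · exact hf
  · exact LinearMap.lTensor_surjective X hg
  · exact lTensor_exact X hfg hg

/-- the length of `X ⊗_S (S/𝔟)` for `X = E`. -/
theorem len_tensor_quot {S E : Type u} [CommRing S] [CommRing E] [Algebra S E] (L : AddLen E)
    (𝔟 : Ideal S) : L.len (E ⊗[S] (S ⧸ 𝔟)) = L.len (E ⧸ 𝔟.map (algebraMap S E)) :=
  (len_congr L (Ideal.qoutMapEquivTensorQout E)).symm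

/-- the main computation, `X = E`. -/
theorem len_quot_of_inj {S E : Type u} [CommRing S] [IsLocalRing S] [IsNoetherianRing S]
    [CommRing E] [Algebra S E] (L : AddLen E) (𝔠 𝔟 : Ideal S) (hcb : 𝔠 ≤ 𝔟)
    (hinj : ∀ {M N : Type u} [AddCommGroup M] [Module S M] [AddCommGroup N] [Module S N]
      (f : M →ₗ[S] N), (∀ a ∈ 𝔠, ∀ x : N, a • x = 0) → Function.Injective f →
      Function.Injective (f.lTensor E))
    (hfin : Module.length S (S ⧸ 𝔟) ≠ ⊤) :
    L.len (E ⧸ 𝔟.map (algebraMap S E)) = ENat.toENNReal (Module.length S (S ⧸ 𝔟)) *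
      L.len (E ⧸ (maximalIdeal S).map (algebraMap S E)) := by
  rw [← len_tensor_quot, ← len_tensor_quot]
  refine devissage 𝔠 (fun Y _ _ => L.len (E ⊗[S] Y)) ?_ ?_ (S ⧸ 𝔟) ?_ hfin
  · exact len_subsingleton_aux L
  · intro M N K _ _ _ _ _ _ f g hN hf hg hfg
    exact len_tensor_add L E f g (hinj f hN hf) hg hfg
  · intro a ha x
    obtain ⟨x, rfl⟩ := Ideal.Quotient.mk_surjective x
    rw [← Ideal.Quotient.mk_eq_mk, ← Submodule.Quotient.mk_smul, Submodule.Quotient.mk_eq_zero]
    exact 𝔟.mul_mem_right x (hcb ha)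

/-- the length of `(E/Q) ⊗_S (S/𝔟)`. -/
theorem len_tensor_quot_sup {S E : Type u} [CommRing S] [CommRing E] [Algebra S E] (L : AddLen E)
    (Q : Ideal E) (𝔟 : Ideal S) :
    L.len ((E ⧸ Q) ⊗[S] (S ⧸ 𝔟)) = L.len (E ⧸ (𝔟.map (algebraMap S E) ⊔ Q)) := by
  refine len_congr L ?_
  let e1 : (E ⧸ Q) ⊗[S] (S ⧸ 𝔟) ≃ₗ[E] ((E ⧸ Q) ⧸ 𝔟.map (algebraMap S (E ⧸ Q))) :=
    (Ideal.qoutMapEquivTensorQout (E ⧸ Q)).symm.restrictScalars E
  have h : 𝔟.map (algebraMap S (E ⧸ Q)) = (𝔟.map (algebraMap S E)).map (Ideal.Quotient.mk Q) := by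
    rw [Ideal.map_map]
    rfl
  let e2 : ((E ⧸ Q) ⧸ 𝔟.map (algebraMap S (E ⧸ Q))) ≃ₗ[E]
      ((E ⧸ Q) ⧸ (𝔟.map (algebraMap S E)).map (Ideal.Quotient.mk Q)) :=
    (Ideal.quotientEquivAlgOfEq E h).toLinearEquiv
  let e3 : ((E ⧸ Q) ⧸ (𝔟.map (algebraMap S E)).map (Ideal.Quotient.mk Q)) ≃ₗ[E]
      (E ⧸ (Q ⊔ 𝔟.map (algebraMap S E))) :=
    (DoubleQuot.quotQuotEquivQuotSupₐ E Q (𝔟.map (algebraMap S E))).toLinearEquiv
  let e4 : (E ⧸ (Q ⊔ 𝔟.map (algebraMap S E))) ≃ₗ[E] (E ⧸ (𝔟.map (algebraMap S E) ⊔ Q)) :=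
    (Ideal.quotientEquivAlgOfEq E (sup_comm _ _)).toLinearEquiv
  exact e1 ≪≫ₗ e2 ≪≫ₗ e3 ≪≫ₗ e4

/-- an injection into a module killed by the maximal ideal splits. -/
theorem exists_retraction {A : Type u} [CommRing A] [IsLocalRing A] {M N : Type u}
    [AddCommGroup M] [Module A M] [AddCommGroup N] [Module A N] (f : M →ₗ[A] N)
    (hf : Function.Injective f) (hN : ∀ a ∈ maximalIdeal A, ∀ x : N, a • x = 0) :
    ∃ g : N →ₗ[A] M, g ∘ₗ f = LinearMap.id := by
  have hM : ∀ a ∈ maximalIdeal A, ∀ x : M, a • x = 0 := by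
    intro a ha x
    apply hf
    rw [map_smul, hN a ha, map_zero]
  have hN' : Module.IsTorsionBySet A N (maximalIdeal A : Set A) := fun x a => hN a.1 a.2 x
  have hM' : Module.IsTorsionBySet A M (maximalIdeal A : Set A) := fun x a => hM a.1 a.2 x
  let _ : Field (A ⧸ maximalIdeal A) := Ideal.Quotient.field _
  let _ : Module (A ⧸ maximalIdeal A) N := hN'.module
  let _ : Module (A ⧸ maximalIdeal A) M := hM'.module
  let f' : M →ₗ[A ⧸ maximalIdeal A] N :=
    { toFun := f
      map_add' := f.map_add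
      map_smul' := by
        intro c x
        obtain ⟨c, rfl⟩ := Ideal.Quotient.mk_surjective c
        exact f.map_smul c x }
  obtain ⟨g', hg'⟩ := LinearMap.exists_leftInverse_of_injective f' (LinearMap.ker_eq_bot.2 hf)
  refine ⟨{ toFun := g', map_add' := g'.map_add, map_smul' := fun c x => ?_ }, ?_⟩
  · exact g'.map_smul (Ideal.Quotient.mk _ c) x
  · ext x
    exact LinearMap.congr_fun hg' x

end General

section M14

variable {A S : Type u} [CommRing A] [CommRing S] [IsLocalRing A] [IsLocalRing S]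
  [IsNoetherianRing S] [Algebra A S]

omit [IsLocalRing S] [IsNoetherianRing S] in
theorem lTensor_quot_injective {EA : Type u} [CommRing EA] [Algebra A EA] (Q0 : Ideal EA)
    {M N : Type u} [AddCommGroup M] [Module S M] [AddCommGroup N] [Module S N] (f : M →ₗ[S] N)
    (hN : ∀ a ∈ (maximalIdeal A).map (algebraMap A S), ∀ x : N, a • x = 0)
    (hf : Function.Injective f) :
    Function.Injective (f.lTensor ((S ⊗[A] EA) ⧸
      Q0.map (Algebra.TensorProduct.includeRight (R := A) (A := S) (B := EA)).toRingHom)) := by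
  let _ : Module A M := Module.compHom M (algebraMap A S)
  let _ : Module A N := Module.compHom N (algebraMap A S)
  have : IsScalarTower A S M := ⟨fun a b x => by
    change (a • b) • x = (algebraMap A S a) • (b • x)
    rw [smul_smul, Algebra.smul_def]⟩
  have : IsScalarTower A S N := ⟨fun a b x => by
    change (a • b) • x = (algebraMap A S a) • (b • x)
    rw [smul_smul, Algebra.smul_def]⟩
  obtain ⟨g, hg⟩ := exists_retraction (f.restrictScalars A) hf (fun a ha x =>
    hN _ (Ideal.mem_map_of_mem _ ha) x)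
  have h1 : Function.Injective ((f.restrictScalars A).rTensor (EA ⧸ Q0)) := by
    refine Function.LeftInverse.injective (g := g.rTensor (EA ⧸ Q0)) fun z => ?_
    rw [← LinearMap.comp_apply, ← LinearMap.rTensor_comp, hg, LinearMap.rTensor_id]
    rfl
  have h2 := rTensor_baseChange_injective (EA ⧸ Q0) f h1
  rw [← LinearMap.lTensor_inj_iff_rTensor_inj] at h2
  let e : (S ⊗[A] (EA ⧸ Q0)) ≃ₗ[S] ((S ⊗[A] EA) ⧸
      Q0.map (Algebra.TensorProduct.includeRight (R := A) (A := S) (B := EA)).toRingHom) :=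
    (Algebra.TensorProduct.tensorQuotientEquiv (R := A) S EA S Q0).toLinearEquiv
  have hnat : ∀ z, f.lTensor ((S ⊗[A] EA) ⧸
      Q0.map (Algebra.TensorProduct.includeRight (R := A) (A := S) (B := EA)).toRingHom)
      (e.rTensor M z) = e.rTensor N (f.lTensor (S ⊗[A] (EA ⧸ Q0)) z) := by
    intro z
    rw [LinearEquiv.rTensor, LinearEquiv.rTensor]
    induction z with
    | zero => rw [map_zero, map_zero, map_zero, map_zero]
    | add x y hx hy => rw [map_add, map_add, hx, hy, map_add, map_add]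
    | tmul x m => rfl
  intro z z' hz
  obtain ⟨z, rfl⟩ := (e.rTensor M).surjective z
  obtain ⟨z', rfl⟩ := (e.rTensor M).surjective z'
  rw [hnat, hnat] at hz
  exact congrArg _ (h2 ((e.rTensor N).injective hz))

/-- M14: for an ideal `Q0 ⊇ mE_A` of an `A`-algebra `E_A`, `E = S ⊗_A E_A`, and
`𝔟 ⊇ mS`: `L(E/(Q0 E + 𝔟 E)) = l(S/𝔟) L(E/(Q0 E + n_S E))`. -/
theorem len_quot_vec {EA : Type u} [CommRing EA] [Algebra A EA] (L : AddLen (S ⊗[A] EA))
    (Q0 : Ideal EA) (hQ : (maximalIdeal A).map (algebraMap A EA) ≤ Q0) (𝔟 : Ideal S)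
    (hb : (maximalIdeal A).map (algebraMap A S) ≤ 𝔟) (hfin : Module.length S (S ⧸ 𝔟) ≠ ⊤) :
    L.len ((S ⊗[A] EA) ⧸ (𝔟.map (algebraMap S (S ⊗[A] EA)) ⊔
      Q0.map (Algebra.TensorProduct.includeRight (R := A) (A := S) (B := EA)).toRingHom)) =
    ENat.toENNReal (Module.length S (S ⧸ 𝔟)) *
      L.len ((S ⊗[A] EA) ⧸ ((maximalIdeal S).map (algebraMap S (S ⊗[A] EA)) ⊔
        Q0.map (Algebra.TensorProduct.includeRight (R := A) (A := S) (B := EA)).toRingHom)) := by
  have _ := hQ
  rw [← len_tensor_quot_sup, ← len_tensor_quot_sup]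
  refine devissage ((maximalIdeal A).map (algebraMap A S)) (fun Y _ _ => L.len (((S ⊗[A] EA) ⧸
      Q0.map (Algebra.TensorProduct.includeRight (R := A) (A := S) (B := EA)).toRingHom) ⊗[S] Y))
    ?_ ?_ (S ⧸ 𝔟) ?_ hfin
  · exact len_subsingleton_aux L
  · intro M N K _ _ _ _ _ _ f g hN hf hg hfg
    exact len_tensor_add L _ f g (lTensor_quot_injective Q0 f hN hf) hg hfg
  · intro a ha x
    obtain ⟨x, rfl⟩ := Ideal.Quotient.mk_surjective x
    rw [← Ideal.Quotient.mk_eq_mk, ← Submodule.Quotient.mk_smul, Submodule.Quotient.mk_eq_zero]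
    exact 𝔟.mul_mem_right x (hb ha)

end M14

section M13

variable {p : ℕ} [Fact p.Prime] {k : Type u} [Field k] [CharP k p] {r : ℕ}
variable {Λ : Type u} [CommRing Λ] {ψ : Λ →+* WittVector p (Rp p k r)}
variable {A S : Type u} [CommRing A] [CommRing S] [Algebra Λ A] [Algebra A S]

/-- the functor `Y ↦ E ⊗_S Y` is exact on modules killed by `p^N`, if `M ↦ M ⊗_Λ B/p^N` is. -/
theorem lTensor_ES_injective (C : Type u) [CommRing C] [Algebra (Rp p k r) C] (N : ℕ)
    (hBN : ∀ {M M' : Type u} [AddCommGroup M] [Module Λ M] [AddCommGroup M'] [Module Λ M']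
      (f : M →ₗ[Λ] M'), Function.Injective f → (∀ m : M', (p : Λ) ^ N • m = 0) →
      Function.Injective (f.rTensor (BN ψ C N)))
    {M M' : Type u} [AddCommGroup M] [Module S M] [AddCommGroup M'] [Module S M']
    (f : M →ₗ[S] M') (hf : Function.Injective f) (hM' : ∀ m : M', (p : S) ^ N • m = 0) :
    Function.Injective (f.lTensor (ES ψ A S C N)) := by
  let _ : Module A M := Module.compHom M (algebraMap A S)
  let _ : Module A M' := Module.compHom M' (algebraMap A S)
  let _ : Module Λ M := Module.compHom M ((algebraMap A S).comp (algebraMap Λ A))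
  let _ : Module Λ M' := Module.compHom M' ((algebraMap A S).comp (algebraMap Λ A))
  have : IsScalarTower A S M := ⟨fun a b x => by
    change (a • b) • x = (algebraMap A S a) • (b • x)
    rw [smul_smul, Algebra.smul_def]⟩
  have : IsScalarTower A S M' := ⟨fun a b x => by
    change (a • b) • x = (algebraMap A S a) • (b • x)
    rw [smul_smul, Algebra.smul_def]⟩
  have : IsScalarTower Λ A M := ⟨fun a b x => by
    change (algebraMap A S (a • b)) • x = (algebraMap A S (algebraMap Λ A a)) •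
      ((algebraMap A S b) • x)
    rw [smul_smul, ← map_mul, Algebra.smul_def]⟩
  have : IsScalarTower Λ A M' := ⟨fun a b x => by
    change (algebraMap A S (a • b)) • x = (algebraMap A S (algebraMap Λ A a)) •
      ((algebraMap A S b) • x)
    rw [smul_smul, ← map_mul, Algebra.smul_def]⟩
  rw [LinearMap.lTensor_inj_iff_rTensor_inj]
  refine rTensor_baseChange_injective (EA ψ A C N) f ?_
  refine rTensor_baseChange_injective (BN ψ C N) (f.restrictScalars A) ?_
  refine hBN ((f.restrictScalars A).restrictScalars Λ) hf fun m => ?_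
  change ((algebraMap A S) (algebraMap Λ A ((p : Λ) ^ N))) • m = 0
  rw [map_pow, map_pow, map_natCast, map_natCast, hM' m]

end M13

end Vale.Agent.P202.Mix
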