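import Vale.Agent.P202.Mix.LenQuot
import Vale.Agent.P202.Mix.FlatBN

/-!
P202 MIX, TASK M13: `L(E/𝔟E) = l(S/𝔟)`.
-/

namespace Vale.Agent.P202.Mix

open Polynomial TensorProduct IsLocalRing
open scoped ENNReal

universe u

section M13

variable {p : ℕ} [Fact p.Prime] {k : Type u} [Field k] [CharP k p] {r : ℕ}
variable {Λ : Type u} [CommRing Λ] {u : Fin r → Λ}
  {ψ : Λ →+* WittVector p (Rp p k r)}
  {red : Λ →+* R0 k r ⧸ Ideal.span {(MvPowerSeries.X 0 : R0 k r)}}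
variable {A S : Type u} [CommRing A] [CommRing S] [IsLocalRing S]
  [IsNoetherianRing S] [Algebra Λ A] [Algebra A S]

/-- M13: `L(E/𝔟E) = l(S/𝔟)` if `p^N ∈ 𝔟`. -/
theorem len_quot_eq (hb : IsBase p k r Λ u ψ red) {r0 : ℕ} (d : PExt.{u} p k r r0) (N : ℕ)
    (L : AddLen (ES ψ A S d.C N))
    (hL : L.len (ES ψ A S d.C N ⧸ (maximalIdeal S).map (algebraMap S (ES ψ A S d.C N))) = 1)
    (𝔟 : Ideal S) (hp : (p : S) ^ N ∈ 𝔟) (hfin : Module.length S (S ⧸ 𝔟) ≠ ⊤) :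
    L.len (ES ψ A S d.C N ⧸ 𝔟.map (algebraMap S (ES ψ A S d.C N))) =
      ENat.toENNReal (Module.length S (S ⧸ 𝔟)) := by
  rw [len_quot_of_inj L (Ideal.span {(p : S) ^ N}) 𝔟 ((Ideal.span_singleton_le_iff_mem _).2 hp)
    ?_ hfin, hL, mul_one]
  intro M M' _ _ _ _ f hM' hf
  refine lTensor_ES_injective d.C N ?_ f hf fun m =>
    hM' _ (Ideal.mem_span_singleton_self _) m
  intro M M' _ _ _ _ f hf hM'
  exact lTensor_BN_injective hb d N f hf hM'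

end M13

end Vale.Agent.P202.Mix
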