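import Vale.Agent.P202.Mix.RootDefs

/-!
P202, mixed characteristic: `p`-bases of fields; sections of square-zero extensions with
prescribed values on a `p`-basis.
-/

namespace Vale.Agent.P202.Mix

open Finset

/-- monomials -/
noncomputable def pmon {M : Type*} [CommMonoid M] {ι : Type*} (b : ι → M) (I : ι →₀ ℕ) : M :=
  I.prod fun i n => b i ^ n

section pmon

variable {M : Type*} [CommMonoid M] {ι : Type*} (b : ι → M)

@[simp] theorem pmon_zero : pmon b 0 = 1 := Finsupp.prod_zero_index

theorem pmon_add (I J : ι →₀ ℕ) : pmon b (I + J) = pmon b I * pmon b J :=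
  Finsupp.prod_add_index' (fun _ => pow_zero _) fun _ _ _ => pow_add _ _ _

theorem pmon_smul (n : ℕ) (I : ι →₀ ℕ) : pmon b (n • I) = pmon b I ^ n := by
  induction n with
  | zero => rw [zero_smul, pmon_zero, pow_zero]
  | succ n ih => rw [succ_nsmul, pmon_add, ih, pow_succ]

theorem pmon_single (i : ι) (n : ℕ) : pmon b (Finsupp.single i n) = b i ^ n :=
  Finsupp.prod_single_index (pow_zero _)

theorem map_pmon {M' : Type*} [CommMonoid M'] {F : Type*} [FunLike F M M'] [MonoidHomClass F M M']
    (f : F) (I : ι →₀ ℕ) : f (pmon b I) = pmon (fun i => f (b i)) I := by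
  unfold pmon
  rw [map_finsuppProd]
  simp only [map_pow]

end pmon

/-- division with remainder of exponents. -/
theorem exists_div_mod {ι : Type*} (q : ℕ) (hq : 0 < q) (I : ι →₀ ℕ) :
    ∃ Q R : ι →₀ ℕ, I = q • Q + R ∧ ∀ i, R i < q := by
  refine ⟨I.mapRange (fun n => n / q) (Nat.zero_div q),
    I.mapRange (fun n => n % q) (Nat.zero_mod q), ?_, fun i => ?_⟩
  · ext i
    simp only [Finsupp.coe_add, Finsupp.coe_smul, Pi.add_apply, Pi.smul_apply,
      Finsupp.mapRange_apply, smul_eq_mul]
    exact (Nat.div_add_mod (I i) q).symm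
  · rw [Finsupp.mapRange_apply]
    exact Nat.mod_lt _ hq

/-- `p`-bases (with exponents below `q`, where `q` is `p`, or a power of `p`). -/
structure IsQBasis (q : ℕ) {k : Type*} [Field k] {ι : Type*} (b : ι → k) : Prop where
  ind : ∀ c : (ι →₀ ℕ) →₀ k, (∀ I ∈ c.support, ∀ i, I i < q) →
    (c.sum fun I a => a ^ q * pmon b I) = 0 → c = 0
  span : ∀ x : k, ∃ c : (ι →₀ ℕ) →₀ k, (∀ I ∈ c.support, ∀ i, I i < q) ∧
    (c.sum fun I a => a ^ q * pmon b I) = x

section section_

variable (p : ℕ) [hp : Fact p.Prime] {T : Type*} [CommRing T] [CharP T p] {ι : Type*}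

/-- the sums of `p`-th powers times reduced monomials. -/
def pspan (B : ι → T) : AddSubgroup T :=
  AddSubgroup.closure {x | ∃ (a : T) (I : ι →₀ ℕ), (∀ i, I i < p) ∧ x = a ^ p * pmon B I}

omit [CharP T p] in
theorem mem_pspan {B : ι → T} (a : T) (I : ι →₀ ℕ) : a ^ p * pmon B I ∈ pspan p B := by
  obtain ⟨Q, R, rfl, hR⟩ := exists_div_mod p hp.out.pos I
  refine AddSubgroup.subset_closure ⟨a * pmon B Q, R, hR, ?_⟩
  rw [pmon_add, pmon_smul, mul_pow, mul_assoc]

/-- the subring generated by the `p`-th powers and the `B i`. -/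
def pring (B : ι → T) : Subring T :=
  { pspan p B with
    one_mem' := by
      have := mem_pspan p (B := B) 1 0
      rwa [one_pow, pmon_zero, one_mul] at this
    mul_mem' := by
      intro x y hx hy
      change x ∈ pspan p B at hx
      change y ∈ pspan p B at hy
      change x * y ∈ pspan p B
      induction hx using AddSubgroup.closure_induction with
      | mem x hx =>
        obtain ⟨a, I, -, rfl⟩ := hx
        induction hy using AddSubgroup.closure_induction with
        | mem y hy =>
          obtain ⟨a', J, -, rfl⟩ := hy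
          have h1 : a ^ p * pmon B I * (a' ^ p * pmon B J) = (a * a') ^ p * pmon B (I + J) := by
            rw [pmon_add, mul_pow]
            ring
          rw [h1]
          exact mem_pspan p _ _
        | zero => rw [mul_zero]; exact zero_mem _
        | add y y' _ _ h1 h2 => rw [mul_add]; exact add_mem h1 h2
        | neg y _ h1 => rw [mul_neg]; exact neg_mem h1
      | zero => rw [zero_mul]; exact zero_mem _
      | add x x' _ _ h1 h2 => rw [add_mul]; exact add_mem h1 h2
      | neg x _ h1 => rw [neg_mul]; exact neg_mem h1 }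

omit [CharP T p] in
theorem mem_pring {B : ι → T} {x : T} : x ∈ pring p B ↔ x ∈ pspan p B := Iff.rfl

/-- elements of `pspan` are sums. -/
theorem exists_of_mem_pspan {B : ι → T} {x : T} (hx : x ∈ pspan p B) :
    ∃ c : (ι →₀ ℕ) →₀ T, (∀ I ∈ c.support, ∀ i, I i < p) ∧
      (c.sum fun I a => a ^ p * pmon B I) = x := by
  classical
  have hz : ∀ I : ι →₀ ℕ, (0 : T) ^ p * pmon B I = 0 := fun I => by
    rw [zero_pow hp.out.ne_zero, zero_mul]
  induction hx using AddSubgroup.closure_induction with
  | mem x hx =>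
    obtain ⟨a, I, hI, rfl⟩ := hx
    refine ⟨Finsupp.single I a, fun J hJ => ?_, Finsupp.sum_single_index (hz I)⟩
    have := Finset.mem_singleton.mp (Finsupp.support_single_subset hJ)
    rw [this]
    exact hI
  | zero => exact ⟨0, by simp, Finsupp.sum_zero_index⟩
  | add x y _ _ h1 h2 =>
    obtain ⟨c, hc, rfl⟩ := h1
    obtain ⟨d, hd, rfl⟩ := h2
    refine ⟨c + d, fun I hI => ?_, ?_⟩
    · rcases Finset.mem_union.mp (Finsupp.support_add hI) with h | h
      · exact hc I h
      · exact hd I h
    · refine Finsupp.sum_add_index' hz fun I a a' => ?_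
      rw [add_pow_char, add_mul]
  | neg x _ h1 =>
    obtain ⟨c, hc, rfl⟩ := h1
    refine ⟨-c, fun I hI => hc I (by rwa [Finsupp.support_neg] at hI), ?_⟩
    rw [Finsupp.sum_neg_index hz, Finsupp.sum, Finsupp.sum, ← Finset.sum_neg_distrib]
    refine Finset.sum_congr rfl fun I _ => ?_
    have : (-(c I)) ^ p = -(c I) ^ p := map_neg (frobenius T p) (c I)
    rw [this, neg_mul]

/-- sections of square-zero extensions of a field in characteristic `p` with prescribed values on
a `p`-basis. -/
theorem exists_section_qbasis {k : Type*} [Field k] (π : T →+* k) (hπ : Function.Surjective π)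
    (hN : ∀ a b, π a = 0 → π b = 0 → a * b = 0) {b : ι → k} (hb : IsQBasis p b) (B : ι → T)
    (hB : ∀ i, π (B i) = b i) : ∃ s : k →+* T, π.comp s = RingHom.id k ∧ ∀ i, s (b i) = B i := by
  have hz : ∀ I : ι →₀ ℕ, (0 : T) ^ p * pmon B I = 0 := fun I => by
    rw [zero_pow hp.out.ne_zero, zero_mul]
  have hmon : ∀ I, π (pmon B I) = pmon b I := fun I => by
    rw [map_pmon]
    simp only [hB]
  let f : pring p B →+* k := π.comp (pring p B).subtype
  have hinj : Function.Injective f := by
    rw [injective_iff_map_eq_zero]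
    rintro ⟨x, hx⟩ h
    have h0 : π x = 0 := h
    obtain ⟨c, hc, hcx⟩ := exists_of_mem_pspan p hx
    have h1 : ((c.mapRange π (map_zero π)).sum fun I a => a ^ p * pmon b I) = 0 := by
      rw [Finsupp.sum_mapRange_index (fun I => by rw [zero_pow hp.out.ne_zero, zero_mul]), ← h0,
        ← hcx, Finsupp.sum, Finsupp.sum, map_sum]
      refine Finset.sum_congr rfl fun I _ => ?_
      rw [map_mul, map_pow, hmon]
    have h2 := hb.ind _ (fun I hI => hc I (Finsupp.support_mapRange hI)) h1
    refine Subtype.ext ?_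
    change x = 0
    rw [← hcx]
    refine Finset.sum_eq_zero fun I _ => ?_
    have h3 : π (c I) = 0 := by
      have := DFunLike.congr_fun h2 I
      rwa [Finsupp.mapRange_apply] at this
    obtain ⟨m, hm⟩ := Nat.exists_eq_add_of_le hp.out.two_le
    have h4 : c I ^ p = 0 := by rw [hm, pow_add, pow_two, hN _ _ h3 h3, zero_mul]
    change c I ^ p * pmon B I = 0
    rw [h4, zero_mul]
  have hsurj : Function.Surjective f := by
    intro x
    obtain ⟨c, hc, hcx⟩ := hb.span x
    choose g hg using hπ
    let y : T := ∑ I ∈ c.support, g (c I) ^ p * pmon B I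
    have hy : y ∈ pring p B := sum_mem fun I _ => mem_pspan p _ _
    refine ⟨⟨y, hy⟩, ?_⟩
    change π y = x
    rw [← hcx, Finsupp.sum, map_sum]
    refine Finset.sum_congr rfl fun I _ => ?_
    rw [map_mul, map_pow, hg, hmon]
  let e : pring p B ≃+* k := RingEquiv.ofBijective f ⟨hinj, hsurj⟩
  refine ⟨(pring p B).subtype.comp (e.symm : k →+* pring p B), ?_, fun i => ?_⟩
  · ext x
    exact e.apply_symm_apply x
  · have hBi : B i ∈ pring p B := by
      have := mem_pspan p (B := B) 1 (Finsupp.single i 1)
      rwa [one_pow, pmon_single, pow_one, one_mul] at this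
    have h1 : e ⟨B i, hBi⟩ = b i := hB i
    have h2 : e.symm (b i) = ⟨B i, hBi⟩ := by rw [← h1, RingEquiv.symm_apply_apply]
    change ((e.symm (b i) : pring p B) : T) = B i
    rw [h2]

end section_

section conversion

/-- the `p`-bases of `RootDefs`. -/
theorem isQBasis_of_isPBasis (p : ℕ) [hp : Fact p.Prime] {k : Type*} [Field k] {ι : Type*}
    {b : ι → k} (hb : IsPBasis p b) : IsQBasis p b := by
  have h1 : ∀ x : k, ∃! c : (Bx ι p →₀ k),
      (c.sum fun α y => y ^ p * α.1.prod fun i m => b i ^ m) = x := by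
    have := hb.2 1
    rw [pow_one] at this
    exact this
  have hz : ∀ I : ι →₀ ℕ, (0 : k) ^ p * pmon b I = 0 := fun I => by
    rw [zero_pow hp.out.ne_zero, zero_mul]
  refine ⟨fun c hc hsum => ?_, fun x => ?_⟩
  · obtain ⟨c0, -, huniq⟩ := h1 0
    have h2 := huniq (c.subtypeDomain fun α => ∀ i, α i < p) (by
      rw [← hsum]
      exact Finsupp.sum_subtypeDomain_index (h := fun I a => a ^ p * pmon b I) hc)
    have h3 := huniq 0 Finsupp.sum_zero_index
    have h4 : (c.subtypeDomain fun α => ∀ i, α i < p) = 0 := h2.trans h3.symm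
    ext I
    by_contra hI
    have h5 : I ∈ c.support := Finsupp.mem_support_iff.mpr hI
    have h6 := DFunLike.congr_fun h4 ⟨I, hc I h5⟩
    rw [Finsupp.subtypeDomain_apply] at h6
    exact hI h6
  · obtain ⟨c, hc, -⟩ := h1 x
    refine ⟨c.embDomain (Function.Embedding.subtype _), fun I hI => ?_, ?_⟩
    · rw [Finsupp.support_embDomain, Finset.mem_map] at hI
      obtain ⟨J, -, rfl⟩ := hI
      exact J.2
    · rw [← hc, Finsupp.sum_embDomain]
      rfl

end conversion

end Vale.Agent.P202.Mix
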