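import Vale.Agent.P202.Mix.RepCyc

/-!
P202-MIX, part GEO, task C2b: the chains modulo the boundaries of an exact complex of
representations.
-/

namespace Vale.Agent.P202.Mix

open scoped ENNReal

universe u

/-! ### splittings over `ℤ` -/

section Split

/-- a map with saturated range has a generalized inverse. -/
theorem repbd_ginv {α β : Type} [Fintype α] [Fintype β]
    (f : (α → ℤ) →ₗ[ℤ] (β → ℤ))
    (hsat : ∀ (m : ℤ) (w : β → ℤ), m ≠ 0 → m • w ∈ LinearMap.range f → w ∈ LinearMap.range f) :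
    ∃ S : (β → ℤ) →ₗ[ℤ] (α → ℤ), ∀ v, f (S (f v)) = f v := by
  obtain ⟨s, hs⟩ := repcyc_section f
  have htf : Module.IsTorsionFree ℤ ((β → ℤ) ⧸ LinearMap.range f) := by
    rw [Module.isTorsionFree_iff_smul_eq_zero]
    intro m w hw
    obtain ⟨w, rfl⟩ := Submodule.mkQ_surjective _ w
    by_cases hm : m = 0
    · exact Or.inl hm
    · right
      rw [← map_smul, Submodule.mkQ_apply, Submodule.Quotient.mk_eq_zero] at hw
      rw [Submodule.mkQ_apply, Submodule.Quotient.mk_eq_zero]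
      exact hsat m w hm hw
  obtain ⟨t, ht⟩ := Module.projective_lifting_property (LinearMap.range f).mkQ
    (LinearMap.id : ((β → ℤ) ⧸ LinearMap.range f) →ₗ[ℤ] ((β → ℤ) ⧸ LinearMap.range f))
    (Submodule.mkQ_surjective _)
  have ht' : ∀ w, (LinearMap.range f).mkQ (t w) = w := fun w => LinearMap.congr_fun ht w
  let ρ : (β → ℤ) →ₗ[ℤ] LinearMap.range f :=
    LinearMap.codRestrict (LinearMap.range f) (LinearMap.id - t ∘ₗ (LinearMap.range f).mkQ) (by
      intro w
      rw [← Submodule.Quotient.mk_eq_zero, ← Submodule.mkQ_apply]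
      show (LinearMap.range f).mkQ (w - t ((LinearMap.range f).mkQ w)) = 0
      rw [map_sub, ht', sub_self])
  refine ⟨s ∘ₗ ρ, fun v => ?_⟩
  have h2 : f (s (ρ (f v))) = (ρ (f v) : β → ℤ) := congrArg Subtype.val (hs (ρ (f v)))
  have h3 : (ρ (f v) : β → ℤ) = f v - t ((LinearMap.range f).mkQ (f v)) := rfl
  have h4 : (LinearMap.range f).mkQ (f v) = 0 := by
    rw [Submodule.mkQ_apply, Submodule.Quotient.mk_eq_zero]
    exact ⟨v, rfl⟩
  rw [LinearMap.comp_apply, h2, h3, h4, map_zero, sub_zero]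

/-- saturation from exactness with all coefficients. -/
theorem repbd_ginv_mat {α β : Type} [Fintype α] [Fintype β] [DecidableEq α]
    [DecidableEq β] (A : Matrix β α ℤ)
    (hex : ∀ (m : ℕ) (w : α → ℤ), (∀ b, (m : ℤ) ∣ za A ℤ ℤ w b) →
      ∃ w' : α → ℤ, za A ℤ ℤ (w - (m : ℤ) • w') = 0) :
    ∃ S : Matrix α β ℤ, A * S * A = A := by
  obtain ⟨S, hS⟩ := repbd_ginv (za A ℤ ℤ) (by
    rintro m w hm ⟨v, hv⟩
    obtain ⟨w', hw'⟩ := hex m.natAbs v (fun b => by
      rw [hv]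
      show (m.natAbs : ℤ) ∣ m • w b
      rw [smul_eq_mul]
      exact Dvd.dvd.mul_right (Int.natAbs_dvd.mpr dvd_rfl) _)
    rw [map_sub, sub_eq_zero, hv, map_smul] at hw'
    rcases Int.natAbs_eq m with h | h
    · refine ⟨w', ?_⟩
      rw [← h] at hw'
      exact (smul_right_injective _ hm hw').symm
    · refine ⟨-w', ?_⟩
      have h5 : (m.natAbs : ℤ) = -m := by omega
      rw [h5, neg_smul] at hw'
      have h6 : m • w = m • (-za A ℤ ℤ w') := by rw [smul_neg]; exact hw'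
      rw [map_neg]
      exact (smul_right_injective _ hm h6).symm)
  refine ⟨LinearMap.toMatrix' S, ?_⟩
  apply Matrix.toLin'.injective
  rw [Matrix.toLin'_mul, Matrix.toLin'_mul, Matrix.toLin'_toMatrix', ← repcyc_za_toLin]
  exact LinearMap.ext hS

end Split

/-! ### relative lengths -/

section Rl

variable {R : Type u} [CommRing R] (L : AddLen R) {M N : Type u} [AddCommGroup M] [Module R M]
  [AddCommGroup N] [Module R N]

theorem repbd_rl_le (f : M →ₗ[R] N) (X₀ Y₀ : Submodule R M) (X Y : Submodule R N)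
    (h1 : ∀ v ∈ X₀, f v ∈ X) (h2 : ∀ v ∈ Y₀, f v ∈ Y) (h3 : ∀ y ∈ Y, ∃ v ∈ Y₀, y - f v ∈ X) :
    L.rl X Y ≤ L.rl X₀ Y₀ := by
  unfold AddLen.rl
  refine repcyc_len_le L (Submodule.mapQ (X₀.submoduleOf Y₀) (X.submoduleOf Y)
    (f.restrict h2) ?_) ?_
  · rintro ⟨y, hy⟩ hx
    exact h1 y hx
  · intro z
    obtain ⟨⟨y, hy⟩, rfl⟩ := Submodule.mkQ_surjective _ z
    obtain ⟨v, hv, hv'⟩ := h3 y hy
    refine ⟨Submodule.mkQ _ ⟨v, hv⟩, ?_⟩
    rw [Submodule.mkQ_apply, Submodule.mapQ_apply, Submodule.mkQ_apply, eq_comm,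
      Submodule.Quotient.eq]
    exact hv'

end Rl

section Rep

variable {R : Type u} [CommRing R] (L : AddLen R) {n q : ℕ} (Q : Type u) [AddCommGroup Q]
  [Module R Q] (x : Fin n → R)

theorem repbd_kmap_kgr {α β : Type} [Fintype α] (A : Matrix β α ℤ) (i : ℤ)
    (v : Finset (Fin n) → α → Q) (hv : v ∈ kgr R (α → Q) n i) :
    kmap n (za A R Q) v ∈ kgr R (β → Q) n i := by
  intro J hJ
  refine hv J fun h => hJ ?_
  show za A R Q (v J) = 0
  rw [h, map_zero]

theorem repbd_kz_kgr {V : Type u} [AddCommGroup V] [Module R V] (T : Fin n → V →ₗ[R] V) (i : ℤ)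
    (v : Finset (Fin n) → V) (hv : v ∈ kgr R V n (i + 1)) : kz T v ∈ kgr R V n i := by
  intro J hJ
  by_contra hJi
  apply hJ
  show ∑ l ∈ Jᶜ, ksg l J • T l (v (insert l J)) = 0
  refine Finset.sum_eq_zero fun l hl => ?_
  have h0 : v (insert l J) = 0 := by
    by_contra h
    have h1 := hv _ h
    rw [Finset.card_insert_of_notMem (Finset.mem_compl.mp hl)] at h1
    push_cast at h1
    apply hJi
    linarith
  rw [h0, map_zero, smul_zero]

/-- the main step: chains modulo boundaries of a map of representations with saturated image. -/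
theorem repbd_main (hCL : CLnull L n q Q x) (W' W : MRep n) (hW : W.IsNil q)
    (D : Matrix W.ι W'.ι ℤ) (hD : ∀ l, D * W'.X l = W.X l * D) (S : Matrix W'.ι W.ι ℤ)
    (hS : D * S * D = D) (i : ℤ) (X : Submodule R (Finset (Fin n) → W'.ι → Q))
    (hX1 : ∀ v ∈ kgr R (W'.ι → Q) n (i + 1), kz (W'.T Q x) v ∈ X)
    (hX2 : ∀ v ∈ kgr R (W'.ι → Q) n i, kmap n (za (1 - S * D) R Q) v ∈ X) :
    L.rl X (kgr R (W'.ι → Q) n i ⊓ (kbd (W.T Q x) i).comap (kmap n (za D R Q))) = 0 := by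
  have he : (1 - D * S) * (1 - D * S) = 1 - D * S := by
    have h1 : D * S * (D * S) = D * S := by
      rw [← Matrix.mul_assoc, hS]
    rw [Matrix.sub_mul, Matrix.mul_sub, Matrix.mul_sub, h1]
    simp
  obtain ⟨k, E, ρ, hEρ, hρE⟩ := repcyc_idem _ he
  have hρD : ρ * D = 0 := by
    have h1 : ρ * D = ρ * (E * ρ) * D := by
      rw [← Matrix.mul_assoc, hρE, Matrix.one_mul]
    rw [h1, hEρ, Matrix.mul_assoc, Matrix.sub_mul, Matrix.one_mul, hS, sub_self, Matrix.mul_zero]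
  let U : MRep n := { ι := Fin k, X := fun l => ρ * (W.X l * E) }
  have hXρ : ∀ l, ρ * W.X l = U.X l * ρ := by
    intro l
    show ρ * W.X l = ρ * (W.X l * E) * ρ
    rw [Matrix.mul_assoc, Matrix.mul_assoc, hEρ, Matrix.mul_sub, Matrix.mul_one, Matrix.mul_sub,
      ← Matrix.mul_assoc (W.X l), ← hD, Matrix.mul_assoc, ← Matrix.mul_assoc ρ D, hρD,
      Matrix.zero_mul, sub_zero]
  have hprod : ∀ s : List (Fin n), ρ * (s.map W.X).prod = (s.map U.X).prod * ρ := by
    intro s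
    induction s with
    | nil => simp [U]
    | cons l s ih =>
      rw [List.map_cons, List.prod_cons, List.map_cons, List.prod_cons]
      calc ρ * (W.X l * (s.map W.X).prod) = ρ * W.X l * (s.map W.X).prod :=
            (Matrix.mul_assoc _ _ _).symm
        _ = U.X l * ρ * (s.map W.X).prod := by rw [hXρ]
        _ = U.X l * (ρ * (s.map W.X).prod) := Matrix.mul_assoc _ _ _
        _ = U.X l * ((s.map U.X).prod * ρ) := by rw [ih]
        _ = _ := (Matrix.mul_assoc _ _ _).symm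
  have hinj : ∀ {κ : Type} (A B : Matrix κ (Fin k) ℤ), A * ρ = B * ρ → A = B := by
    intro κ A B h
    have := congrArg (fun Z => Z * E) h
    simpa only [Matrix.mul_assoc, hρE, Matrix.mul_one] using this
  have hU : U.IsNil q := by
    constructor
    · intro a b
      apply hinj
      have h2 : ∀ a b, U.X a * U.X b * ρ = ρ * (W.X a * W.X b) := fun a b => by
        calc U.X a * U.X b * ρ = U.X a * (U.X b * ρ) := Matrix.mul_assoc _ _ _
          _ = U.X a * (ρ * W.X b) := by rw [hXρ]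
          _ = U.X a * ρ * W.X b := (Matrix.mul_assoc _ _ _).symm
          _ = ρ * W.X a * W.X b := by rw [hXρ]
          _ = _ := Matrix.mul_assoc _ _ _
      rw [h2, h2, hW.comm]
    · intro f
      have h1 := hprod (List.ofFn f)
      have h2 := hW.nil f
      rw [List.map_ofFn, List.map_ofFn] at h1
      have h3 : (List.ofFn (W.X ∘ f)).prod = 0 := h2
      rw [h3, Matrix.mul_zero] at h1
      apply hinj
      show (List.ofFn (U.X ∘ f)).prod * ρ = (0 : Matrix (Fin k) (Fin k) ℤ) * ρ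
      rw [← h1, Matrix.zero_mul]
  let F : W.Surj U :=
    { P := ρ
      σ := E
      split := hρE
      comm := hXρ }
  have key : L.rl ((kcyc (W.T Q x) (i + 1)).map (kmap n (za ρ R Q))) (kcyc (U.T Q x) (i + 1)) = 0 :=
    hCL W U hW hU F (i + 1)
  -- the Koszul differentials
  have hρk : ∀ v, kmap n (za ρ R Q) (kz (W.T Q x) v) =
      kz (U.T Q x) (kmap n (za ρ R Q) v) := fun v =>
    repcyc_kz_kmap _ _ _ (fun l w => repcyc_za_T Q x (W := W) (W' := U) ρ l (hXρ l) w) v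
  have hDk : ∀ v, kmap n (za D R Q) (kz (W'.T Q x) v) =
      kz (W.T Q x) (kmap n (za D R Q) v) := fun v =>
    repcyc_kz_kmap _ _ _ (fun l w => repcyc_za_T Q x (W := W') (W' := W) D l (hD l) w) v
  have hsplit : ∀ v : Finset (Fin n) → W.ι → Q,
      v = kmap n (za D R Q) (kmap n (za S R Q) v) +
        kmap n (za E R Q) (kmap n (za ρ R Q) v) := by
    intro v
    refine funext fun J => ?_
    show v J = za D R Q (za S R Q (v J)) + za E R Q (za ρ R Q (v J))
    rw [← repcyc_za_mul, ← repcyc_za_mul, hEρ, repcyc_za_sub, repcyc_za_one, add_sub_cancel]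
  have hρE' : ∀ v : Finset (Fin n) → Fin k → Q,
      kmap n (za ρ R Q) (kmap n (za E R Q) v) = v := by
    intro v
    refine funext fun J => ?_
    show za ρ R Q (za E R Q (v J)) = v J
    rw [← repcyc_za_mul, hρE, repcyc_za_one]
  have hSD : ∀ v : Finset (Fin n) → W'.ι → Q,
      kmap n (za S R Q) (kmap n (za D R Q) v) = v - kmap n (za (1 - S * D) R Q) v := by
    intro v
    refine funext fun J => ?_
    show za S R Q (za D R Q (v J)) = v J - za (1 - S * D) R Q (v J)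
    rw [← repcyc_za_mul, repcyc_za_sub, repcyc_za_one, sub_sub_cancel]
  let g : (Finset (Fin n) → Fin k → Q) →ₗ[R] (Finset (Fin n) → W'.ι → Q) :=
    kmap n (za S R Q) ∘ₗ kz (W.T Q x) ∘ₗ kmap n (za E R Q)
  have hg : ∀ v, g v = kmap n (za S R Q) (kz (W.T Q x) (kmap n (za E R Q) v)) := fun v => rfl
  -- g modulo X
  have hgX : ∀ t ∈ kgr R (W.ι → Q) n (i + 1), ∀ y ∈ kgr R (W'.ι → Q) n i,
      kmap n (za D R Q) y = kz (W.T Q x) t → y - g (kmap n (za ρ R Q) t) ∈ X := by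
    intro t ht y hy hty
    have h1 : kmap n (za E R Q) (kmap n (za ρ R Q) t) =
        t - kmap n (za D R Q) (kmap n (za S R Q) t) := by
      rw [eq_sub_iff_add_eq, add_comm]
      exact (hsplit t).symm
    have hSt := repbd_kmap_kgr Q S (i + 1) t ht
    have h2 : g (kmap n (za ρ R Q) t) =
        (y - kz (W'.T Q x) (kmap n (za S R Q) t)) -
          kmap n (za (1 - S * D) R Q) (y - kz (W'.T Q x) (kmap n (za S R Q) t)) := by
      rw [hg, h1, map_sub (kz (W.T Q x)), ← hDk, ← hty, ← map_sub (kmap n (za D R Q)), hSD]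
    have h3 : y - kz (W'.T Q x) (kmap n (za S R Q) t) ∈ kgr R (W'.ι → Q) n i :=
      Submodule.sub_mem _ hy (repbd_kz_kgr _ i _ hSt)
    have h4 : y - g (kmap n (za ρ R Q) t) = kz (W'.T Q x) (kmap n (za S R Q) t) +
        kmap n (za (1 - S * D) R Q) (y - kz (W'.T Q x) (kmap n (za S R Q) t)) := by
      rw [h2]
      abel
    rw [h4]
    exact Submodule.add_mem _ (hX1 _ hSt) (hX2 _ h3)
  refine le_antisymm ((repbd_rl_le L g _ _ _ _ ?_ ?_ ?_).trans key.le) zero_le
  · rintro _ ⟨c, ⟨hc1, hc2⟩, rfl⟩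
    have hc2' : kz (W.T Q x) c = 0 := hc2
    have := hgX c hc1 0 (Submodule.zero_mem _) (by rw [map_zero, hc2'])
    rw [zero_sub] at this
    exact (Submodule.neg_mem_iff _).mp this
  · rintro v ⟨hv1, hv2⟩
    have hv2' : kz (U.T Q x) v = 0 := hv2
    have hEv := repbd_kmap_kgr Q E (i + 1) v hv1
    refine ⟨repbd_kmap_kgr Q S i _ (repbd_kz_kgr _ i _ hEv), ?_⟩
    refine ⟨kmap n (za E R Q) v, hEv, ?_⟩
    have h1 := hsplit (kz (W.T Q x) (kmap n (za E R Q) v))
    rw [hρk, hρE', hv2', map_zero, add_zero] at h1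
    exact h1
  · rintro y ⟨hy1, ⟨t, ht, hty⟩⟩
    refine ⟨kmap n (za ρ R Q) t, ⟨repbd_kmap_kgr Q ρ (i + 1) t ht, ?_⟩, hgX t ht y hy1 hty.symm⟩
    show kz (U.T Q x) (kmap n (za ρ R Q) t) = 0
    rw [← hρk, hty]
    refine funext fun J => ?_
    show za ρ R Q (za D R Q (y J)) = 0
    rw [← repcyc_za_mul, hρD, repcyc_za_zero]

/-- reduction modulo `m` and exactness. -/
theorem repbd_cast {α β : Type} [Fintype α] (A : Matrix β α ℤ) (m : ℕ) (w : α → ℤ)
    (h : ∀ b, (m : ℤ) ∣ za A ℤ ℤ w b) :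
    za A ℤ (ZMod m) (fun a => ((w a : ℤ) : ZMod m)) = 0 := by
  refine funext fun b => ?_
  have h1 := (ZMod.intCast_zmod_eq_zero_iff_dvd (za A ℤ ℤ w b) m).mpr (h b)
  rw [Pi.zero_apply, ← h1]
  show ∑ a, A b a • ((w a : ℤ) : ZMod m) = ((∑ a, A b a • w a : ℤ) : ZMod m)
  rw [Int.cast_sum]
  refine Finset.sum_congr rfl fun a _ => ?_
  rw [zsmul_eq_mul, smul_eq_mul, Int.cast_mul]

theorem repbd_lift {α : Type} (m : ℕ) (w : α → ℤ)
    (h : (fun a => ((w a : ℤ) : ZMod m)) = 0) : ∃ w' : α → ℤ, w = (m : ℤ) • w' := by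
  have h1 : ∀ a, ∃ c, w a = (m : ℤ) * c := fun a =>
    (ZMod.intCast_zmod_eq_zero_iff_dvd (w a) m).mp (congrFun h a)
  choose w' hw' using h1
  exact ⟨w', funext fun a => by rw [Pi.smul_apply, smul_eq_mul]; exact hw' a⟩

/-- the chains modulo the boundaries. -/
theorem bd_null_zero (hCL : CLnull L n q Q x) (C : MCx n) (hC : C.IsCx q) (top : ℕ)
    (htop : ∀ p, top ≤ p → IsEmpty (C.W p).ι) (p₀ : ℕ) (hex : ∀ p, p ≠ p₀ → C.ExAt p)
    (hp : p₀ ≠ 0) (i : ℤ) :
    L.rl (kbd ((C.W 0).T Q x) i)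
      (kgr R ((C.W 0).ι → Q) n i ⊓
        (kbd ((C.W 1).T Q x) i).comap (kmap n (za (C.D 0) R Q))) = 0 := by
  have hex0 : ∀ (M : Type) [AddCommGroup M] (f : (C.W 0).ι → M), za (C.D 0) ℤ M f = 0 → f = 0 :=
    hex 0 (Ne.symm hp)
  obtain ⟨S, hS⟩ := repbd_ginv_mat (C.D 0) (by
    intro m w hw
    obtain ⟨w', hw'⟩ := repbd_lift m w (hex0 (ZMod m) _ (repbd_cast (C.D 0) m w hw))
    refine ⟨w', ?_⟩
    rw [← hw', sub_self, map_zero])
  have hSD : S * C.D 0 = 1 := by
    have h1 : ∀ A B : Matrix (C.W 0).ι (C.W 0).ι ℤ, C.D 0 * A = C.D 0 * B → A = B := by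
      intro A B h
      ext a b
      have h2 := hex0 ℤ (fun a => A a b - B a b) (by
        refine funext fun c => ?_
        have h3 : (C.D 0 * A) c b = (C.D 0 * B) c b := by rw [h]
        show ∑ a, C.D 0 c a • (A a b - B a b) = 0
        simp only [Matrix.mul_apply] at h3
        simp only [smul_eq_mul, mul_sub, Finset.sum_sub_distrib]
        rw [h3, sub_self])
      exact sub_eq_zero.mp (congrFun h2 a)
    apply h1
    rw [← Matrix.mul_assoc, hS, Matrix.mul_one]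
  refine repbd_main L Q x hCL (C.W 0) (C.W 1) (hC.nil 1) (C.D 0) (hC.comm 0) S hS i _ ?_ ?_
  · intro v hv
    exact ⟨v, hv, rfl⟩
  · intro v _
    have h1 : kmap n (za (1 - S * C.D 0) R Q) v = 0 := by
      refine funext fun J => ?_
      show za (1 - S * C.D 0) R Q (v J) = 0
      rw [hSD, sub_self, repcyc_za_zero]
    rw [h1]
    exact Submodule.zero_mem _

theorem bd_null_succ (hCL : CLnull L n q Q x) (C : MCx n) (hC : C.IsCx q) (top : ℕ)
    (htop : ∀ p, top ≤ p → IsEmpty (C.W p).ι) (p₀ : ℕ) (hex : ∀ p, p ≠ p₀ → C.ExAt p) (p : ℕ)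
    (hp : p₀ ≠ p + 1) (i : ℤ) :
    L.rl ((kgr R ((C.W p).ι → Q) n i).map (kmap n (za (C.D p) R Q)) ⊔
        kbd ((C.W (p + 1)).T Q x) i)
      (kgr R ((C.W (p + 1)).ι → Q) n i ⊓
        (kbd ((C.W (p + 2)).T Q x) i).comap (kmap n (za (C.D (p + 1)) R Q))) = 0 := by
  have hex1 : ∀ (M : Type) [AddCommGroup M] (f : (C.W (p + 1)).ι → M),
      za (C.D (p + 1)) ℤ M f = 0 → ∃ g, za (C.D p) ℤ M g = f := hex (p + 1) (Ne.symm hp)
  obtain ⟨S, hS⟩ := repbd_ginv_mat (C.D (p + 1)) (by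
    intro m w hw
    obtain ⟨g, hg⟩ := hex1 (ZMod m) _ (repbd_cast (C.D (p + 1)) m w hw)
    have h1 : ∀ a, ∃ c : ℤ, ((c : ℤ) : ZMod m) = g a := fun a => ZMod.intCast_surjective (g a)
    choose g' hg' using h1
    have h2 : (fun a => (((w - za (C.D p) ℤ ℤ g') a : ℤ) : ZMod m)) = 0 := by
      refine funext fun a => ?_
      show ((w a - ∑ b, C.D p a b • g' b : ℤ) : ZMod m) = 0
      rw [Int.cast_sub, sub_eq_zero, Int.cast_sum, ← congrFun hg a]
      show ∑ b, C.D p a b • g b = _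
      refine Finset.sum_congr rfl fun b _ => ?_
      rw [zsmul_eq_mul, smul_eq_mul, Int.cast_mul, hg']
    obtain ⟨w', hw'⟩ := repbd_lift m _ h2
    refine ⟨w', ?_⟩
    rw [← hw', sub_sub_cancel, ← repcyc_za_mul, hC.dd, repcyc_za_zero])
  obtain ⟨G, hG⟩ : ∃ G : Matrix (C.W p).ι (C.W (p + 1)).ι ℤ,
      C.D p * G = 1 - S * C.D (p + 1) := by
    have h : ∀ b : (C.W (p + 1)).ι, ∃ v, za (C.D p) ℤ ℤ v =
        fun a => (1 - S * C.D (p + 1) : Matrix (C.W (p + 1)).ι (C.W (p + 1)).ι ℤ) a b := by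
      intro b
      refine hex1 ℤ _ (funext fun c => ?_)
      have h1 : C.D (p + 1) * (1 - S * C.D (p + 1)) = 0 := by
        rw [Matrix.mul_sub, Matrix.mul_one, ← Matrix.mul_assoc, hS, sub_self]
      exact congrFun (congrFun h1 c) b
    choose v hv using h
    refine ⟨Matrix.of fun a b => v b a, ?_⟩
    ext a b
    exact congrFun (hv b) a
  refine repbd_main L Q x hCL (C.W (p + 1)) (C.W (p + 2)) (hC.nil (p + 2)) (C.D (p + 1))
    (hC.comm (p + 1)) S hS i _ ?_ ?_
  · intro v hv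
    exact Submodule.mem_sup_right ⟨v, hv, rfl⟩
  · intro v hv
    refine Submodule.mem_sup_left ⟨kmap n (za G R Q) v, repbd_kmap_kgr Q G i v hv, ?_⟩
    refine funext fun J => ?_
    show za (C.D p) R Q (za G R Q (v J)) = za (1 - S * C.D (p + 1)) R Q (v J)
    rw [← repcyc_za_mul, hG]

end Rep

end Vale.Agent.P202.Mix
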