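import Vale.Agent.P202.Mix.GeoDefs

/-!
P202-MIX, part GEO, task C0: triangular form over `ℤ`.
-/

namespace Vale.Agent.P202.Mix

universe u

/-- strictly triangular bases for families of endomorphisms whose `q`-fold products vanish -/
theorem reptri_basis {n : ℕ} (q : ℕ) : ∀ (M : Type) [AddCommGroup M] [Module.Finite ℤ M]
    [Module.Free ℤ M] (X : Fin n → Module.End ℤ M),
    (∀ ls : List (Fin n), ls.length = q → ∀ m, (ls.map X).prod m = 0) →
    ∃ (d : ℕ) (b : Module.Basis (Fin d) ℤ M), ∀ l (i j : Fin d), j ≤ i →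
      b.repr (X l (b j)) i = 0 := by
  induction q with
  | zero =>
    intro M _ _ _ X hX
    have h0 : ∀ m : M, m = 0 := fun m => by simpa using hX [] rfl m
    have : Subsingleton M := ⟨fun a b => by rw [h0 a, h0 b]⟩
    exact ⟨0, Module.Basis.empty M, fun l i => i.elim0⟩
  | succ q ih =>
    intro M _ _ _ X hX
    let K : Submodule ℤ M := ⨅ l, LinearMap.ker (X l)
    have hK : ∀ m, m ∈ K ↔ ∀ l, X l m = 0 := by
      intro m
      simp only [K, Submodule.mem_iInf, LinearMap.mem_ker]
    have hKX : ∀ l, K ≤ K.comap (X l) := by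
      intro l m hm
      rw [Submodule.mem_comap, (hK m).1 hm l]
      exact K.zero_mem
    have htf : Module.IsTorsionFree ℤ (M ⧸ K) := by
      refine Module.IsTorsionFree.of_smul_eq_zero fun a m hm => ?_
      obtain ⟨m, rfl⟩ := Submodule.Quotient.mk_surjective K m
      by_cases ha : a = 0
      · exact Or.inl ha
      · refine Or.inr ?_
        rw [← Submodule.Quotient.mk_smul, Submodule.Quotient.mk_eq_zero, hK] at hm
        rw [Submodule.Quotient.mk_eq_zero, hK]
        intro l
        have h1 := hm l
        rw [map_smul] at h1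
        exact (smul_eq_zero.1 h1).resolve_left ha
    have hfree : Module.Free ℤ (M ⧸ K) := Module.free_of_finite_type_torsion_free'
    let Y : Fin n → Module.End ℤ (M ⧸ K) := fun l => K.mapQ K (X l) (hKX l)
    have hYmk : ∀ l (m : M), Y l (K.mkQ m) = K.mkQ (X l m) := fun l m => rfl
    have hYls : ∀ (ls : List (Fin n)) (m : M),
        (ls.map Y).prod (K.mkQ m) = K.mkQ ((ls.map X).prod m) := by
      intro ls
      induction ls with
      | nil => intro m; simp
      | cons l ls ih2 =>
        intro m
        rw [List.map_cons, List.prod_cons, List.map_cons, List.prod_cons, Module.End.mul_apply,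
          Module.End.mul_apply, ih2 m, hYmk]
    obtain ⟨d, b, hb⟩ := ih (M ⧸ K) Y (by
      intro ls hls m
      obtain ⟨m, rfl⟩ := Submodule.mkQ_surjective K m
      rw [hYls, Submodule.mkQ_apply, Submodule.Quotient.mk_eq_zero, hK]
      intro l
      have h1 := hX (l :: ls) (by simp [hls]) m
      rwa [List.map_cons, List.prod_cons, Module.End.mul_apply] at h1)
    let c : Module.Basis (Fin (Module.finrank ℤ K)) ℤ K := Module.finBasis ℤ K
    refine ⟨Module.finrank ℤ K + d, (Module.Basis.sumQuot c b).reindex finSumFinEquiv, ?_⟩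
    intro l i j hij
    obtain ⟨i, rfl⟩ := finSumFinEquiv.surjective i
    obtain ⟨j, rfl⟩ := finSumFinEquiv.surjective j
    rw [Module.Basis.repr_reindex_apply, Module.Basis.reindex_apply, Equiv.symm_apply_apply,
      Equiv.symm_apply_apply]
    rcases j with j | j
    · rw [Module.Basis.sumQuot_inl, (hK _).1 (c j).2 l, map_zero]
      rfl
    · rcases i with i | i
      · exfalso
        rw [Fin.le_def] at hij
        simp only [finSumFinEquiv_apply_left, finSumFinEquiv_apply_right, Fin.val_natAdd,
          Fin.val_castAdd] at hij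
        have := i.2
        omega
      · rw [Module.Basis.sumQuot_repr_inr, ← hYmk]
        have h1 : K.mkQ (Module.Basis.sumQuot c b (Sum.inr j)) = b j :=
          Module.Basis.sumQuot_inr c b j
        rw [h1]
        apply hb
        rw [Fin.le_def] at hij ⊢
        simp only [finSumFinEquiv_apply_right, Fin.val_natAdd] at hij
        omega

variable {n q : ℕ}

theorem exists_tri (W : MRep n) (hW : W.IsNil q) :
    ∃ (d : ℕ) (P : Matrix (Fin d) W.ι ℤ) (P' : Matrix W.ι (Fin d) ℤ),
      P * P' = 1 ∧ P' * P = 1 ∧ ∀ l (i j : Fin d), j ≤ i → (P * W.X l * P') i j = 0 := by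
  have hnil : ∀ ls : List (Fin n), ls.length = q → ∀ m : W.ι → ℤ,
      (ls.map fun l => Matrix.toLinAlgEquiv' (W.X l)).prod m = 0 := by
    intro ls hls m
    have e1 : (ls.map fun l => Matrix.toLinAlgEquiv' (W.X l)).prod =
        Matrix.toLinAlgEquiv' (ls.map W.X).prod := by
      rw [map_list_prod, List.map_map]
      rfl
    subst hls
    have h1 := hW.nil ls.get
    have e2 : (List.ofFn fun i => W.X (ls.get i)) = ls.map W.X := by
      have : (List.ofFn fun i => W.X (ls.get i)) = (List.ofFn ls.get).map W.X := by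
        rw [List.map_ofFn]
        rfl
      rw [this, List.ofFn_get]
    rw [e2] at h1
    rw [e1, h1, map_zero]
    rfl
  obtain ⟨d, b, hb⟩ := reptri_basis q (W.ι → ℤ) (fun l => Matrix.toLinAlgEquiv' (W.X l)) hnil
  refine ⟨d, b.toMatrix (Pi.basisFun ℤ W.ι), (Pi.basisFun ℤ W.ι).toMatrix b,
    Module.Basis.toMatrix_mul_toMatrix_flip _ _, Module.Basis.toMatrix_mul_toMatrix_flip _ _, ?_⟩
  intro l i j hij
  have e1 : W.X l = LinearMap.toMatrix (Pi.basisFun ℤ W.ι) (Pi.basisFun ℤ W.ι)
      (Matrix.toLinAlgEquiv' (W.X l)) := by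
    rw [LinearMap.toMatrix_eq_toMatrix']
    exact (LinearMap.toMatrix'_toLin' (W.X l)).symm
  rw [e1, basis_toMatrix_mul_linearMap_toMatrix_mul_basis_toMatrix, LinearMap.toMatrix_apply]
  exact hb l i j hij

end Vale.Agent.P202.Mix
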