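import Vale.Agent.P202.Mix.RootDefs

/-!
P202 MIX, task K5: base change of the algebra of `p`-power roots (helper861).
-/

namespace Vale.Agent.P202.Mix.RootBC

open Polynomial TensorProduct IsLocalRing

universe u v w

noncomputable section

variable (p : ℕ) (S : Type u) [CommRing S] {ι : Type v} (a : ι → S)

theorem rx_zero (i : ι) : rx p S a i 0 = algebraMap S _ (a i) := by
  refine Ideal.Quotient.eq.mpr (Ideal.subset_span (Or.inl ⟨i, rfl⟩))

theorem rx_succ (i : ι) (e : ℕ) : rx p S a i (e + 1) ^ p = rx p S a i e := by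
  refine Ideal.Quotient.eq.mpr (Ideal.subset_span (Or.inr ⟨(i, e), rfl⟩))

theorem exists_lift {T : Type w} [CommRing T] [Algebra S T] (ρ : ι → ℕ → T)
    (h0 : ∀ i, ρ i 0 = algebraMap S T (a i)) (hs : ∀ i e, ρ i (e + 1) ^ p = ρ i e) :
    ∃ f : RootAlg p S a →ₐ[S] T, ∀ i e, f (rx p S a i e) = ρ i e := by
  refine ⟨Ideal.Quotient.liftₐ _ (MvPolynomial.aeval fun x : ι × ℕ => ρ x.1 x.2) ?_, ?_⟩
  · intro x hx
    have hle : Ideal.span
        ((Set.range fun i : ι => (MvPolynomial.X (i, 0) - MvPolynomial.C (a i) :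
          MvPolynomial (ι × ℕ) S)) ∪
        Set.range fun x : ι × ℕ => (MvPolynomial.X (x.1, x.2 + 1) ^ p - MvPolynomial.X x :
          MvPolynomial (ι × ℕ) S)) ≤
        RingHom.ker (MvPolynomial.aeval (R := S) fun x : ι × ℕ => ρ x.1 x.2).toRingHom := by
      rw [Ideal.span_le]
      rintro y (⟨i, rfl⟩ | ⟨z, rfl⟩)
      · simp [RingHom.mem_ker, h0]
      · simp [RingHom.mem_ker, hs]
    exact hle hx
  · intro i e
    show (MvPolynomial.aeval (R := S) fun x : ι × ℕ => ρ x.1 x.2) (MvPolynomial.X (i, e)) = ρ i e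
    simp

theorem hom_ext {T : Type w} [CommRing T] [Algebra S T] (f g : RootAlg p S a →ₐ[S] T)
    (h : ∀ i e, f (rx p S a i e) = g (rx p S a i e)) : f = g := by
  apply Ideal.Quotient.algHom_ext
  apply MvPolynomial.algHom_ext
  rintro ⟨i, e⟩
  exact h i e

/-- TASK K5: base change. -/
theorem exists_baseChange (S' : Type u) [CommRing S'] [Algebra S S'] :
    ∃ f : S' ⊗[S] RootAlg p S a ≃ₐ[S'] RootAlg p S' (fun i => algebraMap S S' (a i)),
      ∀ i e, f (1 ⊗ₜ rx p S a i e) = rx p S' _ i e := by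
  let _ : Algebra S (RootAlg p S' (fun i => algebraMap S S' (a i))) :=
    ((algebraMap S' (RootAlg p S' (fun i => algebraMap S S' (a i)))).comp
      (algebraMap S S')).toAlgebra
  have : IsScalarTower S S' (RootAlg p S' (fun i => algebraMap S S' (a i))) :=
    IsScalarTower.of_algebraMap_eq fun _ => rfl
  obtain ⟨g, hg⟩ := exists_lift p S a (fun i e => rx p S' (fun i => algebraMap S S' (a i)) i e)
    (fun i => by rw [rx_zero]; rfl) (fun i e => rx_succ p S' _ i e)
  obtain ⟨g', hg'⟩ := exists_lift p S' (fun i => algebraMap S S' (a i))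
    (T := S' ⊗[S] RootAlg p S a) (fun i e => 1 ⊗ₜ rx p S a i e)
    (fun i => by
      rw [rx_zero, Algebra.TensorProduct.algebraMap_apply, Algebra.algebraMap_self_apply,
        Algebra.algebraMap_eq_smul_one, Algebra.algebraMap_eq_smul_one,
        TensorProduct.smul_tmul])
    (fun i e => by
      rw [Algebra.TensorProduct.tmul_pow, one_pow, rx_succ])
  refine ⟨AlgEquiv.ofAlgHom (Algebra.TensorProduct.lift (Algebra.ofId S' _) g
    (fun _ _ => Commute.all _ _)) g' ?_ ?_, ?_⟩
  · apply hom_ext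
    intro i e
    simp [hg', hg]
  · have hgg : (g'.restrictScalars S).comp g = Algebra.TensorProduct.includeRight := by
      apply hom_ext
      intro i e
      simp [hg, hg']
    apply Algebra.TensorProduct.ext'
    intro s r
    have h1 : g' (g r) = (1 : S') ⊗ₜ[S] r := DFunLike.congr_fun hgg r
    simp only [AlgHom.comp_apply, Algebra.TensorProduct.lift_tmul, map_mul, h1, AlgHom.id_apply]
    have h2 : g' (Algebra.ofId S' _ s) = s ⊗ₜ[S] (1 : RootAlg p S a) := by
      rw [Algebra.ofId_apply, AlgHom.commutes, Algebra.TensorProduct.algebraMap_apply,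
        Algebra.algebraMap_self_apply]
    rw [h2, Algebra.TensorProduct.tmul_mul_tmul, mul_one, one_mul]
  · intro i e
    simp [hg]

end

end Vale.Agent.P202.Mix.RootBC
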