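import Vale.Agent.P202.Mix.RootTower

/-!
P202 MIX: the normalized length of `RootAlg ⊗ X` is the length of `X`.
-/

namespace Vale.Agent.P202.Mix

open Polynomial TensorProduct IsLocalRing

universe u v w

noncomputable section

variable (p : ℕ) (S : Type u) [CommRing S] {ι : Type v} (a : ι → S)
variable (X : Type w) [AddCommGroup X] [Module S X]

/-- the exponents of the basis of `rsub (F, e)`. -/
abbrev RB (x : RI ι) : Type v := {α : Bx ι (p ^ x.2) // α.1.support ⊆ x.1}

instance instFintypeRB (x : RI ι) : Fintype (RB p x) :=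
  have := finite_Bx x.1 (p ^ x.2)
  Fintype.ofFinite _

/-- restriction of an exponent to `F`. -/
def rbFun (x : RI ι) (α : RB p x) : x.1 → Fin (p ^ x.2) := fun i => ⟨α.1.1 i, α.1.2 i⟩

theorem rbFun_bijective [Fact p.Prime] (x : RI ι) : Function.Bijective (rbFun p x) := by
  classical
  constructor
  · intro α β h
    refine Subtype.ext (Subtype.ext (Finsupp.ext fun i => ?_))
    by_cases hi : i ∈ x.1
    · exact congrArg Fin.val (congrFun h ⟨i, hi⟩)
    · rw [Finsupp.notMem_support_iff.mp fun h' => hi (α.2 h'),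
        Finsupp.notMem_support_iff.mp fun h' => hi (β.2 h')]
  · intro g
    let G : ι → ℕ := fun i => if h : i ∈ x.1 then (g ⟨i, h⟩ : ℕ) else 0
    have hG : ∀ i, G i ≠ 0 → i ∈ x.1 := by
      intro i hi
      by_contra h
      exact hi (dif_neg h)
    have hlt : ∀ i, G i < p ^ x.2 := by
      intro i
      by_cases h : i ∈ x.1
      · have h' : G i = (g ⟨i, h⟩ : ℕ) := dif_pos h
        rw [h']
        exact Fin.is_lt _
      · have h' : G i = 0 := dif_neg h
        rw [h']
        exact pow_pos (Fact.out : p.Prime).pos _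
    refine ⟨⟨⟨Finsupp.onFinset x.1 G hG, fun i => hlt i⟩, Finsupp.support_onFinset_subset (hf := hG)⟩, ?_⟩
    funext i
    refine Fin.ext ?_
    have h' : G i = (g i : ℕ) := dif_pos i.2
    exact h'

theorem card_RB [Fact p.Prime] (x : RI ι) : Fintype.card (RB p x) = p ^ (x.2 * x.1.card) := by
  classical
  rw [Fintype.card_of_bijective (rbFun_bijective p x), Fintype.card_fun, Fintype.card_fin,
    Fintype.card_coe, ← pow_mul]

/-- the monomial with exponent `α`. -/
def rmon (x : RI ι) (α : RB p x) : RootAlg p S a := α.1.1.prod fun i m => rx p S a i x.2 ^ m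

theorem rmon_mem (x : RI ι) (α : RB p x) : rmon p S a x α ∈ rsub p S a x :=
  prod_mem fun _ hi => pow_mem (rx_mem_rsub p S a (α.2 hi)) _

/-- the map `X ^ m → RootAlg ⊗ X` given by the monomials. -/
def rtens (x : RI ι) : (RB p x → X) →ₗ[S] RootAlg p S a ⊗[S] X :=
  ∑ α, (TensorProduct.mk S (RootAlg p S a) X (rmon p S a x α)) ∘ₗ LinearMap.proj α

theorem rtens_apply (x : RI ι) (y : RB p x → X) :
    rtens p S a X x y = ∑ α, rmon p S a x α ⊗ₜ[S] y α := by
  simp [rtens]

theorem rtens_injective [Fact p.Prime] (x : RI ι) : Function.Injective (rtens p S a X x) := by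
  classical
  obtain ⟨f, hf⟩ := exists_qpsi p S a
  rw [injective_iff_map_eq_zero]
  intro y hy
  rw [rtens_apply] at hy
  have h1 : (TensorProduct.finsuppScalarLeft S X (ι →₀ ℚ≥0)) (f.rTensor X
      (∑ α, rmon p S a x α ⊗ₜ[S] y α)) = 0 := by rw [hy, map_zero, map_zero]
  rw [map_sum, map_sum] at h1
  have h2 : ∀ α : RB p x, (TensorProduct.finsuppScalarLeft S X (ι →₀ ℚ≥0)) (f.rTensor X
      (rmon p S a x α ⊗ₜ[S] y α)) = Finsupp.single (qd p x.2 α.1.1) (y α) := by
    intro α
    rw [LinearMap.rTensor_tmul, rmon, hf, TensorProduct.finsuppScalarLeft_apply_tmul,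
      Finsupp.sum_single_index (by rw [zero_smul, Finsupp.single_zero]), one_smul]
  simp only [h2] at h1
  funext α
  have h3 := DFunLike.congr_fun h1 (qd p x.2 α.1.1)
  rw [Finsupp.finsetSum_apply, Finset.sum_eq_single α, Finsupp.single_eq_same] at h3
  · exact h3
  · intro β _ hβ
    rw [Finsupp.single_eq_of_ne]
    intro h
    exact hβ (Subtype.ext (Subtype.ext (qd_injective p x.2 h.symm)))
  · intro h
    exact absurd (Finset.mem_univ _) h

/-- the image of `X` in `RootAlg ⊗ X`. -/
def rX0 : Submodule S (RootAlg p S a ⊗[S] X) :=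
  LinearMap.range (TensorProduct.mk S (RootAlg p S a) X 1)

theorem range_rtens [Fact p.Prime] (x : RI ι) :
    LinearMap.range (rtens p S a X x) = ext (rsub p S a x) (rX0 p S a X) := by
  classical
  refine le_antisymm ?_ (ext_le ?_)
  · rintro _ ⟨y, rfl⟩
    rw [rtens_apply]
    refine sum_mem fun α _ => ?_
    have h := smul_mem_ext (rmon_mem p S a x α) (X := rX0 p S a X)
      (x := (1 : RootAlg p S a) ⊗ₜ[S] y α) ⟨y α, rfl⟩
    rwa [TensorProduct.smul_tmul', smul_eq_mul, mul_one] at h
  · rintro b hb _ ⟨z, rfl⟩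
    change b • ((1 : RootAlg p S a) ⊗ₜ[S] z) ∈ _
    rw [TensorProduct.smul_tmul', smul_eq_mul, mul_one]
    have hb' := (mem_rsub_iff p S a x.1 x.2 b).mp hb
    clear hb
    induction hb' using Submodule.span_induction with
    | mem b hb =>
      obtain ⟨α, hα, rfl⟩ := hb
      refine ⟨Pi.single ⟨α, hα⟩ z, ?_⟩
      rw [rtens_apply, Finset.sum_eq_single (⟨α, hα⟩ : RB p x), Pi.single_eq_same]
      · rfl
      · intro β _ hβ
        rw [Pi.single_eq_of_ne hβ, TensorProduct.tmul_zero]
      · intro h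
        exact absurd (Finset.mem_univ _) h
    | zero => rw [TensorProduct.zero_tmul]; exact zero_mem _
    | add b c _ _ hb hc => rw [TensorProduct.add_tmul]; exact add_mem hb hc
    | smul s b _ hb => rw [← TensorProduct.smul_tmul']; exact Submodule.smul_mem _ s hb

/-- the length of `sub x * X_0`. -/
theorem length_ext_rX0 [Fact p.Prime] (x : RI ι) :
    Module.length S (ext (rsub p S a x) (rX0 p S a X) : Submodule S (RootAlg p S a ⊗[S] X)) =
      (p ^ (x.2 * x.1.card) : ℕ) * Module.length S X := by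
  rw [← range_rtens, ← (LinearEquiv.ofInjective _ (rtens_injective p S a X x)).length_eq,
    Module.length_pi_of_fintype, Finset.sum_const, Finset.card_univ, nsmul_eq_mul, card_RB]

theorem nlen_rX0 [Fact p.Prime] (x : RI ι) :
    (rootTower p S a).nlen x (rX0 p S a X) = ((Module.length S X : ℕ∞) : ENNReal) := by
  have h0 := (rootTower p S a).rank_ne_zero x
  change ((Module.length S (ext (rsub p S a x) (rX0 p S a X) :
    Submodule S (RootAlg p S a ⊗[S] X)) : ℕ∞) : ENNReal) /
      ((rootTower p S a).rank x : ENNReal) = _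
  rw [length_ext_rX0, ENat.toENNReal_mul, ENat.toENNReal_coe]
  change ((rootTower p S a).rank x : ENNReal) * _ / ((rootTower p S a).rank x : ENNReal) = _
  rw [mul_comm, ENNReal.mul_div_cancel_right h0 (ENNReal.natCast_ne_top _)]

theorem lamX_rX0 [Fact p.Prime] :
    (rootTower p S a).lamX (rX0 p S a X) = ((Module.length S X : ℕ∞) : ENNReal) := by
  rw [Tower.lamX, iInf_congr fun x => nlen_rX0 p S a X x, iInf_const]

theorem exists_le_ext_rX0 (Y : Submodule S (RootAlg p S a ⊗[S] X)) (hY : Y.FG) :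
    ∃ x : RI ι, Y ≤ ext (rsub p S a x) (rX0 p S a X) := by
  classical
  have hdir : ∀ x y : RI ι, ∃ z, x ≤ z ∧ y ≤ z := fun x y => ⟨x ⊔ y, le_sup_left, le_sup_right⟩
  have h1 : ∀ z : RootAlg p S a ⊗[S] X, ∃ x : RI ι, z ∈ ext (rsub p S a x) (rX0 p S a X) := by
    intro z
    induction z using TensorProduct.induction_on with
    | zero => exact ⟨(∅, 0), zero_mem _⟩
    | tmul r m =>
      obtain ⟨x, hx⟩ := exists_mem_rsub p S a r
      refine ⟨x, ?_⟩
      have h := smul_mem_ext hx (X := rX0 p S a X) (x := (1 : RootAlg p S a) ⊗ₜ[S] m) ⟨m, rfl⟩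
      rwa [TensorProduct.smul_tmul', smul_eq_mul, mul_one] at h
    | add y z hy hz =>
      obtain ⟨i, hi⟩ := hy
      obtain ⟨j, hj⟩ := hz
      obtain ⟨l, hil, hjl⟩ := hdir i j
      exact ⟨l, add_mem (ext_mono (rsub_mono p S a hil) le_rfl hi)
        (ext_mono (rsub_mono p S a hjl) le_rfl hj)⟩
  induction Y, hY using Submodule.fg_induction with
  | singleton y =>
    obtain ⟨x, hx⟩ := h1 y
    exact ⟨x, (Submodule.span_singleton_le_iff_mem _ _).mpr hx⟩
  | sup Y Z _ _ hy hz =>
    obtain ⟨i, hi⟩ := hy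
    obtain ⟨j, hj⟩ := hz
    obtain ⟨l, hil, hjl⟩ := hdir i j
    exact ⟨l, sup_le (hi.trans (ext_mono (rsub_mono p S a hil) le_rfl))
      (hj.trans (ext_mono (rsub_mono p S a hjl) le_rfl))⟩

/-- the normalized length of `RootAlg ⊗ X` is the length of `X`. -/
theorem lam_rootAlg_tensor [Fact p.Prime] [Module.Finite S X] :
    (rootTower p S a).lam (RootAlg p S a ⊗[S] X) = ((Module.length S X : ℕ∞) : ENNReal) := by
  refine le_antisymm ?_ ?_
  · refine (rootTower p S a).lam_le fun Y hY => ?_
    obtain ⟨x, hx⟩ := exists_le_ext_rX0 p S a X Y hY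
    refine ((rootTower p S a).lamX_le_nlen x Y).trans ?_
    rw [← nlen_rX0 p S a X x]
    refine ENNReal.div_le_div_right ?_ _
    rw [ENat.toENNReal_le]
    refine len_mono ?_
    have h2 := ext_mono (le_refl (rsub p S a x)) hx
    rwa [ext_ext le_rfl] at h2
  · rw [← lamX_rX0 p S a X]
    refine (rootTower p S a).lamX_le_lam ?_
    rw [rX0, LinearMap.range_eq_map]
    exact (Module.finite_def.mp inferInstance).map _

end

end Vale.Agent.P202.Mix
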