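import Vale.Agent.P202.Mix.RootBC

/-!
P202 MIX, task K6: for a `p`-basis the algebra of `p`-power roots is the perfect closure
(helper861).
-/

namespace Vale.Agent.P202.Mix.RootPC

open Polynomial TensorProduct IsLocalRing Vale.Agent.P202.Mix.RootBC

universe u v w

noncomputable section

variable (p : ℕ) (S : Type u) [CommRing S] {ι : Type v} (a : ι → S)

/-- the monomial of level `e`. -/
def mon (e : ℕ) (α : ι →₀ ℕ) : RootAlg p S a := α.prod fun i m => rx p S a i e ^ m

theorem rx_add_pow (i : ι) (e d : ℕ) : rx p S a i (e + d) ^ p ^ d = rx p S a i e := by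
  induction d with
  | zero => simp
  | succ d ih =>
    rw [pow_succ', pow_mul, ← add_assoc, rx_succ, ih]

theorem rx_pow (i : ι) (e : ℕ) : rx p S a i e ^ p ^ e = algebraMap S _ (a i) := by
  have h := rx_add_pow p S a i 0 e
  rwa [zero_add, rx_zero] at h

/-- every element is a polynomial in the roots of order `p ^ e`, for all large `e`. -/
theorem exists_level (y : RootAlg p S a) : ∃ e₀ : ℕ, ∀ e, e₀ ≤ e →
    ∃ P : MvPolynomial ι S, y = MvPolynomial.aeval (fun i => rx p S a i e) P := by
  obtain ⟨q, rfl⟩ := Ideal.Quotient.mk_surjective y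
  induction q using MvPolynomial.induction_on with
  | C c => exact ⟨0, fun e _ => ⟨MvPolynomial.C c, by rw [MvPolynomial.aeval_C]; rfl⟩⟩
  | add q₁ q₂ h₁ h₂ =>
    obtain ⟨e₁, h₁⟩ := h₁
    obtain ⟨e₂, h₂⟩ := h₂
    refine ⟨max e₁ e₂, fun e he => ?_⟩
    obtain ⟨P₁, h₁⟩ := h₁ e (le_trans (le_max_left _ _) he)
    obtain ⟨P₂, h₂⟩ := h₂ e (le_trans (le_max_right _ _) he)
    refine ⟨P₁ + P₂, ?_⟩
    rw [map_add, map_add, ← h₁, ← h₂]
    rfl
  | mul_X q x h =>
    obtain ⟨e₁, h₁⟩ := h
    refine ⟨max e₁ x.2, fun e he => ?_⟩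
    obtain ⟨P₁, h₁⟩ := h₁ e (le_trans (le_max_left _ _) he)
    obtain ⟨d, rfl⟩ := Nat.exists_eq_add_of_le (le_trans (le_max_right _ _) he)
    refine ⟨P₁ * MvPolynomial.X x.1 ^ p ^ d, ?_⟩
    rw [map_mul, map_mul, ← h₁, map_pow, MvPolynomial.aeval_X, rx_add_pow]
    rfl

theorem mon_mem [Fact p.Prime] (e : ℕ) (α : ι →₀ ℕ) :
    mon p S a e α ∈ Submodule.span S (Set.range fun β : Bx ι (p ^ e) => mon p S a e β.1) := by
  classical
  have hpe : 0 < p ^ e := pow_pos (Fact.out : p.Prime).pos e
  set β : ι →₀ ℕ := α.mapRange (fun m => m % p ^ e) (Nat.zero_mod _) with hβ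
  have hβ' : ∀ i, β i < p ^ e := fun i => by
    rw [hβ, Finsupp.mapRange_apply]; exact Nat.mod_lt _ hpe
  have key : mon p S a e α = (α.prod fun i m => a i ^ (m / p ^ e)) • mon p S a e β := by
    rw [Algebra.smul_def, Finsupp.prod, map_prod]
    have h2 : mon p S a e β = ∏ i ∈ α.support, rx p S a i e ^ (α i % p ^ e) := by
      rw [mon, Finsupp.prod_of_support_subset β (s := α.support)]
      · exact Finset.prod_congr rfl fun i _ => by rw [hβ, Finsupp.mapRange_apply]
      · exact Finsupp.support_mapRange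
      · intro i _; exact pow_zero _
    rw [h2, ← Finset.prod_mul_distrib, mon, Finsupp.prod]
    refine Finset.prod_congr rfl fun i _ => ?_
    rw [map_pow, ← rx_pow p S a i e, ← pow_mul, ← pow_add, Nat.div_add_mod]
  rw [key]
  exact Submodule.smul_mem _ _ (Submodule.subset_span ⟨⟨β, hβ'⟩, rfl⟩)

theorem exists_repr [Fact p.Prime] (y : RootAlg p S a) : ∃ (e : ℕ) (c : Bx ι (p ^ e) →₀ S),
    y = c.sum fun α s => s • mon p S a e α.1 := by
  obtain ⟨e, he⟩ := exists_level p S a y
  obtain ⟨P, hP⟩ := he e le_rfl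
  refine ⟨e, ?_⟩
  have hy : y ∈ Submodule.span S (Set.range fun β : Bx ι (p ^ e) => mon p S a e β.1) := by
    rw [hP, MvPolynomial.aeval_def, MvPolynomial.eval₂_eq]
    refine Submodule.sum_mem _ fun α _ => ?_
    rw [← Algebra.smul_def]
    exact Submodule.smul_mem _ _ (mon_mem p S a e α)
  obtain ⟨c, hc⟩ := (Finsupp.mem_span_range_iff_exists_finsupp).mp hy
  exact ⟨c, hc.symm⟩

/-- TASK K6: a `p`-basis gives the perfect closure. -/
theorem bijective_perfectClosure [Fact p.Prime] (k : Type u) [Field k] [CharP k p] (b : ι → k)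
    (hb : IsPBasis p b) : ∃ f : RootAlg p k b →+* PerfectClosure k p, Function.Bijective f ∧
      (∀ c, f (algebraMap k _ c) = PerfectClosure.of k p c) ∧
      ∀ i e, f (rx p k b i e) ^ p ^ e = PerfectClosure.of k p (b i) := by
  let _ : Algebra k (PerfectClosure k p) := (PerfectClosure.of k p).toAlgebra
  obtain ⟨f, hf⟩ := exists_lift p k b (T := PerfectClosure k p)
    (fun i e => PerfectClosure.mk k p (e, b i)) (fun i => rfl) (fun i e => by
      rw [PerfectClosure.mk_pow]
      exact PerfectClosure.mk_succ_pow k p e (b i))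
  have hroot : ∀ (e : ℕ) (x : k), PerfectClosure.mk k p (e, x) ^ p ^ e =
      PerfectClosure.of k p x := by
    intro e x
    rw [← iterateFrobenius_def]
    have h := PerfectClosure.iterate_frobenius_mk k p e x
    rwa [← coe_iterateFrobenius] at h
  have hC : ∀ c, f (algebraMap k _ c) = PerfectClosure.of k p c := fun c => f.commutes c
  have hR : ∀ i e, f (rx p k b i e) ^ p ^ e = PerfectClosure.of k p (b i) := by
    intro i e
    rw [hf, hroot]
  have hmain : ∀ (e : ℕ) (c : Bx ι (p ^ e) →₀ k),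
      f (c.sum fun α s => s • mon p k b e α.1) ^ p ^ e = PerfectClosure.of k p
        (c.sum fun α y => y ^ p ^ e * α.1.prod fun i m => b i ^ m) := by
    intro e c
    rw [← iterateFrobenius_def, Finsupp.sum, Finsupp.sum, map_sum, map_sum, map_sum]
    refine Finset.sum_congr rfl fun α _ => ?_
    rw [Algebra.smul_def, map_mul, map_mul, map_mul, hC, iterateFrobenius_def,
      iterateFrobenius_def, map_pow]
    congr 1
    rw [mon, Finsupp.prod, Finsupp.prod, map_prod, map_prod, ← Finset.prod_pow]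
    refine Finset.prod_congr rfl fun i _ => ?_
    rw [map_pow, map_pow, ← hR i e, ← pow_mul, ← pow_mul, mul_comm]
  refine ⟨f, ⟨?_, ?_⟩, hC, hR⟩
  · show Function.Injective (f : RootAlg p k b →+* PerfectClosure k p)
    rw [injective_iff_map_eq_zero]
    intro y hy
    obtain ⟨e, c, rfl⟩ := exists_repr p k b y
    have h1 := hmain e c
    have h0 : f (c.sum fun α s => s • mon p k b e α.1) = 0 := hy
    rw [h0, zero_pow (pow_pos (Fact.out : p.Prime).pos e).ne'] at h1
    have h2 : (c.sum fun α y => y ^ p ^ e * α.1.prod fun i m => b i ^ m) = 0 :=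
      (PerfectClosure.of k p).injective (by rw [← h1, map_zero])
    obtain ⟨c', _, hu⟩ := hb.2 e 0
    have h3 : c = 0 := (hu c h2).trans (hu 0 (Finsupp.sum_zero_index)).symm
    rw [h3, Finsupp.sum_zero_index]
  · intro z
    obtain ⟨⟨e, x⟩, rfl⟩ := PerfectClosure.mk_surjective k p z
    obtain ⟨c, hc, _⟩ := hb.2 e x
    refine ⟨c.sum fun α s => s • mon p k b e α.1, ?_⟩
    apply iterateFrobenius_inj (PerfectClosure k p) p e
    rw [iterateFrobenius_def, iterateFrobenius_def, hroot, ← hc]
    exact hmain e c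

end

end Vale.Agent.P202.Mix.RootPC
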