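import Vale.Agent.P202.Mix.Apkg
import Vale.Agent.P202.Mix.ApkgBC
import Vale.Agent.P202.Mix.Idem
import Vale.Agent.P202.Mix.Build
import Vale.Agent.P202.Mix.UnitLen
import Vale.Agent.P202.Mix.BaseEx
import Vale.Agent.P202.Mix.LenQuot2
import Vale.Agent.P202.Mix.GammaForm
import Vale.Agent.P202.Mix.LenEst
import Vale.Agent.P202.Mix.LenSmall
import Vale.Agent.P202.Mix.Tei1

/-!
P202 MIX, M17-D stage 1: the packages over `A` and the additive lengths over `S`.
-/

namespace Vale.Agent.P202.Mix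

open Polynomial TensorProduct IsLocalRing
open scoped ENNReal

universe u

theorem sup_span_pow_eq {E : Type*} [CommRing E] (J : Ideal E) (x y : E) (h : x - y ∈ J) (c : ℕ) :
    J ⊔ Ideal.span {x ^ c} = J ⊔ Ideal.span {y ^ c} := by
  have key : ∀ x y : E, x - y ∈ J → J ⊔ Ideal.span {x ^ c} ≤ J ⊔ Ideal.span {y ^ c} := by
    intro x y h
    refine sup_le le_sup_left ?_
    rw [Ideal.span_singleton_le_iff_mem]
    have h1 : x ^ c - y ^ c ∈ J := by
      obtain ⟨z, hz⟩ := sub_dvd_pow_sub_pow x y c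
      rw [hz]
      exact J.mul_mem_right _ h
    have h2 : x ^ c = (x ^ c - y ^ c) + y ^ c := by ring
    rw [h2]
    exact Submodule.add_mem_sup h1 (Ideal.mem_span_singleton_self _)
  refine le_antisymm (key x y h) (key y x ?_)
  rw [← neg_sub]
  exact J.neg_mem h

theorem stage1 (p : ℕ) [Fact p.Prime] {A S : Type u} [CommRing A] [IsDomain A] [IsLocalRing A]
    [IsNoetherianRing A] [CharZero A] [CharP (ResidueField A) p]
    [IsAdicComplete (maximalIdeal A) A] [Infinite (ResidueField A)] [CommRing S] [IsLocalRing S]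
    [IsNoetherianRing S] [Algebra A S] [IsLocalHom (algebraMap A S)] [Module.Flat A S] {r : ℕ}
    (hdim : ringKrullDim A = (r + 1 : ℕ)) :
    ∃ (P : Type) (_ : Fintype P) (x : Fin (r + 1) → A) (g0 g1 : A) (CC : ℕ),
      x 0 = (p : A) ∧ (∀ l, x l ∈ maximalIdeal A) ∧ g0 ≠ 0 ∧ g1 ≠ 0 ∧
      ∀ b e N : ℕ, 1 ≤ N → ∃ (E : Type u) (_ : CommRing E) (_ : Algebra A E)
        (Pk : APkg p (maximalIdeal A) x P g0 g1 (p ^ b - (r + 1) - 1 - (r + 1)) (p ^ b) N E)
        (L : AddLen (S ⊗[A] E)),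
        (∀ 𝔟 : Ideal S, (p : S) ^ N ∈ 𝔟 → Module.length S (S ⧸ 𝔟) ≠ ⊤ →
          L.len ((S ⊗[A] E) ⧸ 𝔟.map (algebraMap S (S ⊗[A] E))) =
            ENat.toENNReal (Module.length S (S ⧸ 𝔟))) ∧
        ∀ π (c : ℕ), 1 ≤ c →
          L.len ((S ⊗[A] E) ⧸ ((maximalIdeal S).map (algebraMap S (S ⊗[A] E)) ⊔
            Ideal.span {((1 : S) ⊗ₜ[A] Pk.h π : S ⊗[A] E) ^ c})) ≤
            ((c * CC : ℕ) : ℝ≥0∞) / (p : ℝ≥0∞) ^ e := by
  obtain ⟨k, _, _, _, Λ, _, _, _, _, _, _, u, ψ, red, ι, b, β, res, s, a, hX, hinj, hsep, hspan,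
    hgen, M, hM⟩ := exists_base p hdim
  have hb := hX.toIsBase
  have hpA : (p : A) ∈ maximalIdeal A := by
    rw [← residue_eq_zero_iff, map_natCast, CharP.cast_eq_zero]
  have hp0 : (p : Λ) ≠ 0 := by
    intro h
    have h1 := congr(algebraMap Λ A $h)
    rw [map_natCast, map_zero] at h1
    exact (Fact.out : p.Prime).ne_zero (Nat.cast_eq_zero.mp h1)
  have h𝔪 : maximalIdeal Λ ≠ ⊥ := by
    intro h
    have h1 : (p : Λ) ∈ maximalIdeal Λ := by
      rw [hX.max]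
      exact Ideal.subset_span (Set.mem_insert _ _)
    rw [h] at h1
    exact hp0 h1
  have ham : ∀ j, a j ∈ maximalIdeal A := fun j => by
    rw [← hspan]
    exact Ideal.subset_span ⟨j, rfl⟩
  -- the polynomials
  choose D0 hD0 using fun j : Fin s => exists_simple_root hinj (maximalIdeal Λ) h𝔪 (a j) M
    (hM (Ideal.pow_mem_pow (ham j) M))
  set D : ℕ := ∑ j, D0 j with hD
  choose F hFm hFD hFc hF0 hF1 using fun j : Fin s => hD0 j D
    (Finset.single_le_sum (f := D0) (fun _ _ => Nat.zero_le _) (Finset.mem_univ j))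
  have hsurj : Function.Surjective (MvPolynomial.aeval a : MvPolynomial (Fin s) Λ →ₐ[Λ] A) := by
    intro x
    obtain ⟨l, c, rfl⟩ := hgen x
    refine ⟨MvPolynomial.C l + ∑ j, MvPolynomial.C (c j) * MvPolynomial.X j, ?_⟩
    simp
  have hadj : Algebra.adjoin Λ (Set.range a) = ⊤ := by
    rw [Algebra.adjoin_range_eq_range_aeval, AlgHom.range_eq_top]
    exact hsurj
  obtain ⟨g, E, hg, hEg, hE⟩ := exists_idem hinj a hadj F hFm hF0 hF1
  obtain ⟨a0, g', I0, hg', hform⟩ := gamma_form (A := A) hb g (hsep g hg)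
  obtain ⟨Cg, hCg⟩ := length_estimate k r g' hg'
  have hu : ∀ i, algebraMap Λ A (u i) ∈ maximalIdeal A := by
    intro i
    have h1 : u i ∈ maximalIdeal Λ := by
      rw [hX.max]
      exact Ideal.subset_span (Set.mem_insert_of_mem _ ⟨i, rfl⟩)
    rw [mem_maximalIdeal, mem_nonunits_iff] at h1 ⊢
    exact fun h => h1 (isUnit_of_map_unit _ _ h)
  refine ⟨Fin s → Fin D, inferInstance, Fin.cons (p : A) fun i => algebraMap Λ A (u i),
    ∏ j, aeval (a j) (derivative (F j)),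
    algebraMap Λ A g * ∏ j, aeval (a j) (derivative (F j)), p * (a0 + Cg), rfl, ?_,
    Finset.prod_ne_zero_iff.mpr fun j _ => hF1 j,
    mul_ne_zero (fun h => hg (hinj (by rw [h, map_zero])))
      (Finset.prod_ne_zero_iff.mpr fun j _ => hF1 j), ?_⟩
  · intro l
    refine Fin.cases ?_ (fun i => ?_) l
    · exact hpA
    · exact hu i
  intro bb e N hN
  have hI : p ^ e * N ≤ (p ^ e * N + I0) + 1 := by omega
  obtain ⟨r0, ⟨d⟩⟩ := exists_cdata p k r ψ F hFm hFD E g (p ^ e * N + I0)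
  obtain ⟨Pk, hPk⟩ : ∃ P : APkg (A := A) p (maximalIdeal A)
      (Fin.cons (p : A) fun i => algebraMap Λ A (u i) : Fin (r + 1) → A)
      (Fin s → Fin D) (∏ j, aeval (a j) (derivative (F j)))
      (algebraMap Λ A g * ∏ j, aeval (a j) (derivative (F j)))
      (p ^ bb - (r + 1) - 1 - (r + 1)) (p ^ bb) N (A ⊗[Λ] BN ψ d.C N),
      ∀ π, P.h π = 1 ⊗ₜ (dq d e N π + teN ψ d.C N (rt p e (d.δ' π))) := by
    rw [← hspan]
    refine exists_apkg hb d hsurj hF0 hFm hFD (fun j i hi => ?_) ?_ (fun i => ?_) hEg hE e N bb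
      hN hI
    · rw [← hX.max]
      exact hFc j i hi
    · rw [hspan]
      exact hpA
    · rw [hspan]
      exact hu i
  obtain ⟨L, hL⟩ := exists_unit_len (A := A) (S := S) hX d.toPExt N hN
  refine ⟨A ⊗[Λ] BN ψ d.C N, inferInstance, inferInstance, Pk, L,
    fun 𝔟 hp𝔟 hfin => len_quot_eq hb d.toPExt N L hL 𝔟 hp𝔟 hfin, fun π c hc => ?_⟩
  obtain ⟨x, hx⟩ := hform a F E hEg hE (p ^ e * N + I0) r0 (Nat.le_add_left _ _) d π
  have h1 := len_small hb hX.max d.toPExt N hN L hL g' Cg hCg a0 x (d.δ π + d.δ' π) hx e c hc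
  have h2 : (maximalIdeal S).map (algebraMap S (ES ψ A S d.C N)) ⊔
      Ideal.span {((1 : S) ⊗ₜ[A] Pk.h π : ES ψ A S d.C N) ^ c} =
      (maximalIdeal S).map (algebraMap S (ES ψ A S d.C N)) ⊔
      Ideal.span {toES ψ A S d.C N (teN ψ d.C N (rt p e (d.δ π + d.δ' π))) ^ c} := by
    refine sup_span_pow_eq _ _ _ ?_ c
    have h3 : ((1 : S) ⊗ₜ[A] Pk.h π : ES ψ A S d.C N) =
        toES ψ A S d.C N (dq d e N π + teN ψ d.C N (rt p e (d.δ' π))) := by
      rw [hPk]
      rfl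
    rw [h3, ← map_sub]
    have h4 : dq d e N π + teN ψ d.C N (rt p e (d.δ' π)) -
        teN ψ d.C N (rt p e (d.δ π + d.δ' π)) ∈ Ideal.span {(p : BN ψ d.C N)} := by
      have h5 := te_add_mem p d.C (tC p k r d.C) (rt p e (d.δ π)) (rt p e (d.δ' π))
      have h6 : rt p e (d.δ π + d.δ' π) = rt p e (d.δ π) + rt p e (d.δ' π) := by
        unfold rt
        rw [map_add]
      have h7 := Ideal.mem_map_of_mem (mkN ψ d.C N) h5
      rw [Ideal.map_span, Set.image_singleton, map_natCast, ← h6, map_sub, map_add] at h7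
      rw [← neg_sub]
      exact neg_mem h7
    obtain ⟨q, hq⟩ := Ideal.mem_span_singleton'.mp h4
    rw [← hq, map_mul, map_natCast]
    refine Ideal.mul_mem_left _ _ ?_
    rw [← map_natCast (algebraMap S (ES ψ A S d.C N))]
    refine Ideal.mem_map_of_mem _ ?_
    rw [← map_natCast (algebraMap A S)]
    rw [mem_maximalIdeal, mem_nonunits_iff] at hpA ⊢
    exact fun h => hpA (isUnit_of_map_unit _ _ h)
  rw [h2]
  refine h1.trans (le_of_eq ?_)
  congr 2
  ring

end Vale.Agent.P202.Mix
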