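import Vale.Agent.P202.Mix.Apkg
import Vale.Agent.P202.Mix.ApkgBC
import Vale.Agent.P202.Mix.ArithLim
import Vale.Agent.P202.Mix.ConvLen2
import Vale.Agent.P202.Mix.LenQuot
import Vale.Agent.P202.Mix.LenNorm
import Vale.Agent.P202.Mix.LenRestr
import Vale.Agent.P202.Mix.Bridge3
import Vale.Agent.P202.Mix.HonPow
import Vale.Agent.P202.Mix.GeoHon
import Vale.Agent.P202.Growth

/-!
P202 MIX, M17-D stage 2: the inequality for a sequence of packages.
-/

namespace Vale.Agent.P202.Mix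

open TensorProduct IsLocalRing Filter
open scoped ENNReal Topology

universe u

section

variable {p : ℕ} [Fact p.Prime] {A S : Type u} [CommRing A] [IsLocalRing A] [IsNoetherianRing A]
  [CommRing S] [IsLocalRing S] [IsNoetherianRing S] [Algebra A S]
  [IsLocalHom (algebraMap A S)] [Module.Flat A S] {r : ℕ}

theorem map_range_eq {R R' : Type*} [CommRing R] [CommRing R'] (f : R →+* R') {n : ℕ}
    (y : Fin n → R) :
    (Ideal.span (Set.range y)).map f = Ideal.span (Set.range fun l => f (y l)) := by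
  rw [Ideal.map_span, ← Set.range_comp]
  rfl

omit [Fact p.Prime] in
theorem tendsto_div_pow (C : ℝ≥0∞) (hC : C ≠ ⊤) (hp : 2 ≤ p) :
    Tendsto (fun e : ℕ => C / (p : ℝ≥0∞) ^ e) atTop (𝓝 0) := by
  have h1 : Tendsto (fun e : ℕ => ((p : ℝ≥0∞)⁻¹) ^ e) atTop (𝓝 0) := by
    refine ENNReal.tendsto_pow_atTop_nhds_zero_of_lt_one ?_
    rw [ENNReal.inv_lt_one]
    exact_mod_cast (by omega : 1 < p)
  have h2 : Tendsto (fun e : ℕ => C * ((p : ℝ≥0∞)⁻¹) ^ e) atTop (𝓝 (C * 0)) :=
    ENNReal.Tendsto.const_mul h1 (Or.inr hC)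
  rw [mul_zero] at h2
  refine h2.congr fun e => ?_
  rw [ENNReal.div_eq_inv_mul, mul_comm, ENNReal.inv_pow]

theorem level_ineq (P : Type) [Fintype P] (x : Fin (r + 1) → A) (g0 g1 : A) (CC w w' : ℕ)
    (hw : 1 ≤ w) (hx0 : x 0 = (p : A)) (hx : ∀ l, x l ∈ maximalIdeal A)
    (E : ℕ → Type u) [∀ e, CommRing (E e)] [∀ e, Algebra A (E e)]
    (Pk : ∀ e, APkg p (maximalIdeal A) x P g0 g1 w w' (e + 1) (E e))
    (L : ∀ e, AddLen (S ⊗[A] E e))
    (hL : ∀ e (𝔟 : Ideal S), (p : S) ^ (e + 1) ∈ 𝔟 → Module.length S (S ⧸ 𝔟) ≠ ⊤ →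
      (L e).len ((S ⊗[A] E e) ⧸ 𝔟.map (algebraMap S (S ⊗[A] E e))) =
        ENat.toENNReal (Module.length S (S ⧸ 𝔟)))
    (hsm : ∀ e π (c : ℕ), 1 ≤ c →
      (L e).len ((S ⊗[A] E e) ⧸ ((maximalIdeal S).map (algebraMap S (S ⊗[A] E e)) ⊔
        Ideal.span {((1 : S) ⊗ₜ[A] (Pk e).h π : S ⊗[A] E e) ^ c})) ≤
        ((c * CC : ℕ) : ℝ≥0∞) / (p : ℝ≥0∞) ^ e)
    (y : Fin (r + 1) → S) (hy : ∀ i, y i ∈ maximalIdeal S)
    (hyl : Module.length S (S ⧸ Ideal.span (Set.range y)) ≠ ⊤)
    (hTl : Module.length S (S ⧸ (maximalIdeal A).map (algebraMap A S)) ≠ ⊤)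
    (m j : ℕ) (hj : 1 ≤ j) :
    ((r + j).choose (r + 1) : ℝ≥0∞) * (w : ℝ≥0∞) ^ (r + 1) *
        ENat.toENNReal (Module.length S (S ⧸ ((maximalIdeal A).map (algebraMap A S) ⊔
          Ideal.span (Set.range y)))) *
        ENat.toENNReal (Module.length S (S ⧸ (maximalIdeal A ^ m).map (algebraMap A S))) ≤
      ((r + m).choose (r + 1) : ℝ≥0∞) * (w' : ℝ≥0∞) ^ (r + 1) *
        ENat.toENNReal (Module.length S (S ⧸ (maximalIdeal A).map (algebraMap A S))) *
        (ENat.toENNReal (Module.length S (S ⧸ Ideal.span (Set.range y) ^ j)) +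
          Fintype.card P * ENat.toENNReal (Module.length S
            (S ⧸ (Ideal.span (Set.range y) ^ j ⊔ Ideal.span {algebraMap A S g0})))) +
      ((r + j).choose (r + 1) : ℝ≥0∞) * (w : ℝ≥0∞) ^ (r + 1) *
        ENat.toENNReal (Module.length S (S ⧸ ((maximalIdeal A).map (algebraMap A S) ⊔
          Ideal.span (Set.range y)))) *
        ENat.toENNReal (Module.length S (S ⧸ ((maximalIdeal A ^ m).map (algebraMap A S) ⊔
          Ideal.span {algebraMap A S g1}))) := by
  classical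
  have hp2 : 2 ≤ p := (Fact.out : p.Prime).two_le
  -- notation
  let i1 : ∀ e, E e →ₐ[A] S ⊗[A] E e := fun e =>
    (Algebra.TensorProduct.includeRight (R := A) (A := S) (B := E e))
  let iS : ∀ e, S →+* S ⊗[A] E e := fun e => algebraMap S (S ⊗[A] E e)
  let K : ∀ e, P → Ideal (S ⊗[A] E e) := fun e π => ((Pk e).K π).map (i1 e)
  let Q0 : ∀ e, P → Ideal (E e) := fun e π => (Pk e).K π ⊔ Ideal.span (Set.range ((Pk e).z π))
  let y' : ∀ e, Fin (r + 1) → S ⊗[A] E e := fun e l => (y l) ⊗ₜ[A] (1 : E e)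
  let z' : ∀ e, P → Fin (r + 1) → S ⊗[A] E e := fun e π l => (1 : S) ⊗ₜ[A] ((Pk e).z π l)
  -- base change of the packages
  choose Q hQh hQz hQK using fun e => apkg_baseChange (Pk e) S
  have hmapA : ∀ e (I : Ideal A), (I.map (algebraMap A S)).map (iS e) =
      (I.map (algebraMap A (E e))).map (i1 e) := by
    intro e I
    rw [Ideal.map_map]
    change _ = Ideal.map (i1 e).toRingHom _
    rw [Ideal.map_map]
    congr 1
    ext a
    change algebraMap A S a ⊗ₜ[A] (1 : E e) = (1 : S) ⊗ₜ[A] (algebraMap A (E e) a)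
    rw [Algebra.algebraMap_eq_smul_one, Algebra.algebraMap_eq_smul_one, TensorProduct.smul_tmul]
  have hmQ : ∀ e π, (maximalIdeal A).map (algebraMap A (E e)) ≤ Q0 e π := by
    intro e π
    refine ((Pk e).hz π).trans ?_
    refine sup_le ?_ le_sup_left
    exact (Ideal.pow_le_self (by omega)).trans le_sup_right
  have hy' : ∀ e, Ideal.span (Set.range (y' e)) = (Ideal.span (Set.range y)).map (iS e) := by
    intro e
    rw [map_range_eq]
    rfl
  have hQ0 : ∀ e π, (Q0 e π).map (i1 e) = K e π ⊔ Ideal.span (Set.range (z' e π)) := by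
    intro e π
    change (Q0 e π).map (i1 e).toRingHom = _
    rw [Ideal.map_sup, map_range_eq]
    rfl
  have hmS : ∀ e π, ((maximalIdeal A).map (algebraMap A S)).map (iS e) ≤ (Q0 e π).map (i1 e) := by
    intro e π
    rw [hmapA]
    exact Ideal.map_mono (hmQ e π)
  have hpS : (p : S) ∈ maximalIdeal S := by
    have h1 := hx 0
    rw [hx0] at h1
    rw [← map_natCast (algebraMap A S)]
    rw [mem_maximalIdeal, mem_nonunits_iff] at h1 ⊢
    exact fun h => h1 (isUnit_of_map_unit _ _ h)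
  -- finite lengths
  obtain ⟨D1, hD1⟩ := exists_pow_le_of_ell_ne_top (I := Ideal.span (Set.range y)) hyl
  obtain ⟨D2, hD2⟩ := exists_pow_le_of_ell_ne_top
    (I := (maximalIdeal A).map (algebraMap A S)) hTl
  have hyj : maximalIdeal S ^ (D1 * j) ≤ Ideal.span (Set.range y) ^ j := by
    rw [pow_mul]
    exact Ideal.pow_right_mono hD1 j
  have hmm : maximalIdeal S ^ (D2 * m) ≤ (maximalIdeal A ^ m).map (algebraMap A S) := by
    rw [pow_mul, Ideal.map_pow]
    exact Ideal.pow_right_mono hD2 m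
  have hev : ∀ (𝔟 : Ideal S) (D : ℕ), maximalIdeal S ^ D ≤ 𝔟 →
      ∀ᶠ e in atTop, (L e).len ((S ⊗[A] E e) ⧸ 𝔟.map (iS e)) =
        ENat.toENNReal (Module.length S (S ⧸ 𝔟)) := by
    intro 𝔟 D hD
    filter_upwards [eventually_ge_atTop D] with e he
    refine hL e 𝔟 (hD ?_) (ell_ne_top_of_pow_le hD)
    exact Ideal.pow_le_pow_right (by omega) (Ideal.pow_mem_pow hpS (e + 1))
  have hn1 : ∀ e, (L e).len ((S ⊗[A] E e) ⧸ (maximalIdeal S).map (iS e)) = 1 := by
    intro e
    rw [hL e (maximalIdeal S) (Ideal.pow_mem_of_mem _ hpS _ (Nat.succ_pos e))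
      (ell_ne_top_of_pow_le (I := maximalIdeal S) (s := 1) (by rw [pow_one]))]
    have : IsSimpleModule S (S ⧸ maximalIdeal S) := by
      rw [isSimpleModule_iff_isCoatom]
      exact Ideal.isMaximal_def.mp inferInstance
    rw [Module.length_eq_one]
    exact ENat.toENNReal_one
  -- ideals
  have hyS : ∃ L : ℕ, ∀ l, algebraMap A S (x l) ^ L ∈ Ideal.span (Set.range y) := by
    refine ⟨D1, fun l => hD1 (Ideal.pow_mem_pow ?_ D1)⟩
    have h1 := hx l
    rw [mem_maximalIdeal, mem_nonunits_iff] at h1 ⊢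
    exact fun h => h1 (isUnit_of_map_unit _ _ h)
  have hmax : (maximalIdeal A).map (algebraMap A S) ≤ maximalIdeal S := by
    rw [Ideal.map_le_iff_le_comap]
    intro a ha
    rw [Ideal.mem_comap]
    rw [mem_maximalIdeal, mem_nonunits_iff] at ha ⊢
    exact fun h => ha (isUnit_of_map_unit _ _ h)
  have hmL : ∃ L : ℕ, (maximalIdeal A ^ L).map (algebraMap A S) ≤ Ideal.span (Set.range y) := by
    refine ⟨D1, ?_⟩
    rw [Ideal.map_pow]
    exact (Ideal.pow_right_mono hmax D1).trans hD1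
  have hN : Tendsto (fun e : ℕ => e + 1) atTop atTop := tendsto_add_atTop_nat 1
  -- the data of `geo_hon`
  have HH : ∀ π : P, HonData (fun e => XS A S (E e) ((Pk e).K π))
      (fun e => XS A S (E e) ((Pk e).K π)) p
      (fun e => bX ((Pk e).K π) ((Pk e).h π))
      (fun e k => sX ((Pk e).K π) (algebraMap A S (x k)))
      (fun e l => sX ((Pk e).K π) (y l))
      (fun e l => bX ((Pk e).K π) ((Pk e).z π l)) w := fun π =>
    honData_of_apkg S p x hx0 hx P g0 g1 w w' hw (fun e => e + 1) hN E Pk π y hyS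
  have HN : ∀ π : P, ∃ M : ℕ, ∀ e, Ideal.span (Set.range fun l =>
        bX (A := A) (S := S) ((Pk e).K π) ((Pk e).z π l)) ^ M •
        (⊤ : Submodule (XS A S (E e) ((Pk e).K π)) (XS A S (E e) ((Pk e).K π))) ≤
      ys (XS A S (E e) ((Pk e).K π)) (fun l => sX ((Pk e).K π) (y l)) := fun π =>
    hnil_of_apkg S p x P g0 g1 w w' (fun e => e + 1) E Pk π y hmL
  let Lr : ∀ (π : P) e, AddLen (XS A S (E e) ((Pk e).K π)) := fun π e =>
    (L e).restrict (Ideal.Quotient.mk (K e π))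
  have hρ0 : ∀ e : ℕ, (1 : ℝ≥0∞) ≠ 0 := fun _ => one_ne_zero
  have hρ : ∀ e : ℕ, (1 : ℝ≥0∞) ≠ ⊤ := fun _ => ENNReal.one_ne_top
  have hfin : ∀ π, ∃ C : ℝ≥0∞, C ≠ ⊤ ∧ ∀ e, (Lr π e).len (QQ (fun e => XS A S (E e) ((Pk e).K π))
      (fun e => XS A S (E e) ((Pk e).K π)) (fun e l => sX ((Pk e).K π) (y l)) e) ≤
        C * (fun _ : ℕ => (1 : ℝ≥0∞)) e := by
    intro π
    refine ⟨ENat.toENNReal (Module.length S (S ⧸ Ideal.span (Set.range y))), ?_, fun e => ?_⟩
    · simpa using hyl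
    · have h1 := conv_Q (L e) (K e π) (y' e)
      refine (le_of_eq h1).trans ?_
      have h2 := len_quot_le_mul (L e) (K e π) ⊥ (Ideal.span (Set.range y)) hyl
      rw [sup_bot_eq, sup_bot_eq] at h2
      rw [hy']
      refine h2.trans (le_of_eq ?_)
      rw [hn1]
  have hsmall : ∀ π (c : ℕ), Tendsto (fun e => (Lr π e).len
      (QQ (fun e => XS A S (E e) ((Pk e).K π)) (fun e => XS A S (E e) ((Pk e).K π))
        (fun e l => sX ((Pk e).K π) (y l)) e ⧸
        LinearMap.range (bX (A := A) (S := S) ((Pk e).K π) ((Pk e).h π) ^ c •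
          (LinearMap.id : QQ (fun e => XS A S (E e) ((Pk e).K π))
            (fun e => XS A S (E e) ((Pk e).K π))
            (fun e l => sX ((Pk e).K π) (y l)) e →ₗ[XS A S (E e) ((Pk e).K π)] _))) /
        (fun _ : ℕ => (1 : ℝ≥0∞)) e) atTop (𝓝 0) := by
    intro π c
    have h0 : ∀ c : ℕ, 1 ≤ c → ∀ e, (Lr π e).len
      (QQ (fun e => XS A S (E e) ((Pk e).K π)) (fun e => XS A S (E e) ((Pk e).K π))
        (fun e l => sX ((Pk e).K π) (y l)) e ⧸
        LinearMap.range (bX (A := A) (S := S) ((Pk e).K π) ((Pk e).h π) ^ c •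
          (LinearMap.id : QQ (fun e => XS A S (E e) ((Pk e).K π))
            (fun e => XS A S (E e) ((Pk e).K π))
            (fun e l => sX ((Pk e).K π) (y l)) e →ₗ[XS A S (E e) ((Pk e).K π)] _))) ≤
        ENat.toENNReal (Module.length S (S ⧸ Ideal.span (Set.range y))) *
          (((c * CC : ℕ) : ℝ≥0∞) / (p : ℝ≥0∞) ^ e) := by
      intro c hc e
      have h1 := conv_Qh (L e) (K e π) (y' e) (((1 : S) ⊗ₜ[A] (Pk e).h π : S ⊗[A] E e) ^ c)
      have h2 : bX (A := A) (S := S) ((Pk e).K π) ((Pk e).h π) ^ c =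
          Ideal.Quotient.mk (K e π) (((1 : S) ⊗ₜ[A] (Pk e).h π : S ⊗[A] E e) ^ c) := by
        rw [map_pow]
        rfl
      rw [h2]
      refine (le_of_eq h1).trans ?_
      rw [hy', ← sup_assoc]
      refine (len_quot_le_mul (L e) (K e π) _ (Ideal.span (Set.range y)) hyl).trans ?_
      exact mul_le_mul_right (hsm e π c hc) _
    simp only [div_one]
    have hl : ENat.toENNReal (Module.length S (S ⧸ Ideal.span (Set.range y))) ≠ ⊤ := by
      simpa using hyl
    rcases Nat.eq_zero_or_pos c with rfl | hc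
    · have h1 : ∀ e, LinearMap.range (bX (A := A) (S := S) ((Pk e).K π) ((Pk e).h π) ^ 0 •
          (LinearMap.id : QQ (fun e => XS A S (E e) ((Pk e).K π))
            (fun e => XS A S (E e) ((Pk e).K π))
            (fun e l => sX ((Pk e).K π) (y l)) e →ₗ[XS A S (E e) ((Pk e).K π)] _)) = ⊤ := by
        intro e
        rw [LinearMap.range_eq_top]
        intro q
        refine ⟨q, ?_⟩
        rw [pow_zero]
        exact one_smul (XS A S (E e) ((Pk e).K π)) q
      refine tendsto_const_nhds.congr fun e => ?_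
      have : Subsingleton (QQ (fun e => XS A S (E e) ((Pk e).K π))
        (fun e => XS A S (E e) ((Pk e).K π)) (fun e l => sX ((Pk e).K π) (y l)) e ⧸
        LinearMap.range (bX (A := A) (S := S) ((Pk e).K π) ((Pk e).h π) ^ 0 •
          (LinearMap.id : QQ (fun e => XS A S (E e) ((Pk e).K π))
            (fun e => XS A S (E e) ((Pk e).K π))
            (fun e l => sX ((Pk e).K π) (y l)) e →ₗ[XS A S (E e) ((Pk e).K π)] _))) :=
        Submodule.Quotient.subsingleton_iff.mpr (h1 e)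
      exact (len_subsingleton_aux (Lr π e)).symm
    · refine tendsto_of_tendsto_of_tendsto_of_le_of_le tendsto_const_nhds ?_
        (fun e => bot_le) (h0 c hc)
      have h1 : Tendsto (fun e : ℕ => ENat.toENNReal (Module.length S
          (S ⧸ Ideal.span (Set.range y))) * (((c * CC : ℕ) : ℝ≥0∞) / (p : ℝ≥0∞) ^ e)) atTop
          (𝓝 (ENat.toENNReal (Module.length S (S ⧸ Ideal.span (Set.range y))) * 0)) :=
        ENNReal.Tendsto.const_mul (tendsto_div_pow _ (ENNReal.natCast_ne_top _) hp2) (Or.inr hl)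
      rwa [mul_zero] at h1
  -- the two limit inequalities
  have H1 : ∀ ε : ℝ≥0∞, ε ≠ 0 → ∀ π, ∀ᶠ e in atTop, (w : ℝ≥0∞) ^ (r + 1) *
      (L e).len ((S ⊗[A] E e) ⧸ (K e π ⊔ (Ideal.span (Set.range (y' e)) ⊔
        Ideal.span (Set.range (z' e π))))) ≤
      (L e).len ((S ⊗[A] E e) ⧸ (K e π ⊔ Ideal.span (Set.range (y' e)))) + ε := by
    intro ε hε π
    have h1 := geo_hon (fun e => XS A S (E e) ((Pk e).K π)) (fun e => XS A S (E e) ((Pk e).K π)) p
      (fun e => bX ((Pk e).K π) ((Pk e).h π))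
      (fun e k => sX ((Pk e).K π) (algebraMap A S (x k)))
      (fun e l => sX ((Pk e).K π) (y l))
      (fun e l => bX ((Pk e).K π) ((Pk e).z π l)) w hw (HH π) (HN π) (Lr π) (fun _ => 1) hρ0 hρ
      (hfin π) (hsmall π) ε hε
    filter_upwards [h1] with e he
    rw [mul_one] at he
    rw [← conv_Q (L e) (K e π) (y' e), ← conv_Qz (L e) (K e π) (y' e) (z' e π)]
    exact he
  have H2 : ∀ ε : ℝ≥0∞, ε ≠ 0 → ∀ π, ∀ᶠ e in atTop, ((r + j).choose (r + 1) : ℝ≥0∞) *
      (L e).len ((S ⊗[A] E e) ⧸ (K e π ⊔ Ideal.span (Set.range (y' e)))) ≤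
      (L e).len ((S ⊗[A] E e) ⧸ (K e π ⊔ Ideal.span (Set.range (y' e)) ^ j)) + ε := by
    intro ε hε π
    have h1 := hon_pow (fun e => XS A S (E e) ((Pk e).K π))
      (fun e => XS A S (E e) ((Pk e).K π)) p
      (fun e => bX ((Pk e).K π) ((Pk e).h π))
      (fun e k => sX ((Pk e).K π) (algebraMap A S (x k)))
      (fun e l => sX ((Pk e).K π) (y l))
      (fun e l => bX ((Pk e).K π) ((Pk e).z π l)) w hw (HH π) (Lr π) (fun _ => 1) hρ0 hρ
      (hfin π) (hsmall π) j hj ε hε
    filter_upwards [h1] with e he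
    rw [mul_one] at he
    rw [← conv_Q (L e) (K e π) (y' e), ← conv_P (L e) (K e π) (y' e) j]
    exact he
  -- lengths over the residue field
  have hid : ∀ (e : ℕ) (π : P) (𝔟 : Ideal S), (maximalIdeal A).map (algebraMap A S) ≤ 𝔟 →
      𝔟.map (algebraMap S (S ⊗[A] E e)) ⊔ (Q0 e π).map
        (Algebra.TensorProduct.includeRight (R := A) (A := S) (B := E e)).toRingHom =
      𝔟.map (iS e) ⊔ (K e π ⊔ Ideal.span (Set.range (z' e π))) := by
    intro e π 𝔟 _
    rw [← hQ0 e π]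
    rfl
  have hZ : ∀ (e : ℕ) (π : P), (L e).len ((S ⊗[A] E e) ⧸ (K e π ⊔ (Ideal.span (Set.range (y' e)) ⊔
        Ideal.span (Set.range (z' e π))))) =
      ENat.toENNReal (Module.length S (S ⧸ ((maximalIdeal A).map (algebraMap A S) ⊔
          Ideal.span (Set.range y)))) *
        (L e).len ((S ⊗[A] E e) ⧸ ((maximalIdeal S).map (algebraMap S (S ⊗[A] E e)) ⊔
          (Q0 e π).map
          (Algebra.TensorProduct.includeRight (R := A) (A := S) (B := E e)).toRingHom)) := by
    intro e π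
    rw [← len_quot_vec (L e) (Q0 e π) (hmQ e π) _ le_sup_left
      (ne_top_of_le_ne_top hTl (ell_mono le_sup_left)), hid e π _ le_sup_left]
    have h1 : K e π ⊔ (Ideal.span (Set.range (y' e)) ⊔ Ideal.span (Set.range (z' e π))) =
        ((maximalIdeal A).map (algebraMap A S) ⊔ Ideal.span (Set.range y)).map (iS e) ⊔
          (K e π ⊔ Ideal.span (Set.range (z' e π))) := by
      rw [Ideal.map_sup, ← hy']
      have h2 := hmS e π
      rw [hQ0] at h2
      refine le_antisymm ?_ ?_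
      · refine sup_le (le_sup_of_le_right le_sup_left) (sup_le (le_sup_of_le_left le_sup_right)
          (le_sup_of_le_right le_sup_right))
      · refine sup_le (sup_le (h2.trans (sup_le le_sup_left (le_sup_of_le_right le_sup_right)))
          (le_sup_of_le_right le_sup_left)) (sup_le le_sup_left
          (le_sup_of_le_right le_sup_right))
    rw [h1]
  have hT : ∀ (e : ℕ) (π : P), (L e).len ((S ⊗[A] E e) ⧸ (K e π ⊔
        Ideal.span (Set.range (z' e π)))) =
      ENat.toENNReal (Module.length S (S ⧸ (maximalIdeal A).map (algebraMap A S))) *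
        (L e).len ((S ⊗[A] E e) ⧸ ((maximalIdeal S).map (algebraMap S (S ⊗[A] E e)) ⊔
          (Q0 e π).map
          (Algebra.TensorProduct.includeRight (R := A) (A := S) (B := E e)).toRingHom)) := by
    intro e π
    rw [← len_quot_vec (L e) (Q0 e π) (hmQ e π) _ le_rfl hTl, hid e π _ le_rfl]
    have h2 := hmS e π
    rw [hQ0] at h2
    rw [sup_eq_right.mpr h2]
  have h3 : ∀ (e : ℕ) (π : P), (L e).len ((S ⊗[A] E e) ⧸ (K e π ⊔
        ((maximalIdeal A).map (algebraMap A S)).map (iS e) ^ m)) ≤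
      ((r + m).choose (r + 1) : ℝ≥0∞) * ((w' : ℝ≥0∞) ^ (r + 1) *
        (L e).len ((S ⊗[A] E e) ⧸ (K e π ⊔ Ideal.span (Set.range (z' e π))))) := by
    intro e π
    refine len_pow_le (L e) (K e π) _ (z' e π) w' (fun l => ?_) m
    have h1 := (Q e).hz' π l
    rw [hQz, hQK] at h1
    exact h1
  have h4 : ∀ᶠ e in atTop, ENat.toENNReal (Module.length S
        (S ⧸ (maximalIdeal A ^ m).map (algebraMap A S))) ≤
      ∑ π, (L e).len ((S ⊗[A] E e) ⧸ (K e π ⊔
        ((maximalIdeal A).map (algebraMap A S)).map (iS e) ^ m)) +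
      ENat.toENNReal (Module.length S (S ⧸ ((maximalIdeal A ^ m).map (algebraMap A S) ⊔
          Ideal.span {algebraMap A S g1}))) := by
    filter_upwards [hev _ _ hmm, hev ((maximalIdeal A ^ m).map (algebraMap A S) ⊔
      Ideal.span {algebraMap A S g1}) _ (hmm.trans le_sup_left)] with e h1 h2
    have h5 := len_le_sum (L e) (Q e).K (Q e).η (Q e).hη _ (Q e).hη'
      (((maximalIdeal A ^ m).map (algebraMap A S)).map (iS e))
    have h6 : ((maximalIdeal A ^ m).map (algebraMap A S)).map (iS e) =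
        ((maximalIdeal A).map (algebraMap A S)).map (iS e) ^ m := by
      rw [Ideal.map_pow, Ideal.map_pow]
    rw [h1] at h5
    rw [Ideal.map_sup, Ideal.map_span, Set.image_singleton] at h2
    rw [show Ideal.span {(algebraMap S (S ⊗[A] E e)) (algebraMap A S g1)} =
      Ideal.span {(iS e) (algebraMap A S g1)} from rfl, h2, h6] at h5
    refine h5.trans (le_of_eq ?_)
    congr 1
    refine Finset.sum_congr rfl fun π _ => ?_
    rw [hQK]
  have h5 : ∀ᶠ e in atTop, ∑ π, (L e).len ((S ⊗[A] E e) ⧸ (K e π ⊔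
        Ideal.span (Set.range (y' e)) ^ j)) ≤
      ENat.toENNReal (Module.length S (S ⧸ Ideal.span (Set.range y) ^ j)) +
          Fintype.card P * ENat.toENNReal (Module.length S
            (S ⧸ (Ideal.span (Set.range y) ^ j ⊔ Ideal.span {algebraMap A S g0}))) := by
    filter_upwards [hev _ _ hyj, hev (Ideal.span (Set.range y) ^ j ⊔
      Ideal.span {algebraMap A S g0}) _ (hyj.trans le_sup_left)] with e h1 h2
    have h5 := sum_le_len (L e) (Q e).K (Q e).θ (Q e).hθ _ (Q e).hθ'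
      ((Ideal.span (Set.range y) ^ j).map (iS e))
    rw [h1] at h5
    rw [Ideal.map_sup, Ideal.map_span (iS e) {algebraMap A S g0}, Set.image_singleton] at h2
    rw [show Ideal.span {(algebraMap S (S ⊗[A] E e)) (algebraMap A S g0)} =
      Ideal.span {(iS e) (algebraMap A S g0)} from rfl, h2] at h5
    refine (le_of_eq ?_).trans h5
    refine Finset.sum_congr rfl fun π _ => ?_
    rw [hQK, hy', Ideal.map_pow]
  exact arith_limit _ _ _ _ _ _ _ _ _ _ (ENNReal.pow_ne_top (ENNReal.natCast_ne_top w))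
    (ENNReal.pow_ne_top (ENNReal.natCast_ne_top w')) (ENNReal.natCast_ne_top _)
    (ENNReal.natCast_ne_top _)
    (fun h => ne_top_of_le_ne_top hTl (ell_mono le_sup_left) (ENat.toENNReal_eq_top.mp h))
    (by simpa using hTl) _ _ _ _ _ _ hZ hT H1 H2 h3 h4 h5

end

end Vale.Agent.P202.Mix
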