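import Vale.Agent.P202.Mix.Stage1
import Vale.Agent.P202.Mix.Stage2
import Vale.Agent.P202.Mix.HsBound
import Vale.Agent.P202.Mix.Assembly

/-!
P202 MIX, M17-D stage 3: Theorem M.
-/

namespace Vale.Agent.P202.Mix

open TensorProduct IsLocalRing
open scoped ENNReal

universe u

theorem theoremM (p : ℕ) [hp : Fact p.Prime] : TheoremM.{u} p := by
  intro A S _ _ _ _ _ _ _ _ _ _ _ _ _ _ _ r hA hS y hy hyl t0 ht0
  obtain ⟨P, _, x, g0, g1, CC, hx0, hx, hg0, hg1, H⟩ := stage1 p (S := S) hA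
  -- finiteness of lengths
  have hTl : Module.length S (S ⧸ (maximalIdeal A).map (algebraMap A S)) ≠ ⊤ :=
    ell_fibre_ne_top (R := A) (S := S) (by rw [hA, hS])
  obtain ⟨lT, hlT⟩ := ENat.ne_top_iff_exists.mp hTl
  have hy' : Ideal.span (Set.range y) ≤ maximalIdeal S := by
    rw [Ideal.span_le]
    rintro _ ⟨i, rfl⟩
    exact hy i
  have hyj : ∀ j : ℕ, Module.length S (S ⧸ Ideal.span (Set.range y) ^ j) ≠ ⊤ := by
    intro j
    obtain ⟨D, hD⟩ := exists_pow_le_of_ell_ne_top hyl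
    refine ell_ne_top_of_pow_le (s := D * j) ?_
    rw [pow_mul]
    exact Ideal.pow_right_mono hD j
  have hmL : ∀ L : ℕ, Module.length A (A ⧸ maximalIdeal A ^ L) ≠ ⊤ := fun L =>
    ell_ne_top_of_pow_le le_rfl
  -- error terms
  have hg0S : algebraMap A S g0 ∈ nonZeroDivisors S := by
    rw [mem_nonZeroDivisors_iff_right]
    intro z hz
    have h1 : IsSMulRegular A g0 := by
      intro a b hab
      exact mul_left_cancel₀ hg0 hab
    have h2 : IsSMulRegular S (algebraMap A S g0) := IsSMulRegular.of_flat h1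
    refine h2 ?_
    change algebraMap A S g0 * z = algebraMap A S g0 * 0
    rw [mul_zero, mul_comm]
    exact hz
  obtain ⟨C0, hC0⟩ := hs_bound hS (Ideal.span (Set.range y)) hy' hyl _ hg0S
  obtain ⟨C1, hC1⟩ := hs_bound hA (maximalIdeal A) le_rfl (by
    have := hmL 1
    rwa [pow_one] at this) g1 (mem_nonZeroDivisors_of_ne_zero hg1)
  have hlT1 : 1 ≤ lT := by
    have h1 : ell ((maximalIdeal A).map (algebraMap A S)) ≠ 0 := by
      rw [Ne, ell_eq_zero_iff]
      intro h
      have h2 : (maximalIdeal A).map (algebraMap A S) ≤ maximalIdeal S := by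
        rw [Ideal.map_le_iff_le_comap]
        intro a ha
        exact (IsLocalRing.mem_maximalIdeal _).mpr fun h =>
          (IsLocalRing.mem_maximalIdeal _).mp ha (isUnit_of_map_unit (algebraMap A S) a h)
      rw [h, top_le_iff] at h2
      exact (IsLocalRing.maximalIdeal.isMaximal S).ne_top h2
    have h2 : ell ((maximalIdeal A).map (algebraMap A S)) = (lT : ℕ∞) := hlT.symm
    rw [h2] at h1
    have h3 : lT ≠ 0 := by exact_mod_cast h1
    omega
  refine ⟨Fintype.card P * C0, C1, fun L j hL hj => ?_⟩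
  -- the lengths
  obtain ⟨a, ha⟩ := ENat.ne_top_iff_exists.mp (hmL L)
  obtain ⟨s, hs⟩ := ENat.ne_top_iff_exists.mp (hyj j)
  have h0j := hC0 j hj
  have h1L := hC1 L hL
  obtain ⟨s', hs'⟩ := ENat.ne_top_iff_exists.mp (ne_top_of_le_ne_top (ENat.natCast_ne_top _) h0j)
  obtain ⟨a1, ha1⟩ := ENat.ne_top_iff_exists.mp (ne_top_of_le_ne_top (ENat.natCast_ne_top _) h1L)
  rw [← hs'] at h0j
  rw [← ha1] at h1L
  have h0j' : s' ≤ C0 * j ^ r := by exact_mod_cast h0j
  have h1L' : a1 ≤ C1 * L ^ r := by exact_mod_cast h1L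
  have hmLS : Module.length S (S ⧸ (maximalIdeal A ^ L).map (algebraMap A S)) = (lT * a : ℕ) := by
    rw [length_flat_quot (A := A) (S := S) _ (hmL L), ← hlT, ← ha]
    push_cast
    rfl
  have hmLg : Module.length S (S ⧸ ((maximalIdeal A ^ L).map (algebraMap A S) ⊔
      Ideal.span {algebraMap A S g1})) = (lT * a1 : ℕ) := by
    have h1 : (maximalIdeal A ^ L).map (algebraMap A S) ⊔ Ideal.span {algebraMap A S g1} =
        (maximalIdeal A ^ L ⊔ Ideal.span {g1}).map (algebraMap A S) := by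
      rw [Ideal.map_sup, Ideal.map_span, Set.image_singleton]
    rw [h1, length_flat_quot (A := A) (S := S) _ (by rw [← ha1]; exact ENat.natCast_ne_top _),
      ← hlT, ← ha1]
    push_cast
    rfl
  have key := arith_final p hp.out.two_le r ((r + j).choose (r + 1)) ((r + L).choose (r + 1))
    t0 lT a a1 s (Fintype.card P * s') hlT1 (by
      intro b hw
      choose E i1 i2 Pk Lx hLx hsm using fun e : ℕ => H b e (e + 1) (Nat.succ_pos e)
      have h1 := level_ineq (S := S) P x g0 g1 CC _ _ hw hx0 hx E Pk Lx hLx hsm y hy hyl hTl L j hj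
      rw [ht0, hmLS, hmLg, ← hlT, ← hs, ← hs'] at h1
      simp only [ENat.toENNReal_coe] at h1
      simp only [Nat.cast_mul] at h1 ⊢
      exact h1)
  have ha' : (Module.length A (A ⧸ maximalIdeal A ^ L)).toNat = a := by
    rw [← ha, ENat.toNat_natCast]
  have hs'' : (Module.length S (S ⧸ Ideal.span (Set.range y) ^ j)).toNat = s := by
    rw [← hs, ENat.toNat_natCast]
  rw [ha', hs'']
  have key' : (((r + j).choose (r + 1) : ℕ) : ℝ) * t0 * a ≤
      (((r + L).choose (r + 1) : ℕ) : ℝ) * (s + Fintype.card P * s') +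
        (((r + j).choose (r + 1) : ℕ) : ℝ) * t0 * a1 := by
    exact_mod_cast key
  have h1 : (s' : ℝ) ≤ C0 * (j : ℝ) ^ r := by exact_mod_cast h0j'
  have h2 : (a1 : ℝ) ≤ C1 * (L : ℝ) ^ r := by exact_mod_cast h1L'
  have h3 : (((r + L).choose (r + 1) : ℕ) : ℝ) * (s + Fintype.card P * s') ≤
      (((r + L).choose (r + 1) : ℕ) : ℝ) * (s + Fintype.card P * C0 * (j : ℝ) ^ r) := by
    refine mul_le_mul_of_nonneg_left ?_ (Nat.cast_nonneg _)
    have : (Fintype.card P : ℝ) * s' ≤ Fintype.card P * (C0 * (j : ℝ) ^ r) :=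
      mul_le_mul_of_nonneg_left h1 (Nat.cast_nonneg _)
    linarith
  have h4 : (((r + j).choose (r + 1) : ℕ) : ℝ) * t0 * a1 ≤
      (((r + j).choose (r + 1) : ℕ) : ℝ) * t0 * (C1 * (L : ℝ) ^ r) :=
    mul_le_mul_of_nonneg_left h2 (by positivity)
  calc (t0 : ℝ) * ((a : ℝ) - C1 * (L : ℝ) ^ r) * (((r + j).choose (r + 1) : ℕ) : ℝ) =
      (((r + j).choose (r + 1) : ℕ) : ℝ) * t0 * a -
        (((r + j).choose (r + 1) : ℕ) : ℝ) * t0 * (C1 * (L : ℝ) ^ r) := by ring
    _ ≤ _ := by linarith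

end Vale.Agent.P202.Mix
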