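import Mathlib.FieldTheory.PerfectClosure
import Mathlib.RingTheory.Flat.EquationalCriterion
import Mathlib.RingTheory.IntegralClosure.Algebra.Basic

/-!
# The perfect closure of a free algebra over a perfect ring (P202, mixed characteristic, T4)
-/

namespace P202.Mix

universe u

variable {p : ℕ} [hp : Fact (Nat.Prime p)]

section

variable {C K : Type*} [CommRing C] [CommRing K] [Algebra C K] [CharP K p]

/-- The map `x ↦ x ^ (1 / p ^ n)` from `K` to its perfect closure. -/
noncomputable def rt (n : ℕ) : K →+* PerfectClosure K p :=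
  ((iterateFrobeniusEquiv (PerfectClosure K p) p n).symm : PerfectClosure K p →+*
    PerfectClosure K p).comp (PerfectClosure.of K p)

theorem rt_pow (n : ℕ) (x : K) : rt (p := p) n x ^ p ^ n = PerfectClosure.of K p x := by
  have : iterateFrobeniusEquiv (PerfectClosure K p) p n (rt n x) = PerfectClosure.of K p x := by
    simp [rt]
  rwa [iterateFrobeniusEquiv_def] at this

theorem eq_rt_of_pow {n : ℕ} {x : K} {y : PerfectClosure K p}
    (h : y ^ p ^ n = PerfectClosure.of K p x) : y = rt n x := by
  apply (iterateFrobeniusEquiv (PerfectClosure K p) p n).injective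
  have h1 : iterateFrobeniusEquiv (PerfectClosure K p) p n y = y ^ p ^ n :=
    iterateFrobeniusEquiv_def _ _ _ _
  have h2 : iterateFrobeniusEquiv (PerfectClosure K p) p n (rt n x) = rt n x ^ p ^ n :=
    iterateFrobeniusEquiv_def _ _ _ _
  rw [h1, h2, h, rt_pow]

theorem exists_rt (y : PerfectClosure K p) : ∃ (n : ℕ) (x : K), y = rt n x := by
  obtain ⟨⟨n, x⟩, rfl⟩ := PerfectClosure.mk_surjective K p y
  refine ⟨n, x, eq_rt_of_pow ?_⟩
  have := PerfectClosure.iterate_frobenius_mk K p n x
  rw [iterate_frobenius] at this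
  exact this

theorem rt_add (n k : ℕ) (x : K) : rt (p := p) n x = rt (n + k) (x ^ p ^ k) := by
  refine eq_rt_of_pow ?_
  rw [pow_add, pow_mul, rt_pow, map_pow]

theorem rt_zero (x : K) : rt (p := p) 0 x = PerfectClosure.of K p x := by
  have := rt_pow (p := p) 0 x
  simpa using this

theorem rt_alg (n : ℕ) (c : C) :
    rt (p := p) n (algebraMap C K (c ^ p ^ n)) = PerfectClosure.of K p (algebraMap C K c) := by
  symm
  refine eq_rt_of_pow ?_
  rw [map_pow, map_pow]

theorem rt_eq_zero {n : ℕ} {x : K} (h : rt (p := p) n x = 0) : ∃ k : ℕ, x ^ p ^ k = 0 := by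
  have h1 : PerfectClosure.of K p x = 0 := by
    rw [← rt_pow n x, h, zero_pow (pow_ne_zero _ hp.out.ne_zero)]
  rw [PerfectClosure.of_apply, ← PerfectClosure.mk_zero K p] at h1
  obtain ⟨k, hk⟩ := (PerfectClosure.mk_eq_iff K p _ _).1 h1
  refine ⟨k, ?_⟩
  simpa [iterate_frobenius] using hk

theorem exists_rt_family {ι : Type*} (s : Finset ι) (y : ι → PerfectClosure K p) :
    ∃ (n : ℕ) (x : ι → K), ∀ i ∈ s, y i = rt n (x i) := by
  classical
  choose m z hz using fun i => exists_rt (y i)
  refine ⟨s.sup m, fun i => z i ^ p ^ (s.sup m - m i), fun i hi => ?_⟩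
  have hle : m i ≤ s.sup m := Finset.le_sup hi
  rw [hz i]
  conv_lhs => rw [rt_add (m i) (s.sup m - m i) (z i)]
  rw [Nat.add_sub_cancel' hle]

section

variable [CharP C p] [PerfectRing C p]

theorem exists_pow (c : C) (n : ℕ) : ∃ d : C, d ^ p ^ n = c := by
  refine ⟨(iterateFrobeniusEquiv C p n).symm c, ?_⟩
  have := (iterateFrobeniusEquiv C p n).apply_symm_apply c
  rwa [iterateFrobeniusEquiv_def] at this

theorem eq_zero_of_pow {x : C} (n : ℕ) (h : x ^ p ^ n = 0) : x = 0 := by
  apply (iterateFrobeniusEquiv C p n).injective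
  rw [iterateFrobeniusEquiv_def, h, map_zero]

variable {N : ℕ} (b : Module.Basis (Fin N) C K)

include b

/-- Expansion in the basis, inside the perfect closure. -/
theorem rt_expand (n : ℕ) (x : K) : ∃ d : Fin N → C, (∀ i, d i ^ p ^ n = b.repr x i) ∧
    rt (p := p) n x = ∑ i, PerfectClosure.of K p (algebraMap C K (d i)) * rt n (b i) := by
  choose d hd using fun i => exists_pow (p := p) (b.repr x i) n
  refine ⟨d, hd, ?_⟩
  conv_lhs => rw [← b.sum_repr x]
  rw [map_sum]
  refine Finset.sum_congr rfl fun i _ => ?_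
  rw [← hd i, Algebra.smul_def, map_mul, rt_alg]

/-- The algebra structure of the perfect closure of `K` over `C`. -/
theorem flat_perfectClosure :
    letI := ((PerfectClosure.of K p).comp (algebraMap C K)).toAlgebra
    Module.Flat C (PerfectClosure K p) := by
  letI := ((PerfectClosure.of K p).comp (algebraMap C K)).toAlgebra
  have hsm : ∀ (c : C) (y : PerfectClosure K p),
      c • y = PerfectClosure.of K p (algebraMap C K c) * y := fun c y => Algebra.smul_def c y
  refine Module.Flat.of_forall_isTrivialRelation fun {l} {f} {y} h => ?_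
  obtain ⟨n, x, hx⟩ := exists_rt_family (p := p) Finset.univ y
  have hx' : ∀ i, y i = rt n (x i) := fun i => hx i (Finset.mem_univ i)
  have h1 : rt (p := p) n (∑ i, algebraMap C K (f i ^ p ^ n) * x i) = 0 := by
    rw [map_sum, ← h]
    refine Finset.sum_congr rfl fun i _ => ?_
    rw [map_mul, rt_alg, hsm, hx' i]
  obtain ⟨k, hk⟩ := rt_eq_zero h1
  -- go up to level `n + k`
  have h2 : ∑ i, algebraMap C K (f i ^ p ^ (n + k)) * x i ^ p ^ k = 0 := by
    rw [sum_pow_char_pow] at hk
    rw [← hk]
    refine Finset.sum_congr rfl fun i _ => ?_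
    rw [mul_pow, ← map_pow, ← pow_mul, pow_add]
  choose d hd hd' using fun i => rt_expand (p := p) b (n + k) (x i ^ p ^ k)
  refine ⟨N, fun i j => d i j, fun j => rt (n + k) (b j), fun i => ?_, fun j => ?_⟩
  · rw [hx' i, rt_add n k, hd' i]
    exact Finset.sum_congr rfl fun j _ => (hsm _ _).symm
  · have h3 : b.repr (∑ i, algebraMap C K (f i ^ p ^ (n + k)) * x i ^ p ^ k) j = 0 := by
      rw [h2]; simp
    have h4 : ∑ i, (f i * d i j) ^ p ^ (n + k) = 0 := by
      rw [← h3, map_sum, Finsupp.coe_finsetSum, Finset.sum_apply]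
      refine Finset.sum_congr rfl fun i _ => ?_
      rw [← Algebra.smul_def, map_smul, Finsupp.smul_apply, smul_eq_mul, ← hd i j, mul_pow]
    rw [← sum_pow_char_pow] at h4
    exact eq_zero_of_pow (p := p) (n + k) h4

/-- Finite subsets of the perfect closure lie in submodules generated by `N` elements. -/
theorem exists_span_perfectClosure (s : Finset (PerfectClosure K p)) :
    letI := ((PerfectClosure.of K p).comp (algebraMap C K)).toAlgebra
    ∃ g : Fin N → PerfectClosure K p, (s : Set (PerfectClosure K p)) ⊆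
      Submodule.span C (Set.range g) := by
  let _ := ((PerfectClosure.of K p).comp (algebraMap C K)).toAlgebra
  have hsm : ∀ (c : C) (y : PerfectClosure K p),
      c • y = PerfectClosure.of K p (algebraMap C K c) * y := fun c y => Algebra.smul_def c y
  obtain ⟨n, x, hx⟩ := exists_rt_family (p := p) s id
  refine ⟨fun i => rt n (b i), fun y hy => ?_⟩
  obtain ⟨d, -, hd⟩ := rt_expand (p := p) b n (x y)
  have : y = rt n (x y) := hx y hy
  rw [this, hd]
  refine Submodule.sum_mem _ fun i _ => ?_
  rw [← hsm]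
  exact Submodule.smul_mem _ _ (Submodule.subset_span ⟨i, rfl⟩)

theorem injective_perfectClosure (hN : 0 < N) :
    Function.Injective ((PerfectClosure.of K p).comp (algebraMap C K)) := by
  rw [injective_iff_map_eq_zero]
  intro c hc
  rw [RingHom.comp_apply, ← rt_zero] at hc
  obtain ⟨k, hk⟩ := rt_eq_zero hc
  rw [← map_pow] at hk
  have h1 : (c ^ p ^ k) • b ⟨0, hN⟩ = 0 := by rw [Algebra.smul_def, hk, zero_mul]
  have h2 : b.repr ((c ^ p ^ k) • b ⟨0, hN⟩) ⟨0, hN⟩ = 0 := by rw [h1]; simp
  rw [map_smul] at h2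
  simp at h2
  exact eq_zero_of_pow (p := p) k h2

end

section

theorem isIntegral_perfectClosure [Module.Finite C K] (y : PerfectClosure K p) :
    ((PerfectClosure.of K p).comp (algebraMap C K)).IsIntegralElem y := by
  obtain ⟨n, x, rfl⟩ := exists_rt y
  obtain ⟨q, hq, hq0⟩ := Algebra.IsIntegral.isIntegral (R := C) x
  let _ := ((PerfectClosure.of K p).comp (algebraMap C K)).toAlgebra
  have h2 : IsIntegral C (PerfectClosure.of K p x) := by
    refine ⟨q, hq, ?_⟩
    have h3 := congrArg (PerfectClosure.of K p) hq0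
    rw [Polynomial.hom_eval₂, map_zero] at h3
    exact h3
  have h4 : IsIntegral C (rt (p := p) n x ^ p ^ n) := by rw [rt_pow]; exact h2
  exact IsIntegral.of_pow (pow_pos hp.out.pos n) h4

end

end

end P202.Mix
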