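import Vale.Agent.P202.Mix.TeiB
import Vale.Agent.P202.Mix.TeiC
import Mathlib.RingTheory.AdjoinRoot
import Mathlib.RingTheory.Flat.Basic
import Mathlib.RingTheory.Ideal.GoingUp

/-!
# T4: adjoining a Teichmüller root (P202, mixed characteristic)

For a perfect ring `C` of characteristic `p`, a nonzerodivisor `t` in the Jacobson radical and a
monic polynomial `G` over `W(C)` of positive degree there is a perfect `C`-algebra `C'`, flat and
integral over `C`, with an element `c` such that `G([c]) ∈ (p - [t]) W(C') + p ^ (I + 1) W(C')`.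
-/

namespace P202.Mix

open WittVector Polynomial

universe u

variable {p : ℕ} [hp : Fact (Nat.Prime p)]


theorem exists_adjoin {C : Type u} [CommRing C] [CharP C p] [PerfectRing C p] [Nontrivial C]
    (t : C) (ht : t ∈ nonZeroDivisors C) (htJ : t ∈ (⊥ : Ideal C).jacobson) (I : ℕ)
    (G : Polynomial (WittVector p C)) (hG : G.Monic) (hG0 : 0 < G.natDegree) :
    ∃ (C' : Type u) (_ : CommRing C') (_ : CharP C' p) (_ : PerfectRing C' p)
      (_ : Nontrivial C') (_ : Algebra C C') (c : C'),
      Module.Flat C C' ∧ Algebra.IsIntegral C C' ∧ Function.Injective (algebraMap C C') ∧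
      algebraMap C C' t ∈ nonZeroDivisors C' ∧
      algebraMap C C' t ∈ (⊥ : Ideal C').jacobson ∧
      (∀ s : Finset C', ∃ g : Fin (G.natDegree * p ^ I) → C',
        (s : Set C') ⊆ Submodule.span C (Set.range g)) ∧
      ∃ v w : WittVector p C', (G.map (WittVector.map (algebraMap C C'))).eval (teichmuller p c) =
        (p - teichmuller p (algebraMap C C' t)) * v + (p : WittVector p C') ^ (I + 1) * w := by
  classical
  -- the monic polynomial
  set N := G.natDegree * p ^ I with hN
  obtain ⟨γ, hγ⟩ := isUnit_kap_coeff (p := p) t htJ I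
  have hcoeff : (HH t I G).coeff N = γ := by rw [hγ]; exact HH_coeff t I G hG
  set H1 : C[X] := Polynomial.C ((γ⁻¹ : Cˣ) : C) * HH t I G with hH1
  have hH1coeff : H1.coeff N = 1 := by
    rw [hH1, Polynomial.coeff_C_mul, hcoeff]; simp
  have hH1deg : H1.natDegree ≤ N :=
    (Polynomial.natDegree_C_mul_le _ _).trans (HH_natDegree_le t I G)
  have hH1mon : H1.Monic := Polynomial.monic_of_natDegree_le_of_coeff_eq_one N hH1deg hH1coeff
  have hH1N : H1.natDegree = N := by
    refine le_antisymm hH1deg ?_
    refine Polynomial.le_natDegree_of_ne_zero ?_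
    rw [hH1coeff]; exact one_ne_zero
  have hNpos : 0 < N := Nat.mul_pos hG0 (pow_pos hp.out.pos _)
  -- the free algebra `K`
  let K := AdjoinRoot H1
  have hKfin : Module.Finite C K := hH1mon.finite_adjoinRoot
  let b : Module.Basis (Fin N) C K :=
    (AdjoinRoot.powerBasis' hH1mon).basis.reindex (finCongr (by
      rw [AdjoinRoot.powerBasis'_dim, hH1N]))
  have hKnt : Nontrivial K := by
    have h1 : b ⟨0, hNpos⟩ ≠ 0 := b.ne_zero _
    exact nontrivial_of_ne _ _ h1
  have hKch : CharP K p := by
    rw [CharP.charP_iff_prime_eq_zero hp.out]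
    have : ((p : ℕ) : K) = algebraMap C K ((p : ℕ) : C) := (map_natCast _ p).symm
    rw [this, CharP.cast_eq_zero, map_zero]
  have hroot : Polynomial.eval₂ (algebraMap C K) (AdjoinRoot.root H1) (HH t I G) = 0 := by
    have h0 : ∀ P Q : C[X], P = Polynomial.C ((γ⁻¹ : Cˣ) : C) * Q →
        Polynomial.eval₂ (algebraMap C K) (AdjoinRoot.root H1) P =
          algebraMap C K ((γ⁻¹ : Cˣ) : C) *
            Polynomial.eval₂ (algebraMap C K) (AdjoinRoot.root H1) Q := by
      rintro P Q rfl
      rw [Polynomial.eval₂_mul, Polynomial.eval₂_C]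
    have h1 : algebraMap C K ((γ⁻¹ : Cˣ) : C) *
        Polynomial.eval₂ (algebraMap C K) (AdjoinRoot.root H1) (HH t I G) = 0 := by
      rw [← h0 H1 _ hH1]
      exact AdjoinRoot.eval₂_root H1
    have h2 : algebraMap C K γ * algebraMap C K ((γ⁻¹ : Cˣ) : C) = 1 := by
      rw [← map_mul]; simp
    calc Polynomial.eval₂ (algebraMap C K) (AdjoinRoot.root H1) (HH t I G)
        = (algebraMap C K γ * algebraMap C K ((γ⁻¹ : Cˣ) : C)) *
          Polynomial.eval₂ (algebraMap C K) (AdjoinRoot.root H1) (HH t I G) := by
            rw [h2, one_mul]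
      _ = algebraMap C K γ * (algebraMap C K ((γ⁻¹ : Cˣ) : C) *
          Polynomial.eval₂ (algebraMap C K) (AdjoinRoot.root H1) (HH t I G)) := by ring
      _ = 0 := by rw [h1, mul_zero]
  -- the perfect closure
  let f : C →+* PerfectClosure K p := (PerfectClosure.of K p).comp (algebraMap C K)
  let alg : Algebra C (PerfectClosure K p) := f.toAlgebra
  have hflat : Module.Flat C (PerfectClosure K p) := flat_perfectClosure b
  have hint : Algebra.IsIntegral C (PerfectClosure K p) := ⟨fun y => isIntegral_perfectClosure y⟩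
  have hinj : Function.Injective (algebraMap C (PerfectClosure K p)) :=
    injective_perfectClosure b hNpos
  have hnt : Nontrivial (PerfectClosure K p) := hinj.nontrivial
  have hnzd : algebraMap C (PerfectClosure K p) t ∈ nonZeroDivisors (PerfectClosure K p) := by
    have h1 : IsSMulRegular C t := by
      intro x y hxy
      have : t * (x - y) = 0 := by
        rw [mul_sub, sub_eq_zero]; exact hxy
      exact sub_eq_zero.1 ((mul_left_mem_nonZeroDivisors_eq_zero_iff ht).1 this)
    have h2 := h1.of_flat (S := PerfectClosure K p)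
    rw [mem_nonZeroDivisors_iff_right]
    intro x hx
    have h3 : algebraMap C (PerfectClosure K p) t • x =
        algebraMap C (PerfectClosure K p) t • (0 : PerfectClosure K p) := by
      simp only [smul_eq_mul, mul_zero]; rw [mul_comm]; exact hx
    exact h2 h3
  refine ⟨PerfectClosure K p, inferInstance, inferInstance, inferInstance, hnt, alg,
    PerfectClosure.of K p (AdjoinRoot.root H1), hflat, hint, hinj, hnzd, ?_,
    fun s => exists_span_perfectClosure b s, ?_⟩
  · -- Jacobson radical
    rw [Ideal.jacobson, Ideal.mem_sInf]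
    rintro M ⟨-, hM⟩
    have h1 : (M.comap (algebraMap C (PerfectClosure K p))).IsMaximal :=
      Ideal.isMaximal_comap_of_isIntegral_of_isMaximal M
    have h2 : t ∈ M.comap (algebraMap C (PerfectClosure K p)) := by
      rw [Ideal.jacobson, Ideal.mem_sInf] at htJ
      exact htJ ⟨bot_le, h1⟩
    exact h2
  · apply key _ hnzd
    have h1 : Polynomial.eval₂ f (PerfectClosure.of K p (AdjoinRoot.root H1)) (HH t I G) = 0 := by
      have := congrArg (PerfectClosure.of K p) hroot
      rwa [Polynomial.hom_eval₂, map_zero] at this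
    rw [eval₂_HH] at h1
    rw [Polynomial.eval_map]
    exact h1

end P202.Mix
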