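import Vale.Agent.P202.Mix.TeiA
import Mathlib.Algebra.Polynomial.Laurent

/-!
# The polynomial `H` of the key extension (P202, mixed characteristic, T4)
-/

namespace P202.Mix

open WittVector Polynomial LaurentPolynomial

variable {p : ℕ} [hp : Fact (Nat.Prime p)]


section

variable {C : Type*} [CommRing C]

theorem map_map_comp {D E : Type*} [CommRing D] [CommRing E] (f : C →+* D) (g : D →+* E) :
    (WittVector.map (p := p) g).comp (WittVector.map f) = WittVector.map (g.comp f) := by
  ext x n
  simp [WittVector.map_coeff]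

/-- The scalar `-∑ p ^ j [t] ^ (I - j)`. -/
noncomputable def kap (t : C) (I : ℕ) : WittVector p C :=
  -(∑ j ∈ Finset.range (I + 1), (p : WittVector p C) ^ j * teichmuller p t ^ (I - j))

/-- The polynomial `H`. -/
noncomputable def HH (t : C) (I : ℕ) (G : Polynomial (WittVector p C)) : Polynomial C :=
  (WittVector.map (Polynomial.C) (kap t I) *
    G.eval₂ (WittVector.map (Polynomial.C)) (teichmuller p (X : Polynomial C))).coeff I

theorem map_kap {D : Type*} [CommRing D] (f : C →+* D) (t : C) (I : ℕ) :
    WittVector.map f (kap (p := p) t I) = kap (f t) I := by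
  simp [kap, map_neg, map_sum, map_mul, map_pow, map_teichmuller]

theorem eval₂_HH {D : Type*} [CommRing D] (f : C →+* D) (c : D) (t : C) (I : ℕ)
    (G : Polynomial (WittVector p C)) :
    eval₂ f c (HH t I G) =
      (kap (f t) I * G.eval₂ (WittVector.map f) (teichmuller p c)).coeff I := by
  have h1 : eval₂ f c (HH t I G) = (WittVector.map (eval₂RingHom f c)
      (WittVector.map (Polynomial.C) (kap t I) *
        G.eval₂ (WittVector.map (Polynomial.C)) (teichmuller p (X : Polynomial C)))).coeff I := by
    rw [WittVector.map_coeff]; rfl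
  have h2 : (eval₂RingHom f c).comp Polynomial.C = f := by
    ext x; simp
  rw [h1, map_mul, Polynomial.hom_eval₂, map_map_comp, map_teichmuller, ← RingHom.comp_apply,
    map_map_comp, h2, map_kap]
  simp

theorem HH_reverse (t : C) (I : ℕ) (G : Polynomial (WittVector p C)) :
    HH t I G * X ^ (HH t I G.reverse).natDegree =
      X ^ (G.natDegree * p ^ I) * (HH t I G.reverse).reverse := by
  apply toLaurent_injective
  have hT : (teichmuller p (LaurentPolynomial.T (-1) : C[T;T⁻¹])) *
      teichmuller p (LaurentPolynomial.T 1 : C[T;T⁻¹]) = 1 := by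
    rw [← map_mul, ← LaurentPolynomial.T_add]; simp
  let _ : Invertible (teichmuller p (LaurentPolynomial.T 1 : C[T;T⁻¹])) :=
    ⟨teichmuller p (LaurentPolynomial.T (-1) : C[T;T⁻¹]), hT, by rw [mul_comm]; exact hT⟩
  have hinv : ⅟(teichmuller p (LaurentPolynomial.T 1 : C[T;T⁻¹])) =
      teichmuller p (LaurentPolynomial.T (-1) : C[T;T⁻¹]) := rfl
  -- value of `toLaurent H`
  have hA : toLaurent (HH t I G) = (kap (LaurentPolynomial.C t) I *
      G.eval₂ (WittVector.map (LaurentPolynomial.C)) (teichmuller p (LaurentPolynomial.T 1))).coeff I := by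
    rw [← eval₂_HH]
    conv_lhs => rw [← Polynomial.eval₂_C_X (p := HH t I G)]
    rw [Polynomial.hom_eval₂]
    congr 1
    · ext x; simp
    · simp
  have hB : LaurentPolynomial.invert (toLaurent (HH t I G.reverse)) =
      (kap (LaurentPolynomial.C t) I * G.reverse.eval₂ (WittVector.map (LaurentPolynomial.C))
        (teichmuller p (LaurentPolynomial.T (-1)))).coeff I := by
    rw [← eval₂_HH]
    have : LaurentPolynomial.invert (toLaurent (HH t I G.reverse)) =
        ((LaurentPolynomial.invert : C[T;T⁻¹] ≃ₐ[C] C[T;T⁻¹]).toRingEquiv.toRingHom.comp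
          (toLaurent : C[X] →+* C[T;T⁻¹])) (HH t I G.reverse) := rfl
    rw [this]
    conv_lhs => rw [← Polynomial.eval₂_C_X (p := HH t I G.reverse)]
    rw [Polynomial.hom_eval₂]
    congr 1
    · ext x; simp
    · simp
  have hAB : toLaurent (HH t I G) = LaurentPolynomial.T (G.natDegree * p ^ I : ℕ) *
      LaurentPolynomial.invert (toLaurent (HH t I G.reverse)) := by
    rw [hA, hB, ← Polynomial.eval₂_reverse_mul_pow, hinv, ← map_pow]
    rw [show kap (LaurentPolynomial.C t) I * (eval₂ (WittVector.map LaurentPolynomial.C)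
        (teichmuller p (LaurentPolynomial.T (-1))) G.reverse *
        teichmuller p (LaurentPolynomial.T 1 ^ G.natDegree)) =
        teichmuller p (LaurentPolynomial.T 1 ^ G.natDegree) * (kap (LaurentPolynomial.C t) I *
        eval₂ (WittVector.map LaurentPolynomial.C)
        (teichmuller p (LaurentPolynomial.T (-1))) G.reverse) by ring]
    rw [teichmuller_mul_coeff, ← pow_mul, LaurentPolynomial.T_pow]
    simp
  rw [map_mul, map_mul, LaurentPolynomial.toLaurent_reverse, hAB, toLaurent_X_pow, toLaurent_X_pow]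
  ring

theorem HH_natDegree_le (t : C) (I : ℕ) (G : Polynomial (WittVector p C)) :
    (HH t I G).natDegree ≤ G.natDegree * p ^ I := by
  have h := HH_reverse t I G
  by_cases h0 : HH t I G = 0
  · simp [h0]
  have : Nontrivial C := Polynomial.Nontrivial.of_polynomial_ne h0
  have h1 : (HH t I G * X ^ (HH t I G.reverse).natDegree).natDegree =
      (HH t I G).natDegree + (HH t I G.reverse).natDegree := by
    rw [Polynomial.natDegree_mul_X_pow _ h0]
  have h2 : (X ^ (G.natDegree * p ^ I) * (HH t I G.reverse).reverse).natDegree ≤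
      G.natDegree * p ^ I + (HH t I G.reverse).natDegree := by
    refine natDegree_mul_le.trans ?_
    exact Nat.add_le_add (natDegree_X_pow_le _) (reverse_natDegree_le _)
  rw [h] at h1
  omega

theorem HH_coeff (t : C) (I : ℕ) (G : Polynomial (WittVector p C)) (hG : G.Monic) :
    (HH t I G).coeff (G.natDegree * p ^ I) = (kap (p := p) t I).coeff I := by
  have h := congrArg (fun q => q.coeff (G.natDegree * p ^ I + (HH t I G.reverse).natDegree))
    (HH_reverse t I G)
  rw [Polynomial.coeff_mul_X_pow] at h
  rw [h, mul_comm (X ^ _), add_comm, Polynomial.coeff_mul_X_pow, Polynomial.coeff_reverse,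
    Polynomial.revAt_le le_rfl, Nat.sub_self]
  rw [Polynomial.coeff_zero_eq_eval_zero, ← Polynomial.eval₂_id, eval₂_HH]
  have : G.reverse.eval₂ (WittVector.map (RingHom.id C)) (teichmuller p (0 : C)) = 1 := by
    rw [teichmuller_zero, Polynomial.eval₂_at_zero, coeff_zero_reverse, hG.leadingCoeff, map_one]
  rw [this, mul_one]
  rfl

/-- If `t` lies in the Jacobson radical then the leading coefficient of `H` is a unit. -/
theorem isUnit_kap_coeff [CharP C p] [Nontrivial C] (t : C) (ht : t ∈ (⊥ : Ideal C).jacobson)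
    (I : ℕ) : IsUnit ((kap (p := p) t I).coeff I) := by
  set J := Ideal.span {t} with hJ
  let q := Ideal.Quotient.mk J
  have hq : q t = 0 := Ideal.Quotient.eq_zero_iff_mem.2 (Ideal.mem_span_singleton_self t)
  have hJ1 : J ≠ ⊤ := by
    intro h
    have h1 : (1 : C) ∈ J := h ▸ Submodule.mem_top
    obtain ⟨a, ha⟩ := Ideal.mem_span_singleton'.1 h1
    have h2 := (Ideal.mem_jacobson_bot.1 ht) (-a)
    rw [mul_neg, mul_comm t a, ha] at h2
    simp at h2
  have hnt : Nontrivial (C ⧸ J) := Ideal.Quotient.nontrivial_iff.2 hJ1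
  have hch : CharP (C ⧸ J) p := by
    rw [CharP.charP_iff_prime_eq_zero hp.out]
    have : ((p : ℕ) : C ⧸ J) = q ((p : ℕ) : C) := (map_natCast q p).symm
    rw [this, CharP.cast_eq_zero, map_zero]
  have h1 : q ((kap (p := p) t I).coeff I) = (-1) ^ p ^ I := by
    rw [← WittVector.map_coeff, map_kap, hq]
    have h2 : (kap (p := p) (0 : C ⧸ J) I) = (-1) * (p : WittVector p (C ⧸ J)) ^ I := by
      rw [kap, Finset.sum_range_succ, Finset.sum_eq_zero]
      · simp
      · intro j hj
        rw [teichmuller_zero, zero_pow, mul_zero]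
        have := Finset.mem_range.1 hj
        omega
    rw [h2]
    have h3 := WittVector.mul_pow_charP_coeff_succ (p := p) (-1 : WittVector p (C ⧸ J)) (m := 0) (n := I)
    rw [zero_add] at h3
    rw [h3]
    congr 1
    change WittVector.constantCoeff (p := p) (-1 : WittVector p (C ⧸ J)) = -1
    rw [map_neg, map_one]
  have h4 : (kap (p := p) t I).coeff I - (-1) ^ p ^ I ∈ J := by
    rw [← Ideal.Quotient.eq_zero_iff_mem, map_sub]
    change q _ - q _ = 0
    rw [h1]; simp
  obtain ⟨a, ha⟩ := Ideal.mem_span_singleton'.1 h4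
  have h5 : ((-1 : C) ^ p ^ I) * ((-1 : C) ^ p ^ I) = 1 := by
    rw [← mul_pow]; simp
  have h6 : (kap (p := p) t I).coeff I = (-1) ^ p ^ I * (t * ((-1) ^ p ^ I * a) + 1) := by
    have : (kap (p := p) t I).coeff I = a * t + (-1) ^ p ^ I := by rw [ha]; ring
    rw [this]
    calc a * t + (-1) ^ p ^ I = ((-1 : C) ^ p ^ I * (-1) ^ p ^ I) * (a * t) + (-1) ^ p ^ I := by
          rw [h5]; ring
      _ = _ := by ring
  rw [h6]
  exact (IsUnit.of_mul_eq_one _ h5).mul (Ideal.mem_jacobson_bot.1 ht _)

end

end P202.Mix
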