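import Vale.Agent.P202.Mix.Assembly

/-!
P202: from one universe to two.
-/

namespace Vale.Agent.P202.Mix

open IsLocalRing Filter Topology

universe u v

theorem length_quot_pow_of_ringEquiv {R : Type*} {R' : Type*} [CommRing R] [CommRing R']
    [IsLocalRing R] [IsLocalRing R'] (e : R ≃+* R') (N : ℕ) :
    Module.length R' (R' ⧸ maximalIdeal R' ^ N) = Module.length R (R ⧸ maximalIdeal R ^ N) := by
  rw [Module.length_quotient, Module.length_quotient]
  have h1 : maximalIdeal R' ^ N = e.idealComapOrderIso.symm (maximalIdeal R ^ N) := by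
    rw [RingEquiv.idealComapOrderIso_symm_apply, Ideal.map_pow]
    congr 1
    exact (map_ringEquiv_maximalIdeal e).symm
  rw [h1]
  exact Order.coheight_orderIso e.idealComapOrderIso.symm _

theorem lech_univ
    (H : ∀ {R S : Type (max u v)} [CommRing R] [IsLocalRing R] [IsNoetherianRing R]
      [CommRing S] [IsLocalRing S] [IsNoetherianRing S]
      [Algebra R S] [IsLocalHom (algebraMap R S)] [Module.Flat R S],
      ∃ d s eR eS : ℕ, ringKrullDim R = d ∧ ringKrullDim S = s ∧
        Tendsto (fun N : ℕ => (d.factorial : ℝ) *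
          ((Module.length R (R ⧸ maximalIdeal R ^ N)).toNat : ℝ) / (N : ℝ) ^ d) atTop
          (𝓝 (eR : ℝ)) ∧
        Tendsto (fun N : ℕ => (s.factorial : ℝ) *
          ((Module.length S (S ⧸ maximalIdeal S ^ N)).toNat : ℝ) / (N : ℝ) ^ s) atTop
          (𝓝 (eS : ℝ)) ∧ eR ≤ eS)
    {R : Type u} {S : Type v} [CommRing R] [IsLocalRing R] [IsNoetherianRing R]
    [CommRing S] [IsLocalRing S] [IsNoetherianRing S]
    [Algebra R S] [IsLocalHom (algebraMap R S)] [Module.Flat R S] :
    ∃ d s eR eS : ℕ, ringKrullDim R = d ∧ ringKrullDim S = s ∧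
      Tendsto (fun N : ℕ => (d.factorial : ℝ) *
        ((Module.length R (R ⧸ maximalIdeal R ^ N)).toNat : ℝ) / (N : ℝ) ^ d) atTop
        (𝓝 (eR : ℝ)) ∧
      Tendsto (fun N : ℕ => (s.factorial : ℝ) *
        ((Module.length S (S ⧸ maximalIdeal S ^ N)).toNat : ℝ) / (N : ℝ) ^ s) atTop
        (𝓝 (eS : ℝ)) ∧ eR ≤ eS := by
  obtain ⟨R', _, ⟨eR⟩⟩ : ∃ (R' : Type (max u v)) (_ : CommRing R'), Nonempty (R ≃+* R') :=
    ⟨ULift.{v} R, inferInstance, ⟨ULift.ringEquiv.symm⟩⟩
  obtain ⟨S', _, ⟨eS⟩⟩ : ∃ (S' : Type (max u v)) (_ : CommRing S'), Nonempty (S ≃+* S') :=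
    ⟨ULift.{u} S, inferInstance, ⟨ULift.ringEquiv.symm⟩⟩
  have i1 : IsLocalRing R' := eR.isLocalRing
  have i2 : IsLocalRing S' := eS.isLocalRing
  have i3 : IsNoetherianRing R' := isNoetherianRing_of_ringEquiv R eR
  have i4 : IsNoetherianRing S' := isNoetherianRing_of_ringEquiv S eS
  let f : R' →+* S' := eS.toRingHom.comp ((algebraMap R S).comp eR.symm.toRingHom)
  let := f.toAlgebra
  have i5 : IsLocalHom (algebraMap R' S') := by
    refine ⟨fun a ha => ?_⟩
    have h1 : IsUnit (eS ((algebraMap R S) (eR.symm a))) := ha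
    have h2 : IsUnit ((algebraMap R S) (eR.symm a)) := by
      have := h1.map eS.symm
      rwa [RingEquiv.symm_apply_apply] at this
    have h3 := (isUnit_of_map_unit (algebraMap R S) _ h2).map eR
    rwa [RingEquiv.apply_symm_apply] at h3
  have i6 : Module.Flat R' S' := by
    rw [← RingHom.flat_algebraMap_iff]
    change RingHom.Flat f
    exact RingHom.Flat.comp (RingHom.Flat.comp (RingHom.Flat.of_bijective eR.symm.bijective)
      ((RingHom.flat_algebraMap_iff).mpr inferInstance)) (RingHom.Flat.of_bijective eS.bijective)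
  obtain ⟨d, s, a, b, h1, h2, h3, h4, h5⟩ := H (R := R') (S := S')
  refine ⟨d, s, a, b, ?_, ?_, ?_, ?_, h5⟩
  · rw [← h1]
    exact ringKrullDim_eq_of_ringEquiv eR
  · rw [← h2]
    exact ringKrullDim_eq_of_ringEquiv eS
  · simpa only [length_quot_pow_of_ringEquiv eR] using h3
  · simpa only [length_quot_pow_of_ringEquiv eS] using h4

end Vale.Agent.P202.Mix
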