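import Vale.Agent.P202.Mix.Defs4
import Vale.Agent.P202.Mix.Tei1

/-!
P202 MIX, task M12, part A: monomials in the roots modulo the variables (helper677).
-/

namespace Vale.Agent.P202.Mix.UL

open TensorProduct IsLocalRing

universe u

section rt

variable {p : ℕ} [Fact p.Prime] {C : Type u} [CommRing C] [CharP C p] [PerfectRing C p]

theorem rt_mul (e : ℕ) (a b : C) : rt p e (a * b) = rt p e a * rt p e b := map_mul _ _ _

theorem rt_add (e : ℕ) (a b : C) : rt p e (a + b) = rt p e a + rt p e b := map_add _ _ _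

theorem rt_sum {J : Type*} (s : Finset J) (e : ℕ) (a : J → C) :
    rt p e (∑ j ∈ s, a j) = ∑ j ∈ s, rt p e (a j) := map_sum _ _ _

theorem rt_inj {e : ℕ} {a b : C} (h : a ^ p ^ e = b ^ p ^ e) : a = b :=
  (iterateFrobeniusEquiv C p e).injective (by
    rw [iterateFrobeniusEquiv_def, iterateFrobeniusEquiv_def]
    exact h)

theorem rt_unique {e : ℕ} {a b : C} (h : a ^ p ^ e = b) : a = rt p e b :=
  rt_inj (e := e) (by rw [h, rt_pow_self])

theorem rt_zero_exp (c : C) : rt p 0 c = c := (rt_unique (by simp)).symm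

theorem rt_succ_pow (e : ℕ) (c : C) : rt p (e + 1) c ^ p = rt p e c :=
  rt_unique (by rw [← pow_mul, ← pow_succ', rt_pow_self])

theorem rt_map {D : Type u} [CommRing D] [CharP D p] [PerfectRing D p] (f : C →+* D) (e : ℕ)
    (c : C) : f (rt p e c) = rt p e (f c) := rt_unique (by rw [← map_pow, rt_pow_self])

end rt

section ps

variable {k : Type u} [Field k] {r : ℕ}

theorem exists_box (r q : ℕ) : ∃ B : Finset (Fin (r + 1) →₀ ℕ), ∀ m, m ∈ B ↔ ∀ l, m l < q := by
  classical
  refine ⟨(Fintype.piFinset fun _ : Fin (r + 1) => Finset.range q).map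
    Finsupp.equivFunOnFinite.symm.toEmbedding, fun m => ?_⟩
  rw [Finset.mem_map]
  constructor
  · rintro ⟨g, hg, rfl⟩ l
    have := Fintype.mem_piFinset.mp hg l
    simpa using this
  · intro h
    refine ⟨m, Fintype.mem_piFinset.mpr fun l => Finset.mem_range.mpr (h l), ?_⟩
    ext l
    simp

theorem mem_span_of_coeff (q : ℕ) (h : R0 k r)
    (H : ∀ m : Fin (r + 1) →₀ ℕ, (∀ l, m l < q) → MvPowerSeries.coeff m h = 0) :
    h ∈ Ideal.span (Set.range fun l => (MvPowerSeries.X l : R0 k r) ^ q) := by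
  classical
  have key : ∀ s : Finset (Fin (r + 1)), ∀ h : R0 k r,
      (∀ m : Fin (r + 1) →₀ ℕ, (∀ l ∈ s, m l < q) → MvPowerSeries.coeff m h = 0) →
      h ∈ Ideal.span (Set.range fun l => (MvPowerSeries.X l : R0 k r) ^ q) := by
    intro s
    induction s using Finset.induction_on with
    | empty =>
      intro h H
      have : h = 0 := by
        ext m
        rw [H m (by simp), map_zero]
      rw [this]
      exact zero_mem _
    | insert l s hl ih =>
      intro h H
      let h1 : R0 k r := fun m => if ∀ j ∈ s, m j < q then MvPowerSeries.coeff m h else 0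
      have c1 : ∀ m, MvPowerSeries.coeff m h1 =
          if ∀ j ∈ s, m j < q then MvPowerSeries.coeff m h else 0 := fun m => rfl
      have e1 : h = (h - h1) + h1 := by ring
      rw [e1]
      refine add_mem (ih _ fun m hm => ?_) ?_
      · rw [map_sub, c1, if_pos hm, sub_self]
      · have hd : (MvPowerSeries.X l : R0 k r) ^ q ∣ h1 := by
          rw [MvPowerSeries.X_pow_dvd_iff]
          intro m hm
          rw [c1]
          split_ifs with hs
          · refine H m fun j hj => ?_
            rcases Finset.mem_insert.mp hj with rfl | hj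
            · exact hm
            · exact hs j hj
          · rfl
        exact Ideal.mem_of_dvd _ hd (Ideal.subset_span ⟨l, rfl⟩)
  exact key Finset.univ h fun m hm => H m fun l => hm l (Finset.mem_univ l)

theorem coeff_of_mem_span (q : ℕ) (h : R0 k r)
    (H : h ∈ Ideal.span (Set.range fun l => (MvPowerSeries.X l : R0 k r) ^ q))
    (m : Fin (r + 1) →₀ ℕ) (hm : ∀ l, m l < q) : MvPowerSeries.coeff m h = 0 := by
  rw [Ideal.mem_span_range_iff_exists_fun] at H
  obtain ⟨c, rfl⟩ := H
  rw [map_sum]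
  refine Finset.sum_eq_zero fun l _ => ?_
  exact (MvPowerSeries.X_pow_dvd_iff.mp (Dvd.intro_left (c l) rfl)) m (hm l)

theorem monomial_eq (m : Fin (r + 1) →₀ ℕ) (a : k) :
    (MvPowerSeries.monomial m a : R0 k r) =
      MvPowerSeries.C a * ∏ l, MvPowerSeries.X l ^ m l := by
  rw [← MvPolynomial.coe_monomial, MvPolynomial.monomial_eq, MvPolynomial.coe_mul,
    MvPolynomial.coe_C, Finsupp.prod_fintype _ _ (fun i => pow_zero _)]
  congr 1
  have h := map_prod (MvPolynomial.coeToMvPowerSeries.ringHom (σ := Fin (r + 1)) (R := k))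
    (fun i => (MvPolynomial.X i : MvPolynomial (Fin (r + 1)) k) ^ m i) Finset.univ
  rw [MvPolynomial.coeToMvPowerSeries.ringHom_apply] at h
  rw [h]
  refine Finset.prod_congr rfl fun l _ => ?_
  rw [map_pow, MvPolynomial.coeToMvPowerSeries.ringHom_apply, MvPolynomial.coe_X]

theorem ps_decomp (q : ℕ) (B : Finset (Fin (r + 1) →₀ ℕ)) (hB : ∀ m, m ∈ B ↔ ∀ l, m l < q)
    (h : R0 k r) : h - ∑ m ∈ B, MvPowerSeries.monomial m (MvPowerSeries.coeff m h) ∈
      Ideal.span (Set.range fun l => (MvPowerSeries.X l : R0 k r) ^ q) := by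
  classical
  refine mem_span_of_coeff q _ fun m hm => ?_
  rw [map_sub, map_sum, Finset.sum_eq_single m]
  · rw [MvPowerSeries.coeff_monomial_same, sub_self]
  · intro n _ hn
    exact MvPowerSeries.coeff_monomial_ne hn.symm _
  · intro h'
    exact absurd ((hB m).mpr hm) h'

end ps

section pc

variable {p : ℕ} [Fact p.Prime] {k : Type u} [Field k] [CharP k p] {r : ℕ}

theorem of_inj : Function.Injective (PerfectClosure.of (R0 k r) p) := by
  intro x y h
  rw [PerfectClosure.of_apply, PerfectClosure.of_apply, PerfectClosure.eq_iff] at h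
  simpa using h

theorem exists_pow_of (y : Rp p k r) :
    ∃ (n : ℕ) (x : R0 k r), y ^ p ^ n = PerfectClosure.of (R0 k r) p x := by
  refine PerfectClosure.induction_on y fun y => ?_
  obtain ⟨n, z⟩ := y
  refine ⟨n, z, ?_⟩
  rw [← PerfectClosure.iterate_frobenius_mk (K := R0 k r) (p := p) n z, ← coe_iterateFrobenius,
    iterateFrobenius_def]

theorem exists_pow_of_fin {l : ℕ} (x : Fin l → Rp p k r) :
    ∃ (e : ℕ) (z : Fin l → R0 k r), ∀ i, x i ^ p ^ e = PerfectClosure.of (R0 k r) p (z i) := by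
  choose e z hz using fun i => exists_pow_of (x i)
  refine ⟨∑ i, e i, fun i => z i ^ p ^ (∑ j, e j - e i), fun i => ?_⟩
  have h1 : e i ≤ ∑ j, e j := Finset.single_le_sum (fun _ _ => Nat.zero_le _) (Finset.mem_univ i)
  have h2 : ∑ j, e j = e i + (∑ j, e j - e i) := by omega
  rw [map_pow, ← hz i, ← pow_mul, ← pow_add, ← h2]

theorem pow_mem_span {R : Type*} [CommRing R] [CharP R p] {J : Type*} [Fintype J] (v : J → R)
    (z : R) (h : z ∈ Ideal.span (Set.range v)) (n : ℕ) :
    z ^ p ^ n ∈ Ideal.span (Set.range fun j => v j ^ p ^ n) := by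
  rw [Ideal.mem_span_range_iff_exists_fun] at h ⊢
  obtain ⟨c, rfl⟩ := h
  refine ⟨fun j => c j ^ p ^ n, ?_⟩
  rw [sum_pow_char_pow]
  exact Finset.sum_congr rfl fun j _ => (mul_pow _ _ _).symm

theorem coeff_eq_zero_of_of_mem (Q : ℕ) (P : R0 k r)
    (h : PerfectClosure.of (R0 k r) p P ∈ Ideal.span (Set.range fun l => xp p k r l ^ Q))
    (m : Fin (r + 1) →₀ ℕ) (hm : ∀ l, m l < Q) : MvPowerSeries.coeff m P = 0 := by
  classical
  have hp0 : 0 < p := (Fact.out : p.Prime).pos
  rw [Ideal.mem_span_range_iff_exists_fun] at h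
  obtain ⟨y, hy⟩ := h
  obtain ⟨n, y', hy'⟩ := exists_pow_of_fin y
  have h1 : P ^ p ^ n = ∑ l, y' l * (MvPowerSeries.X l) ^ (Q * p ^ n) := by
    apply of_inj (p := p)
    rw [map_pow, ← hy, sum_pow_char_pow, map_sum]
    refine Finset.sum_congr rfl fun l _ => ?_
    rw [mul_pow, hy', map_mul, map_pow, ← pow_mul]
    rfl
  obtain ⟨B, hB⟩ := exists_box r Q
  have h2 := ps_decomp Q B hB P
  have e3 : (∑ m ∈ B, MvPowerSeries.monomial (p ^ n • m) (MvPowerSeries.coeff m P ^ p ^ n) :
      R0 k r) = (∑ m ∈ B, MvPowerSeries.monomial m (MvPowerSeries.coeff m P)) ^ p ^ n := by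
    rw [sum_pow_char_pow]
    refine Finset.sum_congr rfl fun m _ => ?_
    rw [MvPowerSeries.monomial_pow]
  have h3 : (∑ m ∈ B, MvPowerSeries.monomial (p ^ n • m) (MvPowerSeries.coeff m P ^ p ^ n) :
      R0 k r) ∈ Ideal.span (Set.range fun l => (MvPowerSeries.X l : R0 k r) ^ (Q * p ^ n)) := by
    have e4 : (∑ m ∈ B, MvPowerSeries.monomial m (MvPowerSeries.coeff m P) : R0 k r) ^ p ^ n =
        P ^ p ^ n -
          (P - ∑ m ∈ B, MvPowerSeries.monomial m (MvPowerSeries.coeff m P)) ^ p ^ n := by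
      rw [← sub_pow_char_pow, sub_sub_cancel]
    rw [e3, e4]
    refine sub_mem ?_ ?_
    · rw [h1]
      exact sum_mem fun l _ => Ideal.mul_mem_left _ _ (Ideal.subset_span ⟨l, rfl⟩)
    · have := pow_mem_span (p := p) _ _ h2 n
      simpa only [← pow_mul] using this
  have h4 := coeff_of_mem_span _ _ h3 (p ^ n • m) (fun l => by
    rw [Finsupp.smul_apply, smul_eq_mul, mul_comm]
    exact Nat.mul_lt_mul_of_pos_right (hm l) (pow_pos hp0 n))
  rw [map_sum, Finset.sum_eq_single m, MvPowerSeries.coeff_monomial_same] at h4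
  · exact pow_eq_zero_iff (pow_pos hp0 n).ne' |>.mp h4
  · intro m' _ hne
    refine MvPowerSeries.coeff_monomial_ne (fun he => hne ?_) _
    ext l
    have := DFunLike.congr_fun he l
    rw [Finsupp.smul_apply, Finsupp.smul_apply, smul_eq_mul, smul_eq_mul] at this
    exact (Nat.eq_of_mul_eq_mul_left (pow_pos hp0 n) this).symm
  · intro h'
    exact absurd ((hB m).mpr hm) h'

end pc

section li

variable (p : ℕ) [Fact p.Prime] (k : Type u) [Field k] [CharP k p] (r : ℕ)
variable (C : Type u) [CommRing C] [Algebra (Rp p k r) C]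

/-- the variables in `C`. -/
noncomputable def vC (l : Fin (r + 1)) : C := algebraMap (Rp p k r) C (xp p k r l)

/-- the ideal generated by the variables. -/
noncomputable def vI : Ideal C := Ideal.span (Set.range (vC p k r C))

/-- the constants. -/
noncomputable def kR : k →+* Rp p k r := (PerfectClosure.of (R0 k r) p).comp MvPowerSeries.C

/-- the constants in `C`. -/
noncomputable def kC : k →+* C := (algebraMap (Rp p k r) C).comp (kR p k r)

variable {p k r}

theorem mem_of_map_mem {r0 : ℕ} (d : PExt.{u} p k r r0) (z : Rp p k r)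
    (h : algebraMap (Rp p k r) d.C z ∈ vI p k r d.C) :
    z ∈ Ideal.span (Set.range (xp p k r)) := by
  have h1 := d.flat
  have h2 := d.integral
  have h3 : FaithfulSMul (Rp p k r) d.C := (faithfulSMul_iff_algebraMap_injective _ _).mpr d.inj
  have hs : Function.Surjective (PrimeSpectrum.comap (algebraMap (Rp p k r) d.C)) :=
    Algebra.IsIntegral.comap_surjective _ _
  have h4 : Module.FaithfullyFlat (Rp p k r) d.C := Module.FaithfullyFlat.of_comap_surjective hs
  have h5 : (Ideal.span (Set.range (xp p k r))).map (algebraMap _ d.C) = vI p k r d.C := by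
    rw [Ideal.map_span, ← Set.range_comp]
    rfl
  rw [← h5, ← Ideal.mem_comap, Ideal.comap_map_eq_self_of_faithfullyFlat] at h
  exact h

theorem li_k_aux {r0 : ℕ} (d : PExt.{u} p k r r0) (e : ℕ)
    (f : Bx (Fin (r + 1)) (p ^ e) →₀ k)
    (h : (f.sum fun α y => kC p k r d.C y * ∏ l, rt p e (vC p k r d.C l) ^ α.1 l) ∈
      vI p k r d.C) : f = 0 := by
  classical
  have hp0 : 0 < p := (Fact.out : p.Prime).pos
  let z : Rp p k r := f.sum fun α y => kR p k r y * ∏ l, rt p e (xp p k r l) ^ α.1 l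
  have hz1 : algebraMap (Rp p k r) d.C z =
      f.sum fun α y => kC p k r d.C y * ∏ l, rt p e (vC p k r d.C l) ^ α.1 l := by
    rw [map_finsuppSum]
    refine Finsupp.sum_congr fun α _ => ?_
    rw [map_mul, map_prod]
    refine congrArg₂ _ rfl (Finset.prod_congr rfl fun l _ => ?_)
    rw [map_pow, rt_map]
    rfl
  rw [← hz1] at h
  have hz2 := pow_mem_span (p := p) _ _ (mem_of_map_mem d z h) e
  have hz3 : z ^ p ^ e = PerfectClosure.of (R0 k r) p
      (f.sum fun α y => MvPowerSeries.monomial α.1 (y ^ p ^ e)) := by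
    have hz0 : z = ∑ α ∈ f.support, kR p k r (f α) * ∏ l, rt p e (xp p k r l) ^ α.1 l := rfl
    rw [hz0, map_finsuppSum, Finsupp.sum, sum_pow_char_pow]
    refine Finset.sum_congr rfl fun α _ => ?_
    rw [mul_pow, ← Finset.prod_pow, monomial_eq, map_mul, map_prod]
    refine congrArg₂ _ ?_ (Finset.prod_congr rfl fun l _ => ?_)
    · rw [← map_pow]
      rfl
    · rw [← pow_mul, mul_comm, pow_mul, rt_pow_self, map_pow]
      rfl
  rw [hz3] at hz2
  ext α
  have h6 := coeff_eq_zero_of_of_mem (p ^ e) _ hz2 α.1 α.2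
  rw [Finsupp.sum, map_sum, Finset.sum_eq_single α, MvPowerSeries.coeff_monomial_same] at h6
  · exact pow_eq_zero_iff (pow_pos hp0 e).ne' |>.mp h6
  · intro β _ hne
    exact MvPowerSeries.coeff_monomial_ne (fun he => hne (Subtype.ext he.symm)) _
  · intro hα
    rw [Finsupp.notMem_support_iff.mp hα, zero_pow (pow_pos hp0 e).ne', map_zero, map_zero]

/-- the homomorphism `k → C/(x)`. -/
noncomputable def kCb (p : ℕ) [Fact p.Prime] (k : Type u) [Field k] [CharP k p] (r : ℕ)
    (C : Type u) [CommRing C] [Algebra (Rp p k r) C] : k →+* C ⧸ vI p k r C :=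
  (Ideal.Quotient.mk (vI p k r C)).comp (kC p k r C)

theorem li_k {r0 : ℕ} (d : PExt.{u} p k r r0) (e : ℕ) :
    letI := (kCb p k r d.C).toAlgebra
    LinearIndependent k fun α : Bx (Fin (r + 1)) (p ^ e) =>
      (Ideal.Quotient.mk (vI p k r d.C) (∏ l, rt p e (vC p k r d.C l) ^ α.1 l)) := by
  let _ := (kCb p k r d.C).toAlgebra
  rw [linearIndependent_iff]
  intro f hf
  refine li_k_aux d e f ?_
  rw [← Ideal.Quotient.eq_zero_iff_mem, ← hf, Finsupp.linearCombination_apply, map_finsuppSum]
  refine Finsupp.sum_congr fun α _ => ?_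
  rw [map_mul, Algebra.smul_def]
  rfl

end li

section lik0

variable {p : ℕ} [Fact p.Prime] {k : Type u} [Field k] [CharP k p] {r : ℕ}
variable {Λ : Type u} [CommRing Λ] [IsLocalRing Λ] {u : Fin r → Λ}
  {ψ : Λ →+* WittVector p (Rp p k r)}
  {red : Λ →+* R0 k r ⧸ Ideal.span {(MvPowerSeries.X 0 : R0 k r)}}
  {ι : Type u} {b : ι → Λ} {β : ι → k} {res : ResidueField Λ →+* k}

theorem psi_coeff (hX : IsBaseX p k r u ψ red b β res) (l : Λ) :
    (ψ l).coeff 0 - kR p k r (res (residue Λ l)) ∈ Ideal.span (Set.range (xp p k r)) := by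
  obtain ⟨g, y, h1, h2⟩ := hX.red_coeff l
  rw [h2, hX.res_red l g h1]
  have h3 : g - MvPowerSeries.C (MvPowerSeries.constantCoeff g) ∈
      Ideal.span (Set.range fun l => (MvPowerSeries.X l : R0 k r) ^ 1) := by
    refine mem_span_of_coeff 1 _ fun m hm => ?_
    have hm0 : m = 0 := by
      ext l
      exact Nat.lt_one_iff.mp (hm l)
    rw [hm0, map_sub, MvPowerSeries.coeff_zero_eq_constantCoeff_apply,
      MvPowerSeries.coeff_zero_eq_constantCoeff_apply, MvPowerSeries.constantCoeff_C, sub_self]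
  have h4 := Ideal.mem_map_of_mem (PerfectClosure.of (R0 k r) p) h3
  rw [Ideal.map_span, ← Set.range_comp] at h4
  have h5 : PerfectClosure.of (R0 k r) p g -
      kR p k r (MvPowerSeries.constantCoeff g) ∈ Ideal.span (Set.range (xp p k r)) := by
    rw [map_sub] at h4
    refine Ideal.span_mono ?_ h4
    rintro _ ⟨l, rfl⟩
    exact ⟨l, by simp [xp]⟩
  have h6 : xp p k r 0 * y ∈ Ideal.span (Set.range (xp p k r)) :=
    Ideal.mul_mem_right _ _ (Ideal.subset_span ⟨0, rfl⟩)
  have h7 := add_mem h5 h6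
  have e1 : PerfectClosure.of (R0 k r) p g + xp p k r 0 * y -
      kR p k r (MvPowerSeries.constantCoeff g) = PerfectClosure.of (R0 k r) p g -
      kR p k r (MvPowerSeries.constantCoeff g) + xp p k r 0 * y := by ring
  rw [e1]
  exact h7

theorem beta_eq (hX : IsBaseX p k r u ψ red b β res) (i : ι) :
    β i = res (residue Λ (b i)) := by
  have h1 := psi_coeff hX (b i)
  rw [hX.psi_b i, WittVector.teichmuller_coeff_zero] at h1
  have h2 : PerfectClosure.of (R0 k r) p (MvPowerSeries.C (β i - res (residue Λ (b i)))) ∈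
      Ideal.span (Set.range fun l => xp p k r l ^ 1) := by
    simp only [pow_one]
    rw [map_sub, map_sub]
    exact h1
  have h3 := coeff_eq_zero_of_of_mem 1 _ h2 0 (fun l => by simp)
  rw [MvPowerSeries.coeff_zero_eq_constantCoeff_apply, MvPowerSeries.constantCoeff_C] at h3
  exact sub_eq_zero.mp h3

theorem li_k0 (hX : IsBaseX p k r u ψ red b β res) (e : ℕ) :
    letI := res.toAlgebra
    haveI := hX.perf
    LinearIndependent (ResidueField Λ) fun γ : Bx ι (p ^ e) =>
      γ.1.prod fun i m => rt p e (β i) ^ m := by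
  let _ := res.toAlgebra
  have := hX.perf
  rw [linearIndependent_iff]
  intro f hf
  rw [Finsupp.linearCombination_apply] at hf
  have h1 : res (f.sum fun γ y => y ^ p ^ e * γ.1.prod fun i m => residue Λ (b i) ^ m) = 0 := by
    have h2 := congrArg (fun z => z ^ p ^ e) hf
    simp only [Finsupp.sum] at h2
    rw [sum_pow_char_pow, zero_pow (pow_pos (Fact.out : p.Prime).pos e).ne'] at h2
    rw [map_finsuppSum, Finsupp.sum, ← h2]
    refine Finset.sum_congr rfl fun γ _ => ?_
    rw [Algebra.smul_def, mul_pow, map_mul, map_pow, map_finsuppProd, Finsupp.prod, Finsupp.prod,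
      ← Finset.prod_pow]
    refine congrArg₂ _ rfl (Finset.prod_congr rfl fun i _ => ?_)
    rw [← pow_mul, mul_comm, pow_mul, rt_pow_self, map_pow, ← beta_eq hX]
  have h3 := (map_eq_zero res).mp h1
  exact (hX.pbasis.2 e 0).unique h3 Finsupp.sum_zero_index

theorem li_total (hX : IsBaseX p k r u ψ red b β res) {r0 : ℕ} (d : PExt.{u} p k r r0) (e : ℕ) :
    letI := ((kCb p k r d.C).comp res).toAlgebra
    haveI := hX.perf
    LinearIndependent (ResidueField Λ) fun x : Bx ι (p ^ e) × Bx (Fin (r + 1)) (p ^ e) =>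
      (Ideal.Quotient.mk (vI p k r d.C)
        (kC p k r d.C (x.1.1.prod fun i m => rt p e (β i) ^ m) *
          ∏ l, rt p e (vC p k r d.C l) ^ x.2.1 l)) := by
  let _ := res.toAlgebra
  let _ := (kCb p k r d.C).toAlgebra
  let _ := ((kCb p k r d.C).comp res).toAlgebra
  have := hX.perf
  have : IsScalarTower (ResidueField Λ) k (d.C ⧸ vI p k r d.C) :=
    IsScalarTower.of_algebraMap_eq fun _ => rfl
  have h := linearIndependent_smul (li_k0 hX e) (li_k d e)
  convert h using 2 with x
  rw [map_mul, Algebra.smul_def]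
  rfl

/-- the elements of `C` whose roots are used. -/
noncomputable def cR (p : ℕ) [Fact p.Prime] (k : Type u) [Field k] [CharP k p] (r : ℕ)
    (C : Type u) [CommRing C] [Algebra (Rp p k r) C] {ι : Type u} (β : ι → k) :
    Fin (r + 1) ⊕ ι → C :=
  Sum.elim (vC p k r C) fun i => kC p k r C (β i)

theorem prod_sum_eq {M : Type*} [CommMonoid M] {κ ι : Type*} (α : κ ⊕ ι →₀ ℕ)
    (g : κ ⊕ ι → ℕ → M) : α.prod g =
      (α.comapDomain Sum.inl Sum.inl_injective.injOn).prod (fun l m => g (Sum.inl l) m) *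
      (α.comapDomain Sum.inr Sum.inr_injective.injOn).prod (fun i m => g (Sum.inr i) m) := by
  conv_lhs => rw [← Finsupp.comapDomain_sumElim_comapDomain α]
  rw [Finsupp.prod_sumElim]
  rfl

theorem li_sum (hX : IsBaseX p k r u ψ red b β res) {r0 : ℕ} (d : PExt.{u} p k r r0) (e : ℕ) :
    letI := ((kCb p k r d.C).comp res).toAlgebra
    LinearIndependent (ResidueField Λ) fun α : Bx (Fin (r + 1) ⊕ ι) (p ^ e) =>
      (Ideal.Quotient.mk (vI p k r d.C)
        (α.1.prod fun i m => rt p e (cR p k r d.C β i) ^ m)) := by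
  let _ := ((kCb p k r d.C).comp res).toAlgebra
  have := hX.perf
  let g : Bx (Fin (r + 1) ⊕ ι) (p ^ e) → Bx ι (p ^ e) × Bx (Fin (r + 1)) (p ^ e) := fun α =>
    (⟨α.1.comapDomain Sum.inr Sum.inr_injective.injOn, fun i => α.2 _⟩,
      ⟨α.1.comapDomain Sum.inl Sum.inl_injective.injOn, fun l => α.2 _⟩)
  have hg : Function.Injective g := by
    intro α α' h
    have h1 := congrArg (fun x => x.1.1) h
    have h2 := congrArg (fun x => x.2.1) h
    refine Subtype.ext (Finsupp.ext fun i => ?_)
    rcases i with i | i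
    · exact DFunLike.congr_fun h2 i
    · exact DFunLike.congr_fun h1 i
  have h := (li_total hX d e).comp g hg
  convert h using 2 with α
  change _ = Ideal.Quotient.mk (vI p k r d.C) (kC p k r d.C
    ((α.1.comapDomain Sum.inr Sum.inr_injective.injOn).prod fun i m => rt p e (β i) ^ m) *
      ∏ l, rt p e (vC p k r d.C l) ^ (α.1.comapDomain Sum.inl Sum.inl_injective.injOn) l)
  congr 1
  rw [prod_sum_eq, mul_comm]
  congr 1
  · rw [map_finsuppProd]
    refine Finsupp.prod_congr fun i _ => ?_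
    rw [map_pow, rt_map]
    rfl
  · rw [Finsupp.prod_fintype _ _ (fun i => pow_zero _)]
    rfl

theorem range_const (hX : IsBaseX p k r u ψ red b β res) {W : Type*} [CommRing W]
    (ω : Rp p k r →+* W) (G : Subring W)
    (h0 : ∀ c : ResidueField Λ, ω (kR p k r (res c)) ∈ G)
    (h1 : ∀ e i, ω (rt p e (kR p k r (β i))) ∈ G) (y : k) : ω (kR p k r y) ∈ G := by
  obtain ⟨e, x, hx⟩ := hX.perfClosure y
  obtain ⟨c, hc, -⟩ := hX.pbasis.2 e x
  have h2 : kR p k r y = c.sum fun α z => kR p k r (res z) *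
      α.1.prod fun i m => rt p e (kR p k r (β i)) ^ m := by
    refine rt_inj (e := e) ?_
    rw [← map_pow, hx, ← hc, Finsupp.sum, Finsupp.sum, map_sum, map_sum, sum_pow_char_pow]
    refine Finset.sum_congr rfl fun α _ => ?_
    rw [mul_pow, map_mul, map_mul, map_pow, map_pow, map_finsuppProd, map_finsuppProd,
      Finsupp.prod, Finsupp.prod, ← Finset.prod_pow]
    refine congrArg₂ _ rfl (Finset.prod_congr rfl fun i _ => ?_)
    rw [← pow_mul, mul_comm, pow_mul, rt_pow_self, map_pow, map_pow, ← beta_eq hX]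
  rw [h2, map_finsuppSum]
  refine sum_mem fun α _ => ?_
  beta_reduce
  rw [map_mul, map_finsuppProd]
  refine mul_mem (h0 _) (prod_mem fun i _ => ?_)
  beta_reduce
  rw [map_pow]
  exact pow_mem (h1 _ _) _

theorem range_gen (hX : IsBaseX p k r u ψ red b β res) {W : Type*} [CommRing W]
    (ω : Rp p k r →+* W) (hω : ∀ l, ω (xp p k r l) = 0) (G : Subring W)
    (h0 : ∀ c : ResidueField Λ, ω (kR p k r (res c)) ∈ G)
    (h1 : ∀ e i, ω (rt p e (kR p k r (β i))) ∈ G)
    (h2 : ∀ e l, ω (rt p e (xp p k r l)) ∈ G) (g : Rp p k r) : ω g ∈ G := by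
  have hperf := hX.perf
  obtain ⟨n, h, hg⟩ := exists_pow_of g
  obtain ⟨B, hB⟩ := exists_box r (p ^ n)
  have h3 := Ideal.mem_map_of_mem (PerfectClosure.of (R0 k r) p) (ps_decomp (p ^ n) B hB h)
  rw [Ideal.map_span, ← Set.range_comp, Ideal.mem_span_range_iff_exists_fun] at h3
  obtain ⟨c, hc⟩ := h3
  have h4 : g = (∑ m ∈ B, rt p n (kR p k r (MvPowerSeries.coeff m h)) *
      ∏ l, rt p n (xp p k r l) ^ m l) + ∑ l, rt p n (c l) * xp p k r l := by
    refine rt_inj (e := n) ?_
    rw [add_pow_char_pow, sum_pow_char_pow, sum_pow_char_pow, hg]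
    have e1 : ∀ m ∈ B, (rt p n (kR p k r (MvPowerSeries.coeff m h)) *
        ∏ l, rt p n (xp p k r l) ^ m l) ^ p ^ n =
        PerfectClosure.of (R0 k r) p (MvPowerSeries.monomial m (MvPowerSeries.coeff m h)) := by
      intro m _
      rw [mul_pow, rt_pow_self, ← Finset.prod_pow, monomial_eq, map_mul, map_prod]
      refine congrArg₂ _ rfl (Finset.prod_congr rfl fun l _ => ?_)
      rw [← pow_mul, mul_comm, pow_mul, rt_pow_self, map_pow]
      rfl
    have e2 : ∀ l ∈ (Finset.univ : Finset (Fin (r + 1))), (rt p n (c l) * xp p k r l) ^ p ^ n =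
        c l * (PerfectClosure.of (R0 k r) p ∘ fun l => (MvPowerSeries.X l : R0 k r) ^ p ^ n) l := by
      intro l _
      rw [mul_pow, rt_pow_self, Function.comp_apply, map_pow]
      rfl
    rw [Finset.sum_congr rfl e1, Finset.sum_congr rfl e2, hc, map_sub, map_sum]
    ring
  rw [h4, map_add, map_sum, map_sum]
  refine add_mem (sum_mem fun m _ => ?_) (sum_mem fun l _ => ?_)
  · rw [map_mul, map_prod]
    refine mul_mem ?_ (prod_mem fun l _ => ?_)
    · rw [← rt_map]
      exact range_const hX ω G h0 h1 _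
    · rw [map_pow]
      exact pow_mem (h2 _ _) _
  · rw [map_mul, hω, mul_zero]
    exact zero_mem _

end lik0

end Vale.Agent.P202.Mix.UL
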